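import Vale.Agent.P088F.Reg1
import Vale.Agent.P088F.TDefs

/-! The operator of a metric and a connection in divergence form. -/

open MeasureTheory Set Filter Topology Metric
open scoped ContDiff ComplexConjugate

noncomputable section

namespace Vale.Agent.P088.Gl

open Vale.Agent.P292E Vale.Agent.P088F

variable {n N : ℕ} {Ω : Set (Ec n)} {γ : Geo n N} {u w : Ec n → Fb N}

/-- The inverse metric times the volume density. -/
def Geo.h (γ : Geo n N) (i j : Fin n) (z : Ec n) : ℝ := γ.vol z * (γ.g z)⁻¹ i j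

/-- The operator in divergence form. -/
def Geo.P (γ : Geo n N) (u : Ec n → Fb N) (z : Ec n) : Fb N :=
  ∑ j, γ.D j (fun y => ∑ i, γ.h i j y • γ.D i u y) z

theorem Geo.Sm.mono (h : γ.Sm Ω) {Ω' : Set (Ec n)} (h' : Ω' ⊆ Ω) : γ.Sm Ω' := by
  exact ⟨fun i j => (h.g i j).mono h', fun z hz => h.pos z (h' hz), fun i => (h.a i).mono h',
    fun i z hz => h.skew i z (h' hz)⟩

theorem Geo.Sm.vol_pos (h : γ.Sm Ω) {z : Ec n} (hz : z ∈ Ω) : 0 < γ.vol z := by
  exact Real.sqrt_pos.2 (h.pos z hz).det_pos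

/-- See `contDiffOn_det`, `gm_inv_smooth` in `P088/Alg`, `P088/Chart`. -/
theorem Geo.Sm.vol (h : γ.Sm Ω) : ContDiffOn ℝ ∞ γ.vol Ω := by
  exact (contDiffOn_det h.g).sqrt fun z hz => (h.pos z hz).det_pos.ne'

theorem Geo.Sm.h (h : γ.Sm Ω) (i j : Fin n) : ContDiffOn ℝ ∞ (γ.h i j) Ω := by
  refine h.vol.mul ?_
  simp only [Matrix.inv_def, Ring.inverse_eq_inv', Matrix.smul_apply, smul_eq_mul,
    Matrix.adjugate_apply]
  refine ((contDiffOn_det h.g).inv fun z hz => (h.pos z hz).det_pos.ne').mul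
    (contDiffOn_det fun k l => ?_)
  simp only [Matrix.updateRow_apply]
  split_ifs
  exacts [contDiffOn_const, h.g k l]

theorem geo1_sm {a : Ec n → Op N} (ha : ContDiffOn ℝ ∞ a Ω) (hu : ContDiffOn ℝ ∞ u Ω) :
    ContDiffOn ℝ ∞ (fun z => a z (u z)) Ω :=
  ((ContinuousLinearMap.restrictScalarsL ℂ (Fb N) (Fb N) ℝ ℝ).contDiff.comp_contDiffOn
    ha).clm_apply hu

theorem geo1_d {F : Type} [NormedAddCommGroup F] [NormedSpace ℝ F] {f : Ec n → F} (hΩ : IsOpen Ω)
    (hf : ContDiffOn ℝ ∞ f Ω) (v : Ec n) : ContDiffOn ℝ ∞ (fun z => fderiv ℝ f z v) Ω :=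
  (hf.fderiv_of_isOpen hΩ (by simp)).clm_apply contDiffOn_const

theorem geo1_D {z : Ec n} (hu : u =ᶠ[𝓝 z] 0) (i : Fin n) : γ.D i u =ᶠ[𝓝 z] 0 :=
  hu.eventually_nhds.mono fun y (hy : u =ᶠ[𝓝 y] 0) => by
    simp [Geo.D, hy.fderiv_eq, hy.eq_of_nhds]

theorem geo1_W {z : Ec n} (hu : u =ᶠ[𝓝 z] 0) (j : Fin n) :
    (fun y => ∑ i, γ.h i j y • γ.D i u y) =ᶠ[𝓝 z] 0 :=
  (eventually_all.2 fun i => geo1_D (γ := γ) hu i).mono fun y hy => by simp [hy]

theorem geo1_P {z : Ec n} (hu : z ∉ tsupport u) : γ.P u z = 0 :=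
  Finset.sum_eq_zero fun j _ =>
    (geo1_D (geo1_W (notMem_tsupport_iff_eventuallyEq.1 hu) j) j).eq_of_nhds

theorem geo1_den {z : Ec n} (h : z ∉ tsupport u ∨ z ∉ tsupport w) : γ.den u w z = 0 := by
  refine Finset.sum_eq_zero fun i _ => Finset.sum_eq_zero fun j _ => ?_
  rcases h with h | h
  · rw [(geo1_D (notMem_tsupport_iff_eventuallyEq.1 h) i).eq_of_nhds]
    simp
  · rw [(geo1_D (notMem_tsupport_iff_eventuallyEq.1 h) j).eq_of_nhds]
    simp

theorem geo1_et (hΩ : IsOpen Ω) (hw : ContDiffOn ℝ ∞ w Ω) (hu : ET Ω u)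
    (h : ∀ x ∉ tsupport u, w x = 0) : ET Ω w ∧ tsupport w ⊆ tsupport u := by
  have h1 : tsupport w ⊆ tsupport u :=
    closure_minimal (fun x hx => by_contra fun h' => hx (h x h')) (isClosed_tsupport _)
  refine ⟨⟨contDiff_iff_contDiffAt.2 fun x => ?_,
    hu.2.1.isCompact.of_isClosed_subset (isClosed_tsupport _) h1, h1.trans hu.2.2⟩, h1⟩
  by_cases hx : x ∈ Ω
  · exact hw.contDiffAt (hΩ.mem_nhds hx)
  · exact (contDiffAt_const (c := 0)).congr_of_eventuallyEq
      (notMem_tsupport_iff_eventuallyEq.1 fun h' => hx (hu.2.2 (h1 h')))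

theorem Geo.Sm.D (h : γ.Sm Ω) (hΩ : IsOpen Ω) (hu : ContDiffOn ℝ ∞ u Ω) (i : Fin n) :
    ContDiffOn ℝ ∞ (γ.D i u) Ω := by
  exact (geo1_d hΩ hu _).add (geo1_sm (h.a i) hu)

theorem geo1_Ws (h : γ.Sm Ω) (hΩ : IsOpen Ω) (hu : ContDiffOn ℝ ∞ u Ω) (j : Fin n) :
    ContDiffOn ℝ ∞ (fun y => ∑ i, γ.h i j y • γ.D i u y) Ω :=
  .sum fun i _ => (h.h i j).smul (h.D hΩ hu i)

theorem Geo.Sm.P (h : γ.Sm Ω) (hΩ : IsOpen Ω) (hu : ContDiffOn ℝ ∞ u Ω) :
    ContDiffOn ℝ ∞ (γ.P u) Ω := by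
  exact .sum fun j _ => h.D hΩ (geo1_Ws h hΩ hu j) j

/-- `P` of a test section, divided by the volume, is a test section. -/
theorem Geo.Sm.et (h : γ.Sm Ω) (hΩ : IsOpen Ω) (hu : ET Ω u) :
    ET Ω (γ.P u) ∧ ET Ω (fun z => -((γ.vol z)⁻¹ • γ.P u z)) ∧ tsupport (γ.P u) ⊆ tsupport u := by
  have h1 := h.P hΩ hu.1.contDiffOn
  have h2 := geo1_et hΩ h1 hu fun x hx => geo1_P hx
  refine ⟨h2.1, (geo1_et hΩ ((h.vol.inv fun z hz => (h.vol_pos hz).ne').smul h1).neg hu
    fun x hx => ?_).1, h2.2⟩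
  show -((γ.vol x)⁻¹ • γ.P u x) = 0
  rw [geo1_P hx, smul_zero, neg_zero]

theorem Geo.Sm.form_conj (h : γ.Sm Ω) (huw : ET Ω u ∨ ET Ω w) :
    γ.form u w = conj (γ.form w u) := by
  rw [Geo.form, Geo.form, ← integral_conj]
  refine integral_congr_ae (.of_forall fun z => ?_)
  by_cases hz : z ∈ Ω
  · have h1 : ∀ i j, (γ.g z)⁻¹ j i = (γ.g z)⁻¹ i j := fun i j =>
      (h.pos z hz).inv.isHermitian.apply i j
    simp only [Geo.den, Complex.real_smul, map_mul, map_sum, Complex.conj_ofReal, inner_conj_symm]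
    rw [Finset.sum_comm]
    simp only [h1]
  · have h1 : z ∉ tsupport u ∨ z ∉ tsupport w :=
      huw.imp (fun k k' => hz (k.2.2 k')) fun k k' => hz (k.2.2 k')
    simp only [geo1_den h1, geo1_den h1.symm, smul_zero, map_zero]

theorem geo1_tst (hΩ : IsOpen Ω) {p : Ec n → Fb N} (hp : ContDiffOn ℝ ∞ p Ω)
    (hw : ContDiffOn ℝ ∞ w Ω) (huw : ET Ω u ∨ ET Ω w) (h : ∀ z ∉ tsupport u, p z = 0) :
    Tst Ω fun z => inner ℂ (p z) (w z) := by
  rcases huw with k | k
  · exact tst_of hΩ (hp.inner ℂ hw) k.2.1 k.2.2 fun z hz => by rw [h z hz, inner_zero_left]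
  · exact tst_of hΩ (hp.inner ℂ hw) k.2.1 k.2.2 fun z hz => by
      rw [image_eq_zero_of_notMem_tsupport hz, inner_zero_right]

theorem geo1_rsm (c : ℝ) (x y : Fb N) : inner ℂ (c • x) y = c • inner ℂ x y := by
  rw [← Complex.coe_smul, inner_smul_left, Complex.conj_ofReal, Complex.real_smul]

/-- The derivative of `inner (∑ i, h i j • D i u) w` in direction `j` has integral zero (`sys_ibp`, `tst_of`), and `a` is
skew. -/
theorem Geo.Sm.ibp (h : γ.Sm Ω) (hΩ : IsOpen Ω) (hu : ContDiffOn ℝ ∞ u Ω) (hw : ContDiffOn ℝ ∞ w Ω)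
    (huw : ET Ω u ∨ ET Ω w) : γ.form u w = -∫ z, inner ℂ (γ.P u z) (w z) := by
  have t1 := fun j => geo1_tst hΩ (geo1_Ws h hΩ hu j) hw huw fun z hz =>
    (geo1_W (notMem_tsupport_iff_eventuallyEq.1 hz) j).eq_of_nhds
  have t2 := geo1_tst hΩ (h.P hΩ hu) hw huw fun z hz => geo1_P hz
  have key : ∀ z, γ.vol z • γ.den u w z =
      ∑ j, pd j (fun z => inner ℂ (∑ i, γ.h i j z • γ.D i u z) (w z)) z -
        inner ℂ (γ.P u z) (w z) := by
    intro z
    by_cases hz : z ∈ Ω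
    · have e1 : γ.vol z • γ.den u w z = ∑ j, inner ℂ (∑ i, γ.h i j z • γ.D i u z) (γ.D j w z) := by
        simp only [Geo.den, Geo.h, Finset.smul_sum, sum_inner, geo1_rsm, mul_smul]
        exact Finset.sum_comm
      rw [e1, Geo.P, sum_inner, ← Finset.sum_sub_distrib]
      refine Finset.sum_congr rfl fun j _ => ?_
      have e2 : ∀ x y : Fb N, inner ℂ (γ.a j z x) y = -inner ℂ x (γ.a j z y) := fun x y => by
        rw [← ContinuousLinearMap.adjoint_inner_right, ← ContinuousLinearMap.star_eq_adjoint,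
          h.skew j z hz, neg_apply, inner_neg_right]
      rw [pd, fderiv_inner_apply ℂ
        (((geo1_Ws h hΩ hu j).contDiffAt (hΩ.mem_nhds hz)).differentiableAt (by simp))
        ((hw.contDiffAt (hΩ.mem_nhds hz)).differentiableAt (by simp)), Geo.D, Geo.D,
        inner_add_left, inner_add_right, e2]
      exact (by intros; ring : ∀ a b c : ℂ, a + b = a + c - (c + -b)) _ _ _
    · rw [geo1_den (huw.imp (fun k k' => hz (k.2.2 k')) fun k k' => hz (k.2.2 k')), smul_zero,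
        tst_zero t2 hz, sub_zero]
      exact (Finset.sum_eq_zero fun j _ => tst_zero ((t1 j).pd j).1 hz).symm
  simp only [Geo.form, key]
  rw [integral_sub (integrable_finsetSum _ fun j _ => sys_int ((t1 j).pd j).1) (sys_int t2),
    integral_finsetSum _ fun j _ => sys_int ((t1 j).pd j).1,
    Finset.sum_eq_zero fun j _ => sys_ibp (t1 j) j, zero_sub]

theorem Geo.Sm.ibp' (h : γ.Sm Ω) (hΩ : IsOpen Ω) (hu : ContDiffOn ℝ ∞ u Ω) (hw : ContDiffOn ℝ ∞ w Ω)
    (huw : ET Ω u ∨ ET Ω w) : γ.form u w = -∫ z, inner ℂ (u z) (γ.P w z) := by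
  rw [h.form_conj huw, h.ibp hΩ hw hu huw.symm, map_neg, ← integral_conj]
  simp only [inner_conj_symm]

/-- Weak and strong form; use `fund` of `Reg1` on each component. -/
theorem Geo.Sm.ew_iff (h : γ.Sm Ω) (hΩ : IsOpen Ω) {F : Ec n → Fb N} (hF : ContinuousOn F Ω) :
    EW Ω γ u F ↔ ContDiffOn ℝ ∞ u Ω ∧ ∀ z ∈ Ω, γ.P u z = -(γ.vol z • F z) := by
  refine and_congr_right fun hu => ⟨fun H z hz => ?_, fun H ζ hζ => ?_⟩
  · have c1 := (h.P hΩ hu).continuousOn
    have c2 : ContinuousOn (fun z => γ.vol z • F z) Ω := h.vol.continuousOn.smul hF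
    refine eq_neg_of_add_eq_zero_left (PiLp.ext fun I => ?_)
    have c3 : ∀ {p : Ec n → Fb N}, ContinuousOn p Ω →
        ContinuousOn (fun z => inner ℂ (p z) (EuclideanSpace.single I (1 : ℂ))) Ω :=
      fun hp => hp.inner continuousOn_const
    have k : EqOn (fun z => inner ℂ (γ.P u z + γ.vol z • F z) (EuclideanSpace.single I (1 : ℂ)))
        (fun _ => 0) Ω := by
      refine Measure.eqOn_open_of_ae_eq (μ := volume) ?_ hΩ (c3 (c1.add c2)) continuousOn_const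
      rw [EventuallyEq, ae_restrict_iff' hΩ.measurableSet]
      refine fund hΩ ((c3 (c1.add c2)).locallyIntegrableOn hΩ.measurableSet) fun ψ hψ => ?_
      have hζ : ET Ω fun z => ψ z • EuclideanSpace.single I (1 : ℂ) :=
        ⟨hψ.1.smul contDiff_const, hψ.2.1.smul_right,
          (tsupport_smul_subset_left _ _).trans hψ.2.2⟩
      have i : ∀ {g : V n → ℂ}, ContinuousOn g Ω → Integrable fun x => g x * ψ x := fun hg =>
        (((hg.mono hψ.2.2).mul hψ.1.continuous.continuousOn).integrableOn_compact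
          hψ.2.1).integrable_of_forall_notMem_eq_zero fun x hx => by
            rw [Pi.mul_apply, image_eq_zero_of_notMem_tsupport hx, mul_zero]
      have k1 := (h.ibp hΩ hu hζ.1.contDiffOn (Or.inr hζ)).symm.trans (H _ hζ)
      simp only [Geo.pair, inner_smul_right, mul_comm (ψ _)] at k1
      simp only [inner_add_left, add_mul]
      rw [integral_add (i (c3 c1)) (i (c3 c2))]
      simp only [geo1_rsm, smul_mul_assoc]
      rw [← k1, add_neg_cancel]
    simpa [EuclideanSpace.inner_single_right] using congrArg conj (k hz)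
  · rw [h.ibp hΩ hu hζ.1.contDiffOn (Or.inr hζ), Geo.pair, ← integral_neg]
    refine integral_congr_ae (.of_forall fun z => ?_)
    by_cases hz : z ∈ Ω
    · simp only [H z hz, inner_neg_left, neg_neg, geo1_rsm]
    · simp only [image_eq_zero_of_notMem_tsupport fun k => hz (hζ.2.2 k), inner_zero_right,
        neg_zero, smul_zero]

theorem geo1_app {a : Ec n → Op N} {z : Ec n} (ha : DifferentiableAt ℝ a z)
    (hu : DifferentiableAt ℝ u z) (v : Ec n) :
    fderiv ℝ (fun y => a y (u y)) z v = a z (fderiv ℝ u z v) + fderiv ℝ a z v (u z) :=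
  congrArg (fun L : Ec n →L[ℝ] Fb N => L v)
    (((ContinuousLinearMap.restrictScalarsL ℂ (Fb N) (Fb N) ℝ ℝ).hasFDerivAt.comp z
      ha.hasFDerivAt).clm_apply hu.hasFDerivAt).fderiv

theorem geo1_pd {z : Ec n} (hu : DifferentiableAt ℝ u z) (p : Fin n) (I : Fin N) :
    pd p (fun y => u y I) z = fderiv ℝ u z (bv p) I :=
  congrArg (fun L : Ec n →L[ℝ] ℂ => L (bv p))
    (((EuclideanSpace.proj I : Fb N →L[ℂ] ℂ).restrictScalars ℝ).hasFDerivAt.comp z
      hu.hasFDerivAt).fderiv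

theorem geo1_mat (T : Op N) (x : Fb N) (I : Fin N) :
    T x I = ∑ J, T (EuclideanSpace.single J 1) I * x J := by
  conv_lhs => rw [← (EuclideanSpace.basisFun (Fin N) ℂ).sum_repr x]
  simp [mul_comm]

theorem geo1_ent {T : Ec n → Op N} (hT : ContDiffOn ℝ ∞ T Ω) (I J : Fin N) :
    ContDiffOn ℝ ∞ (fun z => T z (EuclideanSpace.single J 1) I) Ω :=
  ((EuclideanSpace.proj I : Fb N →L[ℂ] ℂ).restrictScalars ℝ).contDiff.comp_contDiffOn
    (geo1_sm hT contDiffOn_const)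

/-- The first order coefficients. -/
def geo1B (γ : Geo n N) (p : Fin n) (z : Ec n) : Op N :=
  ∑ j, (fderiv ℝ (γ.h p j) z (bv j) • 1 + γ.h p j z • γ.a j z + γ.h j p z • γ.a j z)

/-- The coefficient of order zero. -/
def geo1C (γ : Geo n N) (z : Ec n) : Op N :=
  ∑ j, ∑ i, (fderiv ℝ (γ.h i j) z (bv j) • γ.a i z + γ.h i j z • fderiv ℝ (γ.a i) z (bv j) +
    γ.h i j z • (γ.a j z * γ.a i z))

theorem geo1_vec (h : γ.Sm Ω) (hΩ : IsOpen Ω) {z : Ec n} (hz : z ∈ Ω) (hu : ContDiffAt ℝ ∞ u z) :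
    γ.P u z = ∑ p, ∑ q, γ.h q p z • fderiv ℝ (fun y => fderiv ℝ u y (bv q)) z (bv p) +
      ∑ p, geo1B γ p z (fderiv ℝ u z (bv p)) + geo1C γ z (u z) := by
  have d0 : DifferentiableAt ℝ u z := hu.differentiableAt (by simp)
  have d1 : ∀ i, DifferentiableAt ℝ (fun y => fderiv ℝ u y (bv i)) z := fun i =>
    ((hu.fderiv_right (m := ∞) (by simp)).clm_apply
      contDiffAt_const).differentiableAt (by simp)
  have da : ∀ i, DifferentiableAt ℝ (γ.a i) z := fun i =>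
    ((h.a i).contDiffAt (hΩ.mem_nhds hz)).differentiableAt (by simp)
  have dh : ∀ i j, DifferentiableAt ℝ (γ.h i j) z := fun i j =>
    ((h.h i j).contDiffAt (hΩ.mem_nhds hz)).differentiableAt (by simp)
  have d2 : ∀ i, DifferentiableAt ℝ (fun y => γ.a i y (u y)) z := fun i =>
    ((ContinuousLinearMap.restrictScalarsL ℂ (Fb N) (Fb N) ℝ ℝ).differentiableAt.comp z
      (da i)).clm_apply d0
  have d3 : ∀ i, DifferentiableAt ℝ (γ.D i u) z := fun i => (d1 i).add (d2 i)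
  have e1 : ∀ i j, fderiv ℝ (γ.D i u) z (bv j) = fderiv ℝ (fun y => fderiv ℝ u y (bv i)) z (bv j) +
      (γ.a i z (fderiv ℝ u z (bv j)) + fderiv ℝ (γ.a i) z (bv j) (u z)) := fun i j => by
    rw [← geo1_app (da i) d0, ← add_apply, ← fderiv_fun_add (d1 i) (d2 i)]
    rfl
  have e2 : ∀ j, γ.D j (fun y => ∑ i, γ.h i j y • γ.D i u y) z = ∑ i, (γ.h i j z •
      fderiv ℝ (γ.D i u) z (bv j) + fderiv ℝ (γ.h i j) z (bv j) • γ.D i u z +
      γ.h i j z • γ.a j z (γ.D i u z)) := fun j => by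
    rw [Geo.D, fderiv_fun_sum fun i _ => (dh i j).fun_smul (d3 i), sum_apply, map_sum,
      ← Finset.sum_add_distrib]
    refine Finset.sum_congr rfl fun i _ => ?_
    rw [fderiv_fun_smul (dh i j) (d3 i), ContinuousLinearMap.map_smul_of_tower]
    rfl
  simp only [Geo.P, e2, e1]
  simp only [geo1B, geo1C, sum_apply, add_apply, smul_apply, Geo.D, map_add,
    smul_add, Finset.sum_add_distrib, mul_apply_eq_comp, one_apply_eq_self]
  rw [Finset.sum_comm (f := fun p j => fderiv ℝ (γ.h p j) z (bv j) • fderiv ℝ u z (bv p)),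
    Finset.sum_comm (f := fun p j => γ.h p j z • γ.a j z (fderiv ℝ u z (bv p)))]
  abel

/-- The components of `P`: `a p q = h q p`, with matrix entries `γ.a i z (EuclideanSpace.single J 1) I`. -/
theorem Geo.Sm.sy (h : γ.Sm Ω) (hΩ : IsOpen Ω) :
    ∃ (b : Fin n → Fin N → Fin N → V n → ℂ) (c : Fin N → Fin N → V n → ℂ),
      P088F.Sm Ω (fun p q z => (γ.h q p z : ℂ)) b c ∧ El Ω (fun p q z => (γ.h q p z : ℂ)) ∧
      ∀ (u : Ec n → Fb N), ∀ z ∈ Ω, ContDiffAt ℝ ∞ u z → ∀ I,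
        γ.P u z I = Sy (fun p q z => (γ.h q p z : ℂ)) b c (fun I z => u z I) I z := by
  have hB : ∀ p, ContDiffOn ℝ ∞ (geo1B γ p) Ω := fun p => .sum fun j _ =>
    (((geo1_d hΩ (h.h p j) _).smul contDiffOn_const).add ((h.h p j).smul (h.a j))).add
      ((h.h j p).smul (h.a j))
  have hC : ContDiffOn ℝ ∞ (geo1C γ) Ω := .sum fun j _ => .sum fun i _ =>
    (((geo1_d hΩ (h.h i j) _).smul (h.a i)).add ((h.h i j).smul (geo1_d hΩ (h.a i) _))).add
      ((h.h i j).smul ((h.a j).mul (h.a i)))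
  refine ⟨fun p I J z => geo1B γ p z (EuclideanSpace.single J 1) I,
    fun I J z => geo1C γ z (EuclideanSpace.single J 1) I,
    ⟨fun p q => Complex.ofRealCLM.contDiff.comp_contDiffOn (h.h q p),
      fun p I J => geo1_ent (hB p) I J, fun I J => geo1_ent hC I J⟩, fun z hz ξ hξ => ?_,
    fun u z hz hu I => ?_⟩
  · have h1 := mul_pos (h.vol_pos hz) ((h.pos z hz).inv.dotProduct_mulVec_pos
      (x := ξ.ofLp) fun k => hξ ((WithLp.ofLp_eq_zero 2).1 k))
    refine h1.trans_eq ?_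
    simp only [symb, Geo.h, ← Complex.ofReal_mul, ← Complex.ofReal_sum, Complex.ofReal_re,
      dotProduct, Matrix.mulVec, star_trivial, Finset.mul_sum]
    rw [Finset.sum_comm]
    exact Finset.sum_congr rfl fun p _ => Finset.sum_congr rfl fun q _ => by ring
  · have d0 := (hu.of_le (m := 1) (by exact_mod_cast le_top)).eventually (by simp)
    have e : ∀ p q, pd p (pd q fun y => u y I) z =
        fderiv ℝ (fun y => fderiv ℝ u y (bv q)) z (bv p) I := fun p q => by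
      rw [← geo1_pd (((hu.fderiv_right (m := ∞) (by simp)).clm_apply
        contDiffAt_const).differentiableAt (by simp)), pd, pd, EventuallyEq.fderiv_eq
        (d0.mono fun y hy => geo1_pd (hy.differentiableAt one_ne_zero) q I)]
    rw [geo1_vec h hΩ hz hu]
    simp only [Sy, e, geo1_pd (hu.differentiableAt (by simp)), ← geo1_mat, PiLp.add_apply,
      WithLp.ofLp_sum, Finset.sum_apply, PiLp.smul_apply, Complex.real_smul]

end Vale.Agent.P088.Gl
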