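import Vale.Agent.P088F.AUcp
import Vale.Agent.P088F.Geo1

/-! P088, part A: unique continuation in geometric form. -/

open MeasureTheory Set Filter Topology
open scoped ContDiff

noncomputable section

namespace Vale.Agent.P088.Gl

open Vale.Agent.P088.Car

variable {n N : ℕ} {Ω : Set (Ec n)} {γ : Geo n N} {u : Ec n → Fb N} {z : Ec n}

theorem agu_dd {B : Ec n → Op N} (hB : SA B z) (hu : SA u z) (v : Ec n) :
    dd v (fun y => B y (u y)) z = dd v B z (u z) + B z (dd v u z) := by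
  let L : Op N →L[ℝ] Fb N →L[ℝ] Fb N := ContinuousLinearMap.restrictScalarsL ℂ (Fb N) (Fb N) ℝ ℝ
  have h := ((L.hasFDerivAt.comp z hB.df.hasFDerivAt).clm_apply hu.df.hasFDerivAt).fderiv
  rw [dd, show (fun y => B y (u y)) = fun y => (L ∘ B) y (u y) from rfl, h, add_comm]
  rfl

theorem agu_sa {B : Ec n → Op N} (hB : SA B z) (hu : SA u z) : SA (fun y => B y (u y)) z :=
  ((ContinuousLinearMap.restrictScalarsL ℂ (Fb N) (Fb N) ℝ ℝ).contDiff.contDiffAt.comp z
    hB).clm_apply hu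

/-- The coefficient of order zero. -/
def aguA (γ : Geo n N) (z : Ec n) : Op N :=
  ∑ j, ∑ i, (dd (es n j) (fun y => γ.h i j y • γ.a i y) z + γ.a j z * (γ.h i j z • γ.a i z))

/-- The coefficients of order one. -/
def aguB (γ : Geo n N) (i : Fin n) (z : Ec n) : Op N :=
  ∑ j, (γ.h j i z • γ.a j z + γ.h i j z • γ.a j z)

theorem agu_eq (hh : ∀ i j, SA (γ.h i j) z) (ha : ∀ i, SA (γ.a i) z) (hu : SA u z) :
    γ.P u z = dv (es n) (fun j i => γ.h i j) u z +
      (aguA γ z (u z) + ∑ i, aguB γ i z (dd (es n i) u z)) := by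
  have h1 : ∀ j, (fun y => ∑ i, γ.h i j y • γ.D i u y) = fun y =>
      fx (es n) (fun j i => γ.h i j) u j y + ∑ i, (γ.h i j y • γ.a i y) (u y) := fun j => by
    funext y
    rw [fx, ← Finset.sum_add_distrib]
    exact Finset.sum_congr rfl fun i _ => smul_add _ _ _
  have h2 : ∀ j, SA (fx (es n) (fun j i => γ.h i j) u j) z := fun j =>
    ContDiffAt.sum fun i _ => (hh i j).smul (hu.dd _)
  have h3 : ∀ i j, SA (fun y => γ.h i j y • γ.a i y) z := fun i j => (hh i j).smul (ha i)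
  have h4 : ∀ j, γ.D j (fun y => ∑ i, γ.h i j y • γ.D i u y) z =
      dd (es n j) (fx (es n) (fun j i => γ.h i j) u j) z +
        (∑ i, (dd (es n j) (fun y => γ.h i j y • γ.a i y) z +
          γ.a j z * (γ.h i j z • γ.a i z)) (u z) +
        (∑ i, (γ.h i j z • γ.a i z) (dd (es n j) u z) +
          ∑ i, (γ.h i j z • γ.a j z) (dd (es n i) u z))) := fun j => by
    rw [h1, Geo.D]
    change dd (es n j) _ z + _ = _
    rw [dd_add (h2 j) (ContDiffAt.sum fun i _ => agu_sa (h3 i j) hu),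
      dd_sum _ (fun i => agu_sa (h3 i j) hu),
      Finset.sum_congr rfl fun i _ => agu_dd (h3 i j) hu (es n j)]
    simp only [fx, map_add, map_sum, ContinuousLinearMap.add_apply,
      ContinuousLinearMap.mul_apply, Finset.sum_add_distrib, ContinuousLinearMap.smul_apply,
      ContinuousLinearMap.map_smul_of_tower]
    abel
  rw [Geo.P, dv, aguA]
  simp only [h4, aguB, Finset.sum_add_distrib, ContinuousLinearMap.sum_apply,
    ContinuousLinearMap.add_apply]
  rw [Finset.sum_comm (f := fun j i => (γ.h i j z • γ.a j z) (dd (es n i) u z))]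

/-- Unique continuation. -/
theorem gu (n N : ℕ) : GU n N := by
  intro Ω Ω' γ u hΩ hc hγ hu h1 h2 h3 h0
  obtain ⟨hs, hP⟩ := (hγ.ew_iff hΩ (F := fun _ => 0) continuousOn_const).1 hu
  have hh : ∀ i j, ∀ z ∈ Ω, SA (γ.h i j) z := fun i j z hz =>
    (hγ.h i j).contDiffAt (hΩ.mem_nhds hz)
  have ha : ∀ i, ∀ z ∈ Ω, SA (γ.a i) z := fun i z hz => (hγ.a i).contDiffAt (hΩ.mem_nhds hz)
  have hu' : ∀ z ∈ Ω, SA u z := fun z hz => hs.contDiffAt (hΩ.mem_nhds hz)
  refine fun z hz => ucp (κ := Unit) (u := fun _ => u) (a := fun j i => γ.h i j) (sq_euc N) hΩ hc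
    (fun i j => hh j i) (fun x hx i j => ?_) (fun x hx ξ hξ => ?_) (fun _ => hu')
    (fun K hK hK' => ?_) h1 h2 h3 (fun _ => h0) () z hz
  · exact congrArg (γ.vol x * ·) ((hγ.pos x hx).inv.isHermitian.apply i j)
  · have h4 := mul_pos (hγ.vol_pos hx) ((hγ.pos x hx).inv.dotProduct_mulVec_pos hξ)
    refine h4.trans_eq ?_
    rw [qf, Finset.sum_comm, dotProduct, Finset.mul_sum]
    refine Finset.sum_congr rfl fun i _ => ?_
    rw [Matrix.mulVec, dotProduct, Finset.mul_sum, Finset.mul_sum]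
    refine Finset.sum_congr rfl fun j _ => ?_
    simp only [Geo.h, Pi.star_apply, star_trivial]
    ring
  · have c1 : ContinuousOn (fun x => ‖aguA γ x‖ + ∑ i, ‖aguB γ i x‖) K := fun x hx => by
      have b1 := fun i j => (hh i j x (hK hx)).smul (ha i x (hK hx))
      have b2 : SA (aguA γ) x := ContDiffAt.sum fun j _ => ContDiffAt.sum fun i _ =>
        (SA.dd (b1 i j) _).add ((ha j x (hK hx)).mul (b1 i j))
      have b3 : ∀ i, SA (aguB γ i) x := fun i => ContDiffAt.sum fun j _ =>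
        (b1 j i).add ((hh i j x (hK hx)).smul (ha j x (hK hx)))
      exact (b2.continuousAt.norm.add (tendsto_finsetSum _ fun i _ =>
        (b3 i).continuousAt.norm)).continuousWithinAt
    obtain ⟨B, hB⟩ := hK'.bddAbove_image c1
    refine ⟨B ^ 2 * (2 * n + 2), fun x hx => ?_⟩
    have b0 : ‖aguA γ x‖ + ∑ i, ‖aguB γ i x‖ ≤ B := hB ⟨x, hx, rfl⟩
    have b1 : 0 ≤ ∑ i, ‖aguB γ i x‖ := Finset.sum_nonneg fun _ _ => norm_nonneg _
    have b2 : ∀ i, ‖aguB γ i x‖ ≤ B := fun i =>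
      (Finset.single_le_sum (f := fun i => ‖aguB γ i x‖) (fun _ _ => norm_nonneg _)
        (Finset.mem_univ i)).trans (by linarith [norm_nonneg (aguA γ x)])
    have b3 := agu_eq (fun i j => hh i j x (hK hx)) (fun i => ha i x (hK hx)) (hu' x (hK hx))
    rw [hP x (hK hx), smul_zero, neg_zero, eq_comm, add_eq_zero_iff_eq_neg] at b3
    have b4 : ‖dv (es n) (fun j i => γ.h i j) u x‖ ≤ B * (‖u x‖ + ∑ i, ‖dd (es n i) u x‖) := by
      rw [b3, norm_neg, mul_add, Finset.mul_sum]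
      refine (norm_add_le _ _).trans (add_le_add (((aguA γ x).le_opNorm _).trans ?_)
        ((norm_sum_le _ _).trans (Finset.sum_le_sum fun i _ => ((aguB γ i x).le_opNorm _).trans ?_)))
      · exact mul_le_mul_of_nonneg_right (by linarith) (norm_nonneg _)
      · exact mul_le_mul_of_nonneg_right (b2 i) (norm_nonneg _)
    have b5 : (∑ i, ‖dd (es n i) u x‖) ^ 2 ≤ n * ∑ i, ‖dd (es n i) u x‖ ^ 2 := by
      simpa using sq_sum_le_card_mul_sum_sq (s := Finset.univ) (f := fun i => ‖dd (es n i) u x‖)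
    have b6 : 0 ≤ ∑ i, ‖dd (es n i) u x‖ ^ 2 := Finset.sum_nonneg fun _ _ => sq_nonneg _
    have b7 : (0 : ℝ) ≤ n := Nat.cast_nonneg n
    simp only [n0, n1, Finset.univ_unique, Finset.sum_singleton]
    refine (pow_le_pow_left₀ (norm_nonneg _) b4 2).trans ?_
    rw [mul_pow, mul_assoc]
    refine mul_le_mul_of_nonneg_left ?_ (sq_nonneg B)
    nlinarith [sq_nonneg (‖u x‖ - ∑ i, ‖dd (es n i) u x‖), mul_nonneg b7 (sq_nonneg ‖u x‖)]

end Vale.Agent.P088.Gl
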