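import Vale.Agent.P088F.GXb

/-! P088, part G, file GXt1. The boundary chart: pointwise facts. `xps_smooth`: `ps_smooth` wants a function smooth on the chart target with compact
support in it: the support lies in `τ '' (tsupport F ∩ hp)`, compact, inside the relatively open set `τ '' hp` (`XP.op`, `range_modelWithCornersEuclideanHalfSpace`).
`XP.mono`: `τ '' hp r' = τ '' hp r ∩ θ ⁻¹' ball 0 r'`, `ContinuousOn.isOpen_inter_preimage` style (`continuousOn_iff'`). -/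

open MeasureTheory Set Filter Bundle Metric Topology Matrix
open scoped Manifold ContDiff ENNReal NNReal ComplexConjugate

noncomputable section

namespace Vale.Agent.P088.Gl

variable {n N : ℕ} [NeZero n] {M : Type} [TopologicalSpace M]
  [ChartedSpace (EuclideanHalfSpace n) M] [IsManifold (𝓡∂ n) ∞ M] [T2Space M] [CompactSpace M]
  {Γ : Set M} {g : Met (𝓡∂ n) M} {A : Conn (𝓡∂ n) M N} {p : M} {r : ℝ} {τ θ : Ec n → Ec n}
  {W : Ec n → Op N} {γ : Geo n N}

theorem isOpen_up (n : ℕ) [NeZero n] (r : ℝ) : IsOpen (up n r) :=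
  isOpen_ball.inter (isOpen_lt continuous_const (by fun_prop))

theorem isOpen_lo (n : ℕ) [NeZero n] (r : ℝ) : IsOpen (lo n r) :=
  isOpen_ball.inter (isOpen_lt (by fun_prop) continuous_const)

theorem GXt1_uh : up n r ⊆ hp n r := fun z hz =>
  ⟨hz.1, le_of_lt (show (0 : ℝ) < z 0 from hz.2)⟩

theorem GXt1_hp {r' : ℝ} (h1 : r' ≤ r) : hp n r' ⊆ hp n r :=
  inter_subset_inter_left _ (ball_subset_ball h1)

theorem GXt1_up {r' : ℝ} (h1 : r' ≤ r) : up n r' ⊆ up n r :=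
  inter_subset_inter_left _ (ball_subset_ball h1)

theorem GXt1_z0 {z : Ec n} (hz : z ∈ hp n r) (h0 : z ∉ up n r) : z 0 = 0 :=
  le_antisymm (not_lt.1 fun h => h0 ⟨hz.1, h⟩) hz.2

theorem XP.shrink (h : XP Γ g A p r τ θ W γ) {r' : ℝ} (h0 : 0 < r') (h1 : r' ≤ r) :
    XP Γ g A p r' τ θ W γ := by
  have s1 := GXt1_hp (n := n) h1
  have s2 := GXt1_up (n := n) h1
  refine ⟨h0, h.sm.sub (ball_subset_ball h1), h.τ0, h.sτ.mono s1, h.mp.mono_left s1, ?_,
    h.sθ.mono (image_mono s1), fun z hz => h.inv z (s1 hz), fun z hz => h.bd z (s1 hz),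
    h.int.mono_left s2, h.sW.mono s1, fun z hz => h.W1 z (s1 hz),
    h.iso.mono (isOpen_up n r') s2⟩
  obtain ⟨T, hT, e⟩ := h.op
  obtain ⟨U, hU, e'⟩ := continuousOn_iff'.1 h.sθ.continuousOn (ball 0 r') isOpen_ball
  refine ⟨U ∩ T, hU.inter hT, ?_⟩
  rw [inter_assoc, ← e, ← e']
  ext w
  constructor
  · rintro ⟨z, hz, rfl⟩
    refine ⟨?_, z, s1 hz, rfl⟩
    rw [mem_preimage, h.inv z (s1 hz)]
    exact hz.1
  · rintro ⟨hw, z, hz, rfl⟩
    rw [mem_preimage, h.inv z hz] at hw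
    exact ⟨z, ⟨hw, hz.2⟩, rfl⟩

theorem GXt_add (F F' : Ec n → Fb N) :
    xps p r τ θ W (F + F') = xps p r τ θ W F + xps p r τ θ W F' := by
  unfold xps
  rw [← ps_add]
  congr 1
  funext w
  by_cases hw : w ∈ τ '' hp n r
  · simp only [Pi.add_apply, indicator_of_mem hw, map_add]
  · simp only [Pi.add_apply, indicator_of_notMem hw, add_zero]

theorem GXt_smul (c : ℂ) (F : Ec n → Fb N) : xps p r τ θ W (c • F) = c • xps p r τ θ W F := by
  unfold xps
  rw [← ps_smul]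
  congr 1
  funext w
  by_cases hw : w ∈ τ '' hp n r
  · simp only [Pi.smul_apply, indicator_of_mem hw, map_smul]
  · simp only [Pi.smul_apply, indicator_of_notMem hw, smul_zero]

theorem GXt_zero : xps p r τ θ W (0 : Ec n → Fb N) = 0 := by
  have := GXt_smul (p := p) (r := r) (τ := τ) (θ := θ) (W := W) 0 (0 : Ec n → Fb N)
  rwa [zero_smul, zero_smul] at this

theorem XP.xps_xpt (h : XP Γ g A p r τ θ W γ) (F : Ec n → Fb N) {z : Ec n} (hz : z ∈ hp n r) :
    xps p r τ θ W F (xpt p τ z) = W z (F z) := by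
  have e := pl_ps (I := 𝓡∂ n) (p := p)
    ((τ '' hp n r).indicator fun w => W (θ w) (F (θ w))) (h.mp hz)
  rw [indicator_of_mem (mem_image_of_mem τ hz), h.inv z hz] at e
  exact e

theorem XP.xps_out (h : XP Γ g A p r τ θ W γ) (F : Ec n → Fb N) {x : M}
    (hx : x ∉ xpt p τ '' hp n r) : xps p r τ θ W F x = 0 := by
  unfold xps
  by_cases hs : x ∈ (extChartAt (𝓡∂ n) p).source
  · rw [ps_of_mem _ hs, indicator_of_notMem]
    rintro ⟨z, hz, e⟩
    refine hx ⟨z, hz, ?_⟩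
    unfold xpt
    rw [e]
    exact (extChartAt (𝓡∂ n) p).left_inv hs
  · exact ps_of_notMem _ hs

theorem XP.xpl_xps (h : XP Γ g A p r τ θ W γ) (F : Ec n → Fb N) {z : Ec n} (hz : z ∈ up n r) :
    xpl p τ W (xps p r τ θ W F) z = F z := by
  unfold xpl
  rw [h.xps_xpt F (GXt1_uh hz)]
  exact uni_left (h.iso.uni z hz) _

theorem XP.xpt_int (h : XP Γ g A p r τ θ W γ) {z : Ec n} (hz : z ∈ up n r) :
    xpt p τ z ∈ (𝓡∂ n).interior M :=
  symm_interior (h.int hz)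

theorem XP.xpt_bd (h : XP Γ g A p r τ θ W γ) {z : Ec n} (hz : z ∈ hp n r) (h0 : z ∉ up n r) :
    xpt p τ z ∈ (𝓡∂ n).boundary M := by
  rw [← ModelWithCorners.compl_interior]
  intro hi
  have hs : xpt p τ z ∈ (extChartAt (𝓡∂ n) p).source :=
    (extChartAt (𝓡∂ n) p).map_target (h.mp hz)
  have e : extChartAt (𝓡∂ n) p (xpt p τ z) = τ z := (extChartAt (𝓡∂ n) p).right_inv (h.mp hz)
  have h1 := (mem_cd.1 ((cd_iff hs).2 hi)).2
  rw [e, interior_range_modelWithCornersEuclideanHalfSpace] at h1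
  have h2 := (h.bd z hz (GXt1_z0 hz h0)).1
  exact absurd h2 (ne_of_gt h1)

theorem XP.xpt_cont (h : XP Γ g A p r τ θ W γ) : ContinuousOn (xpt p τ) (hp n r) :=
  (continuousOn_extChartAt_symm p).comp h.sτ.continuousOn h.mp

theorem XP.open_up (h : XP Γ g A p r τ θ W γ) : IsOpen (xpt p τ '' up n r) := by
  have ho : IsOpen (τ '' up n r) :=
    h.iso.open_image (h.sm.sub inter_subset_left) (isOpen_up n r) Subset.rfl
  have hs : τ '' up n r ⊆ (extChartAt (𝓡∂ n) p).target := by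
    rintro _ ⟨z, hz, rfl⟩
    exact h.mp (GXt1_uh hz)
  have e : xpt p τ '' up n r = (extChartAt (𝓡∂ n) p).symm '' (τ '' up n r) := by
    rw [image_image]
    rfl
  rw [e, PartialEquiv.symm_image_eq_source_inter_preimage _ hs]
  exact isOpen_extChartAt_preimage' p ho

theorem GXt1_K (h : XP Γ g A p r τ θ W γ) {F : Ec n → Fb N} (hF : ET (ball 0 r) F) :
    IsCompact (τ '' (tsupport F ∩ hp n r)) := by
  refine IsCompact.image_of_continuousOn ?_ (h.sτ.continuousOn.mono inter_subset_right)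
  have e : tsupport F ∩ hp n r = tsupport F ∩ {z | 0 ≤ z 0} := by
    ext z
    exact ⟨fun hz => ⟨hz.1, hz.2.2⟩, fun hz => ⟨hz.1, hF.2.2 hz.1, hz.2⟩⟩
  rw [e]
  exact hF.2.1.isCompact.inter_right (isClosed_le continuous_const (by fun_prop))

theorem GXt1_ts (h : XP Γ g A p r τ θ W γ) {F : Ec n → Fb N} (hF : ET (ball 0 r) F) :
    tsupport ((τ '' hp n r).indicator fun w => W (θ w) (F (θ w))) ⊆
      τ '' (tsupport F ∩ hp n r) := by
  refine closure_minimal (fun w hw => ?_) (GXt1_K h hF).isClosed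
  by_cases hm : w ∈ τ '' hp n r
  · obtain ⟨z, hz, rfl⟩ := hm
    refine ⟨z, ⟨subset_tsupport _ fun h0 => hw ?_, hz⟩, rfl⟩
    rw [indicator_of_mem (mem_image_of_mem τ hz), h.inv z hz, h0, map_zero]
  · exact absurd (indicator_of_notMem hm _) hw

theorem GXt1_cs (h : XP Γ g A p r τ θ W γ) {F : Ec n → Fb N} (hF : ET (ball 0 r) F) :
    HasCompactSupport ((τ '' hp n r).indicator fun w => W (θ w) (F (θ w))) :=
  (GXt1_K h hF).of_isClosed_subset (isClosed_tsupport _) (GXt1_ts h hF)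

theorem GXt1_tt (h : XP Γ g A p r τ θ W γ) {F : Ec n → Fb N} (hF : ET (ball 0 r) F) :
    tsupport ((τ '' hp n r).indicator fun w => W (θ w) (F (θ w))) ⊆
      (extChartAt (𝓡∂ n) p).target := by
  refine (GXt1_ts h hF).trans ?_
  rintro _ ⟨z, hz, rfl⟩
  exact h.mp hz.2

theorem GXt1_sm (h : XP Γ g A p r τ θ W γ) {F : Ec n → Fb N} (hF : ET (ball 0 r) F) :
    ContDiffOn ℝ ∞ ((τ '' hp n r).indicator fun w => W (θ w) (F (θ w)))
      (extChartAt (𝓡∂ n) p).target := by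
  intro w hw
  by_cases hm : w ∈ tsupport ((τ '' hp n r).indicator fun w => W (θ w) (F (θ w)))
  · have hm' : w ∈ τ '' hp n r := image_mono inter_subset_right (GXt1_ts h hF hm)
    have hθ : MapsTo θ (τ '' hp n r) (hp n r) := by
      rintro _ ⟨z, hz, rfl⟩
      rw [h.inv z hz]
      exact hz
    have h1 : ContDiffOn ℝ ∞ (fun w => W (θ w) (F (θ w))) (τ '' hp n r) :=
      contDiffOn_op (h.sW.comp h.sθ hθ) (hF.1.comp_contDiffOn h.sθ)
    have h2 : ContDiffOn ℝ ∞ ((τ '' hp n r).indicator fun w => W (θ w) (F (θ w)))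
        (τ '' hp n r) := h1.congr fun y hy => indicator_of_mem hy _
    refine (h2 w hm').mono_of_mem_nhdsWithin ?_
    obtain ⟨T, hT, e⟩ := h.op
    rw [e] at hm' ⊢
    refine mem_nhdsWithin.2 ⟨T, hT, hm'.1, fun y hy => ⟨hy.1, ?_⟩⟩
    have := extChartAt_target_subset_range p hy.2
    rwa [range_modelWithCornersEuclideanHalfSpace] at this
  · exact (contDiffAt_const.congr_of_eventuallyEq
      (notMem_tsupport_iff_eventuallyEq.1 hm)).contDiffWithinAt

theorem XP.xps_supp (h : XP Γ g A p r τ θ W γ) {F : Ec n → Fb N} (hF : ET (ball 0 r) F) :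
    tsupport (xps p r τ θ W F) ⊆ xpt p τ '' (tsupport F ∩ hp n r) := by
  refine (tsupport_ps (GXt1_cs h hF) (GXt1_tt h hF)).trans ?_
  rintro _ ⟨w, hw, rfl⟩
  obtain ⟨z, hz, rfl⟩ := GXt1_ts h hF hw
  exact ⟨z, hz, rfl⟩

theorem XP.xps_sm (h : XP Γ g A p r τ θ W γ) {F : Ec n → Fb N} (hF : ET (ball 0 r) F) :
    ContMDiff (𝓡∂ n) 𝓘(ℝ, Fb N) ∞ (xps p r τ θ W F) :=
  ps_smooth (GXt1_sm h hF) (GXt1_cs h hF) (GXt1_tt h hF)

theorem GXt1_bd (h : XP Γ g A p r τ θ W γ) {z : Ec n} (hz : z ∈ hp n r)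
    (hb : xpt p τ z ∈ (𝓡∂ n).boundary M) : z 0 = 0 := by
  refine GXt1_z0 hz fun hu => ?_
  rw [← ModelWithCorners.compl_interior] at hb
  exact hb (h.xpt_int hu)

theorem XP.xps_tst (h : XP Γ g A p r τ θ W γ) {F : Ec n → Fb N} (hF : ET (ball 0 r) F) :
    IsTest (𝓡∂ n) Γ (xps p r τ θ W F) := by
  refine ⟨h.xps_sm hF, fun x hx => ?_⟩
  have hc : IsClosed ((𝓡∂ n).boundary M) := by
    rw [← ModelWithCorners.compl_interior]
    exact isOpen_interior'.isClosed_compl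
  have h1 : x ∈ (𝓡∂ n).boundary M := closure_minimal (fun y hy => hy.1) hc hx
  have h2 : x ∈ tsupport (xps p r τ θ W F) := closure_mono (fun y hy => hy.2) hx
  obtain ⟨z, hz, rfl⟩ := h.xps_supp hF h2
  exact (h.bd z hz.2 (GXt1_bd h hz.2 h1)).2

theorem XP.xps_mti (h : XP Γ g A p r τ θ W γ) {F : Ec n → Fb N} (hF : ET (up n r) F) :
    MT (𝓡∂ n) ((𝓡∂ n).interior M) (xps p r τ θ W F) := by
  have hF' : ET (ball 0 r) F := hF.mono inter_subset_left
  refine ⟨h.xps_sm hF', (h.xps_supp hF').trans ?_⟩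
  rintro _ ⟨z, hz, rfl⟩
  exact h.xpt_int (hF.2.2 hz.1)

theorem GXt_lo {F : Ec n → Fb N} (h : XP Γ g A p r τ θ W γ) (hF : ET (lo n r) F) :
    xps p r τ θ W F = 0 := by
  funext x
  by_cases hx : x ∈ xpt p τ '' hp n r
  · obtain ⟨z, hz, rfl⟩ := hx
    have h0 : F z = 0 := image_eq_zero_of_notMem_tsupport fun hs =>
      absurd (show z 0 < 0 from (hF.2.2 hs).2) (not_lt.2 (show (0 : ℝ) ≤ z 0 from hz.2))
    rw [h.xps_xpt F hz, h0, map_zero]
    rfl
  · exact h.xps_out F hx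

theorem XP.xps_bd {g' : Met (𝓡∂ n) M} {A' : Conn (𝓡∂ n) M N} {τ' θ' : Ec n → Ec n}
    {W' : Ec n → Op N} {γ' : Geo n N} (h : XP Γ g A p r τ θ W γ) (h' : XP Γ g' A' p r τ' θ' W' γ')
    (e : ∀ z ∈ hp n r, z 0 = 0 → τ z = τ' z) (F : Ec n → Fb N) :
    EqOn (xps p r τ θ W F) (xps p r τ' θ' W' F) ((𝓡∂ n).boundary M) := by
  intro x hx
  have key : ∀ z ∈ hp n r, z 0 = 0 →
      xps p r τ θ W F (xpt p τ z) = xps p r τ' θ' W' F (xpt p τ z) := by
    intro z hz h0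
    have e1 : xpt p τ z = xpt p τ' z := by
      unfold xpt
      rw [e z hz h0]
    rw [h.xps_xpt F hz, e1, h'.xps_xpt F hz, h.W1 z hz h0, h'.W1 z hz h0]
  by_cases h1 : x ∈ xpt p τ '' hp n r
  · obtain ⟨z, hz, rfl⟩ := h1
    exact key z hz (GXt1_bd h hz hx)
  · by_cases h2 : x ∈ xpt p τ' '' hp n r
    · obtain ⟨z, hz, rfl⟩ := h2
      have h0 := GXt1_bd h' hz hx
      refine absurd ⟨z, hz, ?_⟩ h1
      unfold xpt
      rw [e z hz h0]
    · rw [h.xps_out F h1, h'.xps_out F h2]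

end Vale.Agent.P088.Gl
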