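import Vale.Agent.P088F.BExt
import Vale.Agent.P088F.BNor
import Vale.Agent.P088F.GXt1

/-! P088, part B: the normal form on the manifold. -/

open MeasureTheory Set Metric Matrix Filter Topology
open scoped Manifold ContDiff

noncomputable section

namespace Vale.Agent.P088.B

open Gl (Geo XP Patch cg cd hp up EIso)

variable {n N : ℕ}

/-- The coefficients as geometric data. -/
def Co.geo (D : Co n N) : Geo n N := ⟨D.G, fun i x => D.C x i⟩

/-- Translation of coefficients. -/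
def Co.sh (D : Co n N) (z : Ec n) : Co n N := ⟨fun x => D.G (z + x), fun x => D.C (z + x)⟩

theorem Co.Good.sm {D : Co n N} (h : D.Good) (s : Set (Ec n)) : D.geo.Sm s :=
  ⟨fun i j => (h.sG i j).contDiffOn, fun x _ => h.pos x, fun i => (h.sC i).contDiffOn,
    fun i x _ => h.skew x i⟩

theorem bfa_ring {R : Type} [Ring R] {U U' B P : R} (h : U * U' = 1) :
    U * (U' * B * U + U' * P) = B * U + P := by
  rw [mul_add, mul_assoc U', ← mul_assoc U, ← mul_assoc U, h, one_mul, one_mul]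

variable [NeZero n]

theorem Co.Nf.sh {D : Co n N} (h : D.Nf) (z : Ec n) : (D.sh z).Nf where
  sG j k := (h.sG j k).comp (contDiff_const.add contDiff_id)
  sC j := (h.sC j).comp (contDiff_const.add contDiff_id)
  pos _ := h.pos _
  skew _ := h.skew _
  g0 _ := h.g0 _
  c0 _ := h.c0 _

variable {M : Type} [TopologicalSpace M] [ChartedSpace (EuclideanHalfSpace n) M]
  [IsManifold (𝓡∂ n) ∞ M] {Γ : Set M} {p : M}

theorem bfa_chart (hΓ : Patch (n := n) Γ) (hp : p ∈ Γ) : extChartAt (𝓡∂ n) p p 0 = 0 ∧ ∃ R > 0,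
    ∀ w ∈ ball (extChartAt (𝓡∂ n) p p) R, (0 ≤ w 0 → w ∈ (extChartAt (𝓡∂ n) p).target) ∧
      (w 0 = 0 → (extChartAt (𝓡∂ n) p).symm w ∈ Γ) ∧ (0 < w 0 → w ∈ cd (𝓡∂ n) p) := by
  obtain ⟨O, hO, e⟩ := hΓ.op
  rw [e] at hp
  have h0 := (ModelWithCorners.isBoundaryPoint_iff (I := 𝓡∂ n)).1 hp.2
  rw [frontier_range_modelWithCornersEuclideanHalfSpace] at h0
  refine ⟨Eq.symm h0, ?_⟩
  have h1 := inter_mem (extChartAt_target_mem_nhdsWithin (I := 𝓡∂ n) p) (nhdsWithin_le_nhds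
    ((continuousAt_extChartAt_symm (I := 𝓡∂ n) p).preimage_mem_nhds
      (hO.mem_nhds (by rw [extChartAt_to_inv]; exact hp.1))))
  obtain ⟨R, hR, h2⟩ := Metric.mem_nhdsWithin_iff.1 h1
  rw [range_modelWithCornersEuclideanHalfSpace] at h2
  refine ⟨R, hR, fun w hw => ⟨fun h => (h2 ⟨hw, h⟩).1, fun h => ?_, fun h => Gl.mem_cd.2
    ⟨(h2 ⟨hw, h.le⟩).1, by rwa [interior_range_modelWithCornersEuclideanHalfSpace]⟩⟩⟩
  obtain ⟨a, b⟩ := h2 ⟨hw, h.ge⟩
  rw [e, ← ModelWithCorners.compl_interior]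
  refine ⟨b, fun c => ?_⟩
  rw [interior_iff ((extChartAt (𝓡∂ n) p).map_target a), (extChartAt (𝓡∂ n) p).right_inv a,
    interior_range_modelWithCornersEuclideanHalfSpace] at c
  exact (show (0 : ℝ) < w 0 from c).ne' h

/-- The normal form at a boundary point. -/
theorem xp_nf (hΓ : Patch (n := n) Γ) (g : Met (𝓡∂ n) M) (A : Conn (𝓡∂ n) M N) (hp : p ∈ Γ) :
    ∃ (r : ℝ) (τ θ : Ec n → Ec n) (W : Ec n → Op N) (D : Co n N), D.Nf ∧
      XP Γ g A p r τ θ W D.geo ∧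
      ∀ x ∈ ball (0 : Ec n) r, x 0 = 0 → τ x = extChartAt (𝓡∂ n) p p + x := by
  obtain ⟨hz, R, hR, c⟩ := bfa_chart hΓ hp
  set z := extChartAt (𝓡∂ n) p p with hz'
  have hs : ball z R ∩ Hc n ⊆ (extChartAt (𝓡∂ n) p).target := fun w hw => (c w hw.1).1 hw.2
  obtain ⟨R', hR', l, D₁, h₁, e₁⟩ := ext_co hz hR
    (D := ⟨(cg g A p).g, fun x j => (cg g A p).a j x⟩) (fun j k => (gm_smooth g p j k).mono hs)
    (fun j => ((A.smooth.comp_contMDiffOn (sec_smooth p (bv j))).contDiffOn).mono hs)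
    (fun x hx => gm_pos g (hs hx)) fun _ _ _ => A.skew _ _
  obtain ⟨r, hr, Ψ, Φ, U, D, C, m, nf, e₂⟩ := normal h₁ hz hR'
  have b : ∀ {x : Ec n}, x ∈ ball (0 : Ec n) r → z + x ∈ ball z r := fun hx => by
    rwa [mem_ball, dist_self_add_left, ← mem_ball_zero_iff]
  have z0 : ∀ x : Ec n, (z + x) 0 = x 0 := fun x => by rw [PiLp.add_apply, hz, zero_add]
  have sa : ContDiff ℝ ∞ fun x : Ec n => z + x := contDiff_const.add contDiff_id
  have mR : ∀ {x : Ec n}, x ∈ ball (0 : Ec n) r → Ψ (z + x) ∈ ball z R := fun hx =>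
    ball_subset_ball l (m (b hx))
  have ge : ∀ {x : Ec n}, x ∈ ball (0 : Ec n) r → (0 ≤ Ψ (z + x) 0 ↔ 0 ≤ x 0) := fun hx => by
    rw [← not_lt, C.neg _ (b hx), z0, not_lt]
  have inv : ∀ x ∈ ball (0 : Ec n) r, Φ (Ψ (z + x)) - z = x := fun x hx => by
    rw [C.left _ (b hx), add_sub_cancel_left]
  have ej : ∀ x, Gl.jac (fun x => Ψ (z + x)) x = jac Ψ (z + x) := fun x => by
    simp only [Gl.jac, jac, fderiv_comp_add_left]
  refine ⟨r, fun x => Ψ (z + x), fun w => Φ w - z, fun x => U (z + x), D.sh z, nf.sh z,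
    ⟨hr, (nf.sh z).toGood.sm _, ?_, (C.sΨ.comp sa).contDiffOn,
      fun x hx => (c _ (mR hx.1)).1 ((ge hx.1).2 hx.2), ⟨Ψ '' ball z r, C.opn _ subset_rfl isOpen_ball, ?_⟩,
      (C.sΦ.sub contDiff_const).contDiffOn, fun x hx => inv x hx.1, fun x hx h0 => ?_,
      fun x hx => (c _ (mR hx.1)).2.2 ((C.pos _ (b hx.1)).2 ((z0 x).symm ▸ hx.2)),
      (C.sU.comp sa).contDiffOn, fun x hx h0 => (C.bd _ (b hx.1) ((z0 x).trans h0)).2,
      ⟨Gl.isOpen_up n r, (C.sΨ.comp sa).contDiffOn, fun x hx y hy e => ?_, (C.sU.comp sa).contDiffOn,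
        fun x hx => C.uni _ (b hx.1), fun x hx => ?_, fun x hx i => ?_⟩⟩,
    fun x hx h0 => (C.bd _ (b hx) ((z0 x).trans h0)).1⟩
  · exact (congrArg Ψ (add_zero z)).trans (C.bd z (mem_ball_self hr) hz).1
  · refine Subset.antisymm ?_ ?_
    · rintro _ ⟨x, hx, rfl⟩
      exact ⟨mem_image_of_mem _ (b hx.1), (ge hx.1).2 hx.2⟩
    · rintro _ ⟨⟨y, hy, rfl⟩, h⟩
      have hx : y - z ∈ ball (0 : Ec n) r := by rwa [mem_ball_zero_iff, ← dist_eq_norm]
      have e : z + (y - z) = y := add_sub_cancel z y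
      exact ⟨y - z, ⟨hx, (ge hx).1 (e.symm ▸ h)⟩, congrArg Ψ e⟩
  · have e := (C.bd _ (b hx.1) ((z0 x).trans h0)).1
    have e0 : Ψ (z + x) 0 = 0 := by rw [e, z0, h0]
    exact ⟨e0, (c _ (mR hx.1)).2.1 e0⟩
  · rw [← inv x hx.1, ← inv y hy.1]
    exact congrArg (fun w => Φ w - z) e
  · have a := (e₁ _ ⟨m (b hx.1), (ge hx.1).2 (le_of_lt hx.2)⟩).1
    rw [ej, ← show D₁.G (Ψ (z + x)) = (cg g A p).g (Ψ (z + x)) from a]
    exact (e₂ _ (b hx.1)).1
  · have a := (e₁ _ ⟨m (b hx.1), (ge hx.1).2 (le_of_lt hx.2)⟩).2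
    have a' : ∀ k, (cg g A p).a k (Ψ (z + x)) = D₁.C (Ψ (z + x)) k := fun k => (congrFun a k).symm
    have e : (D.sh z).geo.a i x = (D₁.pb Ψ U).C (z + x) i := congrFun (e₂ _ (b hx.1)).2 i
    simp only [ej, a', e, fderiv_comp_add_left]
    exact bfa_ring (C.uni _ (b hx.1)).2

end Vale.Agent.P088.B
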