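import Vale.Agent.P088F.GXt1

/-! P088, part G, file GXt2. The boundary chart: derivatives and integrals. `xup_sm`: near a point of the ball with `z 0 ≤ 0` the function vanishes
(`xpt_bd`, `xpt_cont`, the support of `ζ` is closed and interior). `den`: `mden_chart` and `EIso.den` for `XP.iso`.
Integrals: `vol_integral`, `vol_lintegral` applied to indicators, then `integral_image_eq_integral_abs_det_fderiv_smul`,
`lintegral_image_eq_lintegral_abs_det_fderiv_mul`, `EIso.vol`. The boundary is a null set (`IsVol.ae_interior`). -/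

open MeasureTheory Set Filter Bundle Metric Topology Matrix
open scoped Manifold ContDiff ENNReal NNReal ComplexConjugate

noncomputable section

namespace Vale.Agent.P088.Gl

variable {n N : ℕ} [NeZero n] {M : Type} [TopologicalSpace M]
  [ChartedSpace (EuclideanHalfSpace n) M] [IsManifold (𝓡∂ n) ∞ M] [T2Space M] [CompactSpace M]
  {Γ : Set M} {g : Met (𝓡∂ n) M} {A : Conn (𝓡∂ n) M N} {p : M} {r : ℝ} {τ θ : Ec n → Ec n}
  {W : Ec n → Op N} {γ : Geo n N}
  [MeasurableSpace M] [BorelSpace M] {μ : Measure M}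


theorem GXt2_up (r : ℝ) : up n r ⊆ hp n r := fun z hz => ⟨hz.1, le_of_lt (show 0 < z 0 from hz.2)⟩

omit [MeasurableSpace M] [BorelSpace M] [T2Space M] [CompactSpace M] in
theorem GXt2_sub (h : XP Γ g A p r τ θ W γ) :
    τ '' up n r ⊆ (extChartAt (𝓡∂ n) p).target ∧
      xpt p τ '' up n r ⊆ (extChartAt (𝓡∂ n) p).source ∧ MeasurableSet (τ '' up n r) ∧
      ∀ w ∈ (extChartAt (𝓡∂ n) p).target,
        (extChartAt (𝓡∂ n) p).symm w ∈ xpt p τ '' up n r ↔ w ∈ τ '' up n r := by
  have h1 : ∀ z ∈ up n r, τ z ∈ (extChartAt (𝓡∂ n) p).target := fun z hz => h.mp (GXt2_up r hz)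
  refine ⟨image_subset_iff.2 h1,
    image_subset_iff.2 fun z hz => (extChartAt (𝓡∂ n) p).map_target (h1 z hz),
    (h.iso.open_image (h.sm.sub inter_subset_left) h.iso.op subset_rfl).measurableSet,
    fun w hw => ⟨?_, ?_⟩⟩
  · rintro ⟨z, hz, e⟩
    exact ⟨z, hz, (extChartAt (𝓡∂ n) p).symm.injOn (h1 z hz) hw e⟩
  · rintro ⟨z, hz, rfl⟩
    exact ⟨z, hz, rfl⟩

omit [MeasurableSpace M] [BorelSpace M] in
theorem GXt2_out (h : XP Γ g A p r τ θ W γ) {x : M} (hx : x ∈ (𝓡∂ n).interior M)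
    (h1 : x ∉ xpt p τ '' up n r) : x ∉ xpt p τ '' hp n r := by
  rintro ⟨z, hz, rfl⟩
  exact Set.disjoint_left.1 ModelWithCorners.disjoint_interior_boundary hx
    (h.xpt_bd hz fun h2 => h1 ⟨z, h2, rfl⟩)

theorem GXt2_ae (r : ℝ) : ball (0 : Ec n) r =ᵐ[volume] (up n r ∪ lo n r : Set (Ec n)) := by
  have h0 : ∀ᵐ z : Ec n, z 0 ≠ 0 := measure_eq_zero_iff_ae_notMem.1 (Measure.addHaar_submodule
    volume (LinearMap.ker (EuclideanSpace.proj (0 : Fin n) : Ec n →L[ℝ] ℝ).toLinearMap) fun e => by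
      have h1 : bv 0 ∈ LinearMap.ker (EuclideanSpace.proj (0 : Fin n) : Ec n →L[ℝ] ℝ).toLinearMap :=
        e ▸ Submodule.mem_top
      simp [bv] at h1)
  exact eventuallyEq_set.2 (h0.mono fun z hz => ⟨fun h => (lt_or_gt_of_ne hz).elim
    (fun h' => Or.inr ⟨h, h'⟩) fun h' => Or.inl ⟨h, h'⟩, fun h => h.elim And.left And.left⟩)

theorem GXt2_disj (r : ℝ) : Disjoint (up n r) (lo n r) :=
  Set.disjoint_left.2 fun z h h' => lt_asymm (show 0 < z 0 from h.2) h'.2

omit [MeasurableSpace M] [BorelSpace M] in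
theorem XP.xpl_sm (h : XP Γ g A p r τ θ W γ) {u : M → Fb N}
    (hu : ContMDiffOn (𝓡∂ n) 𝓘(ℝ, Fb N) ∞ u ((𝓡∂ n).interior M)) :
    ContDiffOn ℝ ∞ (xpl p τ W u) (up n r) :=
  contDiffOn_op (contDiffOn_star h.iso.sV)
    ((pl_contDiffOn hu (cd_sub _ p) fun _ hz => symm_interior hz).comp h.iso.sΨ h.int)

omit [MeasurableSpace M] [BorelSpace M] in
theorem XP.xup_sm (h : XP Γ g A p r τ θ W γ) {ζ : M → Fb N}
    (hζ : MT (𝓡∂ n) ((𝓡∂ n).interior M) ζ) : ContDiffOn ℝ ∞ (xup p r τ W ζ) (ball 0 r) := by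
  intro z hz
  refine ContDiffAt.contDiffWithinAt ?_
  by_cases h1 : z ∈ up n r
  · have h2 := (isOpen_up n r).mem_nhds h1
    exact ((h.xpl_sm hζ.1.contMDiffOn).contDiffAt h2).congr_of_eventuallyEq
      (eventually_of_mem h2 fun y hy => indicator_of_mem hy _)
  refine (contDiffAt_const (c := 0)).congr_of_eventuallyEq ?_
  by_cases h2 : z ∈ hp n r
  · have h3 : xpt p τ z ∉ tsupport ζ := fun h4 => Set.disjoint_left.1
      ModelWithCorners.disjoint_interior_boundary (hζ.2 h4) (h.xpt_bd h2 h1)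
    have h4 := eventually_nhdsWithin_iff.1 ((h.xpt_cont z h2).eventually
      ((isClosed_tsupport ζ).isOpen_compl.mem_nhds h3))
    refine h4.mono fun y hy => indicator_apply_eq_zero.2 fun h5 => ?_
    rw [xpl, image_eq_zero_of_notMem_tsupport (hy (GXt2_up r h5)), map_zero]
  · exact eventually_of_mem ((isOpen_lo n r).mem_nhds 
      ⟨hz, show z 0 < 0 from not_le.1 fun h3 => h2 ⟨hz, h3⟩⟩)
      fun y hy => indicator_of_notMem (Set.disjoint_right.1 (GXt2_disj r) hy) _

omit [MeasurableSpace M] [BorelSpace M] in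
theorem XP.den (h : XP Γ g A p r τ θ W γ) {u w : M → Fb N}
    (hu : ContMDiffOn (𝓡∂ n) 𝓘(ℝ, Fb N) ∞ u ((𝓡∂ n).interior M))
    (hw : ContMDiffOn (𝓡∂ n) 𝓘(ℝ, Fb N) ∞ w ((𝓡∂ n).interior M)) {z : Ec n} (hz : z ∈ up n r) :
    mden g A u w (xpt p τ z) = γ.den (xpl p τ W u) (xpl p τ W w) z := by
  have h1 := (isOpen_up n r).mem_nhds hz
  have h2 := isOpen_interior'.mem_nhds (h.xpt_int hz)
  have du := (hu.contMDiffAt h2).mdifferentiableAt (by simp)
  have dw := (hw.contMDiffAt h2).mdifferentiableAt (by simp)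
  exact (mden_chart (h.int hz) du dw).trans (h.iso.den (h.sm.sub inter_subset_left) hz
    (pl_hasFDerivAt (h.int hz) du).differentiableAt
    (((h.xpl_sm hu).contDiffAt h1).differentiableAt (by simp))
    (eventually_of_mem h1 fun y hy => (uni_right (h.iso.uni y hy) _).symm)
    (pl_hasFDerivAt (h.int hz) dw).differentiableAt
    (((h.xpl_sm hw).contDiffAt h1).differentiableAt (by simp))
    (eventually_of_mem h1 fun y hy => (uni_right (h.iso.uni y hy) _).symm)).symm

theorem XP.integral (h : XP Γ g A p r τ θ W γ) (hv : IsVol g μ) (f : M → ℂ) :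
    ∫ x in xpt p τ '' up n r, f x ∂μ = ∫ z in up n r, γ.vol z • f (xpt p τ z) := by
  obtain ⟨s1, s2, s3, s4⟩ := GXt2_sub h
  rw [← inter_eq_right.2 s2, ← setIntegral_indicator h.open_up.measurableSet, vol_integral hv p,
    setIntegral_congr_fun (target_meas p) (g := (τ '' up n r).indicator fun w =>
      (cg g A p).vol w • f ((extChartAt (𝓡∂ n) p).symm w)) fun w hw => ?_,
    setIntegral_indicator s3, inter_eq_right.2 s1,
    integral_image_eq_integral_abs_det_fderiv_smul volume h.iso.op.measurableSet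
      (fun z hz => (h.iso.dΨ hz).hasFDerivAt.hasFDerivWithinAt) h.iso.inj]
  · exact setIntegral_congr_fun h.iso.op.measurableSet fun z hz => by
      simp only [h.iso.vol hz, mul_smul, xpt]
  · by_cases h1 : w ∈ τ '' up n r
    · simp only [indicator_of_mem h1, indicator_of_mem ((s4 w hw).2 h1)]
      rfl
    · simp only [indicator_of_notMem h1, indicator_of_notMem (mt (s4 w hw).1 h1), smul_zero]

theorem XP.lintegral (h : XP Γ g A p r τ θ W γ) (hv : IsVol g μ) (f : M → ℝ≥0∞) :
    ∫⁻ x in xpt p τ '' up n r, f x ∂μ =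
      ∫⁻ z in up n r, ENNReal.ofReal (γ.vol z) * f (xpt p τ z) := by
  obtain ⟨s1, s2, s3, s4⟩ := GXt2_sub h
  rw [← inter_eq_left.2 s2, ← setLIntegral_indicator h.open_up.measurableSet, vol_lintegral hv p,
    setLIntegral_congr_fun (target_meas p) (g := (τ '' up n r).indicator fun w =>
      ENNReal.ofReal ((cg g A p).vol w) * f ((extChartAt (𝓡∂ n) p).symm w)) fun w hw => ?_,
    setLIntegral_indicator s3, inter_eq_left.2 s1,
    lintegral_image_eq_lintegral_abs_det_fderiv_mul volume h.iso.op.measurableSet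
      (fun z hz => (h.iso.dΨ hz).hasFDerivAt.hasFDerivWithinAt) h.iso.inj]
  · exact setLIntegral_congr_fun h.iso.op.measurableSet fun z hz => by
      simp only [h.iso.vol hz, mul_assoc, ENNReal.ofReal_mul (abs_nonneg _), xpt]
  · by_cases h1 : w ∈ τ '' up n r
    · simp only [indicator_of_mem h1, indicator_of_mem ((s4 w hw).2 h1)]
      rfl
    · simp only [indicator_of_notMem h1, indicator_of_notMem (mt (s4 w hw).1 h1), mul_zero]

theorem XP.ae (h : XP Γ g A p r τ θ W γ) (hv : IsVol g μ) {P : M → Prop} (hP : ∀ᵐ x ∂μ, P x) :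
    ∀ᵐ z, z ∈ up n r → P (xpt p τ z) := by
  obtain ⟨Z, z1, z2, z3⟩ := exists_measurable_superset_of_null (ae_iff.1 hP)
  have hm := (isOpen_up n r).measurableSet
  have h1 := h.lintegral hv (Z.indicator 1)
  rw [le_antisymm ((setLIntegral_le_lintegral _ _).trans
    ((lintegral_indicator_one z2).trans z3).le) bot_le] at h1
  have h5 := (lintegral_eq_zero_iff'
    ((((h.sm.sub inter_subset_left).vol.continuousOn.aemeasurable hm).ennreal_ofReal).mul
      ((measurable_one.indicator z2).comp_aemeasurable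
        ((h.xpt_cont.mono (GXt2_up r)).aemeasurable hm)))).1 h1.symm
  refine ((ae_restrict_iff' hm).1 h5).mono fun z h2 hz => of_not_not fun h3 => ?_
  have h4 : ENNReal.ofReal (γ.vol z) * Z.indicator 1 (xpt p τ z) = 0 := h2 hz
  rw [indicator_of_mem (z1 h3)] at h4
  exact absurd (h.sm.vol_pos hz.1) (by simpa using h4)

theorem XP.form_xps (h : XP Γ g A p r τ θ W γ) (hv : IsVol g μ) {u : M → Fb N}
    (hu : ContMDiff (𝓡∂ n) 𝓘(ℝ, Fb N) ∞ u) {φ : Ec n → Fb N} (hφ : ET (ball 0 r) φ) :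
    form g μ A u (xps p r τ θ W φ) = ∫ z in up n r, γ.vol z • γ.den (xpl p τ W u) φ z := by
  rw [form_eq, ← setIntegral_eq_integral_of_ae_compl_eq_zero (s := xpt p τ '' up n r)
    (hv.ae_interior.mono fun x hx h1 => mden_zero_right u fun h2 =>
      GXt2_out h hx h1 (image_mono inter_subset_right (h.xps_supp hφ h2))), h.integral hv]
  refine setIntegral_congr_fun h.iso.op.measurableSet fun z hz => ?_
  rw [h.den hu.contMDiffOn (h.xps_sm hφ).contMDiffOn hz, γ.den_congr EventuallyEq.rfl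
    (eventually_of_mem (h.iso.op.mem_nhds hz) fun y hy => h.xpl_xps φ hy)]

theorem XP.pair_xps (h : XP Γ g A p r τ θ W γ) (hv : IsVol g μ) (u : M → Fb N) (φ : Ec n → Fb N) :
    ∫ x, inner ℂ (u x) (xps p r τ θ W φ x) ∂μ =
      ∫ z in up n r, γ.vol z • inner ℂ (xpl p τ W u z) (φ z) := by
  rw [← setIntegral_eq_integral_of_ae_compl_eq_zero (s := xpt p τ '' up n r)
    (hv.ae_interior.mono fun x hx h1 => by
      rw [h.xps_out φ (GXt2_out h hx h1), inner_zero_right]), h.integral hv]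
  refine setIntegral_congr_fun h.iso.op.measurableSet fun z hz => ?_
  rw [h.xps_xpt φ (GXt2_up r hz), ← uni_inner (h.iso.uni z hz) (xpl p τ W u z), xpl,
    uni_right (h.iso.uni z hz)]

theorem XP.locInt (h : XP Γ g A p r τ θ W γ) (hv : IsVol g μ) {k : M → Fb N} (hk : MemLp k 2 μ) :
    LocallyIntegrableOn (xup p r τ W k) (ball 0 r) := by
  have := hv.finite
  have hm := (isOpen_up n r).measurableSet
  have hv' := (h.sm.sub (inter_subset_left : up n r ⊆ _)).vol.continuousOn
  have h1 := hk.integrable one_le_two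
  have h2 : AEStronglyMeasurable (fun z => k (xpt p τ z)) (volume.restrict (up n r)) :=
    (h1.1.stronglyMeasurable_mk.measurable.comp_aemeasurable
      ((h.xpt_cont.mono (GXt2_up r)).aemeasurable hm)).aestronglyMeasurable.congr
        ((ae_restrict_iff' hm).2 (h.ae hv h1.1.ae_eq_mk.symm))
  have h3 : IntegrableOn (fun z => γ.vol z • xpl p τ W k z) (up n r) := by
    refine ⟨(hv'.aestronglyMeasurable hm).smul 
      ((isBoundedBilinearMap_apply (𝕜 := ℂ)).continuous.comp_aestronglyMeasurable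
      (((contDiffOn_star h.iso.sV).continuousOn.aestronglyMeasurable hm).prodMk h2)), ?_⟩
    refine lt_of_eq_of_lt ?_ ((setLIntegral_le_lintegral (xpt p τ '' up n r) _).trans_lt h1.2)
    rw [h.lintegral hv]
    refine setLIntegral_congr_fun hm fun z hz => ?_
    simp only []
    rw [enorm_smul, Real.enorm_eq_ofReal (h.sm.vol_pos hz.1).le, ← ofReal_norm, ← ofReal_norm, xpl,
      uni_norm (Unitary.star_mem (h.iso.uni z hz))]
  refine (LocallyIntegrableOn.continuousOn_smul isOpen_ball.isLocallyClosed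
    (((integrable_indicator_iff hm).2 h3).locallyIntegrable.locallyIntegrableOn _)
    (h.sm.vol.continuousOn.inv₀ fun z hz => (h.sm.vol_pos hz).ne')).congr
      ((ae_restrict_iff' measurableSet_ball).2 (.of_forall fun z hz => ?_))
  by_cases h4 : z ∈ up n r
  · simp only [xup, indicator_of_mem h4, Pi.inv_apply, inv_smul_smul₀ (h.sm.vol_pos hz).ne']
  · simp only [xup, indicator_of_notMem h4, smul_zero]

theorem GXt_split {f : Ec n → ℂ} (hf : Integrable f) (h0 : ∀ z, z ∉ ball (0 : Ec n) r → f z = 0) :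
    ∫ z, f z = (∫ z in up n r, f z) + ∫ z in lo n r, f z := by
  rw [← setIntegral_eq_integral_of_forall_compl_eq_zero h0, setIntegral_congr_set (GXt2_ae r),
    setIntegral_union (GXt2_disj r) (isOpen_lo n r).measurableSet hf.integrableOn hf.integrableOn]

theorem GXt_lsplit (f : Ec n → ℝ≥0∞) :
    ∫⁻ z in ball (0 : Ec n) r, f z = (∫⁻ z in up n r, f z) + ∫⁻ z in lo n r, f z := by
  rw [setLIntegral_congr (GXt2_ae r), lintegral_union (isOpen_lo n r).measurableSet (GXt2_disj r)]

end Vale.Agent.P088.Gl
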