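import Vale.Agent.P088F.BFa
import Vale.Agent.P088F.BCo
import Vale.Agent.P088F.GXt2

/-! P088, part B: the data in coordinates. -/

open MeasureTheory Set Metric Matrix Filter Topology
open scoped Manifold ContDiff

noncomputable section

namespace Vale.Agent.P088.B

open Gl (Geo XP ET Dat Eqd hp up xps xpl xpt mden)

variable {n N : ℕ}

theorem en_geo (D : Co n N) (u v : Ec n → Fb N) (x : Ec n) :
    D.en u v x = D.geo.vol x • D.geo.den u v x := by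
  simp only [Co.en, Co.sg, Geo.den, Geo.vol, Finset.smul_sum, smul_smul, Matrix.smul_apply,
    smul_eq_mul]
  rfl

variable [NeZero n] {M : Type} [TopologicalSpace M] [ChartedSpace (EuclideanHalfSpace n) M]
  [IsManifold (𝓡∂ n) ∞ M] [T2Space M] [CompactSpace M] {Γ : Set M} {g : Met (𝓡∂ n) M}
  {A : Conn (𝓡∂ n) M N} {p : M} {r r' : ℝ} {τ θ : Ec n → Ec n} {W : Ec n → Op N} {D : Co n N}
  [MeasurableSpace M] [BorelSpace M] {μ : Measure M}

theorem bfb_form (X : XP Γ g A p r τ θ W D.geo) (hv : IsVol g μ) {w : M → Fb N}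
    (hw : ContMDiff (𝓡∂ n) 𝓘(ℝ, Fb N) ∞ w) {u ρ : Ec n → Fb N} (hu : ET (ball 0 r) u)
    (e : ∀ x ∈ up n r, ρ x = xpl p τ W w x) :
    ∫ x in Hs n, D.en ρ u x = form g μ A w (xps p r τ θ W u) := by
  rw [X.form_xps hv hw hu, setIntegral_eq_of_subset_of_forall_sdiff_eq_zero
    isOpen_Hs.measurableSet (s := up n r) inter_subset_right fun x hx => by
      rw [en_geo, Geo.den_zero_right _ _ fun h => hx.2 ⟨hu.2.2 h, hx.1⟩, smul_zero]]
  refine setIntegral_congr_fun (Gl.isOpen_up n r).measurableSet fun x hx => ?_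
  rw [en_geo, D.geo.den_congr (eventually_of_mem ((Gl.isOpen_up n r).mem_nhds hx) e) EventuallyEq.rfl]

theorem bfb_le (hD : D.Good) (X : XP Γ g A p r τ θ W D.geo) (hv : IsVol g μ) {w : M → Fb N}
    (hw : ContMDiff (𝓡∂ n) 𝓘(ℝ, Fb N) ∞ w) {ρ : Ec n → Fb N} (hρ : ContDiff ℝ ∞ ρ)
    (e : ∀ x ∈ up n r, ρ x = xpl p τ W w x) :
    ∫ x in up n r, (D.en ρ ρ x).re ≤ En g μ A w := by
  have i1 : IntegrableOn (D.en ρ ρ) (up n r) :=
    ((hD.en_smooth hρ hρ).continuous.continuousOn.integrableOn_compact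
      (isCompact_closedBall 0 r)).mono_set (inter_subset_left.trans ball_subset_closedBall)
  have i2 : Integrable (mden g A w w) μ := hv.int (ctr_cont g (Fld.cov A hw) (Fld.cov A hw)
    (LinearMap.mk₂ ℝ (fun a b : Fb N => inner ℂ a b) inner_add_left
      (fun c a b => inner_smul_real_left a b c) inner_add_right
      fun c a b => inner_smul_real_right a b c) continuous_inner)
  have e1 : ∫ x in up n r, D.en ρ ρ x = ∫ x in xpt p τ '' up n r, mden g A w w x ∂μ := by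
    rw [X.integral hv]
    refine setIntegral_congr_fun (Gl.isOpen_up n r).measurableSet fun x hx => ?_
    have a := eventually_of_mem ((Gl.isOpen_up n r).mem_nhds hx) e
    rw [en_geo, D.geo.den_congr a a, X.den hw.contMDiffOn hw.contMDiffOn hx]
  have e2 : ∀ x, (mden g A w w x).re = en g (cov A w) (cov A w) x := fun x => by
    simp only [mden, en, ipm, Complex.re_sum, Complex.smul_re, re_inner, smul_eq_mul]
  have e3 := integral_re i1
  have e4 := integral_re (i2.integrableOn (s := xpt p τ '' up n r))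
  simp only [RCLike.re_to_complex] at e3 e4
  rw [e3, e1, ← e4, En_eq hv hw]
  simp only [e2]
  exact setIntegral_le_integral (hv.int (en_cont g (Fld.cov A hw) (Fld.cov A hw)))
    (ae_of_all _ fun x => ipm_nonneg (gi_pos g x) _)

omit [T2Space M] in
theorem bfb_en (hv : IsVol g μ) {f v w : M → Fb N} (hs : IsSol g μ A f v)
    (hw : ContMDiff (𝓡∂ n) 𝓘(ℝ, Fb N) ∞ w) (e : EqOn w f ((𝓡∂ n).boundary M)) :
    (form g μ A (fun x => w x - v x) w).re = En g μ A (fun x => w x - v x) ∧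
      En g μ A w - En g μ A (fun x => w x - v x) = En g μ A v := by
  have hρ := sm_sub hw hs.smooth
  have a1 := hs.test hv hρ fun x hx => by rw [hs.bd hx, e hx, sub_self]
  have a2 : (form g μ A (fun x => w x - v x) w).re = En g μ A fun x => w x - v x := by
    rw [form_re hv hρ hw, En_eq hv hρ, ← sub_zero (∫ x, en g (cov A fun x => w x - v x) (cov A w) x ∂μ),
      ← a1, ← integral_sub (hv.int (en_cont g (Fld.cov A hρ) (Fld.cov A hw)))
        (hv.int (en_cont g (Fld.cov A hs.smooth) (Fld.cov A hρ)))]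
    refine integral_congr_ae (ae_of_all _ fun x => ?_)
    have b : (fun i => cov A (fun x => w x - v x) x (bv i)) =
        fun i => cov A w x (bv i) - cov A v x (bv i) := funext fun i => cov_sub hw hs.smooth x _
    simp only [en]
    rw [ipm_comm (gi_pos g x) fun i => cov A v x (bv i), ← ipm_sub_right, ← b]
  have a3 : (form g μ A w fun x => w x - v x).re = (form g μ A (fun x => w x - v x) w).re := by
    rw [form_re hv hρ hw, form_re hv hw hρ]
    exact integral_congr_ae (ae_of_all _ fun x => ipm_comm (gi_pos g x) _ _)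
  have a4 := En_sub (A := A) hv hw hρ
  simp only [sub_sub_cancel] at a4
  exact ⟨a2, by rw [show En g μ A v = En g μ A fun x => v x from rfl]; linarith⟩

theorem bfb_dfc (hD : D.Good) (X : XP Γ g A p r τ θ W D.geo) (h0 : 0 < r') (hr : r' < r)
    (hv : IsVol g μ) {f v : M → Fb N} (hs : IsSol g μ A f v) {u : Ec n → Fb N}
    (hu : ET (ball 0 r') u) (e : EqOn (xps p r' τ θ W u) f ((𝓡∂ n).boundary M)) :
    ∃ e, D.Dfc (ball 0 r') u e ∧ (∫ x in Hs n, D.en u u x).re - e = En g μ A v := by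
  have X' := X.shrink h0 hr.le
  have hw := X'.xps_sm hu
  have hρ := sm_sub hw hs.smooth
  obtain ⟨a1, a2⟩ := bfb_en hv hs hw e
  obtain ⟨ρ, sρ, eρ⟩ := ext_half (z := 0) hr
    (f := xpl p τ W fun x => xps p r' τ θ W u x - v x)
    (((ContinuousLinearMap.restrictScalarsL ℂ (Fb N) (Fb N) ℝ ℝ).contDiff.comp_contDiffOn
      (Gl.contDiffOn_star X.sW)).clm_apply ((chart_contDiff hρ p).comp X.sτ X.mp))
  have e1 : ∀ x ∈ up n r', ρ x = _ := fun x hx => eρ x ⟨hx.1, (le_of_lt hx.2 : (0 : ℝ) ≤ x 0)⟩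
  refine ⟨_, ⟨ρ, sρ, fun x hx h => ?_, ?_, bfb_le hD X' hv hρ sρ e1⟩, ?_⟩
  · have b := X'.xpt_bd (z := x) ⟨hx, h.ge⟩ fun c => (show (0 : ℝ) < x 0 from c.2).ne' h
    rw [eρ x ⟨hx, h.ge⟩, xpl, e b, hs.bd b, sub_self, map_zero]
  · rw [bfb_form X' hv hρ hu e1, a1]
  · rw [bfb_form X' hv hw hu fun x hx => (X'.xpl_xps u hx).symm]
    exact a2

/-- Equal data on the manifold give equal data in coordinates. -/
theorem dne_of_xp {g₁ g₂ : Met (𝓡∂ n) M} {μ₁ μ₂ : Measure M} {A₁ A₂ : Conn (𝓡∂ n) M N}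
    {S₁ S₂ : (M → Fb N) → M → Fb N} (d₁ : Dat Γ g₁ μ₁ A₁ S₁) (d₂ : Dat Γ g₂ μ₂ A₂ S₂)
    (hE : Eqd Γ g₁ μ₁ A₁ S₁ g₂ μ₂ A₂ S₂) {τ₁ θ₁ τ₂ θ₂ : Ec n → Ec n} {W₁ W₂ : Ec n → Op N}
    {D₁ D₂ : Co n N} (h₁ : D₁.Good) (h₂ : D₂.Good) (X₁ : XP Γ g₁ A₁ p r τ₁ θ₁ W₁ D₁.geo)
    (X₂ : XP Γ g₂ A₂ p r τ₂ θ₂ W₂ D₂.geo) (hτ : ∀ z ∈ hp n r, z 0 = 0 → τ₁ z = τ₂ z)
    (h0 : 0 < r') (hr : r' < r) : DNE D₁ D₂ (ball 0 r') := by
  intro u₁ u₂ s₁ s₂ K hK hs z₁ z₂ hb
  have et : ∀ {u : Ec n → Fb N}, ContDiff ℝ ∞ u → (∀ x ∉ K, u x = 0) → ET (ball 0 r') u :=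
    fun a b => ⟨a, HasCompactSupport.intro hK b,
      (closure_minimal (Function.support_subset_iff'.2 b) hK.isClosed).trans hs⟩
  have Y₁ := X₁.shrink h0 hr.le
  have Y₂ := X₂.shrink h0 hr.le
  have t := Y₁.xps_tst (et s₁ z₁)
  obtain ⟨e₁, a₁, b₁⟩ := bfb_dfc h₁ X₁ h0 hr d₁.vol (d₁.sol _ t) (et s₁ z₁) fun _ _ => rfl
  obtain ⟨e₂, a₂, b₂⟩ := bfb_dfc h₂ X₂ h0 hr d₂.vol (d₂.sol _ t) (et s₂ z₂) fun x hx => by
    rw [Y₁.xps_bd Y₂ (fun z hz => hτ z ⟨ball_subset_ball hr.le hz.1, hz.2⟩) u₁ hx]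
    by_cases c : x ∈ xpt p τ₂ '' hp n r'
    · obtain ⟨z, hz, rfl⟩ := c
      rw [Y₂.xps_xpt _ hz, Y₂.xps_xpt _ hz, hb z (le_antisymm (not_lt.1 fun h =>
        Set.disjoint_left.1 ModelWithCorners.disjoint_interior_boundary (Y₂.xpt_int ⟨hz.1, h⟩) hx) hz.2)]
    · rw [Y₂.xps_out _ c, Y₂.xps_out _ c]
  exact ⟨e₁, e₂, a₁, a₂, by rw [b₁, b₂]; exact congrArg Complex.re (hE _ _ t t)⟩

end Vale.Agent.P088.B
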