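import Vale.Agent.P088F.BFb

/-! P088, part B: boundary determination on the manifold from the statement in coordinates. -/

open MeasureTheory Set Metric Matrix Filter Topology
open scoped Manifold ContDiff

noncomputable section

namespace Vale.Agent.P088.B

open Gl (Geo XP hp up lo)

/-- Boundary determination in normal form. -/
def Core (n N : ℕ) [NeZero n] : Prop :=
  ∀ (D₁ D₂ : Co n N) (z : Ec n) (r : ℝ), D₁.Nf → D₂.Nf → z 0 = 0 → 0 < r →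
    DNE D₁ D₂ (ball z r) → ∃ r' > 0, r' ≤ r ∧ Flat D₁ D₂ (ball z r')

theorem bd_of_core {n N : ℕ} [NeZero n] (hc : Core n N) : Gl.BD n N := by
  intro M _ _ _ _ _ _ _ _ Γ g₁ g₂ μ₁ μ₂ A₁ A₂ S₁ S₂ hΓ d₁ d₂ hE p hp
  obtain ⟨r₁, τ₁, θ₁, W₁, D₁, n₁, X₁, b₁⟩ := xp_nf hΓ g₁ A₁ hp
  obtain ⟨r₂, τ₂, θ₂, W₂, D₂, n₂, X₂, b₂⟩ := xp_nf hΓ g₂ A₂ hp
  have h0 := lt_min X₁.r0 X₂.r0
  have hτ : ∀ z ∈ Gl.hp n (min r₁ r₂), z 0 = 0 → τ₁ z = τ₂ z := fun z hz h =>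
    (b₁ z (ball_subset_ball (min_le_left _ _) hz.1) h).trans
      (b₂ z (ball_subset_ball (min_le_right _ _) hz.1) h).symm
  have Y₁ := X₁.shrink h0 (min_le_left _ _)
  have Y₂ := X₂.shrink h0 (min_le_right _ _)
  obtain ⟨r, hr, l, F⟩ := hc D₁ D₂ 0 _ n₁ n₂ rfl (half_pos h0)
    (dne_of_xp d₁ d₂ hE n₁.toGood n₂.toGood Y₁ Y₂ hτ (half_pos h0) (half_lt_self h0))
  replace l := l.trans (half_le_self h0.le)
  have Z := Y₂.shrink hr l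
  let γ : Geo n N := ⟨fun x => if 0 ≤ x 0 then D₂.G x else D₁.G x,
    fun i x => if 0 ≤ x 0 then D₂.C x i else D₁.C x i⟩
  have sm : γ.Sm (ball 0 r) := by
    refine ⟨fun i j => ((n₁.sG i j).contDiffOn.sub (glue_dv fun k => (F k).1 i j)).congr
      fun x _ => ?_, fun x _ => ?_,
      fun i => ((n₁.sC i).contDiffOn.sub (glue_dv fun k => (F k).2 i)).congr fun x _ => ?_,
      fun i x _ => ?_⟩ <;> simp only [γ] <;> split_ifs
    exacts [(sub_sub_cancel _ _).symm, (sub_zero _).symm, n₂.pos x, n₁.pos x,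
      (sub_sub_cancel _ _).symm, (sub_zero _).symm, n₂.skew x i, n₁.skew x i]
  refine ⟨r, τ₁, θ₁, τ₂, θ₂, W₁, W₂, D₁.geo, γ, Y₁.shrink hr l,
    ⟨Z.r0, sm, Z.τ0, Z.sτ, Z.mp, Z.op, Z.sθ, Z.inv, Z.bd, Z.int, Z.sW, Z.W1, Z.iso.op, Z.iso.sΨ,
      Z.iso.inj, Z.iso.sV, Z.iso.uni, fun z hz => (if_pos (le_of_lt hz.2)).trans (Z.iso.met z hz),
      fun z hz i => ?_⟩,
    fun z hz => hτ z ⟨ball_subset_ball l hz.1, hz.2⟩,
    fun z hz => ⟨(if_neg (not_le.2 hz.2)).symm, fun i => (if_neg (not_le.2 hz.2)).symm⟩⟩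
  rw [show γ.a i z = D₂.geo.a i z from if_pos (le_of_lt hz.2)]
  exact Z.iso.con z hz i

end Vale.Agent.P088.B
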