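import Vale.Agent.P088F.COp

/-! P088, part C: interior estimates and the Carleman estimate with a cut-off.

`ie1`: `IE` with `j = 1`, `A = √(n2 (ball z r) u / r ^ n)` (`N2_eq`); `‖pd j f z‖ ≤ ‖iteratedFDeriv ℝ 1 f z‖`.
`comm_bd`: expand `pd j (pd k (χ * u l))` near `x` (`sys_pd_mul`), the terms with undifferentiated `χ` add up to `χ x * L.ap u l x = 0`.
`caa`: `v l = χ * u l` is a test family (`cut_contDiff`; `tsupport χ` is closed and bounded); `L.ap v l x = 0` when `x ∉ tsupport χ` or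
`χ = 1` near `x` (`ap_eq`, `sy_zero`, `sy_ev`); otherwise `comm_bd` and `ie1` bound the right integrand by `card ι * C₂ * Ci * m`; it vanishes off `S`. -/

open MeasureTheory Set Filter Topology Metric
open scoped ContDiff ENNReal

noncomputable section

namespace Vale.Agent.P088.Cr

open Vale.Agent.P292E Vale.Agent.P088F

variable {n : ℕ} {ι : Type} [Fintype ι] [DecidableEq ι]

/-- the Carleman inequality for tests in `S` -/
def Carl (L : Op n ι) (φ : V n → ℝ) (S : Set (V n)) (τ₀ C : ℝ) : Prop :=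
  ∀ τ, τ₀ ≤ τ → ∀ v, TstF S v →
    ∫ x, Real.exp (-2 * τ * φ x) * ∑ l, (τ ^ 3 * ‖v l x‖ ^ 2 + τ * ∑ j, ‖pd j (v l) x‖ ^ 2) ≤
      C * ∫ x, Real.exp (-2 * τ * φ x) * ∑ l, ‖L.ap v l x‖ ^ 2

theorem cca_pd (f : V n → ℂ) (j : Fin n) (z : V n) : ‖pd j f z‖ ≤ ‖iteratedFDeriv ℝ 1 f z‖ := by
  rw [norm_iteratedFDeriv_one]
  simpa [ee, pd] using (fderiv ℝ f z).le_opNorm (ee j)

theorem cca_pd2 {f : V n → ℂ} (hf : ContDiff ℝ ∞ f) (j k : Fin n) (z : V n) :
    ‖pd j (pd k f) z‖ ≤ ‖iteratedFDeriv ℝ 2 f z‖ := by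
  refine (cca_pd _ j z).trans (((ContinuousLinearMap.apply ℝ ℂ (ee k)).norm_iteratedFDeriv_comp_left
    (BdC_at isOpen_univ (BdC_fderiv isOpen_univ hf.contDiffOn) (mem_univ z) 1) le_rfl).trans ?_)
  rw [norm_iteratedFDeriv_fderiv]
  refine mul_le_of_le_one_left (norm_nonneg _)
    (ContinuousLinearMap.opNorm_le_bound _ zero_le_one fun L => ?_)
  simpa [ee] using L.le_opNorm (ee k)

theorem cca_mul2 {c f : V n → ℂ} {D : Set (V n)} {x : V n} (hc : ContDiff ℝ ∞ c) (hD : IsOpen D)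
    (hx : x ∈ D) (hf : ContDiffOn ℝ ∞ f D) (j k : Fin n) :
    pd j (pd k fun y => c y * f y) x = pd j (pd k c) x * f x + pd k c x * pd j f x +
      (pd j c x * pd k f x + c x * pd j (pd k f) x) := by
  have df : ∀ {g : V n → ℂ}, ContDiffOn ℝ ∞ g D → ∀ y ∈ D, DifferentiableAt ℝ g y :=
    fun hg y hy => (hg.contDiffAt (hD.mem_nhds hy)).differentiableAt (by simp)
  have h1 : (pd k fun y => c y * f y) =ᶠ[𝓝 x] fun y => pd k c y * f y + c y * pd k f y := by
    filter_upwards [hD.mem_nhds hx] with y hy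
    exact sys_pd_mul (df hc.contDiffOn y hy) (df hf y hy) k
  have a1 := df hc.contDiffOn x hx
  have a2 := df hf x hx
  have a3 := df (contDiffOn_pd hD hc.contDiffOn k) x hx
  have a4 := df (contDiffOn_pd hD hf k) x hx
  rw [← sys_pd_mul a3 a2, ← sys_pd_mul a1 a4, pd, h1.fderiv_eq,
    fderiv_fun_add (a3.fun_mul a2) (a1.fun_mul a4)]
  rfl

theorem cca_int {φ G : V n → ℝ} {S T : Set (V n)} (hT : IsCompact T) (hs : T ⊆ S)
    (hφ : ContinuousOn φ S) (hG : Continuous G) (h0 : ∀ x ∉ T, G x = 0) (τ : ℝ) :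
    Integrable fun x => Real.exp (-2 * τ * φ x) * G x := by
  refine (integrableOn_iff_integrable_of_support_subset (s := T) fun x hx => ?_).1 ?_
  · by_contra h
    exact hx (by simp only [h0 x h, mul_zero])
  · exact (((continuousOn_const.mul (hφ.mono hs)).rexp).mul hG.continuousOn).integrableOn_compact hT

theorem ie1 (h : IE n ι) : ∃ K : ℕ, ∀ M c r : ℝ, 0 < c → 0 < r → r ≤ 1 → ∃ Ci : ℝ, 0 ≤ Ci ∧
    ∀ L : Op n ι, L.Sm → L.Bdd K M c → ∀ (z : V n) (u : Fm ι n), SolOn L (ball z r) u →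
      Bn (ball z r) u →
      ∑ l, (‖u l z‖ ^ 2 + ∑ j, ‖pd j (u l) z‖ ^ 2) ≤ Ci * n2 (ball z r) u := by
  obtain ⟨K, hK⟩ := h 1
  refine ⟨K, fun M c r hc hr hr1 => ?_⟩
  obtain ⟨C, hC⟩ := hK M c hc
  refine ⟨Fintype.card ι * ((1 + n) * (C / r) ^ 2 / r ^ n), by positivity,
    fun L hL hB z u hu hb => ?_⟩
  have h0 := div_nonneg (n2_nonneg (ball z r) u) (pow_pos hr n).le
  have h1 := hC L hL hB z r hr hr1 u hu √(n2 (ball z r) u / r ^ n) (Real.sqrt_nonneg _) (by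
    rw [N2_eq isOpen_ball isBounded_ball (fun l => (hu.1 l).continuousOn) hb, Real.sq_sqrt h0,
      div_mul_cancel₀ _ (pow_pos hr n).ne'])
  have h2 : ∀ l, ∀ i ≤ 1, ‖iteratedFDeriv ℝ i (u l) z‖ ^ 2 ≤
      (C / r) ^ 2 * (n2 (ball z r) u / r ^ n) := fun l i hi => by
    rw [← Real.sq_sqrt h0, ← mul_pow]
    refine pow_le_pow_left₀ (norm_nonneg _) ((h1 l i hi).trans ?_) 2
    have h3 := (norm_nonneg _).trans (h1 l 0 zero_le_one)
    rw [pow_zero, div_one] at h3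
    rw [div_mul_eq_mul_div]
    refine div_le_div_of_nonneg_left h3 hr ?_
    simpa using pow_le_pow_of_le_one hr.le hr1 hi
  refine (Finset.sum_le_card_nsmul _ _ ((1 + n) * ((C / r) ^ 2 * (n2 (ball z r) u / r ^ n)))
    fun l _ => ?_).trans (le_of_eq ?_)
  · have h3 := h2 l 0 zero_le_one
    rw [norm_iteratedFDeriv_zero] at h3
    have h4 := Finset.sum_le_card_nsmul Finset.univ _ _ fun (j : Fin n) _ =>
      (pow_le_pow_left₀ (norm_nonneg _) (cca_pd (u l) j z) 2).trans (h2 l 1 le_rfl)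
    rw [Finset.card_univ, Fintype.card_fin, nsmul_eq_mul] at h4
    linarith
  · rw [Finset.card_univ, nsmul_eq_mul]
    ring

theorem iea (h : IE n ι) : ∃ K : ℕ, ∀ M c r : ℝ, 0 < c → 0 < r → r ≤ 1 → ∃ Ci : ℝ, 0 ≤ Ci ∧
    ∀ L : Op n ι, L.Sm → L.Bdd K M c → ∀ S, IEa (Po L) S r Ci := by
  obtain ⟨K, hK⟩ := ie1 h
  refine ⟨K, fun M c r hc hr hr1 => ?_⟩
  obtain ⟨Ci, h0, hC⟩ := hK M c r hc hr hr1
  refine ⟨Ci, h0, fun L hL hB S D u z _ _ hu hb hz l => le_trans ?_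
    (hC L hL hB z u ((po_iff.1 hu).mono hz) (hb.imp fun _ h l x hx => h l x (hz hx)))⟩
  refine le_trans (le_add_of_nonneg_right (by positivity)) (Finset.single_le_sum
    (f := fun l => ‖u l z‖ ^ 2 + ∑ j, ‖pd j (u l) z‖ ^ 2) (fun _ _ => by positivity)
    (Finset.mem_univ l))

theorem comm_bd (n : ℕ) (ι : Type) [Fintype ι] (M B : ℝ) : ∃ C : ℝ, 0 ≤ C ∧
    ∀ (L : Op n ι) (c : ℝ) (χ : V n → ℝ) (u : Fm ι n) (D : Set (V n)) (x : V n), L.Bdd 0 M c →
      ContDiff ℝ ∞ χ → Bd 2 χ {x} B → IsOpen D → x ∈ D → SolOn L D u → ∀ l,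
      ‖L.ap (fun l y => (χ y : ℂ) * u l y) l x‖ ^ 2 ≤
        C * ∑ l, (‖u l x‖ ^ 2 + ∑ j, ‖pd j (u l) x‖ ^ 2) := by
  refine ⟨(n * (n * (|M| * (3 * |B|))) + Fintype.card ι * (n * (|M| * |B|))) ^ 2, sq_nonneg _,
    fun L c χ u D x hL hχ hB hD hx hu l => ?_⟩
  obtain ⟨T, hT⟩ : ∃ T, T = ∑ l, (‖u l x‖ ^ 2 + ∑ j, ‖pd j (u l) x‖ ^ 2) := ⟨_, rfl⟩
  have hT0 : 0 ≤ T := by rw [hT]; positivity
  have h1 : ∀ m, ‖u m x‖ ^ 2 + ∑ j, ‖pd j (u m) x‖ ^ 2 ≤ T := fun m => hT ▸ Finset.single_le_sum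
    (f := fun l => ‖u l x‖ ^ 2 + ∑ j, ‖pd j (u l) x‖ ^ 2) (fun _ _ => by positivity)
    (Finset.mem_univ m)
  have u0 : ∀ m, ‖u m x‖ ≤ √T := fun m =>
    Real.le_sqrt_of_sq_le ((le_add_of_nonneg_right (by positivity)).trans (h1 m))
  have u1 : ∀ m j, ‖pd j (u m) x‖ ≤ √T := fun m j => Real.le_sqrt_of_sq_le
    ((Finset.single_le_sum (f := fun j => ‖pd j (u m) x‖ ^ 2) (fun _ _ => by positivity)
      (Finset.mem_univ j)).trans ((le_add_of_nonneg_left (by positivity)).trans (h1 m)))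
  have hc : ContDiff ℝ ∞ fun y => (χ y : ℂ) := Complex.ofRealCLM.contDiff.comp hχ
  have c0 : ∀ i ≤ 2, ‖iteratedFDeriv ℝ i (fun y => (χ y : ℂ)) x‖ ≤ |B| := fun i hi =>
    (Complex.ofRealCLM.norm_iteratedFDeriv_comp_left hχ.contDiffAt (BdC_le i)).trans (by
      rw [Complex.ofRealCLM_norm, one_mul]
      exact (hB i hi x rfl).trans (le_abs_self B))
  have c1 := fun j => (cca_pd _ j x).trans (c0 1 one_le_two)
  have c2 := fun j k => (cca_pd2 hc j k x).trans (c0 2 le_rfl)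
  have e : L.ap (fun l y => (χ y : ℂ) * u l y) l x = (χ x : ℂ) * L.ap u l x +
      (∑ j, ∑ k, L.gc j k x * (pd j (pd k fun y => (χ y : ℂ)) x * u l x +
        pd k (fun y => (χ y : ℂ)) x * pd j (u l) x + pd j (fun y => (χ y : ℂ)) x * pd k (u l) x) +
      ∑ m, ∑ j, L.a j l m x * (pd j (fun y => (χ y : ℂ)) x * u m x)) := by
    have a1 := fun m j => sys_pd_mul (hc.differentiable (by simp) x)
      (((hu.1 m).contDiffAt (hD.mem_nhds hx)).differentiableAt (by simp)) j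
    simp only [Op.ap, cca_mul2 hc hD hx (hu.1 l), a1, mul_add, Finset.mul_sum,
      Finset.sum_add_distrib, mul_left_comm (χ x : ℂ)]
    ring
  rw [e, hu.2 l x hx, mul_zero, zero_add, ← hT, ← Real.sq_sqrt hT0, ← mul_pow]
  refine pow_le_pow_left₀ (norm_nonneg _) ((norm_add_le _ _).trans ?_) 2
  have hs := Real.sqrt_nonneg T
  have b1 : ∀ {a b : ℂ}, ‖a‖ ≤ |B| → ‖b‖ ≤ √T → ‖a * b‖ ≤ |B| * √T := fun ha hb =>
    (norm_mul_le _ _).trans (mul_le_mul ha hb (norm_nonneg _) (abs_nonneg _))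
  have s1 : ∀ {κ : Type} [Fintype κ] {f : κ → ℂ} {A : ℝ}, (∀ i, ‖f i‖ ≤ A) →
      ‖∑ i, f i‖ ≤ Fintype.card κ * A := fun h =>
    (norm_sum_le _ _).trans ((Finset.sum_le_card_nsmul _ _ _ fun i _ => h i).trans_eq
      (nsmul_eq_mul _ _))
  have g1 : ∀ j k, ‖L.gc j k x‖ ≤ |M| := fun j k => by
    rw [Op.gc, Complex.norm_real]
    exact ((hL.g j k).norm_le (mem_univ x)).trans (le_abs_self M)
  refine (add_le_add (s1 fun j => s1 fun k => (norm_mul_le _ _).trans (mul_le_mul (g1 j k)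
    ((norm_add₃_le).trans (add_le_add (add_le_add (b1 (c2 j k) (u0 l)) (b1 (c1 k) (u1 l j)))
      (b1 (c1 j) (u1 l k)))) (norm_nonneg _) (abs_nonneg _)))
    (s1 fun m => s1 fun j => (norm_mul_le _ _).trans (mul_le_mul
      (((hL.a j l m).norm_le (mem_univ x)).trans (le_abs_self M)) (b1 (c1 j) (u0 m))
      (norm_nonneg _) (abs_nonneg _)))).trans (le_of_eq ?_)
  rw [Fintype.card_fin]
  ring

theorem caa (h : IE n ι) : ∃ K : ℕ, ∀ M c r B v C : ℝ, 0 < c → 0 < r → r ≤ 1 → 0 ≤ C →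
    ∃ Cc : ℝ, 0 ≤ Cc ∧ ∀ (L : Op n ι) (φ : V n → ℝ) (S : Set (V n)) (τ₀ : ℝ), L.Sm → L.Bdd K M c →
      IsOpen S → Bornology.IsBounded S → volume.real S ≤ v → ContinuousOn φ S → 1 ≤ τ₀ →
      Carl L φ S τ₀ C → CAa (Po L) φ S r B τ₀ Cc := by
  obtain ⟨K, hK⟩ := ie1 h
  refine ⟨K, fun M c r B v C hc hr hr1 hC => ?_⟩
  obtain ⟨Ci, hCi, h1⟩ := hK M c r hc hr hr1
  obtain ⟨C₂, hC₂, h2⟩ := comm_bd n ι M B
  refine ⟨C * (|v| * (Fintype.card ι * (C₂ * Ci))), by positivity,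
    fun L φ S τ₀ hL hB hS hb hv hφ hτ₀ hcar D u χ τ m hD hDS hu hbn hχ hsup hχB hτ hm hz => ?_⟩
  rw [po_iff] at hu
  have hT : IsCompact (tsupport χ) :=
    isCompact_of_isClosed_isBounded (isClosed_tsupport _) (hb.subset (hsup.trans hDS))
  have hs : tsupport (fun y => (χ y : ℂ)) ⊆ tsupport χ :=
    closure_mono fun x hx h0 => hx (by simp only [h0, Complex.ofReal_zero])
  have hct : Tst D fun y => (χ y : ℂ) := ⟨Complex.ofRealCLM.contDiff.comp hχ,
    hT.of_isClosed_subset (isClosed_tsupport _) hs, hs.trans hsup⟩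
  obtain ⟨w, hw⟩ : ∃ w : Fm ι n, w = fun l y => (χ y : ℂ) * u l y := ⟨_, rfl⟩
  have hwt : TstF D w := fun l => hw ▸ cut_contDiff hD hct (hu.1 l)
  have hws : ∀ l, tsupport (w l) ⊆ tsupport χ := fun l => hw ▸ tsupport_mul_subset_left.trans hs
  have ht1 : 1 ≤ τ := hτ₀.trans hτ
  have ht0 : 0 ≤ τ := zero_le_one.trans ht1
  have i1 := cca_int hT (hsup.trans hDS) hφ
    (G := fun x => ∑ l, (τ ^ 3 * ‖w l x‖ ^ 2 + τ * ∑ j, ‖pd j (w l) x‖ ^ 2))
    (continuous_finsetSum _ fun l _ => (continuous_const.mul ((hwt l).1.continuous.norm.pow 2)).add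
      (continuous_const.mul (continuous_finsetSum _ fun j _ =>
        ((hwt l).pd j).1.1.continuous.norm.pow 2)))
    (fun x hx => Finset.sum_eq_zero fun l _ => by
      rw [image_eq_zero_of_notMem_tsupport fun h => hx (hws l h), Finset.sum_eq_zero fun j _ => by
        rw [image_eq_zero_of_notMem_tsupport fun h => hx (hws l (((hwt l).pd j).2 h)), norm_zero,
          zero_pow two_ne_zero]]
      simp) τ
  refine le_trans (integral_mono_of_nonneg (Eventually.of_forall fun x => by positivity)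
    i1.integrableOn (Eventually.of_forall fun x => ?_)) ((setIntegral_le_integral i1
      (Eventually.of_forall fun x => by positivity)).trans
      ((hcar τ hτ w (hwt.mono hDS)).trans ?_))
  · simp only
    rw [mul_assoc, Finset.mul_sum]
    refine mul_le_mul_of_nonneg_left (Finset.sum_le_sum fun l _ => ?_) (Real.exp_pos _).le
    have e : ‖w l x‖ ^ 2 = χ x ^ 2 * ‖u l x‖ ^ 2 := by
      rw [hw, norm_mul, mul_pow, Complex.norm_real, Real.norm_eq_abs, sq_abs]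
    rw [← e]
    exact (le_mul_of_one_le_left (sq_nonneg _) (one_le_pow₀ ht1)).trans
      (le_add_of_nonneg_right (by positivity))
  obtain ⟨E, hE⟩ : ∃ E : ℝ, E = Fintype.card ι * (C₂ * Ci) * m := ⟨_, rfl⟩
  have hE0 : 0 ≤ E := by rw [hE]; positivity
  rw [mul_assoc, mul_assoc, ← hE]
  refine mul_le_mul_of_nonneg_left ((integral_mono_of_nonneg
    (Eventually.of_forall fun x => by positivity)
    ((integrable_indicator_iff hS.measurableSet).2
      (integrableOn_const (C := E) hb.measure_lt_top.ne)) (Eventually.of_forall fun x => ?_)).trans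
    ?_) hC
  · by_cases hx : x ∈ tsupport χ
    · rw [indicator_of_mem (hDS (hsup hx))]
      rcases hz x hx with h3 | ⟨h3, h4⟩
      · rw [Finset.sum_eq_zero fun l _ => by
          rw [L.ap_ev (v := u) (fun l => by
            filter_upwards [h3] with y hy
            rw [hw]
            simp only [hy, Complex.ofReal_one, one_mul]) l, hu.2 l x (hsup hx), norm_zero,
            zero_pow two_ne_zero], mul_zero]
        exact hE0
      · have h5 := Finset.sum_le_card_nsmul Finset.univ _ _ fun l _ =>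
          (h2 L c χ u D x (hB.mono (Nat.zero_le _) le_rfl le_rfl) hχ
            (hχB.mono le_rfl (singleton_subset_iff.2 (hDS (hsup hx))) le_rfl) hD (hsup hx) hu
            l).trans (mul_le_mul_of_nonneg_left (h1 L hL hB x u (hu.mono h3)
              (hbn.imp fun _ h l y hy => h l y (h3 hy))) hC₂)
        rw [← hw, Finset.card_univ, nsmul_eq_mul] at h5
        refine (mul_le_mul_of_nonneg_left h5 (Real.exp_pos _).le).trans ?_
        rw [hE]
        refine le_trans (le_of_eq ?_) (mul_le_mul_of_nonneg_left h4 (by positivity))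
        ring
    · rw [Finset.sum_eq_zero fun l _ => by
        rw [image_eq_zero_of_notMem_tsupport fun h => hx
          ((hL.tst (isOpen_compl_singleton (x := x)) fun l => ⟨(hwt l).1, (hwt l).2.1,
            fun y hy e => hx (e ▸ hws l hy)⟩) l |>.2.2 h rfl).elim, norm_zero,
          zero_pow two_ne_zero], mul_zero]
      exact indicator_nonneg (fun _ _ => hE0) x
  · rw [integral_indicator_const _ hS.measurableSet, smul_eq_mul]
    exact mul_le_mul_of_nonneg_right (hv.trans (le_abs_self v)) hE0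

end Vale.Agent.P088.Cr
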