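import Vale.Agent.P088F.CSepA

/-! P088, part C: continuous kernels whose slices are solutions are smooth. -/

open MeasureTheory Set Filter Topology Metric
open scoped ContDiff

noncomputable section

namespace Vale.Agent.P088.Cr

open Vale.Agent.P292E Vale.Agent.P088F Vale.Agent.P299

variable {n : ℕ} {ι : Type} [Fintype ι] [DecidableEq ι] {D D' : Set (V n)}
  {a a' : Fin n → Fin n → V n → ℂ} {b b' : Fin n → ι → ι → V n → ℂ} {c c' : ι → ι → V n → ℂ}
  {W : Kn ι n}

theorem csep_sm {F : Type} [NormedAddCommGroup F] [NormedSpace ℝ F] {φ : F → ℂ}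
    (h : ContDiff ℝ ∞ φ) (v : F) : ContDiff ℝ ∞ (m2d v φ) :=
  (h.fderiv_right (m := ∞) (by exact_mod_cast le_top)).clm_apply contDiff_const

theorem csep_fst {t : ι × ι → V n × V n → ℂ} (ht : ∀ I, ContDiff ℝ ∞ (t I)) (l m : ι)
    (z : V n × V n) : Sy' a b c (fun l x => t (l, m) (x, z.2)) l z.1 =
      ∑ i : Fin n × Fin n, a i.2 i.1 z.1 * m2d (ee i.1, 0) (m2d (ee i.2, 0) (t (l, m))) z +
      ∑ p, ∑ J : ι × ι, (if m = J.2 then tb a b p l J.1 z.1 else 0) * m2d (ee p, 0) (t J) z +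
      ∑ J : ι × ι, (if m = J.2 then tc a b c l J.1 z.1 else 0) * t J z := by
  simp only [Sy', Sy, pd_fst (ht _), pd_fst (csep_sm (ht _) _), Fintype.sum_prod_type, ite_mul,
    zero_mul, Finset.sum_ite_eq, Finset.mem_univ, if_true]

theorem csep_snd {t : ι × ι → V n × V n → ℂ} (ht : ∀ I, ContDiff ℝ ∞ (t I)) (l m : ι)
    (z : V n × V n) : Sy' a b c (fun m y => t (l, m) (z.1, y)) m z.2 =
      ∑ i : Fin n × Fin n, a i.2 i.1 z.2 * m2d (0, ee i.1) (m2d (0, ee i.2) (t (l, m))) z +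
      ∑ p, ∑ J : ι × ι, (if l = J.1 then tb a b p m J.2 z.2 else 0) * m2d (0, ee p) (t J) z +
      ∑ J : ι × ι, (if l = J.1 then tc a b c m J.2 z.2 else 0) * t J z := by
  simp only [Sy', Sy, pd_snd (ht _), pd_snd (csep_sm (ht _) _), Fintype.sum_prod_type_right,
    ite_mul, zero_mul, Finset.sum_ite_eq, Finset.mem_univ, if_true]
  rw [Finset.sum_comm]

theorem csep_zero {ξ : V n →L[ℝ] ℝ} (h : (WithLp.toLp 2 fun p => ξ (ee p) : V n) = 0) : ξ = 0 := by
  refine ContinuousLinearMap.coe_injective ((EuclideanSpace.basisFun (Fin n) ℝ).toBasis.ext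
    fun p => ?_)
  simpa [ee] using congrArg (fun v : V n => v p) h

theorem csep_symb (A : Fin n → Fin n → ℂ) (ξ : Fin n → ℝ) :
    (∑ i : Fin n × Fin n, A i.2 i.1 * ξ i.1 * ξ i.2).re = symb A (WithLp.toLp 2 ξ) := by
  rw [symb, Fintype.sum_prod_type_right]
  simp only [mul_right_comm]

theorem csep_nn {S : Set (V n)} (he : El S a) {x : V n} (hx : x ∈ S) (ξ : V n) :
    0 ≤ symb (fun p q => a p q x) ξ := by
  by_cases h : ξ = 0
  · simp [h, symb]
  · exact (he x hx ξ h).le

theorem csep_if {F : Type} [NormedAddCommGroup F] [NormedSpace ℝ F] {g : F → ℂ} {U : Set F}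
    (P : Prop) [Decidable P] (h : ContDiffOn ℝ ∞ g U) :
    ContDiffOn ℝ ∞ (fun z => if P then g z else 0) U := by
  split_ifs
  exacts [h, contDiffOn_const]

/-- `m2_sys` on `V n × V n` for the sum of the two operators: second order index
`(Fin n × Fin n) ⊕ (Fin n × Fin n)`, first order index `Fin n ⊕ Fin n`, `κ = ι × ι`,
`β (inl p) z (l,m) (l',m') = if m = m' then tb a b p l l' z.1 else 0` etc.; then `sm_of_ae`. -/
theorem sep_wk (h : Cf D a b c) (he : El D a) (h' : Cf D' a' b' c') (he' : El D' a')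
    (hW : ∀ l m, ContinuousOn (W l m) (D ×ˢ D')) (hx : ∀ m, ∀ y ∈ D', Wk D a b c (sx W m y))
    (hy : ∀ l, ∀ x ∈ D, Wk D' a' b' c' (sy W l x)) (l m : ι) :
    ContDiffOn ℝ ∞ (W l m) (D ×ˢ D') := by
  have hU := h.op.prod h'.op
  have k1 : ∀ {g : V n → ℂ}, ContDiffOn ℝ ∞ g D →
      ContDiffOn ℝ ∞ (fun z : V n × V n => g z.1) (D ×ˢ D') :=
    fun hg => hg.comp contDiffOn_fst fun z hz => hz.1
  have k2 : ∀ {g : V n → ℂ}, ContDiffOn ℝ ∞ g D' →
      ContDiffOn ℝ ∞ (fun z : V n × V n => g z.2) (D ×ˢ D') :=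
    fun hg => hg.comp contDiffOn_snd fun z hz => hz.2
  have : (volume : Measure (V n × V n)).IsAddHaarMeasure :=
    Measure.prod.instIsAddHaarMeasure volume volume
  refine sm_of_ae volume hU (hW l m) fun z₀ hz => ?_
  obtain ⟨O, o1, o2, g, g1, g2⟩ := m2_sys (volume : Measure (V n × V n))
    (ι := (Fin n × Fin n) ⊕ (Fin n × Fin n)) (ι' := Fin n ⊕ Fin n) (κ := ι × ι)
    (Sum.elim (fun i => (ee i.1, 0)) fun i => (0, ee i.1))
    (Sum.elim (fun i => (ee i.2, 0)) fun i => (0, ee i.2))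
    (Sum.elim (fun p => (ee p, 0)) fun p => (0, ee p))
    (Sum.elim (fun i z => a i.2 i.1 z.1) fun i z => a' i.2 i.1 z.2)
    (Sum.elim (fun p z => Matrix.of fun I J => if I.2 = J.2 then tb a b p I.1 J.1 z.1 else 0)
      fun p z => Matrix.of fun I J => if I.1 = J.1 then tb a' b' p I.2 J.2 z.2 else 0)
    (fun z => Matrix.of fun I J => (if I.2 = J.2 then tc a b c I.1 J.1 z.1 else 0) +
      if I.1 = J.1 then tc a' b' c' I.2 J.2 z.2 else 0)
    (fun z I => W I.1 I.2 z) 0 hU
    (fun i => by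
      cases i
      exacts [k1 (h.a _ _), k2 (h'.a _ _)])
    (fun i I J => by
      cases i
      exacts [csep_if _ (k1 (h.tr.b _ _ _)), csep_if _ (k2 (h'.tr.b _ _ _))])
    (fun I J => (csep_if _ (k1 (h.tr.c _ _))).add (csep_if _ (k2 (h'.tr.c _ _))))
    (fun I => contDiffOn_const) (fun I => (hW _ _).locallyIntegrableOn hU.measurableSet)
    (fun t ht => by
      obtain ⟨i1, e1⟩ := weak_fst h h'.op hW hx ht
      obtain ⟨i2, e2⟩ := weak_snd h' h.op hW hy ht
      have e3 := integral_add i1 i2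
      rw [e1, e2, add_zero] at e3
      simp only [Pi.zero_apply, zero_mul, Finset.sum_const_zero, integral_zero]
      refine Eq.trans (integral_congr_ae (.of_forall fun z => ?_)) e3
      simp only
      rw [Finset.sum_comm (s := Finset.univ) (t := Finset.univ) (f := fun m l =>
        W l m z * Sy' a b c (fun l x => t (l, m) (x, z.2)) l z.1), Fintype.sum_prod_type,
        ← Finset.sum_add_distrib]
      refine Finset.sum_congr rfl fun l _ => ?_
      rw [← Finset.sum_add_distrib]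
      refine Finset.sum_congr rfl fun m _ => ?_
      rw [csep_fst fun I => (ht I).1, csep_snd fun I => (ht I).1]
      simp only [Fintype.sum_sum_type, Sum.elim_inl, Sum.elim_inr, Matrix.of_apply, add_mul,
        Finset.sum_add_distrib]
      ring) hz
    (fun ξ hξ => by
      simp only [Fintype.sum_sum_type, Sum.elim_inl, Sum.elim_inr, Complex.add_re]
      rw [csep_symb (fun p q => a p q z₀.1) fun p => ξ (ee p, 0),
        csep_symb (fun p q => a' p q z₀.2) fun p => ξ (0, ee p)]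
      by_cases h1 : (WithLp.toLp 2 fun p => ξ (ee p, 0) : V n) = 0
      · refine add_pos_of_nonneg_of_pos (csep_nn he hz.1 _) (he' _ hz.2 _ fun h2 => hξ ?_)
        exact ContinuousLinearMap.prod_ext
          ((csep_zero (ξ := ξ.comp (.inl ℝ _ _)) h1).trans (ContinuousLinearMap.zero_comp _).symm)
          ((csep_zero (ξ := ξ.comp (.inr ℝ _ _)) h2).trans (ContinuousLinearMap.zero_comp _).symm)
      · exact add_pos_of_pos_of_nonneg (he _ hz.1 _ h1) (csep_nn he' hz.2 _))
  exact ⟨O, o1, o2, g (l, m), g1 _, g2.mono fun z k hz => k hz (l, m)⟩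

omit [DecidableEq ι] in
theorem sep {S S' : Set (V n)} (h : Cf S a b c) (he : El S a) (h' : Cf S' a' b' c')
    (he' : El S' a') (hD : IsOpen D) (hD' : IsOpen D') (hs : D ⊆ S) (hs' : D' ⊆ S')
    (hW : Sl (PS S a b c) (PS S' a' b' c') D D' W) (l m : ι) :
    ContDiffOn ℝ ∞ (W l m) (D ×ˢ D') := by
  classical
  refine sep_wk (h.mono hD hs) (fun x hx => he x (hs hx)) (h'.mono hD' hs')
    (fun x hx => he' x (hs' hx)) hW.cont (fun m y hy => ?_) (fun l x hx => ?_) l m
  · have k := ((ps_iff h he hD).1 (hW.px m y hy)).2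
    rwa [inter_eq_left.2 hs] at k
  · have k := ((ps_iff h' he' hD').1 (hW.py l x hx)).2
    rwa [inter_eq_left.2 hs'] at k

end Vale.Agent.P088.Cr
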