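import Vale.Agent.P088F.CShB

/-! P088, part C: classical solutions form a class of solutions. -/

open MeasureTheory Set Filter Topology Metric
open scoped ContDiff ComplexConjugate

noncomputable section

namespace Vale.Agent.P088.Cr

open Vale.Agent.P292E Vale.Agent.P088F

variable {n : ℕ} {ι : Type} [Fintype ι] {S : Set (V n)}
  {a : Fin n → Fin n → V n → ℂ} {b : Fin n → ι → ι → V n → ℂ} {c : ι → ι → V n → ℂ}

/-- A function continuous on an open set times a test function is integrable. -/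
theorem int_mul_tst {O : Set (V n)} (hO : IsOpen O) {f φ : V n → ℂ} (hf : ContinuousOn f O)
    (hφ : Tst O φ) : Integrable fun x => f x * φ x := by
  have hs : tsupport (fun x => f x * φ x) ⊆ O :=
    (tsupport_mul_subset_right (f := f) (g := φ)).trans hφ.2.2
  have hc : Continuous fun x => f x * φ x :=
    (hf.mul hφ.1.continuous.continuousOn).continuous_of_tsupport_subset hO hs
  exact hc.integrable_of_hasCompactSupport (HasCompactSupport.mul_left (f := f) hφ.2.1)

/-- Uniform limits: `‖∫ (u j - v) φ‖ ≤ ε ∫ ‖φ‖`. -/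
theorem lim_tst {O : Set (V n)} (hO : IsOpen O) {f : ℕ → V n → ℂ} {g φ : V n → ℂ}
    (hf : ∀ j, ContinuousOn (f j) O) (h : TendstoUniformlyOn f g atTop O) (hφ : Tst O φ) :
    Tendsto (fun j => ∫ x, f j x * φ x) atTop (𝓝 (∫ x, g x * φ x)) := by
  have hg : ContinuousOn g O := h.continuousOn (Frequently.of_forall hf)
  have h1 : Integrable fun x => ‖g x * φ x‖ + ‖(1 : ℂ) * φ x‖ :=
    (int_mul_tst hO hg hφ).norm.add (int_mul_tst hO continuousOn_const hφ).norm
  refine tendsto_integral_filter_of_dominated_convergence _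
    (Eventually.of_forall fun j => (int_mul_tst hO (hf j) hφ).aestronglyMeasurable) ?_ h1
    (Eventually.of_forall fun x => ?_)
  · filter_upwards [Metric.tendstoUniformlyOn_iff.1 h 1 one_pos] with j hj
    refine Eventually.of_forall fun x => ?_
    by_cases hx : x ∈ O
    · have k := hj x hx
      rw [dist_eq_norm, norm_sub_rev] at k
      have k2 : ‖f j x‖ ≤ ‖g x‖ + 1 := by
        have := norm_add_le (g x) (f j x - g x)
        rw [add_sub_cancel] at this
        linarith
      rw [norm_mul, norm_mul, one_mul]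
      nlinarith [norm_nonneg (φ x)]
    · rw [tst_zero hφ hx]
      simp
  · by_cases hx : x ∈ O
    · exact (h.tendsto_at hx).mul_const _
    · rw [tst_zero hφ hx]
      simp

theorem csh_slice {D Z : Set (V n)} {w : V n × V n → ℂ} (hW : ContinuousOn w (Z ×ˢ D))
    {y : V n} (hy : y ∈ D) : ContinuousOn (fun x => w (x, y)) Z :=
  hW.comp (Continuous.prodMk_left y).continuousOn fun _ hx => ⟨hx, hy⟩

theorem csh_slice' {D Z : Set (V n)} {w : V n × V n → ℂ} (hW : ContinuousOn w (Z ×ˢ D))
    {x : V n} (hx : x ∈ Z) : ContinuousOn (fun y => w (x, y)) D :=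
  hW.comp (Continuous.prodMk_right x).continuousOn fun _ hy => ⟨hx, hy⟩

theorem csh_conj {Z : Set (V n)} {g : V n → ℂ} (hg : ContinuousOn g Z) :
    ContinuousOn (fun x => conj (g x)) Z :=
  Complex.continuous_conj.comp_continuousOn hg

theorem csh_bd {u v : ℂ} {A B : ℝ} (hu : ‖u‖ ≤ A) (hv : ‖v‖ ≤ B) : ‖conj u * v‖ ≤ A * B := by
  rw [norm_mul, Complex.norm_conj]
  exact mul_le_mul hu hv (norm_nonneg _) ((norm_nonneg _).trans hu)

theorem csh_int {D Z : Set (V n)} {g : V n → ℂ} {w : V n × V n → ℂ} {A M : ℝ}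
    (hZ : IsOpen Z) (hb : Bornology.IsBounded Z) (hg : ContinuousOn g Z)
    (hA : ∀ x ∈ Z, ‖g x‖ ≤ A) (hW : ContinuousOn w (Z ×ˢ D)) (hM : ∀ p ∈ Z ×ˢ D, ‖w p‖ ≤ M)
    {y : V n} (hy : y ∈ D) :
    Integrable (fun x => conj (g x) * w (x, y)) (volume.restrict Z) := by
  have : IsFiniteMeasure ((volume : Measure (V n)).restrict Z) :=
    isFiniteMeasure_restrict.2 hb.measure_lt_top.ne
  refine (integrable_const (A * M)).mono'
    (((csh_conj hg).mul (csh_slice hW hy)).aestronglyMeasurable hZ.measurableSet) ?_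
  filter_upwards [ae_restrict_mem hZ.measurableSet] with x hx
  exact csh_bd (hA x hx) (hM _ ⟨hx, hy⟩)

theorem csh_prod {D Z : Set (V n)} {g φ : V n → ℂ} {w : V n × V n → ℂ} {A M : ℝ} (hD : IsOpen D)
    (hZ : IsOpen Z) (hb : Bornology.IsBounded Z) (hg : ContinuousOn g Z)
    (hA : ∀ x ∈ Z, ‖g x‖ ≤ A) (hW : ContinuousOn w (Z ×ˢ D)) (hM : ∀ p ∈ Z ×ˢ D, ‖w p‖ ≤ M)
    (hφ : Tst D φ) :
    Integrable (fun p : V n × V n => conj (g p.1) * (w p * φ p.2))
      ((volume.restrict Z).prod volume) := by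
  have : IsFiniteMeasure ((volume : Measure (V n)).restrict Z) :=
    isFiniteMeasure_restrict.2 hb.measure_lt_top.ne
  have hm : MeasurableSet (Z ×ˢ D) := hZ.measurableSet.prod hD.measurableSet
  have hae : ∀ᵐ p ∂((volume : Measure (V n)).restrict Z).prod (volume : Measure (V n)),
      p.1 ∈ Z := by
    rw [Measure.restrict_prod_eq_prod_univ]
    filter_upwards [ae_restrict_mem (hZ.measurableSet.prod MeasurableSet.univ)] with p hp
    exact hp.1
  have hc : ContinuousOn (fun p : V n × V n => conj (g p.1) * (w p * φ p.2)) (Z ×ˢ D) :=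
    ((csh_conj hg).comp continuous_fst.continuousOn fun _ hp => hp.1).mul
      (hW.mul (hφ.1.continuous.comp continuous_snd).continuousOn)
  have hi : Integrable fun y => ‖φ y‖ :=
    (hφ.1.continuous.integrable_of_hasCompactSupport hφ.2.1).norm
  refine ((integrable_const (A * M)).mul_prod hi).mono' ?_ ?_
  · refine ((aestronglyMeasurable_indicator_iff hm).2 (hc.aestronglyMeasurable hm)).congr ?_
    filter_upwards [hae] with p hp
    by_cases hy : p.2 ∈ D
    · exact indicator_of_mem (show p ∈ Z ×ˢ D from ⟨hp, hy⟩) _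
    · rw [indicator_of_notMem (fun k => hy k.2), tst_zero hφ hy, mul_zero, mul_zero]
  · filter_upwards [hae] with p hp
    by_cases hy : p.2 ∈ D
    · rw [← mul_assoc, norm_mul]
      exact mul_le_mul_of_nonneg_right (csh_bd (hA _ hp) (hM _ ⟨hp, hy⟩)) (norm_nonneg _)
    · rw [tst_zero hφ hy]
      simp

/-- Dominated convergence (`continuousOn_of_dominated`, bound `∑ Mg * M` on the bounded set). -/
theorem av_cont {D Z : Set (V n)} {g : Fm ι n} {W : Kn ι n} {M : ℝ} (hD : IsOpen D)
    (hZ : IsOpen Z) (hb : Bornology.IsBounded Z) (hg : ∀ l, ContinuousOn (g l) Z) (hB : Bn Z g)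
    (hW : ∀ l m, ContinuousOn (W l m) (Z ×ˢ D)) (hM : ∀ l m, ∀ p ∈ Z ×ˢ D, ‖W l m p‖ ≤ M)
    (m : ι) : ContinuousOn (av Z g W m) D := by
  obtain ⟨A, hA⟩ := hB
  have : IsFiniteMeasure ((volume : Measure (V n)).restrict Z) :=
    isFiniteMeasure_restrict.2 hb.measure_lt_top.ne
  refine continuousOn_of_dominated (bound := fun _ => ∑ _l : ι, A * M) (fun y hy => ?_)
    (fun y hy => ?_) (integrable_const _) ?_
  · exact (integrable_finsetSum _ fun l _ =>
      csh_int hZ hb (hg l) (hA l) (hW l m) (hM l m) hy).aestronglyMeasurable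
  · filter_upwards [ae_restrict_mem hZ.measurableSet] with x hx
    exact (norm_sum_le _ _).trans
      (Finset.sum_le_sum fun l _ => csh_bd (hA l x hx) (hM l m _ ⟨hx, hy⟩))
  · filter_upwards [ae_restrict_mem hZ.measurableSet] with x hx
    exact continuousOn_finsetSum _ fun l _ => continuousOn_const.mul (csh_slice' (hW l m) hx)

/-- Fubini (`integral_integral_swap`) for the bounded measurable integrand on `Z ×ˢ tsupport`. -/
theorem av_swap {D Z : Set (V n)} {g : Fm ι n} {W : Kn ι n} {M : ℝ} (hD : IsOpen D)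
    (hZ : IsOpen Z) (hb : Bornology.IsBounded Z) (hg : ∀ l, ContinuousOn (g l) Z) (hB : Bn Z g)
    (hW : ∀ l m, ContinuousOn (W l m) (Z ×ˢ D)) (hM : ∀ l m, ∀ p ∈ Z ×ˢ D, ‖W l m p‖ ≤ M)
    {s : Fm ι n} (hs : Ts D s) :
    ∫ y, ∑ m, av Z g W m y * s m y =
      ∫ x in Z, ∑ l, conj (g l x) * ∫ y, ∑ m, W l m (x, y) * s m y := by
  obtain ⟨A, hA⟩ := hB
  have hi : Integrable (Function.uncurry fun x y : V n =>
      ∑ l, ∑ m, conj (g l x) * (W l m (x, y) * s m y)) ((volume.restrict Z).prod volume) :=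
    integrable_finsetSum _ fun l _ => integrable_finsetSum _ fun m _ =>
      csh_prod hD hZ hb (hg l) (hA l) (hW l m) (hM l m) (hs m)
  have e1 : ∀ y, ∑ m, av Z g W m y * s m y =
      ∫ x in Z, ∑ l, ∑ m, conj (g l x) * (W l m (x, y) * s m y) := by
    intro y
    by_cases hy : y ∈ D
    · have k : ∀ m, av Z g W m y * s m y =
          ∫ x in Z, (∑ l, conj (g l x) * W l m (x, y)) * s m y := fun m =>
        (integral_mul_const _ _).symm
      simp only [k]
      rw [← integral_finsetSum _ fun m _ => (integrable_finsetSum _ fun l _ =>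
        csh_int hZ hb (hg l) (hA l) (hW l m) (hM l m) hy).mul_const (s m y)]
      refine integral_congr_ae (Eventually.of_forall fun x => ?_)
      simp only [Finset.sum_mul, mul_assoc]
      exact Finset.sum_comm
    · have k : ∀ m, s m y = 0 := fun m => tst_zero (hs m) hy
      simp [k]
  simp only [e1]
  rw [← integral_integral_swap hi]
  refine setIntegral_congr_fun hZ.measurableSet fun x hx => ?_
  have k : ∀ l, conj (g l x) * ∫ y, ∑ m, W l m (x, y) * s m y =
      ∫ y, conj (g l x) * ∑ m, W l m (x, y) * s m y := fun l => (integral_const_mul _ _).symm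
  simp only [k]
  rw [← integral_finsetSum _ fun l _ => (integrable_finsetSum _ fun m _ =>
    int_mul_tst hD (csh_slice' (hW l m) hx) (hs m)).const_mul (conj (g l x))]
  simp only [Finset.mul_sum]

/-- Use `ps_iff` for everything except `cont`, `mono`, `zero` (`classical` first); the tests are
`s = Sy' a b c t` (`Cf.tr`, `Cf.ts`), supported in `D ∩ S`. -/
theorem sh_ps (h : Cf S a b c) (he : El S a) : Sh (PS S a b c) := by
  classical
  have hs : ∀ {D : Set (V n)}, IsOpen D → ∀ {t : Fm ι n}, Ts (D ∩ S) t →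
      Ts D (Sy' a b c t) := fun {D} hD {t} ht l => by
    have k := (h.mono (hD.inter h.op) inter_subset_right).tr.ts ht l
    exact ⟨k.1, k.2.1, k.2.2.trans inter_subset_left⟩
  have hi : ∀ {D : Set (V n)}, IsOpen D → ∀ {u : Fm ι n}, (∀ l, ContinuousOn (u l) D) →
      ∀ {t : Fm ι n}, Ts (D ∩ S) t → Integrable fun x => ∑ l, u l x * Sy' a b c t l x :=
    fun hD _ hu _ ht => integrable_finsetSum _ fun l _ => int_mul_tst hD (hu l) (hs hD ht l)
  refine ⟨fun k => k.1, fun k _ hD => ⟨fun l => (k.1 l).mono hD,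
    fun l => (k.2.1 l).mono (inter_subset_inter_left _ hD),
    fun l x hx => k.2.2 l x ⟨hD hx.1, hx.2⟩⟩, ?_, ?_, ?_, ?_, ?_, ?_⟩
  · intro D u v hD k e
    obtain ⟨k1, k2⟩ := (ps_iff h he hD).1 k
    refine (ps_iff h he hD).2 ⟨fun l => (k1 l).congr (e l), fun t ht => ?_⟩
    rw [← k2 t ht]
    refine integral_congr_ae (Eventually.of_forall fun x => Finset.sum_congr rfl fun l _ => ?_)
    by_cases hx : x ∈ D
    · rw [e l x hx]
    · rw [tst_zero (hs hD ht l) hx, mul_zero, mul_zero]
  · intro D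
    have z : ∀ p : Fin n, pd p (0 : V n → ℂ) = 0 := fun p => by
      funext x
      simp [pd]
    refine ⟨fun l => continuousOn_const, fun l => contDiffOn_const, fun l x _ => ?_⟩
    simp [Sy, z]
  · intro D u v hD k k'
    obtain ⟨k1, k2⟩ := (ps_iff h he hD).1 k
    obtain ⟨k3, k4⟩ := (ps_iff h he hD).1 k'
    refine (ps_iff h he hD).2 ⟨fun l => (k1 l).add (k3 l), fun t ht => ?_⟩
    have e := integral_add (hi hD k1 ht) (hi hD k3 ht)
    rw [k2 t ht, k4 t ht, add_zero] at e
    rw [← e]
    refine integral_congr_ae (Eventually.of_forall fun x => ?_)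
    simp only [Pi.add_apply, add_mul, Finset.sum_add_distrib]
  · intro D u z hD k
    obtain ⟨k1, k2⟩ := (ps_iff h he hD).1 k
    refine (ps_iff h he hD).2 ⟨fun l => (k1 l).const_smul z, fun t ht => ?_⟩
    have e := integral_const_mul (μ := volume) z fun x => ∑ l, u l x * Sy' a b c t l x
    rw [k2 t ht, mul_zero] at e
    rw [← e]
    refine integral_congr_ae (Eventually.of_forall fun x => ?_)
    simp only [Pi.smul_apply, smul_eq_mul, Finset.mul_sum, mul_assoc]
  · intro D v u hD k e
    have k1 := fun j => ((ps_iff h he hD).1 (k j)).1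
    have k2 := fun j => ((ps_iff h he hD).1 (k j)).2
    have hv : ∀ l, ContinuousOn (v l) D := fun l =>
      (e l).continuousOn (Frequently.of_forall fun j => k1 j l)
    refine (ps_iff h he hD).2 ⟨hv, fun t ht => ?_⟩
    have lim := tendsto_finsetSum Finset.univ fun l _ =>
      lim_tst hD (fun j => k1 j l) (e l) (hs hD ht l)
    have z : ∀ j, ∑ l, ∫ x, u j l x * Sy' a b c t l x = 0 := fun j => by
      rw [← integral_finsetSum _ fun l _ => int_mul_tst hD (k1 j l) (hs hD ht l)]
      exact k2 j t ht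
    simp only [z] at lim
    rw [integral_finsetSum _ fun l _ => int_mul_tst hD (hv l) (hs hD ht l)]
    exact tendsto_nhds_unique lim tendsto_const_nhds
  · intro D Z g W M hD hZ hb hg hB hW hM k
    refine (ps_iff h he hD).2 ⟨av_cont hD hZ hb hg hB hW hM, fun t ht => ?_⟩
    rw [av_swap hD hZ hb hg hB hW hM (hs hD ht)]
    refine setIntegral_eq_zero_of_forall_eq_zero fun x hx => Finset.sum_eq_zero fun l _ => ?_
    have e : ∫ y, ∑ m, W l m (x, y) * Sy' a b c t m y = 0 :=
      ((ps_iff h he hD).1 (k l x hx)).2 t ht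
    rw [e, mul_zero]

end Vale.Agent.P088.Cr
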