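import Vale.Agent.P088F.Ker1
import Vale.Agent.P088F.Defs

/-! Part R: the bridge to the bundled operators, regularity. -/

open MeasureTheory Set Filter Topology Metric
open scoped ContDiff ENNReal

noncomputable section

namespace Vale.Agent.P088F

open Vale.Agent.P292E

variable {n : ℕ} {ι : Type} [Fintype ι] [DecidableEq ι] {L : Op n ι} {s : Set (V n)}
  {u φ : Fam n ι}

omit [DecidableEq ι] in
theorem Op.ap_eq (L : Op n ι) (u : Fam n ι) : L.ap u = Sy L.gc L.a L.c u := by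
  funext l x
  rw [Op.ap, Sy, Finset.sum_add_distrib, Finset.sum_comm (f := fun m j => L.a j l m x * _),
    add_assoc]

omit [Fintype ι] [DecidableEq ι] in
theorem Op.Sm.gc (h : L.Sm) (j k : Fin n) : ContDiff ℝ ∞ (L.gc j k) :=
  Complex.ofRealCLM.contDiff.comp (h.g j k)

omit [Fintype ι] [DecidableEq ι] in
theorem Op.Sm.gc_symm (h : L.Sm) (j k : Fin n) : L.gc j k = L.gc k j :=
  funext fun x => congrArg Complex.ofReal (h.symm j k x)

omit [Fintype ι] [DecidableEq ι] in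
theorem Op.Sm.sm (h : L.Sm) (U : Set (V n)) : P088F.Sm U L.gc L.a L.c :=
  ⟨fun j k => (h.gc j k).contDiffOn, fun j l m => (h.a j l m).contDiffOn,
    fun l m => (h.c l m).contDiffOn⟩

omit [Fintype ι] [DecidableEq ι] in
theorem Op.symb_eq (L : Op n ι) (x ξ : V n) : symb (fun p q => L.gc p q x) ξ = ip L.g x ξ ξ := by
  simp only [symb, ip, Op.gc, ← Complex.ofReal_mul, ← Complex.ofReal_sum, Complex.ofReal_re]

omit [Fintype ι] [DecidableEq ι] in
theorem Op.Sm.el (h : L.Sm) (U : Set (V n)) : El U L.gc := fun x _ ξ hξ =>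
  (h.pos x ξ hξ).trans_eq (L.symb_eq x ξ).symm

omit [Fintype ι] in
theorem Op.Sm.isT (h : L.Sm) (U : Set (V n)) : IsT U L.gc L.a L.c L.t.gc L.t.a L.t.c := by
  refine ⟨fun p q x _ => congrFun (h.gc_symm p q) x, fun p I J x _ => ?_, fun I J x _ => ?_⟩
  · simp only [Op.t, h.gc_symm _ p, ← two_mul, Finset.mul_sum]
  · rw [Finset.sum_comm (f := fun p q => pd q (pd p (L.gc p q)) x),
      Finset.sum_congr rfl fun j _ => Finset.sum_congr rfl fun k _ => by rw [h.gc_symm k j]]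
    rfl

omit [Fintype ι] in
theorem Op.Sm.t (h : L.Sm) : L.t.Sm :=
  have k := (h.isT univ).sm isOpen_univ (h.sm univ)
  ⟨h.g, fun j l m => contDiffOn_univ.1 (k.hb j l m), fun l m => contDiffOn_univ.1 (k.hc l m),
    h.symm, h.pos⟩

omit [Fintype ι] in
theorem Op.Sm.tt (h : L.Sm) : L.t.t = L := by
  have k := (h.isT univ).symm isOpen_univ (h.sm univ)
  have k' := h.t.isT univ
  obtain ⟨g, a, c⟩ := L
  refine congrArg₂ (Op.mk g) ?_ ?_
  · funext j l m x
    exact (k'.hb j l m x trivial).trans (k.hb j l m x trivial).symm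
  · funext l m x
    exact (k'.hc l m x trivial).trans (k.hc l m x trivial).symm

theorem Op.Sm.ibp (h : L.Sm) (hs : IsOpen s) (hu : ∀ l, ContDiffOn ℝ ∞ (u l) s) (hφ : TstF s φ) :
    ∫ x, ∑ l, u l x * L.t.ap φ l x = ∫ x, ∑ l, L.ap u l x * φ l x := by
  rw [Op.ap_eq, Op.ap_eq]
  exact ibp_sys hs (h.sm s) (h.isT s) hu hφ

omit [DecidableEq ι] in
theorem Op.Sm.tst (h : L.Sm) (hs : IsOpen s) (hφ : TstF s φ) : TstF s (L.ap φ) := by
  rw [Op.ap_eq]
  exact (h.sm s).tst hs hφ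

omit [DecidableEq ι] in
theorem Op.Sm.ap (h : L.Sm) (hs : IsOpen s) (hu : ∀ l, ContDiffOn ℝ ∞ (u l) s) (l : ι) :
    ContDiffOn ℝ ∞ (L.ap u l) s := by
  rw [Op.ap_eq]
  exact (h.sm s).sy hs hu l

omit [DecidableEq ι] in
theorem Op.ap_ev (L : Op n ι) {v : Fam n ι} {x : V n} (h : ∀ l, u l =ᶠ[𝓝 x] v l) (l : ι) :
    L.ap u l x = L.ap v l x := by
  rw [Op.ap_eq, Op.ap_eq]
  exact sy_ev h l

theorem rg : RG n ι := fun L s u f hL hs hu hf hw => by
  simp only [Op.ap_eq] at hw ⊢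
  obtain ⟨w, h1, h2, h3⟩ := reg_sys hs (hL.sm s) (hL.el s) (hL.isT s) hu hf hw
  exact ⟨w, h1, h3, fun l => h2.mono fun x hx hx' => hx hx' l⟩

/-- Continuous weak solutions are solutions. -/
theorem Op.Sm.sol (h : L.Sm) (hs : IsOpen s) (hu : ∀ l, ContinuousOn (u l) s)
    (hw : ∀ φ, TstF s φ → ∫ x, ∑ l, u l x * L.t.ap φ l x = 0) : SolOn L s u := by
  simp only [SolOn, Op.ap_eq] at hw ⊢
  exact reg_cont (f := fun _ _ => 0) hs (h.sm s) (h.el s) (h.isT s) hu (fun _ => contDiffOn_const)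
    fun φ hφ => (hw φ hφ).trans (by simp)

theorem SolOn.weak (hu : SolOn L s u) (h : L.Sm) (hs : IsOpen s) (hφ : TstF s φ) :
    ∫ x, ∑ l, u l x * L.t.ap φ l x = 0 := by
  rw [h.ibp hs hu.1 hφ]
  refine integral_eq_zero_of_ae (.of_forall fun x => Finset.sum_eq_zero fun l _ => ?_)
  by_cases hx : x ∈ s
  · rw [hu.2 l x hx, zero_mul]
  · rw [tst_zero (hφ l) hx, mul_zero]

omit [DecidableEq ι] in
/-- From the extended norm to integrals. -/
theorem n2_le (hs : MeasurableSet s) (hu : ∀ l, ContinuousOn (u l) s) {A : ℝ} (hA : 0 ≤ A)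
    (h : N2 s u ≤ ENNReal.ofReal A) (l : ι) :
    IntegrableOn (fun x => ‖u l x‖ ^ 2) s ∧ ∫ x in s, ‖u l x‖ ^ 2 ≤ A := by
  have h1 : ∫⁻ x in s, ENNReal.ofReal (‖u l x‖ ^ 2) ≤ ENNReal.ofReal A := by
    simp only [ENNReal.ofReal_pow (norm_nonneg _), ofReal_norm_eq_enorm]
    exact (Finset.single_le_sum (f := fun l => ∫⁻ x in s, ‖u l x‖ₑ ^ 2) (fun _ _ => zero_le)
      (Finset.mem_univ l)).trans h
  have h2 := ((hu l).norm.pow 2).aestronglyMeasurable (μ := volume) hs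
  have h3 : 0 ≤ᵐ[volume.restrict s] fun x => ‖u l x‖ ^ 2 := .of_forall fun _ => sq_nonneg _
  refine ⟨⟨h2, (hasFiniteIntegral_iff_ofReal h3).2 (h1.trans_lt ENNReal.ofReal_lt_top)⟩, ?_⟩
  rw [integral_eq_lintegral_of_nonneg_ae h3 h2]
  exact ENNReal.toReal_le_of_le_ofReal hA h1

omit [DecidableEq ι] in
theorem n2_eq (h : ∀ l, IntegrableOn (fun x => ‖u l x‖ ^ 2) s) :
    N2 s u = ENNReal.ofReal (∑ l, ∫ x in s, ‖u l x‖ ^ 2) := by
  rw [ENNReal.ofReal_sum_of_nonneg fun l _ => integral_nonneg fun _ => sq_nonneg _]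
  refine Finset.sum_congr rfl fun l _ => ?_
  rw [ofReal_integral_eq_lintegral_ofReal (h l) (.of_forall fun _ => sq_nonneg _)]
  simp only [ENNReal.ofReal_pow (norm_nonneg _), ofReal_norm_eq_enorm]

omit [DecidableEq ι] in
theorem n2_tst (h : TstF s φ) : N2 univ φ = ENNReal.ofReal (∑ l, ∫ x, ‖φ l x‖ ^ 2) := by
  rw [n2_eq fun l => ((memLp_two_iff_integrable_sq_norm (tst_l2 (h l)).1).1
    (tst_l2 (h l))).integrableOn]
  simp only [Measure.restrict_univ]

omit [DecidableEq ι] in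
theorem n2_mono {t : Set (V n)} (h : s ⊆ t) (u : Fam n ι) : N2 s u ≤ N2 t u :=
  Finset.sum_le_sum fun _ _ => lintegral_mono_set h

end Vale.Agent.P088F
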