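import Vale.Agent.P088F.CD2
import Vale.Agent.P088F.PR1
import Vale.Agent.P088F.Mono
import Vale.Agent.P088F.CSh
import Vale.Agent.P088F.CSep
import Vale.Agent.P088F.CSlab0
import Vale.Agent.P088F.CTR

/-! P088, part C: the abstract lemmas applied to the operators `Op`. -/

open MeasureTheory Set Filter Topology Metric
open scoped ContDiff ENNReal

noncomputable section

namespace Vale.Agent.P088.Cr

open Vale.Agent.P292E Vale.Agent.P088F

variable {n : ℕ} {ι : Type} [Fintype ι] [DecidableEq ι] {L P Q : Op n ι} {D D' : Set (V n)}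
  {u : Fm ι n}

/-- the solution class of an operator -/
def Po (L : Op n ι) : Set (V n) → Fm ι n → Prop := PS univ L.gc L.a L.c

/-- kernels as functions on the product -/
def unc (W : Kr n ι) : Kn ι n := fun l m p => W l m p.1 p.2

theorem ap_eq (L : Op n ι) (u : Fm ι n) : L.ap u = Sy L.gc L.a L.c u := L.ap_eq u

theorem po_iff : Po L D u ↔ SolOn L D u := by
  simp only [Po, PS, SolOn, inter_univ, ap_eq]
  exact ⟨fun h => h.2, fun h => ⟨fun l => (h.1 l).continuousOn, h⟩⟩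

theorem op_cf (h : L.Sm) : Cf univ L.gc L.a L.c :=
  ⟨isOpen_univ, (h.sm univ).ha, (h.sm univ).hb, (h.sm univ).hc⟩

theorem op_el (h : L.Sm) : El univ L.gc := h.el univ

theorem sh_po (h : L.Sm) : Sh (Po L) := sh_ps (op_cf h) (op_el h)

theorem bdd_mono {K K' : ℕ} {M M' c c' : ℝ} (h : L.Bdd K M c) (h1 : K' ≤ K) (h2 : M ≤ M')
    (h3 : c' ≤ c) : L.Bdd K' M' c' := h.mono h1 h2 h3

theorem so_of_sol {Ω : Set (V n × V n)} {W : Kr n ι} (h : Sol P Q Ω W) :
    So (Po P) (Po Q) Ω (unc W) :=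
  ⟨fun l m => (h.sm l m).continuousOn,
    fun m y => po_iff.2 ⟨fun l => (h.sm l m).comp (f := fun x => (x, y)) (by fun_prop) fun _ hx => hx,
      fun l x hx => h.ex (x, y) hx l m⟩,
    fun l x => po_iff.2 ⟨fun m => (h.sm l m).comp (f := fun y => (x, y)) (by fun_prop) fun _ hy => hy,
      fun m y hy => h.ey (x, y) hy l m⟩⟩

theorem sl_of_sol {Ω : Set (V n × V n)} {W : Kr n ι} (h : Sol P Q Ω W) (hs : D ×ˢ D' ⊆ Ω) :
    Sl (Po P) (Po Q) D D' (unc W) :=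
  have k := so_of_sol h
  ⟨fun l m => (k.cont l m).mono hs,
    fun m y hy => po_iff.2 ((po_iff.1 (k.px m y)).mono fun _ hx => hs ⟨hx, hy⟩),
    fun l x hx => po_iff.2 ((po_iff.1 (k.py l x)).mono fun _ hy => hs ⟨hx, hy⟩)⟩

theorem sol_of_sl (hP : P.Sm) (hQ : Q.Sm) (hD : IsOpen D) (hD' : IsOpen D') {W : Kn ι n}
    (h : Sl (Po P) (Po Q) D D' W) : Sol P Q (D ×ˢ D') fun l m x y => W l m (x, y) :=
  ⟨sep (op_cf hP) (op_el hP) (op_cf hQ) (op_el hQ) hD hD' (subset_univ _) (subset_univ _) h,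
    fun p hp l m => (po_iff.1 (h.px m p.2 hp.2)).2 l p.1 hp.1,
    fun p hp l m => (po_iff.1 (h.py l p.1 hp.1)).2 m p.2 hp.2⟩

theorem N2_eq (hD : IsOpen D) (hb : Bornology.IsBounded D) (hu : ∀ l, ContinuousOn (u l) D)
    (h : Bn D u) : N2 D u = ENNReal.ofReal (n2 D u) := by
  have h1 := n2_int hD hb hu h
  have h2 : ∀ l, IntegrableOn (fun x => ‖u l x‖ ^ 2) D := fun l =>
    h1.mono' (((hu l).norm.pow 2).aestronglyMeasurable hD.measurableSet) (.of_forall fun x => by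
      rw [Real.norm_of_nonneg (sq_nonneg _)]
      exact Finset.single_le_sum (f := fun l => ‖u l x‖ ^ 2) (fun _ _ => sq_nonneg _)
        (Finset.mem_univ l))
  rw [P088F.n2_eq h2, n2, integral_finset_sum _ fun l _ => h2 l]

theorem uc_of (h : UCP n ι) (hL : L.Sm) (S : Set (V n)) : UC (Po L) S :=
  fun D u h1 _ h2 h3 => h L D u hL h1 h2 (po_iff.1 h3)

theorem tr_of_three {A X : Set (V n)} {θ C v : ℝ} (h : Three L D A X θ C) (h0 : 0 ≤ θ)
    (h1 : θ ≤ 1) (hC : 0 ≤ C) (hR : Reg A D v) : TR (Po L) A D X θ (C ^ 2) := by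
  intro u hu hb ε hε hε1 l z hz
  have hc := hu.1
  have hbA : Bn A u := hb.imp fun M h l x hx => h l x (hR.sub hx)
  have e1 := N2_eq hR.oA (hR.bd.subset hR.sub) (fun l => (hc l).mono hR.sub) hbA
  have e2 := N2_eq hR.oD hR.bd hc hb
  have k0 := n2_nonneg A u
  have k1 := n2_mono hR.oD hR.bd hR.sub hc hb
  have p1 := Real.rpow_pos_of_pos hε (-θ)
  have p2 := Real.rpow_pos_of_pos hε (1 - θ)
  have key : ∀ t : ℝ, 0 < t → ‖u l z‖ ^ 2 ≤
      C ^ 2 * (ε ^ (-θ) * (n2 A u + t) + ε ^ (1 - θ) * (n2 D u + t)) := fun t ht => by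
    have ha : 0 < n2 A u + t := by linarith
    have hd : 0 < n2 D u + t := by linarith
    have h2 := h u (po_iff.1 hu) _ _ (Real.sqrt_pos.2 ha) (Real.sqrt_le_sqrt (by linarith : _ ≤
      n2 D u + t)) (by rw [e1, Real.sq_sqrt ha.le]; exact ENNReal.ofReal_le_ofReal (by linarith))
      (by rw [e2, Real.sq_sqrt hd.le]; exact ENNReal.ofReal_le_ofReal (by linarith)) l z hz
    have h3 := Real.geom_mean_le_arith_mean2_weighted (sub_nonneg.2 h1) h0
      (mul_pos p1 ha).le (mul_pos p2 hd).le (sub_add_cancel 1 θ)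
    rw [Real.mul_rpow p1.le ha.le, Real.mul_rpow p2.le hd.le, ← Real.rpow_mul hε.le,
      ← Real.rpow_mul hε.le, mul_mul_mul_comm, ← Real.rpow_add hε,
      show -θ * (1 - θ) + (1 - θ) * θ = 0 by ring, Real.rpow_zero, one_mul] at h3
    refine (pow_le_pow_left₀ (norm_nonneg _) h2 2).trans ?_
    rw [mul_assoc, mul_pow, mul_pow, Real.rpow_pow_comm (Real.sqrt_nonneg _),
      Real.rpow_pow_comm (Real.sqrt_nonneg _), Real.sq_sqrt ha.le, Real.sq_sqrt hd.le]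
    refine mul_le_mul_of_nonneg_left (h3.trans ?_) (sq_nonneg C)
    nlinarith [mul_nonneg h0 (mul_pos p1 ha).le, mul_nonneg (sub_nonneg.2 h1) (mul_pos p2 hd).le]
  have h4 : Tendsto (fun t : ℝ => C ^ 2 * (ε ^ (-θ) * (n2 A u + t) + ε ^ (1 - θ) * (n2 D u + t)))
      (𝓝[>] 0) (𝓝 (C ^ 2 * (ε ^ (-θ) * (n2 A u + 0) + ε ^ (1 - θ) * (n2 D u + 0)))) :=
    (Continuous.tendsto (by fun_prop) 0).mono_left nhdsWithin_le_nhds
  simpa only [add_zero] using ge_of_tendsto h4 (eventually_mem_nhdsWithin.mono key)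

theorem cross' : CROSS' n ι := by
  intro θ θ' C v h0 h0' h1 hC hv
  obtain ⟨C', hC', h⟩ := cross ι hv (sq_nonneg C) (κ := 1 - θ - θ') (by linarith)
  refine ⟨C', hC'.le, fun P Q D A X D' A' X' K K' A₀ W hP hQ oD oA oX oD' oA' oX' s1 s2 s3 s4 b1 b2
    v1 v2 t1 t2 hW hb hA c1 c2 s5 s6 hc => ?_⟩
  rcases hA.eq_or_lt with rfl | hA
  · refine ⟨fun _ _ _ _ => 0, sol_of_sl (W := 0) hP hQ oX oX' ⟨fun _ _ => continuousOn_const,
      fun _ _ _ => (sh_po hP).zero, fun _ _ _ => (sh_po hQ).zero⟩, fun _ _ _ _ => by simp,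
      fun p hp hp' l m => (norm_le_zero_iff.1 (hb p (.inl ⟨s2 hp.1, hp'⟩) l m)).symm⟩
  have r1 : Reg A D v := ⟨oA, oD, s1, b1, ENNReal.toReal_le_of_le_ofReal hv v1⟩
  have r2 : Reg A' D' v := ⟨oA', oD', s3, b2, ENNReal.toReal_le_of_le_ofReal hv v2⟩
  obtain ⟨W', k1, k2, k3⟩ := h (sh_po hP) (sh_po hQ) r1 r2 oX oX' s2 s4
    (tr_of_three t1 h0 (by linarith) hC r1) (tr_of_three t2 h0' (by linarith) hC r2) h0'
    (by linarith) hA (sl_of_sol hW subset_union_left) (sl_of_sol hW subset_union_right)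
    (fun l m p hp => hb p (.inl hp) l m) (fun l m p hp => hb p (.inr hp) l m) c1 c2 s5 s6 hc
  exact ⟨_, sol_of_sl hP hQ oX oX' k1, fun p hp l m => k2 l m p hp,
    fun p hp hp' l m => k3 l m p ⟨hp.1, hp.2, hp'⟩⟩

end Vale.Agent.P088.Cr
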