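import Vale.Agent.P088F.CShB

/-! P088, part C: the weak equation on the product. -/

open MeasureTheory Set Filter Topology Metric
open scoped ContDiff

noncomputable section

namespace Vale.Agent.P088.Cr

open Vale.Agent.P292E Vale.Agent.P088F Vale.Agent.P299

variable {n : ℕ} {ι : Type} [Fintype ι] [DecidableEq ι] {D D' : Set (V n)}
  {a a' : Fin n → Fin n → V n → ℂ} {b b' : Fin n → ι → ι → V n → ℂ} {c c' : ι → ι → V n → ℂ}
  {W : Kn ι n}

/-- tests on the product -/
def Tp (D D' : Set (V n)) (φ : V n × V n → ℂ) : Prop :=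
  ContDiff ℝ ∞ φ ∧ HasCompactSupport φ ∧ tsupport φ ⊆ D ×ˢ D'

theorem csepa_slice {φ : V n × V n → ℂ} (h : Tp D D' φ) {E : Set (V n)} {g : V n → V n × V n}
    {π : V n × V n → V n} (hg : ContDiff ℝ ∞ g) (hπ : Continuous π) (e : ∀ x, π (g x) = x)
    (hE : ∀ z ∈ D ×ˢ D', π z ∈ E) : Tst E fun x => φ (g x) := by
  have hK : IsCompact (π '' tsupport φ) := h.2.1.isCompact.image hπ
  have h0 : ∀ x, x ∉ π '' tsupport φ → φ (g x) = 0 := fun x hx =>
    image_eq_zero_of_notMem_tsupport fun k => hx ⟨g x, k, e x⟩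
  refine ⟨h.1.comp hg, HasCompactSupport.intro hK h0, ?_⟩
  refine (closure_minimal (fun x hx => ?_) hK.isClosed).trans ?_
  · by_contra k
    exact hx (h0 x k)
  · rintro _ ⟨z, hz, rfl⟩
    exact hE z (h.2.2 hz)

/-- slices of tests are tests, and vanish off `D'` -/
theorem Tp.fst {φ : V n × V n → ℂ} (h : Tp D D' φ) (y : V n) : Tst D fun x => φ (x, y) :=
  csepa_slice h (contDiff_id.prodMk contDiff_const) continuous_fst (fun _ => rfl) fun _ hz => hz.1

theorem Tp.snd {φ : V n × V n → ℂ} (h : Tp D D' φ) (x : V n) : Tst D' fun y => φ (x, y) :=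
  csepa_slice h (contDiff_const.prodMk contDiff_id) continuous_snd (fun _ => rfl) fun _ hz => hz.2

theorem pd_fst {φ : V n × V n → ℂ} (h : ContDiff ℝ ∞ φ) (p : Fin n) (y : V n) :
    pd p (fun x => φ (x, y)) = fun x => m2d (ee p, 0) φ (x, y) := by
  funext x
  have k := ((h.differentiable (by simp) (x, y)).hasFDerivAt.comp x
    (hasFDerivAt_prodMk_left (𝕜 := ℝ) x y)).fderiv
  exact congrArg (fun L : V n →L[ℝ] ℂ => L (ee p)) k

theorem pd_snd {φ : V n × V n → ℂ} (h : ContDiff ℝ ∞ φ) (p : Fin n) (x : V n) :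
    pd p (fun y => φ (x, y)) = fun y => m2d (0, ee p) φ (x, y) := by
  funext y
  have k := ((h.differentiable (by simp) (x, y)).hasFDerivAt.comp y
    (hasFDerivAt_prodMk_right (𝕜 := ℝ) x y)).fderiv
  exact congrArg (fun L : V n →L[ℝ] ℂ => L (ee p)) k

theorem csepa_d {φ : V n × V n → ℂ} (h : Tp D D' φ) (v : V n × V n) : Tp D D' (m2d v φ) := by
  have k : tsupport (m2d v φ) ⊆ tsupport φ := tsupport_fderiv_apply_subset ℝ v
  exact ⟨(h.1.fderiv_right (m := ∞) (by simp)).clm_apply contDiff_const,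
    h.2.1.of_isClosed_subset (isClosed_tsupport _) k, k.trans h.2.2⟩

theorem csepa_int {φ w : V n × V n → ℂ} (hD : IsOpen D) (hD' : IsOpen D') (h : Tp D D' φ)
    (hw : ContinuousOn w (D ×ˢ D')) : Integrable fun z => w z * φ z := by
  refine Continuous.integrable_of_hasCompactSupport (continuous_of_tsupport fun z hz => ?_)
    h.2.1.mul_left
  exact (hw.continuousAt ((hD.prod hD').mem_nhds (h.2.2 (tsupport_mul_subset_right hz)))).mul
    h.1.continuous.continuousAt

omit [DecidableEq ι] in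
theorem csepa_fst (h : Cf D a b c) (hD' : IsOpen D') {w : V n × V n → ℂ}
    (hw : ContinuousOn w (D ×ˢ D')) {t : ι → V n × V n → ℂ} (ht : ∀ l, Tp D D' (t l)) (l : ι) :
    Integrable fun z : V n × V n => w z * Sy a b c (fun l x => t l (x, z.2)) l z.1 := by
  have k : ∀ {f : V n → ℂ}, ContDiffOn ℝ ∞ f D → ∀ {φ}, Tp D D' φ →
      Integrable fun z : V n × V n => w z * (f z.1 * φ z) := fun hf φ hφ => by
    simp only [← mul_assoc]
    exact csepa_int h.op hD' hφ
      (hw.mul (hf.continuousOn.comp continuous_fst.continuousOn fun _ hz => hz.1))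
  simp only [Sy, fun l => pd_fst (ht l).1, fun l v => pd_fst (csepa_d (ht l) v).1, mul_add,
    Finset.mul_sum]
  exact ((integrable_finsetSum _ fun p _ => integrable_finsetSum _ fun q _ =>
    k (h.a p q) (csepa_d (csepa_d (ht l) _) _)).add (integrable_finsetSum _ fun p _ =>
      integrable_finsetSum _ fun J _ => k (h.b p l J) (csepa_d (ht J) _))).add
    (integrable_finsetSum _ fun J _ => k (h.c l J) (ht J))

omit [DecidableEq ι] in
theorem csepa_snd (h : Cf D' a b c) (hD : IsOpen D) {w : V n × V n → ℂ}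
    (hw : ContinuousOn w (D ×ˢ D')) {t : ι → V n × V n → ℂ} (ht : ∀ l, Tp D D' (t l)) (l : ι) :
    Integrable fun z : V n × V n => w z * Sy a b c (fun l y => t l (z.1, y)) l z.2 := by
  have k : ∀ {f : V n → ℂ}, ContDiffOn ℝ ∞ f D' → ∀ {φ}, Tp D D' φ →
      Integrable fun z : V n × V n => w z * (f z.2 * φ z) := fun hf φ hφ => by
    simp only [← mul_assoc]
    exact csepa_int hD h.op hφ
      (hw.mul (hf.continuousOn.comp continuous_snd.continuousOn fun _ hz => hz.2))
  simp only [Sy, fun l => pd_snd (ht l).1, fun l v => pd_snd (csepa_d (ht l) v).1, mul_add,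
    Finset.mul_sum]
  exact ((integrable_finsetSum _ fun p _ => integrable_finsetSum _ fun q _ =>
    k (h.a p q) (csepa_d (csepa_d (ht l) _) _)).add (integrable_finsetSum _ fun p _ =>
      integrable_finsetSum _ fun J _ => k (h.b p l J) (csepa_d (ht J) _))).add
    (integrable_finsetSum _ fun J _ => k (h.c l J) (ht J))

theorem csepa_zero {u : Fm ι n} (e : ∀ l x, u l x = 0) (v : Fm ι n) :
    ∫ x, ∑ l, v l x * Sy' a b c u l x = 0 := by
  obtain rfl : u = fun _ _ => 0 := funext fun l => funext (e l)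
  have k : ∀ p : Fin n, pd p (fun _ => (0 : ℂ)) = fun _ => 0 := fun p => by
    funext x
    simp [pd]
  simp [Sy', Sy, k]

/-- The integrand is continuous with compact support in `D ×ˢ D'`; Fubini
(`integral_prod_symm`), then the weak equation of the slices for `y ∈ D'`, zero otherwise. -/
theorem weak_fst (h : Cf D a b c) (hD' : IsOpen D') (hW : ∀ l m, ContinuousOn (W l m) (D ×ˢ D'))
    (hx : ∀ m, ∀ y ∈ D', Wk D a b c (sx W m y)) {t : ι × ι → V n × V n → ℂ}
    (ht : ∀ I, Tp D D' (t I)) :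
    Integrable (fun z : V n × V n => ∑ m, ∑ l,
      W l m z * Sy' a b c (fun l x => t (l, m) (x, z.2)) l z.1) ∧
    ∫ z : V n × V n, ∑ m, ∑ l, W l m z * Sy' a b c (fun l x => t (l, m) (x, z.2)) l z.1 = 0 := by
  have k : ∀ m, Integrable fun z : V n × V n => ∑ l,
      W l m z * Sy' a b c (fun l x => t (l, m) (x, z.2)) l z.1 := fun m =>
    integrable_finsetSum _ fun l _ =>
      csepa_fst h.tr hD' (hW l m) (t := fun l => t (l, m)) (fun l => ht (l, m)) l
  refine ⟨integrable_finsetSum _ fun m _ => k m, ?_⟩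
  rw [integral_finsetSum _ fun m _ => k m]
  refine Finset.sum_eq_zero fun m _ => ?_
  refine (integral_prod_symm _ (k m)).trans
    ((integral_congr_ae (.of_forall fun y => ?_)).trans (integral_zero _ _))
  by_cases hy : y ∈ D'
  · exact hx m y hy (fun l x => t (l, m) (x, y)) fun l => (ht (l, m)).fst y
  · exact csepa_zero (u := fun l x => t (l, m) (x, y))
      (fun l x => tst_zero ((ht (l, m)).snd x) hy) (sx W m y)

theorem weak_snd (h : Cf D' a b c) (hD : IsOpen D) (hW : ∀ l m, ContinuousOn (W l m) (D ×ˢ D'))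
    (hy : ∀ l, ∀ x ∈ D, Wk D' a b c (sy W l x)) {t : ι × ι → V n × V n → ℂ}
    (ht : ∀ I, Tp D D' (t I)) :
    Integrable (fun z : V n × V n => ∑ l, ∑ m,
      W l m z * Sy' a b c (fun m y => t (l, m) (z.1, y)) m z.2) ∧
    ∫ z : V n × V n, ∑ l, ∑ m, W l m z * Sy' a b c (fun m y => t (l, m) (z.1, y)) m z.2 = 0 := by
  have k : ∀ l, Integrable fun z : V n × V n => ∑ m,
      W l m z * Sy' a b c (fun m y => t (l, m) (z.1, y)) m z.2 := fun l =>
    integrable_finsetSum _ fun m _ =>
      csepa_snd h.tr hD (hW l m) (t := fun m => t (l, m)) (fun m => ht (l, m)) m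
  refine ⟨integrable_finsetSum _ fun l _ => k l, ?_⟩
  rw [integral_finsetSum _ fun l _ => k l]
  refine Finset.sum_eq_zero fun l _ => ?_
  refine (integral_prod _ (k l)).trans
    ((integral_congr_ae (.of_forall fun x => ?_)).trans (integral_zero _ _))
  by_cases hx : x ∈ D
  · exact hy l x hx (fun m y => t (l, m) (x, y)) fun m => (ht (l, m)).snd x
  · exact csepa_zero (u := fun m y => t (l, m) (x, y))
      (fun m y => tst_zero ((ht (l, m)).fst y) hx) (sy W l x)

end Vale.Agent.P088.Cr
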