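import Vale.Agent.P088F.CShA
import Vale.Agent.P299.M2c

/-! P088, part C: continuous weak solutions are classical solutions. -/

open MeasureTheory Set Filter Topology Metric
open scoped ContDiff

noncomputable section

namespace Vale.Agent.P088.Cr

open Vale.Agent.P292E Vale.Agent.P088F

variable {n : ℕ} {ι : Type} [Fintype ι] [DecidableEq ι] {S : Set (V n)}
  {a : Fin n → Fin n → V n → ℂ} {b : Fin n → ι → ι → V n → ℂ} {c : ι → ι → V n → ℂ} {u : Fm ι n}

/-- A function continuous on an open set and a.e. equal near every point to a smooth function is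
smooth (`Measure.eqOn_open_of_ae_eq` on `O ∩ U`). -/
theorem sm_of_ae {F : Type} [NormedAddCommGroup F] [NormedSpace ℝ F] [MeasurableSpace F]
    [BorelSpace F] (μ : Measure F) [μ.IsOpenPosMeasure] {U : Set F} (hU : IsOpen U) {f : F → ℂ}
    (hf : ContinuousOn f U) (h : ∀ x ∈ U, ∃ O, IsOpen O ∧ x ∈ O ∧ ∃ g : F → ℂ,
      ContDiffOn ℝ ∞ g O ∧ ∀ᵐ y ∂μ, y ∈ O → f y = g y) : ContDiffOn ℝ ∞ f U := by
  intro x hx
  obtain ⟨O, hO, xO, g, hg, he⟩ := h x hx
  have hW := hO.inter hU
  have e : EqOn f g (O ∩ U) := Measure.eqOn_open_of_ae_eq (μ := μ)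
    ((ae_restrict_iff' hW.measurableSet).2 (he.mono fun y hy hz => hy hz.1)) hW
    (hf.mono inter_subset_right) (hg.continuousOn.mono inter_subset_left)
  exact (((hg.mono inter_subset_left).congr e).contDiffAt (hW.mem_nhds ⟨xO, hx⟩)).contDiffWithinAt

/-- `P299.m2_sys` with `F = V n`, index `Fin n × Fin n`, `v (p,q) = ee p`, `w (p,q) = ee q`,
`α (p,q) = a q p`, `β p x I J = tb a b p I J x`, `γ = tc`, `f = 0` (`m2d (ee p) = pd p` is `rfl`);
for a functional `ξ` use the vector with coordinates `ξ (ee p)`. Then `sm_of_ae`. -/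
theorem wk_smooth (h : Cf S a b c) (he : El S a) (hu : ∀ l, ContinuousOn (u l) S)
    (hw : Wk S a b c u) (l : ι) : ContDiffOn ℝ ∞ (u l) S := by
  refine sm_of_ae volume h.op (hu l) fun x hx => ?_
  obtain ⟨O, hO, xO, g, hg, e⟩ := P299.m2_sys volume (fun i : Fin n × Fin n => ee i.1)
    (fun i => ee i.2) (fun p : Fin n => ee p) (fun i => a i.2 i.1)
    (fun p x => Matrix.of fun I J => tb a b p I J x) (fun x => Matrix.of fun I J => tc a b c I J x)
    (fun x I => u I x) (fun _ _ => 0) h.op (fun i => h.a _ _) h.tr.b h.tr.c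
    (fun _ => contDiffOn_const) (fun I => (hu I).locallyIntegrableOn h.op.measurableSet)
    (fun t ht => by
      simp only [zero_mul, Finset.sum_const_zero, integral_zero, Fintype.sum_prod_type]
      exact hw t ht) hx fun ξ hξ => by
      have h1 := he x hx (WithLp.toLp 2 fun p => ξ (ee p)) fun h0 => hξ
        (ContinuousLinearMap.coe_injective ((EuclideanSpace.basisFun (Fin n) ℝ).toBasis.ext
          fun p => by simpa [ee] using congrArg (fun v : V n => v p) h0))
      rw [Fintype.sum_prod_type_right]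
      simpa only [symb, mul_right_comm] using h1
  exact ⟨O, hO, xO, g l, hg l, e.mono fun y hy hz => hy hz l⟩

/-- By `sy_green` with `t = Pi.single l φ` the continuous function `Sy a b c u l` is orthogonal to
all tests: `IsOpen.ae_eq_zero_of_integral_contDiff_smul_eq_zero`, then continuity. -/
theorem wk_cl (h : Cf S a b c) (hu : ∀ l, ContDiffOn ℝ ∞ (u l) S) (hw : Wk S a b c u) (l : ι) :
    ∀ x ∈ S, Sy a b c u l x = 0 := by
  have hc := (h.sy hu l).continuousOn
  have e := h.op.ae_eq_zero_of_integral_contDiff_smul_eq_zero (μ := volume)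
    (hc.locallyIntegrableOn h.op.measurableSet) fun g g1 g2 g3 => by
      have t1 : Tst S fun x => (g x : ℂ) := ⟨Complex.ofRealCLM.contDiff.comp g1,
        g2.comp_left (g := Complex.ofReal) rfl,
        (closure_mono (Function.support_comp_subset (g := Complex.ofReal) rfl g)).trans g3⟩
      have t2 : Ts S (Pi.single l fun x => (g x : ℂ)) := fun k => by
        by_cases hk : k = l
        · rw [hk, Pi.single_eq_same]
          exact t1
        · rw [Pi.single_eq_of_ne hk]
          exact ⟨contDiff_const, HasCompactSupport.zero, by simp⟩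
      rw [← hw _ t2, ← sy_green h hu t2]
      refine integral_congr_ae (.of_forall fun x => ?_)
      simp only []
      rw [Finset.sum_eq_single l (fun k _ hk => by rw [Pi.single_eq_of_ne hk]; simp)
        (fun hk => absurd (Finset.mem_univ _) hk), Pi.single_eq_same, Complex.real_smul, mul_comm]
  exact Measure.eqOn_open_of_ae_eq (μ := volume) (g := fun _ => 0)
    ((ae_restrict_iff' h.op.measurableSet).2 e) h.op hc continuousOn_const

/-- Solutions in weak form. -/
theorem ps_iff (h : Cf S a b c) (he : El S a) {D : Set (V n)} (hD : IsOpen D) :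
    PS S a b c D u ↔ (∀ l, ContinuousOn (u l) D) ∧ Wk (D ∩ S) a b c u := by
  have h' := h.mono (hD.inter h.op) inter_subset_right
  refine ⟨fun k => ⟨k.1, wk_of h' k.2.1 k.2.2⟩, fun k => ?_⟩
  have s := wk_smooth h' (fun x hx => he x hx.2) (fun l => (k.1 l).mono inter_subset_left) k.2
  exact ⟨k.1, s, wk_cl h' s k.2⟩

end Vale.Agent.P088.Cr
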