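import Vale.Agent.P088F.CCa
import Vale.Agent.P088F.CCut

/-! P088, part C: the three-region inequality from a weight. -/

open MeasureTheory Set Filter Topology Metric
open scoped ContDiff ENNReal

noncomputable section

namespace Vale.Agent.P088.Cr

open Vale.Agent.P292E Vale.Agent.P088F

variable {n : ℕ} {ι : Type} [Fintype ι] [DecidableEq ι]

theorem ctr2_exp {t₀ t₁ t₂ T a b τ θ : ℝ} (h12 : t₁ ≤ t₂) (h02 : t₀ < t₂) (hT : 0 ≤ T)
    (ha : 0 < a) (hb : 0 < b) (hτ : τ = T + Real.log (b / a) / (t₂ - t₀))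
    (hθ : θ = (t₁ - t₀) / (t₂ - t₀)) :
    Real.exp (2 * τ * t₁) * (Real.exp (-2 * τ * t₀) * a ^ 2 + Real.exp (-2 * τ * t₂) * b ^ 2) ≤
      (Real.exp (2 * T * (t₁ - t₀)) + 1) * (a ^ (1 - θ) * b ^ θ) ^ 2 := by
  obtain ⟨p, rfl⟩ : ∃ p, a = Real.exp p := ⟨_, (Real.exp_log ha).symm⟩
  obtain ⟨q, rfl⟩ : ∃ q, b = Real.exp q := ⟨_, (Real.exp_log hb).symm⟩
  have h3 : t₂ - t₀ ≠ 0 := by linarith
  rw [← Real.exp_sub, Real.log_exp] at hτ
  rw [← Real.exp_mul, ← Real.exp_mul, mul_add, add_mul, one_mul]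
  simp only [sq, ← Real.exp_add]
  refine add_le_add (le_of_eq ?_) (Real.exp_le_exp.2 ?_)
  · congr 1
    rw [hτ, hθ]
    field_simp
    ring
  · have e : 2 * τ * t₁ + (-2 * τ * t₂ + (q + q)) =
        2 * T * (t₁ - t₂) + (p * (1 - θ) + q * θ + (p * (1 - θ) + q * θ)) := by
      rw [hτ, hθ]
      field_simp
      ring
    rw [e]
    nlinarith

theorem ctr2_n2 {B A : Set (V n)} {v : Fm ι n} {a : ℝ} (hB : IsOpen B)
    (hb : Bornology.IsBounded B) (hu : ∀ l, ContinuousOn (v l) B) (h : Bn B v) (hA : B ⊆ A)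
    (ha : N2 A v ≤ ENNReal.ofReal (a ^ 2)) : n2 B v ≤ a ^ 2 := by
  have h1 := (P088F.n2_mono hA v).trans ha
  rwa [N2_eq hB hb hu h, ENNReal.ofReal_le_ofReal_iff (sq_nonneg a)] at h1

theorem ctr2_low {T : Set (V n)} {v : Fm ι n} {α χ : V n → ℝ} {x : V n} {d τ t₀ t₁ B : ℝ}
    (hT : IsOpen T) (hb : Bornology.IsBounded T) (hu : ∀ l, ContinuousOn (v l) T) (h : Bn T v)
    (hα : ContinuousOn α T) (hχ : Continuous χ) (hB : ∀ y, |χ y| ≤ B) (hτ : 0 ≤ τ)
    (h0 : ∀ y ∈ T, t₀ ≤ α y) (hx : ball x d ⊆ T) (h1 : ∀ y ∈ ball x d, χ y = 1 ∧ α y ≤ t₁) :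
    Real.exp (-2 * τ * t₁) * n2 (ball x d) v ≤
      ∫ y in T, Real.exp (-2 * τ * α y) * χ y ^ 2 * ∑ l, ‖v l y‖ ^ 2 := by
  have ex : ∀ {x y : ℝ}, x ≤ y → Real.exp (-2 * τ * y) ≤ Real.exp (-2 * τ * x) := fun h =>
    Real.exp_le_exp.2 (by nlinarith)
  have i1 := n2_int hT hb hu h
  have i2 : IntegrableOn (fun y => Real.exp (-2 * τ * α y) * χ y ^ 2 * ∑ l, ‖v l y‖ ^ 2) T := by
    refine Integrable.bdd_mul (c := Real.exp (-2 * τ * t₀) * B ^ 2) i1
      (ContinuousOn.aestronglyMeasurable ?_ hT.measurableSet) ?_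
    · exact (Real.continuous_exp.comp_continuousOn (continuousOn_const.mul hα)).mul
        (hχ.pow 2).continuousOn
    · refine (ae_restrict_iff' hT.measurableSet).2 (Eventually.of_forall fun y hy => ?_)
      rw [Real.norm_of_nonneg (by positivity), ← sq_abs (χ y)]
      exact mul_le_mul (ex (h0 y hy)) (pow_le_pow_left₀ (abs_nonneg _) (hB y) 2) (sq_nonneg _)
        (Real.exp_pos _).le
  refine le_trans ?_ (setIntegral_mono_set i2 (Eventually.of_forall fun x => by positivity)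
    hx.eventuallyLE)
  rw [n2, ← integral_const_mul]
  refine setIntegral_mono_on ((i1.mono_set hx).const_mul _) (i2.mono_set hx) measurableSet_ball
    fun y hy => ?_
  rw [(h1 y hy).1, one_pow, mul_one]
  exact mul_le_mul_of_nonneg_right (ex (h1 y hy).2) (by positivity)

theorem tr (hS : SC n ι) (hI : IE n ι) : P088F.TR n ι := by
  obtain ⟨K₁, hK₁⟩ := iea hI
  obtain ⟨K₂, hK₂⟩ := caa hI
  refine ⟨max 2 (max K₁ K₂), fun M c hc d hd hd1 => ?_⟩
  obtain ⟨τ₀, C₀, hSC⟩ := hS M c hc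
  obtain ⟨B, hcut⟩ := cut_unif n hd
  obtain ⟨Ci, hCi, hie⟩ := hK₁ M c d hc hd hd1
  obtain ⟨Cc, hCc, hca⟩ := hK₂ M c d B (volume.real (ball (0 : V n) (|M| + 3))) |C₀| hc hd hd1
    (abs_nonneg _)
  obtain ⟨T₀, hT₀⟩ : ∃ T₀, T₀ = max τ₀ 1 := ⟨_, rfl⟩
  have hT1 : 1 ≤ T₀ := hT₀ ▸ le_max_right _ _
  have hT2 : τ₀ ≤ T₀ := hT₀ ▸ le_max_left _ _
  refine ⟨√(Ci * Cc * (Real.exp (2 * T₀ * (2 * M)) + 1)), Real.sqrt_nonneg _, ?_⟩
  intro P α D A X S t₀ t₁ t₂ hP hB _ _ hAD hSc hSD hα hαB hsup h01 h12 hM0 hM2 hdi hlo hout hX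
    v hv a b ha hab hvA hvD l x hx
  have oT : IsOpen (thickening (3 * d) S) := isOpen_thickening
  have bT : Bornology.IsBounded (thickening (3 * d) S) := hSc.isBounded.thickening
  have sT : thickening (3 * d) S ⊆ D := (thickening_subset_cthickening _ _).trans hSD
  have hxS : x ∈ S := (hX x hx).1 (mem_ball_self hd)
  have vT : volume.real (thickening (3 * d) S) ≤ volume.real (ball (0 : V n) (|M| + 3)) := by
    rw [← Measure.addHaar_real_ball_center volume x]
    refine measureReal_mono (fun y hy => ?_) measure_ball_lt_top.ne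
    obtain ⟨z, hz, hyz⟩ := mem_thickening_iff.1 hy
    have h1 := dist_le_diam_of_mem hSc.isBounded hz hxS
    have h2 := dist_triangle y z x
    have h3 := le_abs_self M
    rw [mem_ball]
    linarith
  have hcarl : Carl P α (thickening (3 * d) S) T₀ |C₀| := fun τ hτ w hw =>
    (hSC P α _ hP (bdd_mono hB (le_max_left _ _) le_rfl le_rfl) oT hα hαB hsup τ (hT2.trans hτ) w
      hw).trans (mul_le_mul_of_nonneg_right (le_abs_self _)
        (integral_nonneg fun y => by positivity))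
  have hA := hca P α _ T₀ hP (bdd_mono hB ((le_max_right _ _).trans (le_max_right _ _)) le_rfl
    le_rfl) oT bT vT hα.continuousOn hT1 hcarl
  have hI' := hie P hP (bdd_mono hB ((le_max_left _ _).trans (le_max_right _ _)) le_rfl le_rfl)
    (thickening (3 * d) S)
  have hvT : Po P (thickening (3 * d) S) v :=
    po_iff.2 ⟨fun l => (hv.1 l).mono sT, fun l y hy => hv.2 l y (sT hy)⟩
  have hvc : ∀ l, ContinuousOn (v l) (thickening (3 * d) S) := fun l =>
    (hv.1 l).continuousOn.mono sT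
  have hvb : Bn (thickening (3 * d) S) v := by
    have h1 : ContinuousOn (fun y l => v l y) (cthickening (3 * d) S) :=
      continuousOn_pi.2 fun l => (hv.1 l).continuousOn.mono hSD
    obtain ⟨N, hN⟩ := hSc.cthickening.exists_bound_of_continuousOn h1
    exact ⟨N, fun l y hy => (norm_le_pi_norm (fun l => v l y) l).trans
      (hN y (thickening_subset_cthickening _ _ hy))⟩
  obtain ⟨χ, c1, c2, c3, c4⟩ := hcut S
  have hb : 0 < b := ha.trans_le hab
  have h02 : t₀ < t₂ := by linarith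
  obtain ⟨τ, hτ⟩ : ∃ τ, τ = T₀ + Real.log (b / a) / (t₂ - t₀) := ⟨_, rfl⟩
  have h2 : T₀ ≤ τ := hτ ▸ le_add_of_nonneg_right
    (div_nonneg (Real.log_nonneg ((one_le_div ha).2 hab)) (by linarith))
  have τ0 : 0 ≤ τ := by linarith
  have ex : ∀ {x y : ℝ}, x ≤ y → Real.exp (-2 * τ * y) ≤ Real.exp (-2 * τ * x) := fun h =>
    Real.exp_le_exp.2 (by nlinarith)
  have s23 : thickening (2 * d) S ⊆ thickening (3 * d) S := thickening_mono (by linarith) S
  have h3 := hA _ v χ τ (Real.exp (-2 * τ * t₀) * a ^ 2 + Real.exp (-2 * τ * t₂) * b ^ 2) oT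
    Subset.rfl hvT hvb c1 (c3.trans s23) (fun i hi y _ => c4 i hi y (mem_univ _)) h2
    (by positivity) fun z hz => by
      by_cases hzS : z ∈ S
      · exact Or.inl (c2 z hzS)
      have hzT := s23 (c3 hz)
      have hbz : ball z d ⊆ thickening (3 * d) S := fun y hy => by
        obtain ⟨w, hw, hzw⟩ := mem_thickening_iff.1 (c3 hz)
        have h4 := dist_triangle y z w
        rw [mem_ball] at hy
        exact mem_thickening_iff.2 ⟨w, hw, by linarith⟩
      have hn : ∀ {E : Set (V n)} {e : ℝ}, ball z d ⊆ E → N2 E v ≤ ENNReal.ofReal (e ^ 2) →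
          n2 (ball z d) v ≤ e ^ 2 := fun h5 h6 =>
        ctr2_n2 isOpen_ball isBounded_ball (fun l => (hvc l).mono hbz)
          (hvb.imp fun N hN l y hy => hN l y (hbz hy)) h5 h6
      refine Or.inr ⟨hbz, ?_⟩
      rcases hout z hzT hzS with h4 | h4
      · exact le_add_of_le_of_nonneg (mul_le_mul (ex (hlo z hzT)) (hn h4 hvA) (n2_nonneg _ _)
          (Real.exp_pos _).le) (by positivity)
      · exact le_add_of_nonneg_of_le (by positivity) (mul_le_mul (ex h4) (hn (hbz.trans sT) hvD)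
          (n2_nonneg _ _) (Real.exp_pos _).le)
  have hbx : ball x d ⊆ thickening (3 * d) S :=
    (hX x hx).1.trans (self_subset_thickening (by linarith) S)
  have h4 := ctr2_low (B := B) oT bT hvc hvb hα.continuousOn c1.continuous (fun y => by
    have := c4 0 (by norm_num) y (mem_univ _)
    rwa [norm_iteratedFDeriv_zero, Real.norm_eq_abs] at this) τ0 hlo hbx
    fun y hy => ⟨(c2 y ((hX x hx).1 hy)).self_of_nhds, (hX x hx).2 y hy⟩
  have h5 := mul_le_mul_of_nonneg_left (h4.trans h3) (Real.exp_pos (2 * τ * t₁)).le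
  rw [← mul_assoc, ← Real.exp_add, show 2 * τ * t₁ + -2 * τ * t₁ = 0 by ring, Real.exp_zero,
    one_mul, mul_left_comm] at h5
  have h6 := h5.trans (mul_le_mul_of_nonneg_left (ctr2_exp (by linarith) h02 (by linarith) ha hb
    hτ rfl) hCc)
  have h7 := (hI' _ v x oT Subset.rfl hvT hvb hbx l).trans (mul_le_mul_of_nonneg_left h6 hCi)
  have h8 : Real.exp (2 * T₀ * (t₁ - t₀)) ≤ Real.exp (2 * T₀ * (2 * M)) :=
    Real.exp_le_exp.2 (mul_le_mul_of_nonneg_left (by linarith) (by linarith))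
  rw [mul_assoc]
  refine (pow_le_pow_iff_left₀ (norm_nonneg _) (by positivity) two_ne_zero).1 (h7.trans ?_)
  rw [mul_pow √_, Real.sq_sqrt (by positivity), ← mul_assoc, ← mul_assoc]
  gcongr

end Vale.Agent.P088.Cr
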