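import Vale.Agent.P088F.PR1

/-! Part R: bounds for the transpose. -/

open MeasureTheory Set Filter Topology Metric
open scoped ContDiff ENNReal

noncomputable section

namespace Vale.Agent.P088F

open Vale.Agent.P292E

variable {n : ℕ} {ι : Type} [Fintype ι] [DecidableEq ι]


theorem pr2_ite {K : ℕ} {f : V n → ℂ} {B : ℝ} (p : Prop) [Decidable p] (hB : 0 ≤ B)
    (hf : ContDiffOn ℝ ∞ f univ) (h : Bd K f univ B) :
    ContDiffOn ℝ ∞ (fun x => if p then f x else 0) univ ∧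
      Bd K (fun x => if p then f x else 0) univ B := by
  split_ifs
  · exact ⟨hf, h⟩
  · exact ⟨contDiffOn_const, (Bd_const K (0 : ℂ) univ).mono le_rfl Subset.rfl (by simpa using hB)⟩

theorem pr2_core {K : ℕ} {L : Op n ι} {ε : ℝ} (h : L.Sm) (e : Fin n → Fin n → ℝ)
    (hg : ∀ j k, Bd (K + 2) (fun x => L.g j k x - e j k) univ ε)
    (ha : ∀ j l m, Bd (K + 2) (L.a j l m) univ ε) (hc : ∀ l m, Bd (K + 2) (L.c l m) univ ε) :
    (∀ j l m, Bd K (L.t.a j l m) univ (((n : ℝ) + 1) ^ 2 * ε)) ∧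
      ∀ l m, Bd K (L.t.c l m) univ (((n : ℝ) + 1) ^ 2 * ε) := by
  have hn : (0 : ℝ) ≤ n := Nat.cast_nonneg n
  have s1 : ∀ j k i, ContDiffOn ℝ ∞ (pd i (L.gc j k)) univ :=
    fun j k i => contDiffOn_pd isOpen_univ (h.gc j k).contDiffOn i
  have b1 : ∀ j k i, Bd (K + 1) (pd i (L.gc j k)) univ ε := by
    intro j k i
    have s0 : ContDiffOn ℝ ∞ (fun x => L.g j k x - e j k) univ :=
      (h.g j k).contDiffOn.sub contDiffOn_const
    have b0 := (hg j k).clm Complex.ofRealCLM isOpen_univ s0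
    rw [Complex.ofRealCLM_norm, one_mul] at b0
    have e0 : (fun x => Complex.ofRealCLM (L.g j k x - e j k)) =
        fun x => L.gc j k x - (e j k : ℂ) := by
      funext x
      simp [Op.gc]
    rw [e0] at b0
    have e1 : pd i (fun x => L.gc j k x - (e j k : ℂ)) = pd i (L.gc j k) := by
      funext x
      simp only [pd, fderiv_sub_const]
    rw [← e1]
    exact b0.pd isOpen_univ ((h.gc j k).contDiffOn.sub contDiffOn_const) i
  constructor
  · intro j l m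
    have h0 : 0 ≤ ε := (norm_nonneg _).trans ((ha j l m).norm_le (mem_univ 0))
    have s2 : ContDiffOn ℝ ∞ (fun x => ∑ k, pd k (L.gc j k) x) univ :=
      ContDiffOn.sum fun k _ => s1 j k k
    have b2 := Bd.sum isOpen_univ (fun k => s1 j k k)
      fun k => (b1 j k k).mono (Nat.le_succ K) Subset.rfl le_rfl
    rw [Fintype.card_fin] at b2
    obtain ⟨s3, b3⟩ := pr2_ite (l = m) (by positivity) (s2.add s2) (b2.add isOpen_univ s2 s2 b2)
    have b4 := b3.add isOpen_univ s3 (h.a j m l).contDiffOn.neg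
      ((ha j m l).mono (Nat.le_add_right K 2) Subset.rfl le_rfl).neg
    refine (b4.congr isOpen_univ fun x _ => ?_).mono le_rfl Subset.rfl (by nlinarith [sq_nonneg (n : ℝ)])
    simp only [Op.t, two_mul, sub_eq_add_neg]
  · intro l m
    have h0 : 0 ≤ ε := (norm_nonneg _).trans ((hc l m).norm_le (mem_univ 0))
    have s2 : ∀ j k, ContDiffOn ℝ ∞ (pd j (pd k (L.gc j k))) univ :=
      fun j k => contDiffOn_pd isOpen_univ (s1 j k k) j
    have s3 : ∀ j, ContDiffOn ℝ ∞ (fun x => ∑ k, pd j (pd k (L.gc j k)) x) univ :=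
      fun j => ContDiffOn.sum fun k _ => s2 j k
    have b3 := fun j => Bd.sum isOpen_univ (s2 j)
      fun k => (b1 j k k).pd isOpen_univ (s1 j k k) j
    have b4 := Bd.sum isOpen_univ s3 b3
    rw [Fintype.card_fin] at b4
    obtain ⟨s5, b5⟩ := pr2_ite (l = m) (by positivity) (ContDiffOn.sum fun j _ => s3 j) b4
    have s6 : ∀ j, ContDiffOn ℝ ∞ (pd j (L.a j m l)) univ :=
      fun j => contDiffOn_pd isOpen_univ (h.a j m l).contDiffOn j
    have b6 := Bd.sum isOpen_univ s6 fun j =>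
      ((ha j m l).mono (by omega : K + 1 ≤ K + 2) Subset.rfl le_rfl).pd isOpen_univ
        (h.a j m l).contDiffOn j
    rw [Fintype.card_fin] at b6
    have s7 : ContDiffOn ℝ ∞ (fun x => -∑ j, pd j (L.a j m l) x) univ :=
      (ContDiffOn.sum fun j _ => s6 j).neg
    have b7 := (b5.add isOpen_univ s5 s7 b6.neg).add isOpen_univ (s5.add s7) (h.c m l).contDiffOn
      ((hc m l).mono (Nat.le_add_right K 2) Subset.rfl le_rfl)
    refine (b7.congr isOpen_univ fun x _ => ?_).mono le_rfl Subset.rfl (by nlinarith)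
    simp only [Op.t, sub_eq_add_neg]

theorem pr2_one : (1 : ℝ) ≤ ((n : ℝ) + 1) ^ 2 := by
  have hn : (0 : ℝ) ≤ n := Nat.cast_nonneg n
  nlinarith

/-- `Bd.pd`, `Bd.sum`, `Bd.add`, `Bd.neg`, `Bd.clm` of `P292E/BdC`; derivatives of `gc` are those of `gc - const`. -/
theorem tb_near (K : ℕ) : ∃ C : ℝ, 1 ≤ C ∧ ∀ (L : Op n ι) (ε : ℝ), L.Sm → L.Near (K + 2) ε →
    L.t.Near K (C * ε) := by

  refine ⟨((n : ℝ) + 1) ^ 2, pr2_one, fun L ε h hN => ?_⟩
  obtain ⟨h1, h2⟩ := pr2_core h (fun j k => if j = k then 1 else 0) hN.g hN.a hN.c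
  refine ⟨fun j k => ?_, h1, h2⟩
  have h0 : 0 ≤ ε := (norm_nonneg _).trans ((hN.g j k).norm_le (mem_univ 0))
  exact (hN.g j k).mono (Nat.le_add_right K 2) Subset.rfl (le_mul_of_one_le_left h0 pr2_one)

theorem tb_bdd (K : ℕ) : ∃ C : ℝ, 1 ≤ C ∧ ∀ (L : Op n ι) (M c : ℝ), L.Sm → L.Bdd (K + 2) M c →
    L.t.Bdd K (C * M) c := by

  refine ⟨((n : ℝ) + 1) ^ 2, pr2_one, fun L M c h hN => ?_⟩
  obtain ⟨h1, h2⟩ := pr2_core h (fun _ _ => 0) (fun j k => by simpa using hN.g j k) hN.a hN.c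
  refine ⟨fun j k => ?_, h1, h2, hN.ell⟩
  have h0 : 0 ≤ M := (norm_nonneg _).trans ((hN.g j k).norm_le (mem_univ 0))
  exact (hN.g j k).mono (Nat.le_add_right K 2) Subset.rfl (le_mul_of_one_le_left h0 pr2_one)

/-- Take `ε₀ = 1 / (2 * (n ^ 2 + 1))`. -/
theorem tb_ell : ∃ ε₀ : ℝ, 0 < ε₀ ∧ ∀ (K : ℕ) (L : Op n ι) (ε : ℝ), L.Sm → ε ≤ ε₀ → L.Near K ε →
    L.Bdd K 2 (1 / 2) := by

  have hn : (0 : ℝ) ≤ (n : ℝ) ^ 2 := sq_nonneg _
  obtain ⟨e, he⟩ : ∃ e : ℝ, e = 1 / (2 * ((n : ℝ) ^ 2 + 1)) := ⟨_, rfl⟩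
  have e0 : 0 < e := by rw [he]; positivity
  have e1 : e * (2 * ((n : ℝ) ^ 2 + 1)) = 1 := by rw [he]; field_simp
  have e2 : e ≤ 1 := by nlinarith
  refine ⟨e, e0, fun K L ε h hε hN => ⟨fun j k => ?_,
    fun j l m => (hN.a j l m).mono le_rfl Subset.rfl (by linarith),
    fun l m => (hN.c l m).mono le_rfl Subset.rfl (by linarith), fun x ξ => ?_⟩⟩
  · have b := (hN.g j k).add isOpen_univ ((h.g j k).contDiffOn.sub contDiffOn_const) contDiffOn_const
      (Bd_const K (if j = k then (1 : ℝ) else 0) univ)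
    refine (b.congr isOpen_univ fun x _ => by simp).mono le_rfl Subset.rfl ?_
    split_ifs <;> simp <;> linarith
  · have a1 : ∀ j k, (if j = k then ξ j * ξ k else 0) - e * ‖ξ‖ ^ 2 ≤ L.g j k x * ξ j * ξ k := by
      intro j k
      have c1 : |L.g j k x - if j = k then 1 else 0| ≤ e :=
        ((hN.g j k).norm_le (mem_univ x)).trans hε
      have c2 : |ξ j| ≤ ‖ξ‖ := PiLp.norm_apply_le ξ j
      have c3 : |ξ k| ≤ ‖ξ‖ := PiLp.norm_apply_le ξ k
      have c4 : |(L.g j k x - if j = k then 1 else 0) * (ξ j * ξ k)| ≤ e * ‖ξ‖ ^ 2 := by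
        rw [abs_mul, abs_mul, sq]
        gcongr
      have c5 := (abs_le.1 c4).1
      split_ifs at c5 ⊢ <;> linarith
    have a2 : ∑ j, ∑ k, ((if j = k then ξ j * ξ k else 0) - e * ‖ξ‖ ^ 2) ≤ ip L.g x ξ ξ :=
      Finset.sum_le_sum fun j _ => Finset.sum_le_sum fun k _ => a1 j k
    have a3 : ∑ j, ξ j * ξ j = ‖ξ‖ ^ 2 := by
      rw [EuclideanSpace.real_norm_sq_eq]
      exact Finset.sum_congr rfl fun j _ => (sq _).symm
    simp only [Finset.sum_sub_distrib, Finset.sum_ite_eq, Finset.mem_univ, if_true, a3,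
      Finset.sum_const, Finset.card_univ, Fintype.card_fin, nsmul_eq_mul] at a2
    have a4 : (n : ℝ) * (n * (e * ‖ξ‖ ^ 2)) ≤ 1 / 2 * ‖ξ‖ ^ 2 := by
      have : (n : ℝ) * (n * (e * ‖ξ‖ ^ 2)) = (e * n ^ 2) * ‖ξ‖ ^ 2 := by ring
      rw [this]
      exact mul_le_mul_of_nonneg_right (by nlinarith) (sq_nonneg _)
    linarith

theorem tb : TB n ι :=
  ⟨fun _ h => h.t, fun _ h => h.tt, tb_near, tb_bdd, tb_ell, fun _ _ _ _ h => h.ibp⟩

end Vale.Agent.P088F
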