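import Vale.Agent.P088F.EC
import Vale.Agent.P088F.Mono
import Vale.Agent.P088F.APer
import Vale.Agent.P088F.PR2

/-! P088F, part E: from real functions to families. -/

open MeasureTheory Set Filter Topology
open scoped ContDiff

noncomputable section

namespace Vale.Agent.P088F

open Vale.Agent.P292E Vale.Agent.P088

variable {n : ℕ} {ι : Type} [Fintype ι] [DecidableEq ι]

section aux
variable {E : Type} [NormedAddCommGroup E] [NormedSpace ℝ E] {e : Fin n → E} {π : E →L[ℝ] V n}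
  {L : Op n ι} {W : ι → E → ℂ} {p : E} {B : ℝ}

/-- the operator acting along the directions `e` -/
def efam_op (e : Fin n → E) (π : E →L[ℝ] V n) (L : Op n ι) (W : ι → E → ℂ) (l : ι) (p : E) : ℂ :=
  ∑ j, ∑ k, L.gc j k (π p) * Car.dd (e j) (Car.dd (e k) (W l)) p +
    ∑ m, (∑ j, L.a j l m (π p) * Car.dd (e j) (W m) p + L.c l m (π p) * W m p)

omit [Fintype ι] [DecidableEq ι] in
theorem efam_sl {φ : V n → E} {T : V n →L[ℝ] E} (hφ : ∀ x, HasFDerivAt φ T x)
    (hT : ∀ j, T (ee j) = e j) {f : E → ℂ} (hf : ∀ q, Car.SA f q) (j : Fin n) :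
    pd j (fun x => f (φ x)) = fun x => Car.dd (e j) f (φ x) := by
  funext x
  rw [pd, show (fun x => f (φ x)) = f ∘ φ from rfl, ((hf _).df.hasFDerivAt.comp x (hφ x)).fderiv,
    ContinuousLinearMap.comp_apply, hT, Car.dd]

omit [DecidableEq ι] in
theorem efam_ap {φ : V n → E} {T : V n →L[ℝ] E} (hφ : ∀ x, HasFDerivAt φ T x)
    (hT : ∀ j, T (ee j) = e j) (hW : ∀ l q, Car.SA (W l) q) {x : V n} (hx : π (φ x) = x) (l : ι) :
    L.ap (fun l x => W l (φ x)) l x = efam_op e π L W l (φ x) := by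
  simp only [Op.ap, efam_op, hx, fun l => efam_sl hφ hT (hW l),
    fun l k => efam_sl hφ hT fun q => (hW l q).dd (e k)]

omit [DecidableEq ι] in
theorem efam_sa (hL : L.Sm) (hW : ∀ l, Car.SA (W l) p) (l : ι) : Car.SA (efam_op e π L W l) p :=
  (ContDiffAt.sum fun j _ => ContDiffAt.sum fun k _ =>
    ((Complex.ofRealCLM.contDiff.comp (hL.g j k)).comp π.contDiff).contDiffAt.mul
      (((hW l).dd _).dd _)).add
    (ContDiffAt.sum fun m _ => (ContDiffAt.sum fun j _ =>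
      ((hL.a j l m).comp π.contDiff).contDiffAt.mul ((hW m).dd _)).add
        (((hL.c l m).comp π.contDiff).contDiffAt.mul (hW m)))

omit [DecidableEq ι] in
theorem efam_zero {K : Set E} (hK : IsClosed K) (h0 : ∀ l, ∀ q ∉ K, W l q = 0) (l : ι)
    (hp : p ∉ K) : efam_op e π L W l p = 0 := by
  have h1 : ∀ l j, ∀ q ∉ K, Car.dd (e j) (W l) q = 0 := fun l j => Car.dd_zero hK (h0 l) _
  have h2 : ∀ j k, Car.dd (e j) (Car.dd (e k) (W l)) p = 0 := fun j k =>
    Car.dd_zero hK (h1 l k) _ p hp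
  simp [efam_op, h1 _ _ p hp, h2, h0 _ p hp]

omit [DecidableEq ι] in
theorem efam_low (ha : ∀ j l m, ‖L.a j l m (π p)‖ ≤ B) (hc : ∀ l m, ‖L.c l m (π p)‖ ≤ B) :
    Car.n0 (fun l => Car.nd e (fun i j q => L.g i j (π q)) (W l)) p ≤
      2 * (Fintype.card ι) ^ 2 * (n + 1) * B ^ 2 * (Car.n1 e W p + Car.n0 W p) +
        2 * Car.n0 (efam_op e π L W) p := by
  have h : ∀ l, ‖Car.nd e (fun i j q => L.g i j (π q)) (W l) p‖ ^ 2 ≤
      2 * (Fintype.card ι * (n + 1) * B ^ 2 * (Car.n1 e W p + Car.n0 W p)) +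
        2 * ‖efam_op e π L W l p‖ ^ 2 := fun l => by
    have h1 : ‖∑ m, (∑ j, L.a j l m (π p) * Car.dd (e j) (W m) p + L.c l m (π p) * W m p)‖ ≤
        ∑ q : ι × Option (Fin n), B * q.2.elim ‖W q.1 p‖ fun j => ‖Car.dd (e j) (W q.1) p‖ := by
      rw [Fintype.sum_prod_type]
      refine (norm_sum_le _ _).trans (Finset.sum_le_sum fun m _ => ?_)
      rw [Fintype.sum_option, add_comm]
      refine (norm_add_le _ _).trans (add_le_add ?_ ((norm_sum_le _ _).trans
        (Finset.sum_le_sum fun j _ => ?_))) <;> rw [norm_mul]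
      exacts [mul_le_mul_of_nonneg_right (hc l m) (norm_nonneg _),
        mul_le_mul_of_nonneg_right (ha j l m) (norm_nonneg _)]
    have h2 := (pow_le_pow_left₀ (norm_nonneg _) h1 2).trans sq_sum_le_card_mul_sum_sq
    simp only [mul_pow, ← Finset.mul_sum, Finset.card_univ, Fintype.card_prod, Fintype.card_option,
      Fintype.card_fin, Fintype.sum_prod_type, Fintype.sum_option, Option.elim,
      Finset.sum_add_distrib] at h2
    push_cast at h2
    have h3 : Car.nd e (fun i j q => L.g i j (π q)) (W l) p = efam_op e π L W l p -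
        ∑ m, (∑ j, L.a j l m (π p) * Car.dd (e j) (W m) p + L.c l m (π p) * W m p) := by
      rw [efam_op, add_sub_cancel_right]
      rfl
    rw [h3]
    refine (pow_le_pow_left₀ (norm_nonneg _) (norm_sub_le _ _) 2).trans ?_
    simp only [Finset.sum_add_distrib]
    change _ ≤ _ * (_ * (Car.n0 W p + Car.n1 e W p)) at h2
    nlinarith [sq_nonneg (‖efam_op e π L W l p‖ - ‖∑ m, ∑ j, L.a j l m (π p) *
      Car.dd (e j) (W m) p + ∑ m, L.c l m (π p) * W m p‖)]
  refine (Finset.sum_le_sum fun l _ => h l).trans (le_of_eq ?_)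
  simp only [Finset.sum_add_distrib, Finset.sum_const, Finset.card_univ, nsmul_eq_mul,
    ← Finset.mul_sum, Car.n0]
  ring

omit [DecidableEq ι] in
theorem efam_pt (hπ : ∀ j, π (e j) = ee j) (hL : L.Sm) (hN : L.Near 1 B)
    (hW : ∀ l, Car.SA (W l) p) :
    Car.n0 (fun l => Car.dv e (fun i j q => L.g i j (π q)) (W l)) p ≤
      (4 * (Fintype.card ι) ^ 2 * (n + 1) + 2 * n ^ 3) * B ^ 2 * (Car.n1 e W p + Car.n0 W p) +
        4 * Car.n0 (efam_op e π L W) p := by
  have k1 := efam_low (e := e) (π := π) (W := W) (p := p)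
    (fun j l m => (hN.a j l m).norm_le (mem_univ _)) fun l m => (hN.c l m).norm_le (mem_univ _)
  have k2 := Car.n0_dv_le (e := e) (B := B) (a := fun i j q => L.g i j (π q))
    (fun i j => ((hL.g i j).comp π.contDiff).contDiffAt) hW fun i j => by
      have h1 := (hN.g i j).fderiv.norm_le (mem_univ (π p))
      rw [fderiv_sub_const] at h1
      rw [Car.dd, show (fun q => L.g i j (π q)) = L.g i j ∘ π from rfl,
        ((Car.SA.df (hL.g i j).contDiffAt).hasFDerivAt.comp p π.hasFDerivAt).fderiv,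
        ContinuousLinearMap.comp_apply, hπ]
      refine ((fderiv ℝ (L.g i j) (π p)).le_opNorm _).trans ?_
      rw [ee, EuclideanSpace.single, PiLp.norm_single, norm_one, mul_one]
      exact h1
  have k4 : 0 ≤ 2 * (n : ℝ) ^ 3 * B ^ 2 * Car.n0 W p := by
    have := Car.n0_nonneg W p
    positivity
  rw [Fintype.card_fin] at k2
  nlinarith

omit [DecidableEq ι] in
theorem efam_sum [FiniteDimensional ℝ E] [MeasurableSpace E] [BorelSpace E] (μ : Measure E)
    [μ.IsAddHaarMeasure] {K : Set E} (hK : IsCompact K) {Ω : E → ℝ} (hΩ : ∀ x ∈ K, Car.SA Ω x)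
    {e' : Fin n → E} {a a' : Fin n → Fin n → E → ℝ} (ha : ∀ i j x, Car.SA (a i j) x)
    (ha' : ∀ i j x, Car.SA (a' i j) x) (hu : ∀ k x, Car.SA (W k) x) (h0 : ∀ k, ∀ x ∉ K, W k x = 0)
    {C : ℝ} (h : ∀ u : E → ℝ, ContDiff ℝ ∞ u → (∀ x ∉ K, u x = 0) →
      ∫ x, Ω x * (Car.sq2 (Car.gr e u x) + Car.sq2 (Car.gr e' u x) + u x ^ 2) ∂μ ≤
        C * ∫ x, Ω x * (Car.dv e a u x ^ 2 + Car.dv e' a' u x ^ 2) ∂μ) :
    ∫ x, Ω x * (Car.n1 e W x + Car.n1 e' W x + Car.n0 W x) ∂μ ≤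
      C * ∫ x, Ω x * (Car.n0 (fun k => Car.dv e a (W k)) x +
        Car.n0 (fun k => Car.dv e' a' (W k)) x) ∂μ := by
  obtain ⟨l, hl⟩ : ∃ l : Fin 2 → ℂ →L[ℝ] ℝ, Car.Sq l := ⟨_, Car.sq_complex⟩
  have hv : ∀ (q : ι × Fin 2) x, Car.SA (fun y => l q.2 (W q.1 y)) x := fun q x =>
    (l q.2).contDiff.contDiffAt.comp x (hu q.1 x)
  have hz : ∀ q : ι × Fin 2, ∀ x ∉ K, l q.2 (W q.1 x) = 0 := fun q x hx => by simp [h0 _ x hx]
  have k := Finset.sum_le_sum fun (q : ι × Fin 2) (_ : q ∈ Finset.univ) =>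
    h _ (contDiff_iff_contDiffAt.2 (hv q)) (hz q)
  rw [← Finset.mul_sum, ← integral_finsetSum, ← integral_finsetSum] at k
  · refine (le_of_eq ?_).trans (k.trans (le_of_eq ?_))
    · congr 1
      funext x
      simp only [← Finset.mul_sum, Finset.sum_add_distrib, Fintype.sum_prod_type, Car.n0, Car.n1,
        Car.sq2, Car.gr, fun b k v => Car.dd_clm (l b) (hu k x) v, ← hl _]
      congr 3 <;> exact Finset.sum_congr rfl fun k _ => Finset.sum_comm
    · congr 2
      funext x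
      simp only [← Finset.mul_sum, Finset.sum_add_distrib, Fintype.sum_prod_type, Car.n0,
        fun b k => Car.dv_clm (e := e) (l b) (fun i j => ha i j x) (hu k x),
        fun b k => Car.dv_clm (e := e') (l b) (fun i j => ha' i j x) (hu k x), ← hl _]
  · exact fun q _ => Car.int_loc μ hK (fun x hx => (hΩ x hx).mul
      (((Car.sa_dv (fun i j => ha i j x) (hv q x)).pow 2).add
        ((Car.sa_dv (fun i j => ha' i j x) (hv q x)).pow 2))) fun x hx => by
      simp [Car.dv_zero hK.isClosed (hz q) x hx]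
  · exact fun q _ => Car.int_loc μ hK (fun x hx => (hΩ x hx).mul
      (((ContDiffAt.sum fun i _ => ((hv q x).dd _).pow 2).add
        (ContDiffAt.sum fun i _ => ((hv q x).dd _).pow 2)).add ((hv q x).pow 2))) fun x hx => by
      simp [Car.sq2, Car.gr, fun v => Car.dd_zero hK.isClosed (hz q) v x hx, hz q x hx]

end aux

/-- Hint: apply the hypothesis to real and imaginary parts of all components, add, write
`dv e1 (a1 g) = apx - lower order terms` (the lower order coefficients are at most `C(n) ε`, also for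
`L'.t`), absorb, then compare the weights. See AVec and `pa_low` of PA. -/
theorem efam (n : ℕ) (ι : Type) [Fintype ι] [DecidableEq ι] (C₀ : ℝ) : ∃ ε C : ℝ, 0 < ε ∧
    ∀ (L L' : Op n ι) (w Ω : V n × V n → ℝ) (K : Set (V n × V n)) (v : Kr n ι), L.Sm → L'.Sm →
      L.Near 3 ε → L'.Near 3 ε → IsCompact K →
      (∀ p ∈ K, Car.SA w p ∧ Car.SA Ω p ∧ 0 ≤ w p ∧ w p ≤ 2 * Ω p ∧ Ω p ≤ 2 * w p) →
      (∀ l m, ContDiff ℝ ∞ (fun p : V n × V n => v l m p.1 p.2) ∧
        tsupport (fun p : V n × V n => v l m p.1 p.2) ⊆ K) →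
      (∀ u : V n × V n → ℝ, ContDiff ℝ ∞ u → (∀ p ∉ K, u p = 0) →
        ∫ p, Ω p * (Car.sq2 (Car.gr e1 u p) + Car.sq2 (Car.gr e2 u p) + u p ^ 2) ≤
          C₀ * ∫ p, Ω p * (Car.dv e1 (a1 L.g) u p ^ 2 + Car.dv e2 (a2 L'.g) u p ^ 2)) →
      ∫ p : V n × V n, w p * ∑ l, ∑ m,
          (‖v l m p.1 p.2‖ ^ 2 + ∑ j, ‖pd j (fun x => v l m x p.2) p.1‖ ^ 2) ≤
        C * ∫ p : V n × V n, w p * ∑ l, ∑ m,
          (‖apx L v l m p.1 p.2‖ ^ 2 + ‖apy L'.t v l m p.1 p.2‖ ^ 2) := by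
  obtain ⟨C₁, hC₁, ht⟩ := tb_near (n := n) (ι := ι) 1
  obtain ⟨D, hD⟩ : ∃ D : ℝ, D = 4 * (Fintype.card ι) ^ 2 * (n + 1) + 2 * n ^ 3 := ⟨_, rfl⟩
  have D0 : 0 ≤ D := by rw [hD]; positivity
  have c0 := abs_nonneg C₀
  obtain ⟨B, B0, hB⟩ : ∃ B : ℝ, 0 < B ∧ |C₀| * (2 * D * B ^ 2) ≤ 1 / 2 := by
    have h1 : 0 ≤ |C₀| * D := by positivity
    have h2 : 0 < (4 * (|C₀| * D) + 1)⁻¹ := by positivity
    have h3 : (4 * (|C₀| * D) + 1) * (4 * (|C₀| * D) + 1)⁻¹ = 1 := mul_inv_cancel₀ (by positivity)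
    refine ⟨_, h2, ?_⟩
    generalize (4 * (|C₀| * D) + 1)⁻¹ = b at *
    have h4 : 0 ≤ |C₀| * D * b := by positivity
    have h5 : b ≤ 1 := by nlinarith
    nlinarith [mul_le_mul_of_nonneg_left h5 h4]
  have c1 : 0 < C₁ := by linarith
  refine ⟨B / C₁, 32 * |C₀|, by positivity, fun L L' w Ω K v s1 s2 n1 n2 hK hw hv h => ?_⟩
  have m1 : L.Near 1 B := n1.mono (by norm_num) (div_le_self B0.le hC₁)
  have m2 : L'.t.Near 1 B := by
    have := ht L' _ s2 n2
    rwa [mul_div_cancel₀ _ c1.ne'] at this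
  obtain ⟨U, hU⟩ : ∃ U : ι × ι → V n × V n → ℂ, U = fun q p => v q.1 q.2 p.1 p.2 := ⟨_, rfl⟩
  have u1 : ∀ q p, Car.SA (U q) p := fun q p => hU ▸ (hv q.1 q.2).1.contDiffAt
  have u0 : ∀ q, ∀ p ∉ K, U q p = 0 := fun q p hp =>
    hU ▸ image_eq_zero_of_notMem_tsupport (f := fun p : V n × V n => v q.1 q.2 p.1 p.2)
      fun h' => hp ((hv q.1 q.2).2 h')
  have ex : ∀ l m (p : V n × V n), apx L v l m p.1 p.2 =
      efam_op e1 (ContinuousLinearMap.fst ℝ _ _) L (fun l => U (l, m)) l p := fun l m p =>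
    Eq.trans (by rw [hU]; rfl) (efam_ap (W := fun l => U (l, m)) (x := p.1)
      (fun x => hasFDerivAt_prodMk_left x p.2) (fun _ => rfl) (fun _ => u1 _) rfl l)
  have ey : ∀ l m (p : V n × V n), apy L'.t v l m p.1 p.2 =
      efam_op e2 (ContinuousLinearMap.snd ℝ _ _) L'.t (fun m => U (l, m)) m p := fun l m p =>
    Eq.trans (by rw [hU]; rfl) (efam_ap (W := fun m => U (l, m)) (x := p.2)
      (fun y => hasFDerivAt_prodMk_right p.1 y) (fun _ => rfl) (fun _ => u1 _) rfl m)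
  have ed : ∀ l m j (p : V n × V n), pd j (fun x => v l m x p.2) p.1 =
      Car.dd (e1 j) (U (l, m)) p := fun l m j p =>
    Eq.trans (by rw [hU]) (congrFun (efam_sl (e := e1) (fun x => hasFDerivAt_prodMk_left x p.2)
      (fun _ => rfl) (u1 (l, m)) j) p.1)
  have e0 : ∀ l m (p : V n × V n), v l m p.1 p.2 = U (l, m) p := fun l m p => by rw [hU]
  obtain ⟨S, hS⟩ : ∃ S : V n × V n → ℝ, S = fun p => ∑ l, ∑ m,
      (‖apx L v l m p.1 p.2‖ ^ 2 + ‖apy L'.t v l m p.1 p.2‖ ^ 2) := ⟨_, rfl⟩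
  have S0 : ∀ p, 0 ≤ S p := fun p => by rw [hS]; positivity
  have S1 : ∀ p, Car.SA S p := fun p => by
    simp only [hS, ex, ey]
    exact ContDiffAt.sum fun l _ => ContDiffAt.sum fun m _ =>
      (Car.sq_complex.sa (efam_sa s1 (fun _ => u1 _ p) l)).add
        (Car.sq_complex.sa (efam_sa s2.t (fun _ => u1 _ p) m))
  have S2 : ∀ p ∉ K, S p = 0 := fun p hp => by
    simp [hS, ex, ey, fun m l => efam_zero (e := e1) (π := ContinuousLinearMap.fst ℝ _ _) (L := L)
      hK.isClosed (fun l => u0 (l, m)) l hp, fun l m => efam_zero (e := e2)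
      (π := ContinuousLinearMap.snd ℝ _ _) (L := L'.t) hK.isClosed (fun m => u0 (l, m)) m hp]
  have a1s : ∀ i j p, Car.SA (a1 L.g i j) p := fun i j p =>
    ((s1.g i j).comp contDiff_fst).contDiffAt
  have a2s : ∀ i j p, Car.SA (a2 L'.g i j) p := fun i j p =>
    ((s2.g i j).comp contDiff_snd).contDiffAt
  have pt : ∀ p, Car.n0 (fun k => Car.dv e1 (a1 L.g) (U k)) p +
      Car.n0 (fun k => Car.dv e2 (a2 L'.g) (U k)) p ≤
      2 * D * B ^ 2 * (Car.n1 e1 U p + Car.n1 e2 U p + Car.n0 U p) + 4 * S p := fun p => by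
    have k1 := Finset.sum_le_sum fun m (_ : m ∈ Finset.univ) => efam_pt (e := e1)
      (π := ContinuousLinearMap.fst ℝ _ _) (fun _ => rfl) s1 m1 fun l => u1 (l, m) p
    have k2 := Finset.sum_le_sum fun l (_ : l ∈ Finset.univ) => efam_pt (e := e2)
      (π := ContinuousLinearMap.snd ℝ _ _) (fun _ => rfl) s2.t m2 fun m => u1 (l, m) p
    simp only [Finset.sum_add_distrib, ← Finset.mul_sum, ← hD] at k1 k2
    have r1 : ∀ f : ι × ι → V n × V n → ℂ, Car.n0 f p = ∑ l, Car.n0 (fun m => f (l, m)) p ∧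
        Car.n0 f p = ∑ m, Car.n0 (fun l => f (l, m)) p := fun f =>
      ⟨Fintype.sum_prod_type _, Fintype.sum_prod_type_right _⟩
    have r2 : Car.n1 e1 U p = ∑ m, Car.n1 e1 (fun l => U (l, m)) p := Fintype.sum_prod_type_right _
    have r3 : Car.n1 e2 U p = ∑ l, Car.n1 e2 (fun m => U (l, m)) p := Fintype.sum_prod_type _
    have r4 : S p =
        ∑ m, Car.n0 (efam_op e1 (ContinuousLinearMap.fst ℝ _ _) L fun l => U (l, m)) p +
        ∑ l, Car.n0 (efam_op e2 (ContinuousLinearMap.snd ℝ _ _) L'.t fun m => U (l, m)) p := by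
      simp only [hS, ex, ey, Finset.sum_add_distrib, Car.n0]
      rw [Finset.sum_comm]
    rw [← (r1 U).2, ← r2] at k1
    rw [← (r1 U).1, ← r3] at k2
    rw [(r1 _).2, (r1 fun k => Car.dv e2 (a2 L'.g) (U k)).1, r4]
    refine (add_le_add k1 k2).trans ?_
    have p1 : 0 ≤ D * B ^ 2 * Car.n1 e1 U p := mul_nonneg (by positivity) (Car.n1_nonneg U p)
    have p2 : 0 ≤ D * B ^ 2 * Car.n1 e2 U p := mul_nonneg (by positivity) (Car.n1_nonneg U p)
    linarith
  have : (volume : Measure (V n × V n)).IsAddHaarMeasure :=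
    Measure.prod.instIsAddHaarMeasure volume volume
  have k := efam_sum volume hK (fun p hp => (hw p hp).2.1) a1s a2s u1 u0 h
  have z1 : ∀ e : Fin n → V n × V n, ∀ p ∉ K, Car.n1 e U p = 0 := fun e p hp => by
    simp [Car.n1, fun k v => Car.dd_zero hK.isClosed (u0 k) v p hp]
  have z0 : ∀ p ∉ K, Car.n0 U p = 0 := fun p hp => by simp [Car.n0, u0 _ p hp]
  have z2 : ∀ p ∉ K, Car.n0 (fun k => Car.dv e1 (a1 L.g) (U k)) p +
      Car.n0 (fun k => Car.dv e2 (a2 L'.g) (U k)) p = 0 := fun p hp => by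
    simp [Car.n0, fun k => Car.dv_zero (e := e1) (a := a1 L.g) hK.isClosed (u0 k) p hp,
      fun k => Car.dv_zero (e := e2) (a := a2 L'.g) hK.isClosed (u0 k) p hp]
  have q1 : ∀ (e : Fin n → V n × V n) p, Car.SA (Car.n1 e U) p := fun e p =>
    Car.sq_complex.sa1 fun k => u1 k p
  have q0 : ∀ p, Car.SA (Car.n0 U) p := fun p => Car.sq_complex.sa0 fun k => u1 k p
  have i1 := Car.int_loc volume hK (fun p hp => (hw p hp).2.1.mul
    (((q1 e1 p).add (q1 e2 p)).add (q0 p))) fun p hp => by simp [z1 _ p hp, z0 p hp]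
  have i2 := Car.int_loc volume hK (fun p hp => (hw p hp).2.1.mul
    ((Car.sq_complex.sa0 fun k => Car.sa_dv (e := e1) (fun i j => a1s i j p) (u1 k p)).add
      (Car.sq_complex.sa0 fun k => Car.sa_dv (e := e2) (fun i j => a2s i j p) (u1 k p))))
    fun p hp => by rw [z2 p hp, mul_zero]
  have i3 := Car.int_loc volume hK (fun p hp => (hw p hp).1.mul (S1 p))
    fun p hp => by rw [S2 p hp, mul_zero]
  have i4 := Car.int_loc volume hK (fun p hp => (hw p hp).1.mul ((q0 p).add (q1 e1 p)))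
    fun p hp => by simp [z1 _ p hp, z0 p hp]
  have j1 := integral_mono i2 ((i1.const_mul (2 * D * B ^ 2)).add (i3.const_mul 8)) fun p => by
    by_cases hp : p ∈ K
    · obtain ⟨-, -, w0, w1, w2⟩ := hw p hp
      have h1 := mul_le_mul_of_nonneg_left (pt p) (by linarith : 0 ≤ Ω p)
      have h2 := mul_le_mul_of_nonneg_right w2 (S0 p)
      simp only [Pi.add_apply]
      linarith
    · simp [z2 p hp, z1 _ p hp, z0 p hp, S2 p hp]
  have j2 := integral_mono i4 (i1.const_mul 2) fun p => by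
    by_cases hp : p ∈ K
    · obtain ⟨-, -, w0, w1, w2⟩ := hw p hp
      have h1 := mul_le_mul_of_nonneg_right w1
        (add_nonneg (Car.n0_nonneg U p) (Car.n1_nonneg (e := e1) U p))
      have h2 := mul_nonneg (by linarith : 0 ≤ Ω p) (Car.n1_nonneg (e := e2) U p)
      simp only
      linarith
    · simp [z1 _ p hp, z0 p hp]
  have j3 : 0 ≤ ∫ p, Ω p * (Car.n0 (fun k => Car.dv e1 (a1 L.g) (U k)) p +
      Car.n0 (fun k => Car.dv e2 (a2 L'.g) (U k)) p) := integral_nonneg fun p => by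
    by_cases hp : p ∈ K
    · obtain ⟨-, -, w0, w1, w2⟩ := hw p hp
      exact mul_nonneg (by linarith) (add_nonneg (Car.n0_nonneg _ p) (Car.n0_nonneg _ p))
    · simp [z2 p hp]
  have j4 : 0 ≤ ∫ p, Ω p * (Car.n1 e1 U p + Car.n1 e2 U p + Car.n0 U p) :=
    integral_nonneg fun p => by
      by_cases hp : p ∈ K
      · obtain ⟨-, -, w0, w1, w2⟩ := hw p hp
        exact mul_nonneg (by linarith) (add_nonneg (add_nonneg (Car.n1_nonneg _ p)
          (Car.n1_nonneg _ p)) (Car.n0_nonneg _ p))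
      · simp [z1 _ p hp, z0 p hp]
  simp only [Pi.add_apply] at j1
  rw [integral_add (i1.const_mul _) (i3.const_mul _), integral_const_mul, integral_const_mul] at j1
  rw [integral_const_mul] at j2
  have j5 := k.trans ((mul_le_mul_of_nonneg_right (le_abs_self C₀) j3).trans
    (mul_le_mul_of_nonneg_left j1 c0))
  have j6 := mul_le_mul_of_nonneg_right hB j4
  refine (le_of_eq ?_).trans (j2.trans (le_trans (by linarith :
    _ ≤ 32 * |C₀| * ∫ p, w p * S p) (le_of_eq (by rw [hS]))))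
  simp only [ed, e0, Finset.sum_add_distrib, Car.n0, Car.n1, Fintype.sum_prod_type]

end Vale.Agent.P088F
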