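import Vale.Agent.P088F.EH1
import Vale.Agent.P088F.ES0
import Vale.Agent.P088F.EH2
import Vale.Agent.P088F.EH3
import Vale.Agent.P088F.EH5
import Vale.Agent.P088F.EH6
import Vale.Agent.P088F.EH7
import Vale.Agent.P088F.EInt
import Vale.Agent.P088F.EFam
import Vale.Agent.P088F.EGeo
import Vale.Agent.P088F.PQ

/-! P088F, part E: the Carleman estimate on the product. -/

open MeasureTheory Set Filter Topology
open scoped ContDiff

noncomputable section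

namespace Vale.Agent.P088F

open Vale.Agent.P292E Vale.Agent.P088

variable {n : ℕ} {ι : Type} [Fintype ι] [DecidableEq ι]

omit [Fintype ι] [DecidableEq ι] in
theorem pe_near {L : Op n ι} {ε : ℝ} (h : L.Near 3 ε) (j k : Fin n) (x : V n) :
    |L.g j k x - if j = k then 1 else 0| ≤ ε ∧ ∀ i, |pr i (L.g j k) x| ≤ ε := by
  refine ⟨by simpa using h.g j k 0 (by norm_num) x trivial, fun i => ?_⟩
  have h1 := h.g j k 1 (by norm_num) x trivial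
  rw [norm_iteratedFDeriv_one, fderiv_sub_const] at h1
  refine ((fderiv ℝ (L.g j k) x).le_opNorm (ee i)).trans ?_
  simpa [ee] using h1

theorem pe_num {r s N c b : ℝ} (r0 : 0 < r) (h1 : r < 3 * s) (h2 : s * N ^ 3 ≤ c) (N1 : 1 ≤ N)
    (c3 : 72 * c ≤ 1) (b0 : 0 < b) : r * N ^ 2 ≤ 72 * c ∧ (b ≤ 2 * r → b ^ 3 ≤ 72 * c * r) := by
  have s0 : 0 < s := by linarith
  have h3 : s * N ^ 2 ≤ s * N ^ 3 := by gcongr; norm_num
  have h4 : 1 ≤ N ^ 2 := one_le_pow₀ N1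
  have b2 : r * N ^ 2 ≤ 3 * c := by nlinarith
  have b3 : r ≤ 3 * c := by nlinarith
  refine ⟨by linarith, fun h => ?_⟩
  calc _ ≤ (2 * r) ^ 3 := pow_le_pow_left₀ b0.le h 3
    _ = 8 * (r * r) * r := by ring
    _ ≤ _ := mul_le_mul_of_nonneg_right (by nlinarith) r0.le

theorem pe_min (a b c d e f g h : ℝ) (ha : 0 < a) (hb : 0 < b) (hc : 0 < c) (hd : 0 < d)
    (he : 0 < e) (hf : 0 < f) (hg : 0 < g) (hh : 0 < h) : ∃ t : ℝ, 0 < t ∧ t ≤ a ∧ t ≤ b ∧ t ≤ c ∧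
      t ≤ d ∧ t ≤ e ∧ t ≤ f ∧ t ≤ g ∧ t ≤ h :=
  ⟨min (min (min a b) (min c d)) (min (min e f) (min g h)), by positivity,
    by simp, by simp, by simp, by simp, by simp, by simp, by simp, by simp⟩

variable [NeZero n]

theorem pe_wt {P : Par} {g g' : Mf n} {M : ℝ} {J : ℕ} {p : V n × V n} {r C δ t : ℝ}
    (h : Cx P g g' M J p r C δ t) (ht : t * (10 * C) ≤ 1) (h0 : (P.dt g g' M J).S0 p) :
    Car.SA (fun q => wt M J (P.Th g' q)) p ∧ Car.SA (P.dt g g' M J).Om p ∧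
    0 ≤ wt M J (P.Th g' p) ∧ wt M J (P.Th g' p) ≤ 2 * (P.dt g g' M J).Om p ∧
    (P.dt g g' M J).Om p ≤ 2 * wt M J (P.Th g' p) := by
  have s := h.geo.sm
  have s0 := h.s0
  obtain ⟨-, -, -, -, -, -, a1, a2, -⟩ := h.l12 ht
  have e0 := (ek_sa M J h.s0).2.2.2.2.2
  have e : (P.dt g g' M J).Om p * Real.exp (2 * P.b1 p) =
      wt M J (P.Th g' p) * (P.dt g g' M J).l2 p := by
    rw [← e0]
    simp only [Dt.Om, Dt.Φ, Par.dt, sq, ← Real.exp_add]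
    congr 1; ring
  have w0 : 0 < wt M J (P.Th g' p) := e0 ▸ Real.exp_pos _
  have x0 := Real.exp_pos (2 * P.b1 p (n := n))
  have o0 : 0 < (P.dt g g' M J).Om p :=
    mul_pos (Real.exp_pos _) (mul_pos h0.m0 (pow_pos h0.l20 2))
  refine ⟨(contDiffAt_const.mul s).exp.mul ((s.div (contDiffAt_const.add s) (by linarith)).pow _),
    (contDiffAt_const.mul (h0.Ψ.add (h0.σ.div_const 2))).exp.mul (h0.m.mul (h0.l2.pow 2)), w0.le,
    ?_, ?_⟩
  · refine le_of_mul_le_mul_right ?_ x0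
    nlinarith
  · refine le_of_mul_le_mul_right ?_ x0
    nlinarith

theorem c7b (hQ : PQ n ι) (hG : PG n ι) : C7B n ι := by
  obtain ⟨κq, Cq, hκq, hQ⟩ := hQ
  obtain ⟨C, hC, hG⟩ := hG
  obtain ⟨t0, p0, h0⟩ := es0 n C
  obtain ⟨t2, p2, h2⟩ := eh2 n C
  obtain ⟨t3, p3, h3⟩ := eh3 n C
  obtain ⟨t5, p5, h5⟩ := eh5 n C
  obtain ⟨t6, p6, h6⟩ := eh6 n C
  obtain ⟨t7, p7, h7⟩ := eh7 n C
  obtain ⟨t1, η, p1, hη, h1⟩ := eh1 n C Cq
  obtain ⟨t, ht, q0, q1, q2, q3, q5, q6, q7, q8⟩ := pe_min t0 t1 t2 t3 t5 t6 t7 (1 / (10 * C)) p0 p1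
    p2 p3 p5 p6 p7 (by positivity)
  have q9 : t * (10 * C) ≤ 1 := (le_div_iff₀ (by positivity)).1 q8
  obtain ⟨M, J, hM, hJ, tM, tk⟩ := ek_ex ht
  refine ⟨M, min κq (1 / 100), J, hM, hJ, by positivity, fun κ hκ hκ' => ?_⟩
  obtain ⟨εq, cq, Nq, η', hεq, hcq, hη', hQ⟩ := hQ κ hκ (hκ'.trans (min_le_left _ _)) η hη
  obtain ⟨δ₀, hδ₀, h1⟩ := h1 κ η' hκ hη'
  have hδ : 0 < min δ₀ t := lt_min hδ₀ ht
  obtain ⟨εg, cg, hεg, hcg, hG⟩ := hG _ hδ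
  obtain ⟨εf, Cf, hεf, hF⟩ := efam n ι 1000000
  obtain ⟨c, hc, c1, c2, c3, -⟩ := pe_min (cq / 72) (cg / 72) (1 / 72) 1 1 1 1 1 (by positivity)
    (by positivity) (by positivity) one_pos one_pos one_pos one_pos one_pos
  obtain ⟨ε, hε, e1, e2, e3, e4, -⟩ := pe_min εq εg εf (min δ₀ t) 1 1 1 1 hεq hεg hεf hδ one_pos
    one_pos one_pos one_pos
  replace c1 : 72 * c ≤ cq := by linarith only [c1]
  replace c2 : 72 * c ≤ cg := by linarith only [c2]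
  replace c3 : 72 * c ≤ 1 := by linarith only [c3]
  refine ⟨3, ε, c, max Nq (max 1 (1 / κ)), Cf, hε, hc,
    fun P d v hP ok s1 s2 n1 n2 hH hv => ?_⟩
  have N1 : 1 ≤ P.N := ((le_max_left _ _).trans (le_max_right _ _)).trans ok.N0
  have N2 : 1 ≤ P.κ * P.N := by
    have : 1 / κ ≤ P.N := ((le_max_right _ _).trans (le_max_right _ _)).trans ok.N0
    rw [div_le_iff₀ hκ] at this
    rw [hP]; linarith only [this]
  have k1 : κ ≤ 1 / 100 := hκ'.trans (min_le_right _ _)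
  have key : ∀ p ∈ ⋃ l, ⋃ m, tsupport fun p : V n × V n => v l m p.1 p.2,
      Cx P d.L1.g d.L2.g M J p ‖p.1 - p.2‖ C (min δ₀ t) t ∧
        PQat P d.L1.g d.L2.g p ‖p.1 - p.2‖ Cq η η' := by
    intro p hp
    simp only [mem_iUnion] at hp
    obtain ⟨l, m, hp⟩ := hp
    obtain ⟨a1, a2, a3, a4, a5⟩ := (hv l m).2.2 hp
    have r0 : 0 < ‖p.1 - p.2‖ := norm_pos_iff.2 (sub_ne_zero.2 a3)
    obtain ⟨b2, b3⟩ := pe_num r0 a5 ok.B1 N1 c3 (Par.b_pos ok.B0 p.1)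
    obtain ⟨g1, g2⟩ := hG P d p (hP ▸ hκ) (hP ▸ k1) N1 ok.B0 s1 s2 (n1.mono le_rfl e2)
      (n2.mono le_rfl e2) a1 a3 (b2.trans c2)
    have b4 := b3 (g1 a4)
    have b5 := hH p.1 a1 (hP ▸ a2)
    have m1 := pe_near (n1.mono le_rfl e4)
    have m2 := pe_near (n2.mono le_rfl e4)
    refine ⟨⟨g2 (b5.mono (b4.trans (mul_le_mul_of_nonneg_right c2 r0.le))), s1.g, s2.g, s1.symm,
      s2.symm, fun j k x => (m1 j k x).1, fun j k x => (m2 j k x).1, fun i j k x => (m1 j k x).2 i,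
      fun i j k x => (m2 j k x).2 i, hC, r0, N1, by linarith only [hP, k1], N2, ok.B0, a4, hδ,
      min_le_right _ _, tM, tk _ a4⟩, ?_⟩
    have := hQ P d p hP ((le_max_left _ _).trans ok.N0) ok.B0 s1 s2 (n1.mono le_rfl e1)
      (n2.mono le_rfl e1) a1 a3 (b2.trans c1)
      (b5.mono (b4.trans (mul_le_mul_of_nonneg_right c1 r0.le)))
    rw [← hP] at this
    exact this
  have hK : IsCompact (⋃ l, ⋃ m, tsupport fun p : V n × V n => v l m p.1 p.2) :=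
    isCompact_iUnion fun l => isCompact_iUnion fun m => (hv l m).2.1
  refine hF d.L1 d.L2 (fun p => wt M J (P.Th d.L2.g p)) (P.dt d.L1.g d.L2.g M J).Om _ v s1 s2
    (n1.mono le_rfl e3) (n2.mono le_rfl e3) hK
    (fun p hp => pe_wt (key p hp).1 q9 (h0 _ _ _ _ _ _ _ _ _ q0 (key p hp).1))
    (fun l m => ⟨(hv l m).1, subset_iUnion₂ (s := fun l m =>
      tsupport fun p : V n × V n => v l m p.1 p.2) l m⟩) fun u hu hu0 => ?_
  haveI : (volume : Measure (V n × V n)).IsAddHaarMeasure := Measure.prod.instIsAddHaarMeasure _ _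
  exact eint (D := P.dt d.L1.g d.L2.g M J) volume hK (fun p hp =>
    have a := (key p hp).1
    ⟨h0 _ _ _ _ _ _ _ _ _ q0 a, h1 _ _ _ _ _ _ _ _ _ hP q1 (min_le_left _ _) a (key p hp).2,
      h2 _ _ _ _ _ _ _ _ _ q2 a, h3 _ _ _ _ _ _ _ _ _ q3 a, h5 _ _ _ _ _ _ _ _ _ q5 a,
      h6 _ _ _ _ _ _ _ _ _ q6 a, h7 _ _ _ _ _ _ _ _ _ q7 a⟩) (fun _ _ => hu.contDiffAt) hu0

theorem c7b' : C7B n ι := c7b pq pg

end Vale.Agent.P088F
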