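import Vale.Agent.P088F.FinalA
import Vale.Agent.P088F.PE

/-! P088: the theorem over the working definitions. -/

open MeasureTheory Set
open scoped Manifold ContDiff

namespace Vale.Agent.P088

/-- The working form of the theorem. -/
theorem working {n N : ℕ} [NeZero n] (hn : 3 ≤ n) (hN : 1 ≤ N)
    {M : Type} [TopologicalSpace M] [ChartedSpace (EuclideanHalfSpace n) M]
    [IsManifold (𝓡∂ n) ∞ M] [T2Space M] [CompactSpace M] [ConnectedSpace M]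
    [MeasurableSpace M] [BorelSpace M]
    (Γ : Set M) (hΓ : ∃ O : Set M, IsOpen O ∧ Γ = O ∩ (𝓡∂ n).boundary M) (hne : Γ.Nonempty)
    (g₁ g₂ : Met (𝓡∂ n) M) (μ₁ μ₂ : Measure M) (hμ₁ : IsVol g₁ μ₁) (hμ₂ : IsVol g₂ μ₂)
    (A₁ A₂ : Conn (𝓡∂ n) M N) (S₁ S₂ : (M → Fb N) → M → Fb N)
    (hS₁ : ∀ f, IsTest (𝓡∂ n) Γ f → IsSol g₁ μ₁ A₁ f (S₁ f))
    (hS₂ : ∀ f, IsTest (𝓡∂ n) Γ f → IsSol g₂ μ₂ A₂ f (S₂ f))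
    (hD : ∀ f h, IsTest (𝓡∂ n) Γ f → IsTest (𝓡∂ n) Γ h →
      form g₁ μ₁ A₁ (S₁ f) (S₁ h) = form g₂ μ₂ A₂ (S₂ f) (S₂ h)) :
    ∃ (Φ : Diffeomorph (𝓡∂ n) (𝓡∂ n) M M ∞) (U : M → Op N),
      ContMDiff (𝓡∂ n) 𝓘(ℝ, Op N) ∞ U ∧ (∀ x, U x ∈ unitary (Op N)) ∧
      (∀ x ∈ Γ, Φ x = x ∧ U x = 1) ∧
      (∀ x v w, g₂.inner x v w = g₁.inner (Φ x) (mfderiv (𝓡∂ n) (𝓡∂ n) Φ x v)
        (mfderiv (𝓡∂ n) (𝓡∂ n) Φ x w)) ∧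
      ∀ x v, A₂.A x v = star (U x) * A₁.A (Φ x) (mfderiv (𝓡∂ n) (𝓡∂ n) Φ x v) * U x +
        star (U x) * dif (𝓡∂ n) U x v :=
  concl_of hn hN P088F.pq P088F.c7b' ⟨hΓ, hne⟩ ⟨hμ₁, hS₁⟩ ⟨hμ₂, hS₂⟩ hD

end Vale.Agent.P088
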