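import Vale.Agent.P088F.GXs

/-! P088, part G, file GX. Assembly. -/

open MeasureTheory Set Filter Bundle Metric Topology Matrix
open scoped Manifold ContDiff ENNReal NNReal ComplexConjugate

noncomputable section

namespace Vale.Agent.P088.Gl

open Vale.Agent.P088F

variable {n N : ℕ} [NeZero n] {M : Type} [TopologicalSpace M]
  [ChartedSpace (EuclideanHalfSpace n) M]

/-- Test sections of the lower half ball. -/
def XE (M : Type) [TopologicalSpace M] [ChartedSpace (EuclideanHalfSpace n) M] (N : ℕ) (r : ℝ) :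
    Submodule ℂ (XD (n := n) M N r) where
  carrier := {d | d.1.1 = 0 ∧ tsupport d.1.2 ⊆ lo n r}
  add_mem' ha hb := ⟨by simp [ha.1, hb.1], (tsupport_add _ _).trans (union_subset ha.2 hb.2)⟩
  zero_mem' := ⟨rfl, by simp⟩
  smul_mem' c d hd := ⟨by simp [hd.1], (tsupport_smul_subset_right (fun _ => c) d.1.2).trans hd.2⟩

theorem GX_pair {r : ℝ} {γ₁ γ₂ : Geo n N}
    (e : ∀ z ∈ lo n r, γ₁.g z = γ₂.g z ∧ ∀ i, γ₁.a i z = γ₂.a i z) (u : Ec n → Fb N)
    {F : Ec n → Fb N} (hF : ET (lo n r) F) : γ₁.pair u F = γ₂.pair u F := by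
  refine integral_congr_ae (ae_of_all _ fun z => ?_)
  by_cases h1 : z ∈ lo n r
  · simp only [Geo.vol, (e z h1).1]
  · simp only [image_eq_zero_of_notMem_tsupport fun h2 => h1 (hF.2.2 h2), inner_zero_right,
      smul_zero]

variable [IsManifold (𝓡∂ n) ∞ M] [T2Space M] [CompactSpace M] [MeasurableSpace M] [BorelSpace M]

/-- The Green operator of one structure with its smooth representatives. -/
structure XC (Γ : Set M) (g : Met (𝓡∂ n) M) (μ : Measure M) (A : Conn (𝓡∂ n) M N)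
    (S : (M → Fb N) → M → Fb N) (p : M) (r : ℝ) (τ θ : Ec n → Ec n) (W : Ec n → Op N)
    (γ : Geo n N) (j : XD (n := n) M N r →ₗ[ℂ] XH μ γ r) (T : XH μ γ r →L[ℂ] XH μ γ r) (Λ : ℝ)
    (uM : XD (n := n) M N r → M → Fb N) (uB : XD (n := n) M N r → Ec n → Fb N) : Prop where
  h : XP Γ g A p r τ θ W γ
  hD : Dat Γ g μ A S
  hj : IsJ p r τ θ W j
  hT : IsG (XQ g μ A p r τ θ W γ) j T
  hΛ : ∀ d, ‖j d‖ ^ 2 ≤ Λ ^ 2 * (XQ g μ A p r τ θ W γ d d).re
  m : ∀ d, MW g μ A ((𝓡∂ n).interior M) (uM d) (um p r τ θ W d.1) ∧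
    ((T (j d)).fst : M → Fb N) =ᵐ[μ] uM d
  b : ∀ d, EW (ball 0 r) γ (uB d) (sb p r τ W d.1) ∧
    ∀ᵐ z, z ∈ ball (0 : Ec n) r → kb p r τ W (T (j d)) z = uB d z

variable {Γ : Set M} {g : Met (𝓡∂ n) M} {μ : Measure M} {A : Conn (𝓡∂ n) M N}
  {S : (M → Fb N) → M → Fb N} {p : M} {r : ℝ} {τ θ : Ec n → Ec n} {W : Ec n → Op N} {γ : Geo n N}

theorem XP.xc [ConnectedSpace M] (h : XP Γ g A p r τ θ W γ) (h2 : γ.Sm (ball 0 (2 * r)))
    (hD : Dat Γ g μ A S) : ∃ j T Λ uM uB, XC Γ g μ A S p r τ θ W γ j T Λ uM uB := by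
  obtain ⟨j, hj⟩ := h.exists_j hD.vol
  obtain ⟨Λ, hΛ⟩ := h.poin h2 hD.vol hj
  obtain ⟨T, hT⟩ := green (XQ g μ A p r τ θ W γ) h.XQ_conj (fun d => (h.XQ_nonneg hD.vol d).1)
    (h.XQ_add hD.vol) h.XQ_smul j hΛ
  choose uM hM using h.rep_m hD.vol hj hT
  choose uB hB using h.rep_b hD.vol hj hT
  exact ⟨j, T, Λ, uM, uB, h, hD, hj, hT, hΛ, hM, hB⟩

variable {j : XD (n := n) M N r →ₗ[ℂ] XH μ γ r} {T : XH μ γ r →L[ℂ] XH μ γ r} {Λ : ℝ}
  {uM : XD (n := n) M N r → M → Fb N} {uB : XD (n := n) M N r → Ec n → Fb N}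

namespace XC

variable (c : XC Γ g μ A S p r τ θ W γ j T Λ uM uB)
include c

theorem nn (d : XD (n := n) M N r) : 0 ≤ (XQ g μ A p r τ θ W γ d d).re :=
  (c.h.XQ_nonneg c.hD.vol d).1

theorem cm (d : XD (n := n) M N r) : ContinuousOn (uM d) ((𝓡∂ n).interior M) :=
  (c.m d).1.1.continuousOn

theorem cb (d : XD (n := n) M N r) : ContinuousOn (uB d) (ball 0 r) := (c.b d).1.1.continuousOn

theorem m_eq {d : XD (n := n) M N r} {w : M → Fb N} (hw : ContinuousOn w ((𝓡∂ n).interior M))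
    (e : ((T (j d)).fst : M → Fb N) =ᵐ[μ] w) : EqOn (uM d) w ((𝓡∂ n).interior M) :=
  GXf_uniq c.hD.vol (c.cm d) hw ((c.m d).2.symm.trans e)

theorem b_eq {d : XD (n := n) M N r} {w : Ec n → Fb N} (hw : ContinuousOn w (ball 0 r))
    (e : ∀ᵐ z, z ∈ ball (0 : Ec n) r → kb p r τ W (T (j d)) z = w z) :
    EqOn (uB d) w (ball 0 r) :=
  GXf_euniq isOpen_ball (c.cb d) hw (by
    filter_upwards [(c.b d).2, e] with z h1 h2 hz using (h1 hz).symm.trans (h2 hz))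

theorem m_add (d e : XD (n := n) M N r) :
    EqOn (uM (d + e)) (uM d + uM e) ((𝓡∂ n).interior M) := by
  refine c.m_eq ((c.cm d).add (c.cm e)) ?_
  rw [map_add, map_add]
  filter_upwards [Lp.coeFn_add (T (j d)).fst (T (j e)).fst, (c.m d).2, (c.m e).2] with x h1 h2 h3
  rw [Pi.add_apply, ← h2, ← h3]
  exact h1

theorem m_smul (a : ℂ) (d : XD (n := n) M N r) :
    EqOn (uM (a • d)) (a • uM d) ((𝓡∂ n).interior M) := by
  refine c.m_eq ((c.cm d).const_smul a) ?_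
  rw [map_smul, map_smul]
  filter_upwards [Lp.coeFn_smul a (T (j d)).fst, (c.m d).2] with x h1 h2
  rw [Pi.smul_apply, ← h2]
  exact h1

theorem b_add (d e : XD (n := n) M N r) : EqOn (uB (d + e)) (uB d + uB e) (ball 0 r) := by
  refine c.b_eq ((c.cb d).add (c.cb e)) ?_
  rw [map_add, map_add]
  filter_upwards [c.h.kb_lin c.hD.vol 1 (T (j d)) (T (j e)), (c.b d).2, (c.b e).2] with z h1 h2 h3 hz
  rw [one_smul, one_smul] at h1
  rw [h1, h2 hz, h3 hz, Pi.add_apply]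

theorem b_smul (a : ℂ) (d : XD (n := n) M N r) : EqOn (uB (a • d)) (a • uB d) (ball 0 r) := by
  refine c.b_eq ((c.cb d).const_smul a) ?_
  rw [map_smul, map_smul]
  filter_upwards [c.h.kb_lin c.hD.vol (a - 1) (T (j d)) (T (j d)), (c.b d).2] with z h1 h2 hz
  rw [sub_smul, sub_smul, one_smul, one_smul, sub_add_cancel, sub_add_cancel] at h1
  rw [h1, h2 hz, Pi.smul_apply]

theorem pm (d : XD (n := n) M N r) {F : M → Fb N} (hF : MT (𝓡∂ n) ((𝓡∂ n).interior M) F) :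
    ∫ x, inner ℂ (uM d x) (F x) ∂μ = inner ℂ (T (j d)) (j (tm n r F)) := by
  rw [c.h.inner_tm c.hj _ hF]
  exact integral_congr_ae ((c.m d).2.mono fun x hx => by simp only [hx])

theorem pm' (d : XD (n := n) M N r) {F : M → Fb N} (hF : MT (𝓡∂ n) ((𝓡∂ n).interior M) F) :
    ∫ x, inner ℂ (F x) (uM d x) ∂μ = inner ℂ (T (j (tm n r F))) (j d) := by
  rw [c.hT.sym, ← inner_conj_symm, ← c.pm d hF, ← integral_conj]
  simp only [inner_conj_symm]

theorem pb (d : XD (n := n) M N r) {F : Ec n → Fb N} (hF : ET (ball 0 r) F) :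
    γ.pair (uB d) F = inner ℂ (T (j d)) (j (tb M r F)) := by
  rw [c.h.inner_tb c.hD.vol c.hj _ hF, GXs_pair_ae γ hF.2.2 (c.b d).2]

theorem pb' (d : XD (n := n) M N r) {F : Ec n → Fb N} (hF : ET (ball 0 r) F) :
    γ.pair F (uB d) = inner ℂ (T (j (tb M r F))) (j d) := by
  rw [c.hT.sym, ← inner_conj_symm, ← c.pb d hF, GXs_pair_conj]

theorem m_l2 (d : XD (n := n) M N r) :
    ∫⁻ x in (𝓡∂ n).interior M, ENNReal.ofReal (‖uM d x‖ ^ 2) ∂μ ≤
      ENNReal.ofReal (Λ ^ 2 * (inner ℂ (T (j d)) (j d)).re) :=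
  (c.h.fst_le _ (c.m d).2 _).trans (ENNReal.ofReal_le_ofReal (GXa_norm c.hT c.nn c.hΛ _))

theorem mg : MG g μ A fun F => uM (tm n r F) where
  add F F' h h' := by rw [tm_add h h']; exact c.m_add _ _
  smul a F h := by rw [tm_smul a h]; exact c.m_smul _ _
  sol F h := by
    have h1 := (c.m (tm n r F)).1
    rwa [um_tm h] at h1
  inv φ F h1 h2 h3 := c.m_eq h1.1.continuous.continuousOn (by
    have h4 := (c.hj (tm n r φ)).1
    rw [um_tm h1] at h4
    rwa [c.h.inv_tm c.hj c.hT h1 h2 h3])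
  symm F F' h h' := by rw [c.pm' _ h, c.pm _ h']
  bound := by
    obtain ⟨C, hC, hl⟩ := GXl2_lsc c.hD.vol A
    refine ⟨C + Λ ^ 2, fun F h => ?_⟩
    have hE := c.hT.nn (j (tm n r F))
    have h1 := hl _ _ hE (c.m (tm n r F)).1.1 fun ε hε => by
      obtain ⟨φ, h2, h3⟩ := GXa_approx c.hT c.nn c.hΛ (j (tm n r F)) hε
      exact ⟨_, c.h.um_sm φ, (c.h.sub_le c.hj φ _ (c.m _).2 _).trans (ENNReal.ofReal_le_ofReal h2),
        (c.h.XQ_nonneg c.hD.vol φ).2.trans h3⟩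
    have h2 : AEMeasurable (fun x => ENNReal.ofReal (‖uM (tm n r F) x‖ ^ 2)) μ :=
      (((Lp.aestronglyMeasurable _).congr (c.m _).2).norm.aemeasurable.pow_const 2).ennreal_ofReal
    rw [c.pm' _ h, add_mul, ENNReal.ofReal_add (mul_nonneg hC hE) (mul_nonneg (sq_nonneg _) hE)]
    refine (lintegral_mono fun x => ENNReal.ofReal_add_le).trans ?_
    rw [lintegral_add_right' _ h2.restrict]
    exact add_le_add h1 (c.m_l2 _)

theorem eg : EG (ball 0 r) γ fun F => uB (tb M r F) where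
  add F F' h h' := by rw [tb_add h h']; exact c.b_add _ _
  smul a F h := by rw [tb_smul a h]; exact c.b_smul _ _
  sol F h := by
    have h1 := (c.b (tb M r F)).1
    rwa [sb_tb h] at h1
  inv φ F h1 h2 h3 := c.b_eq h1.1.continuous.continuousOn (by
    have h4 := c.h.kb_j c.hD.vol c.hj (tb M r φ)
    rw [sb_tb h1] at h4
    rwa [c.h.inv_tb c.hD.vol c.hj c.hT h1 h2 h3])
  symm F F' h h' := by rw [c.pb' _ h, c.pb _ h']
  bound := by
    refine ⟨1 + Λ ^ 2, fun F h => ?_⟩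
    have hE := c.hT.nn (j (tb M r F))
    have h1 := GXl1_lsc isOpen_ball c.h.sm (c.b (tb M r F)).1.1
      (E := (inner ℂ (T (j (tb M r F))) (j (tb M r F))).re) fun ε hε => by
      obtain ⟨φ, h2, h3⟩ := GXa_approx c.hT c.nn c.hΛ (j (tb M r F)) hε
      refine ⟨_, c.h.sb_sm φ, le_trans (le_of_eq ?_) ((c.h.kb_l2 c.hD.vol _).trans
        (ENNReal.ofReal_le_ofReal h2)), (c.h.sb_en c.hD.vol φ).trans (ENNReal.ofReal_le_ofReal h3)⟩
      refine lintegral_congr_ae ((ae_restrict_iff' measurableSet_ball).2 ?_)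
      filter_upwards [c.h.kb_lin c.hD.vol (-1) (T (j (tb M r F))) (j φ), (c.b (tb M r F)).2,
        c.h.kb_j c.hD.vol c.hj φ] with z h4 h5 h6 hz
      rw [neg_one_smul, neg_one_smul, neg_add_eq_sub, neg_add_eq_sub] at h4
      rw [h4, h5 hz, h6 hz]
    have h2 : AEMeasurable (fun z => ENNReal.ofReal (γ.vol z * ‖uB (tb M r F) z‖ ^ 2))
        (volume.restrict (ball 0 r)) :=
      ((c.h.sm.vol.continuousOn.mul ((c.cb _).norm.pow 2)).aemeasurable
        measurableSet_ball).ennreal_ofReal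
    have h3 : ∫⁻ z in ball 0 r, ENNReal.ofReal (γ.vol z * ‖uB (tb M r F) z‖ ^ 2) ≤ _ :=
      le_trans (le_of_eq (lintegral_congr_ae ((ae_restrict_iff' measurableSet_ball).2
        ((c.b _).2.mono fun z h4 hz => by rw [h4 hz])))) ((c.h.kb_l2 c.hD.vol _).trans
          (ENNReal.ofReal_le_ofReal (GXa_norm c.hT c.nn c.hΛ (j (tb M r F)))))
    rw [c.pb' _ h, add_mul, one_mul, ENNReal.ofReal_add hE (mul_nonneg (sq_nonneg _) hE)]
    simp only [mul_add]
    refine (lintegral_mono fun x => ENNReal.ofReal_add_le).trans ?_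
    rw [lintegral_add_right' _ h2]
    exact add_le_add h1 h3

theorem dens {F : Ec n → Fb N} (hF : ET (lo n r) F) {ε : ℝ} (hε : 0 < ε) :
    ∃ φ, ET (ball 0 r) φ ∧ ∫⁻ x in (𝓡∂ n).interior M,
      ENNReal.ofReal (‖S (xps p r τ θ W φ) x - uM (tb M r F) x‖ ^ 2) ∂μ ≤
        ENNReal.ofReal (2 * ε ^ 2 * μ.real univ + 2 * (Λ ^ 2 * (2 * ε))) := by
  have := c.hD.vol.finite
  obtain ⟨d, hd⟩ := GXa_small c.hT (j (tb M r F)) hε
  obtain ⟨e, h1, h2, h3⟩ := c.h.en_ge c.hD d.2.2 hε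
  have h4 := c.h.en_le c.hD d
  have h5 : dfc (XQ g μ A p r τ θ W γ) j T (j (tb M r F)) e ≤ 2 * ε := by
    rw [dfc, c.h.inner_lo c.hD.vol c.hj _ hF] at hd ⊢
    rw [h1]
    linarith
  have h6 := (c.h.sub_le c.hj e _ (c.m (tb M r F)).2 ((𝓡∂ n).interior M)).trans
    (ENNReal.ofReal_le_ofReal ((GXa_close c.hT c.nn c.hΛ _ e).trans
      (mul_le_mul_of_nonneg_left h5 (sq_nonneg Λ))))
  refine ⟨_, d.2.2, (lintegral_mono (g := fun x => ENNReal.ofReal (2 * ε ^ 2) + ENNReal.ofReal 2 *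
    ENNReal.ofReal (‖um p r τ θ W e.1 x - uM (tb M r F) x‖ ^ 2)) fun x => ?_).trans ?_⟩
  · have h7 := GXs_sq (S (xps p r τ θ W d.1.2) x - um p r τ θ W e.1 x)
      (um p r τ θ W e.1 x - uM (tb M r F) x)
    have h8 := pow_le_pow_left₀ (norm_nonneg _) (h3 x) 2
    rw [sub_add_sub_cancel] at h7
    beta_reduce
    rw [← ENNReal.ofReal_mul zero_le_two, ← ENNReal.ofReal_add (by positivity) (by positivity)]
    exact ENNReal.ofReal_le_ofReal (by linarith)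
  · rw [lintegral_add_left measurable_const, lintegral_const_mul' _ _ ENNReal.ofReal_ne_top,
      setLIntegral_const, ENNReal.ofReal_add (by positivity) (by positivity),
      ENNReal.ofReal_mul (p := 2 * ε ^ 2) (by positivity), ENNReal.ofReal_mul (p := 2) (q := Λ ^ 2 * (2 * ε)) zero_le_two,
      ofReal_measureReal]
    exact add_le_add (mul_le_mul_right (measure_mono (subset_univ _)) _) (mul_le_mul_right h6 _)

theorem xg : XG Γ g μ A S p r τ θ W γ (fun F => uM (tm n r F)) (fun F => uB (tb M r F))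
    fun F => uM (tb M r F) where
  mg := c.mg
  eg := c.eg
  add F F' h h' := by rw [tb_add h h']; exact c.m_add _ _
  smul a F h := by rw [tb_smul a h]; exact c.m_smul _ _
  sol F h := by
    have h1 := (c.m (tb M r F)).1
    rwa [um_tb h] at h1
  inv φ F h1 h2 h3 := c.m_eq (c.h.xps_sm h1).continuous.continuousOn (by
    have h4 := (c.hj (tb M r φ)).1
    rw [um_tb h1] at h4
    rwa [c.h.inv_tb c.hD.vol c.hj c.hT h1 h2 h3])
  bound := ⟨Λ ^ 2 * Λ ^ 2, fun F h => (c.m_l2 _).trans (ENNReal.ofReal_le_ofReal (by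
    have h1 := c.h.j_norm c.hD.vol c.hj (tb M r F) (by rw [tb_val h])
    rw [tb_val h] at h1
    rw [mul_assoc, ← h1]
    exact mul_le_mul_of_nonneg_left (GXa_quad c.hT c.nn c.hΛ _) (sq_nonneg _)))⟩
  ball F _ z hz := by
    have h1 : EqOn (xpl p τ W (uM (tb M r F))) (uB (tb M r F)) (up n r) := by
      refine GXf_euniq (isOpen_up n r) (c.h.xpl_sm (c.m _).1.1).continuousOn
        ((c.cb _).mono inter_subset_left) ?_
      filter_upwards [c.h.ae c.hD.vol (c.m (tb M r F)).2, (c.b (tb M r F)).2] with y h2 h3 hy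
      have h4 : y ∉ lo n r := fun h5 => lt_asymm (show y 0 < 0 from h5.2) hy.2
      rw [← h3 hy.1, kb, Pi.add_apply, indicator_of_notMem h4, zero_add, xup, indicator_of_mem hy,
        xpl, xpl, h2 hy]
    rw [← h1 hz, xpl, uni_right (c.h.iso.uni z hz)]
    rfl
  upper F h := by
    have h0 : ET (ball 0 r) F := h.mono inter_subset_left
    have h1 := c.h.xps_mti h
    have e : j (tb M r F) = j (tm n r (xps p r τ θ W F)) := by
      refine WithLp.ofLp_injective 2 (Prod.ext (Lp.ext ?_) (Lp.ext ?_))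
      · have h2 := (c.hj (tb M r F)).1
        have h3 := (c.hj (tm n r (xps p r τ θ W F))).1
        rw [um_tb h0] at h2
        rw [um_tm h1] at h3
        exact h2.trans h3.symm
      · have h2 := (c.hj (tb M r F)).2
        have h3 := (c.hj (tm n r (xps p r τ θ W F))).2
        rw [tb_val h0] at h2
        rw [tm_val h1] at h3
        refine h2.trans (EventuallyEq.trans ?_ h3.symm)
        refine (withDensity_absolutelyContinuous _ _).ae_le
          ((ae_restrict_mem (isOpen_lo n r).measurableSet).mono fun z hz => ?_)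
        exact image_eq_zero_of_notMem_tsupport fun h4 =>
          lt_asymm (show z 0 < 0 from hz.2) (h.2.2 h4).2
    exact c.m_eq (c.cm _) (by rw [e]; exact (c.m _).2)
  dens F h := by
    choose φ h1 h2 using fun k : ℕ => c.dens h (Nat.one_div_pos_of_nat (n := k))
    have h3 := ENNReal.tendsto_ofReal (((by fun_prop : Continuous fun ε : ℝ =>
      2 * ε ^ 2 * μ.real univ + 2 * (Λ ^ 2 * (2 * ε))).tendsto' 0 0 (by simp)).comp
        tendsto_one_div_add_atTop_nhds_zero_nat)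
    rw [ENNReal.ofReal_zero] at h3
    exact ⟨φ, h1, tendsto_of_tendsto_of_tendsto_of_le_of_le tendsto_const_nhds h3
      (fun _ => zero_le) h2⟩

variable {g' : Met (𝓡∂ n) M} {μ' : Measure M} {A' : Conn (𝓡∂ n) M N}
  {S' : (M → Fb N) → M → Fb N} {τ' θ' : Ec n → Ec n} {W' : Ec n → Op N} {γ' : Geo n N}
  {j' : XD (n := n) M N r →ₗ[ℂ] XH μ' γ' r} {T' : XH μ' γ' r →L[ℂ] XH μ' γ' r} {Λ' : ℝ}
  {uM' : XD (n := n) M N r → M → Fb N} {uB' : XD (n := n) M N r → Ec n → Fb N}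

theorem le (c' : XC Γ g' μ' A' S' p r τ' θ' W' γ' j' T' Λ' uM' uB')
    (hE : ∀ f, IsTest (𝓡∂ n) Γ f → En g μ A (S f) = En g' μ' A' (S' f))
    (e : ∀ z ∈ hp n r, z 0 = 0 → τ z = τ' z)
    (e' : ∀ z ∈ lo n r, γ.g z = γ'.g z ∧ ∀ i, γ.a i z = γ'.a i z) {F : Ec n → Fb N}
    (hF : ET (lo n r) F) : (inner ℂ (T (j (tb M r F))) (j (tb M r F))).re ≤
      (inner ℂ (T' (j' (tb M r F))) (j' (tb M r F))).re := by
  refine (c.hT.lub _).2 ?_
  rintro _ ⟨d, rfl⟩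
  refine le_of_forall_pos_le_add fun ε hε => ?_
  obtain ⟨d', h1, h2, -⟩ := c'.h.en_ge c'.hD d.2.2 hε
  have h3 := (c'.hT.lub (j' (tb M r F))).1 ⟨d', rfl⟩
  have h4 := c.h.en_le c.hD d
  have h5 := c'.hD.sol _ (c.h.xps_tst d.2.2)
  have h6 := (c'.hD.sol _ (c'.h.xps_tst d.2.2)).en_le c'.hD.vol h5.smooth
    (h5.bd.trans (c.h.xps_bd c'.h e _))
  have h7 : ∫ z in lo n r, γ.vol z • γ.den d.1.2 d.1.2 z =
      ∫ z in lo n r, γ'.vol z • γ'.den d.1.2 d.1.2 z :=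
    setIntegral_congr_fun (isOpen_lo n r).measurableSet fun z hz => by
      simp only [Geo.vol, Geo.den, Geo.D, (e' z hz).1, (e' z hz).2]
  beta_reduce at h3 ⊢
  rw [c'.h.inner_lo c'.hD.vol c'.hj _ hF, h1] at h3
  rw [c.h.inner_lo c.hD.vol c.hj _ hF, GX_pair e' _ hF]
  rw [hE _ (c.h.xps_tst d.2.2), h7] at h4
  linarith

theorem agree (c' : XC Γ g' μ' A' S' p r τ' θ' W' γ' j' T' Λ' uM' uB')
    (hE : ∀ f, IsTest (𝓡∂ n) Γ f → En g μ A (S f) = En g' μ' A' (S' f))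
    (e : ∀ z ∈ hp n r, z 0 = 0 → τ z = τ' z)
    (e' : ∀ z ∈ lo n r, γ.g z = γ'.g z ∧ ∀ i, γ.a i z = γ'.a i z) {F : Ec n → Fb N}
    (hF : ET (lo n r) F) : EqOn (uB (tb M r F)) (uB' (tb M r F)) (lo n r) := by
  have h1 : ∀ {F : Ec n → Fb N}, ET (lo n r) F → tb M r F ∈ XE (n := n) M N r := fun h => by
    constructor <;> rw [tb_val (h.mono inter_subset_left)]
    exact h.2.2
  refine GXf_fund (isOpen_lo n r) c.h.sm_lo ((c.cb _).mono inter_subset_left)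
    ((c'.cb _).mono inter_subset_left) fun F' hF' => ?_
  rw [GX_pair e' (uB' _) hF', c.pb _ (hF'.mono inter_subset_left),
    c'.pb _ (hF'.mono inter_subset_left)]
  have h4 : ∀ d : XE (n := n) M N r, (inner ℂ (T (j d.1)) (j d.1)).re =
      (inner ℂ (T' (j' d.1)) (j' d.1)).re := fun d => by
    have h2 : ET (lo n r) d.1.1.2 := ⟨d.1.2.2.1, d.1.2.2.2.1, d.2.2⟩
    have h3 : tb M r d.1.1.2 = d.1 := Subtype.ext (by
      rw [tb_val d.1.2.2]; exact Prod.ext d.2.1.symm rfl)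
    have h5 := le_antisymm (c.le c' hE e e' h2) (c'.le c (fun f hf => (hE f hf).symm)
      (fun z hz h0 => (e z hz h0).symm)
      (fun z hz => ⟨(e' z hz).1.symm, fun i => ((e' z hz).2 i).symm⟩) h2)
    rwa [h3] at h5
  have h6 := GXa_polar (E := XE (n := n) M N r) (j ∘ₗ (XE (n := n) M N r).subtype)
    (j' ∘ₗ (XE (n := n) M N r).subtype)
    c.hT.sym c'.hT.sym (fun d => by
      simp only [LinearMap.comp_apply, Submodule.subtype_apply, h4 d]) ⟨_, h1 hF⟩ ⟨_, h1 hF'⟩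
  simpa only [LinearMap.comp_apply, Submodule.subtype_apply] using h6

end XC

theorem gx2 (n N : ℕ) [NeZero n] : GX2 n N := by
  intro M _ _ _ _ _ _ _ _ Γ g₁ g₂ μ₁ μ₂ A₁ A₂ S₁ S₂ _ D₁ D₂ hE p r τ₁ θ₁ τ₂ θ₂ W₁ W₂ γ₁ γ₂ h₁ h₂ e e'
  have h0 := half_pos h₁.r0
  have h1 := half_le_self h₁.r0.le
  have h2 : 2 * (r / 2) = r := by ring
  obtain ⟨j₁, T₁, Λ₁, u₁, v₁, c₁⟩ := (h₁.shrink h0 h1).xc (h2.symm ▸ h₁.sm) D₁
  obtain ⟨j₂, T₂, Λ₂, u₂, v₂, c₂⟩ := (h₂.shrink h0 h1).xc (h2.symm ▸ h₂.sm) D₂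
  exact ⟨r / 2, h0, h1, c₁.h, c₂.h, _, _, _, _, _, _, c₁.xg, c₂.xg, fun F hF => c₁.agree c₂
    (fun f hf => congrArg Complex.re (hE f f hf hf))
    (fun z hz => e z ⟨ball_subset_ball h1 hz.1, hz.2⟩)
    (fun z hz => e' z ⟨ball_subset_ball h1 hz.1, hz.2⟩) hF⟩

end Vale.Agent.P088.Gl
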