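import Vale.Agent.P088F.Reg1

/-! Local estimates and representation of functionals. -/

open MeasureTheory Set Filter Topology Metric
open scoped ContDiff InnerProductSpace ComplexConjugate

noncomputable section

namespace Vale.Agent.P088F

open Vale.Agent.P292E

theorem riesz {D H : Type} [AddCommGroup D] [Module ℂ D] [NormedAddCommGroup H]
    [InnerProductSpace ℂ H] [CompleteSpace H] (j : D →ₗ[ℂ] H) (T : D →ₗ[ℂ] ℂ) {C : ℝ} (hC : 0 ≤ C)
    (h : ∀ φ, ‖T φ‖ ≤ C * ‖j φ‖) : ∃ k : H, ‖k‖ ≤ C ∧ ∀ φ, T φ = ⟪k, j φ⟫_ℂ := by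
  obtain ⟨g, hg⟩ := j.rangeRestrict.exists_rightInverse_of_surjective j.range_rangeRestrict
  have h1 : ∀ y, j (g y) = y := fun y => congrArg Subtype.val (LinearMap.congr_fun hg y)
  have h2 : ∀ y, ‖(T.comp g) y‖ ≤ C * ‖y‖ := fun y => (h _).trans_eq (by rw [h1]; rfl)
  obtain ⟨S, h3, h4⟩ := exists_extension_norm_eq _ ((T.comp g).mkContinuous C h2)
  refine ⟨(InnerProductSpace.toDual ℂ H).symm S, ?_, fun φ => ?_⟩
  · rw [LinearIsometryEquiv.norm_map, h4]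
    exact LinearMap.mkContinuous_norm_le _ hC _
  · rw [InnerProductSpace.toDual_symm_apply]
    refine .trans ?_ (h3 (j.rangeRestrict φ)).symm
    have h5 := h (φ - g (j.rangeRestrict φ))
    rw [map_sub j, h1, LinearMap.rangeRestrict, LinearMap.codRestrict_apply, sub_self, norm_zero,
      mul_zero, norm_le_zero_iff, map_sub, sub_eq_zero] at h5
    exact h5

variable {N : ℕ} {ι : Type} {U : Set (V N)} {a a' : Fin N → Fin N → V N → ℂ}
  {b b' : Fin N → ι → ι → V N → ℂ} {c c' : ι → ι → V N → ℂ} {u f φ : ι → V N → ℂ} {x : V N}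

theorem cs_ev {g : V N → ℂ} (hU : IsOpen U) (hg : ContDiffOn ℝ ∞ g U) (hx : x ∈ U) (M s : ℕ)
    (h : s = 0 → g x = 0) {ε : ℝ} (hε : 0 < ε) : ∀ᶠ r in 𝓝[>] 0, Cs M x r s ε g := by
  obtain ⟨δ, hδ, h1⟩ := nhds_basis_closedBall.mem_iff.1 (inter_mem (hU.mem_nhds hx)
    ((hg.continuousOn.continuousAt (hU.mem_nhds hx)).eventually (ball_mem_nhds _ hε)))
  obtain ⟨B, hB, h2⟩ := exists_Bd M hU hg (isCompact_closedBall x δ) fun z hz => (h1 hz).1
  filter_upwards [Ioo_mem_nhdsGT (lt_min (lt_min (div_pos hδ three_pos) one_pos)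
    (div_pos hε (add_pos_of_nonneg_of_pos hB one_pos)))] with r hr
  simp only [mem_Ioo, lt_min_iff] at hr
  obtain ⟨r0, ⟨r1, r2⟩, r3⟩ := hr
  have s1 : ball x (3 * r) ⊆ closedBall x δ :=
    ball_subset_closedBall.trans (closedBall_subset_closedBall (by linarith))
  refine ⟨hg.mono fun z hz => (h1 (s1 hz)).1, fun i hi z hz => ?_⟩
  rcases Nat.eq_zero_or_pos (i + s) with h3 | h3
  · have h4 : ‖g z - g x‖ < ε := mem_ball_iff_norm.1 (h1 (s1 hz)).2
    rw [h (by omega), sub_zero] at h4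
    rw [h3, show i = 0 by omega, pow_zero, one_mul, norm_iteratedFDeriv_zero]
    exact h4.le
  · refine (mul_le_mul (pow_le_of_le_one r0.le r2.le h3.ne') (h2 i hi z (s1 hz)) (norm_nonneg _)
      r0.le).trans ?_
    rw [lt_div_iff₀ (by positivity)] at r3
    linarith

theorem cs_zero (M s : ℕ) (x : V N) (r : ℝ) : Cs M x r s 0 fun _ => 0 :=
  ⟨contDiffOn_const, fun _ _ _ _ => by simp⟩

theorem el_k (a₀ : Fin N → Fin N → ℂ) (h : ∀ ξ : V N, ξ ≠ 0 → 0 < symb a₀ ξ) :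
    ∃ k, 0 < k ∧ ∀ ξ, k * ‖ξ‖ ^ 2 ≤ symb a₀ ξ := by
  obtain ⟨k, hk, h1⟩ := (isCompact_sphere (0 : V N) 1).exists_forall_le' (f := symb a₀)
    (by unfold symb; fun_prop) fun ξ hξ => h ξ (ne_of_mem_sphere hξ one_ne_zero)
  refine ⟨k, hk, fun ξ => ?_⟩
  have e : ∀ (t : ℝ) (η : V N), symb a₀ (t • η) = t ^ 2 * symb a₀ η := fun t η => by
    rw [symb, symb, ← Complex.re_ofReal_mul]
    simp only [Finset.mul_sum, PiLp.smul_apply, smul_eq_mul]
    push_cast
    exact congrArg _ (Finset.sum_congr rfl fun _ _ => Finset.sum_congr rfl fun _ _ => by ring)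
  rcases eq_or_ne ξ 0 with rfl | h0
  · simp [symb]
  · have h2 := norm_ne_zero_iff.2 h0
    have h3 := e ‖ξ‖ (‖ξ‖⁻¹ • ξ)
    rw [smul_inv_smul₀ h2] at h3
    rw [h3, mul_comm]
    exact mul_le_mul_of_nonneg_left (h1 _ (by simp [norm_smul, h2])) (sq_nonneg _)

variable [Fintype ι]

/-- The interior estimate of order `j` at scale `r`. -/
def IEs (M j : ℕ) (a : Fin N → Fin N → V N → ℂ) (b : Fin N → ι → ι → V N → ℂ)
    (c : ι → ι → V N → ℂ) (x : V N) (r C : ℝ) : Prop :=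
  ∀ (u f : ι → V N → ℂ) (A B : ℝ), 0 ≤ A → 0 ≤ B → (∀ I, Cs M x r 2 B (f I)) →
    (∀ I, ContDiffOn ℝ ∞ (u I) (ball x (3 * r))) →
    (∀ I, IntegrableOn (fun z => ‖u I z‖ ^ 2) (ball x (3 * r))) →
    (∀ I, ∫ z in ball x (3 * r), ‖u I z‖ ^ 2 ≤ r ^ N * A ^ 2) →
    (∀ I, ∀ z ∈ ball x (3 * r), Sy a b c u I z = f I z) →
    ∀ I, ∀ i ≤ j, ∀ z ∈ ball x (r / 2), r ^ i * ‖iteratedFDeriv ℝ i (u I) z‖ ≤ C * (A + B)

theorem est_loc (hU : IsOpen U) (hs : Sm U a b c) (he : El U a) (hx : x ∈ U) (j : ℕ) :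
    ∃ M C, 0 ≤ C ∧ ∀ᶠ r in 𝓝[>] 0, ball x (3 * r) ⊆ U ∧ IEs M j a b c x r C := by
  obtain ⟨M, hM⟩ := est_sys N j ι
  obtain ⟨k, hk, h1⟩ := el_k _ (he x hx)
  obtain ⟨ε, hε, h2⟩ := hM k hk
  obtain ⟨C, hC, h3⟩ := h2 (‖fun p q => a p q x‖ + 1)
  obtain ⟨δ, hδ, h4⟩ := Metric.isOpen_iff.1 hU x hx
  refine ⟨M, C, hC, ?_⟩
  filter_upwards [Ioo_mem_nhdsGT (div_pos hδ three_pos),
    eventually_all.2 fun p => eventually_all.2 fun q => cs_ev (g := fun z => a p q z - a p q x) hU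
      ((hs.ha p q).sub contDiffOn_const) hx M 0 (fun _ => sub_self _) hε,
    eventually_all.2 fun p => eventually_all.2 fun I => eventually_all.2 fun J =>
      cs_ev hU (hs.hb p I J) hx M 1 (by simp) hε,
    eventually_all.2 fun I => eventually_all.2 fun J => cs_ev hU (hs.hc I J) hx M 2 (by simp)
      (add_pos_of_nonneg_of_pos (norm_nonneg fun p q => a p q x) one_pos)] with r k0 k1 k2 k3
  exact ⟨(ball_subset_ball (by linarith [k0.2])).trans h4, fun u f A B hA hB =>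
    h3 _ a b c u f x r A B k0.1 hA hB h1 (fun p q => ((norm_le_pi_norm (fun q => a p q x) q).trans
      (norm_le_pi_norm (fun p q => a p q x) p)).trans (le_add_of_nonneg_right zero_le_one)) k1 k2 k3⟩

/-- The estimate for solutions of the homogeneous equation. -/
theorem IEs.hom {M j : ℕ} {r C A : ℝ} (h : IEs M j a b c x r C) (hr : 0 < r) (hA : 0 ≤ A)
    {O : Set (V N)} (hO : ball x (3 * r) ⊆ O) (hu : ∀ I, ContDiffOn ℝ ∞ (u I) (ball x (3 * r)))
    (h1 : ∀ I, IntegrableOn (fun z => ‖u I z‖ ^ 2) O) (h2 : ∀ I, ∫ z in O, ‖u I z‖ ^ 2 ≤ A ^ 2)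
    (h3 : ∀ I, ∀ z ∈ ball x (3 * r), Sy a b c u I z = 0) (I : ι) {i : ℕ} (hi : i ≤ j) {z : V N}
    (hz : z ∈ ball x (r / 2)) :
    r ^ i * ‖iteratedFDeriv ℝ i (u I) z‖ ≤ C / √(r ^ N) * A := by
  have h4 : 0 < r ^ N := by positivity
  refine (h u (fun _ _ => 0) (A / √(r ^ N)) 0 (by positivity) le_rfl (fun _ => cs_zero ..) hu
    (fun I => (h1 I).mono_set hO) (fun I => ?_) h3 I i hi z hz).trans_eq (by ring)
  rw [div_pow, Real.sq_sqrt h4.le, mul_div_cancel₀ _ h4.ne']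
  exact (setIntegral_mono_set (h1 I) (.of_forall fun _ => sq_nonneg _) hO.eventuallyLE).trans (h2 I)

omit [Fintype ι] in
theorem tst_add {g g' : V N → ℂ} (h : Tst U g) (h' : Tst U g') : Tst U (g + g') :=
  ⟨h.1.add h'.1, h.2.1.add h'.2.1, (tsupport_add g g').trans (union_subset h.2.2 h'.2.2)⟩

omit [Fintype ι] in
theorem tst_smul {g : V N → ℂ} (h : Tst U g) (t : ℂ) : Tst U (t • g) :=
  ⟨h.1.const_smul t, h.2.1.smul_left (f := fun _ => t),
    (tsupport_smul_subset_right (fun _ => t) g).trans h.2.2⟩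

omit [Fintype ι] in
theorem int_cont {g ψ : V N → ℂ} (hg : ContinuousOn g U) (hψ : Tst U ψ) :
    Integrable fun x => g x * ψ x :=
  (((hg.mono hψ.2.2).mul hψ.1.continuous.continuousOn).integrableOn_compact
    hψ.2.1).integrable_of_forall_notMem_eq_zero fun x hx => by
      rw [Pi.mul_apply, image_eq_zero_of_notMem_tsupport hx, mul_zero]

omit [Fintype ι] in
theorem tst_l2 {g : V N → ℂ} (h : Tst U g) : MemLp g 2 :=
  h.1.continuous.memLp_of_hasCompactSupport h.2.1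

omit [Fintype ι] in
theorem lp_sq (k : Lp ℂ 2 (volume : Measure (V N))) : ‖k‖ ^ 2 = ∫ z, ‖k z‖ ^ 2 := by
  rw [← inner_self_eq_norm_sq (𝕜 := ℂ), L2.inner_def, ← integral_re (L2.integrable_inner k k)]
  simp only [inner_self_eq_norm_sq]

/-- Bounded functionals on test families are given by square integrable families. -/
theorem rep_l2 (T : (ι → V N → ℂ) → ℂ)
    (h1 : ∀ F F', (∀ I, Tst U (F I)) → (∀ I, Tst U (F' I)) → T (F + F') = T F + T F')
    (h2 : ∀ (t : ℂ) F, (∀ I, Tst U (F I)) → T (t • F) = t * T F) {C : ℝ} (hC : 0 ≤ C)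
    (h3 : ∀ F, (∀ I, Tst U (F I)) → ‖T F‖ ^ 2 ≤ C ^ 2 * ∑ I, ∫ z, ‖F I z‖ ^ 2) :
    ∃ k : ι → V N → ℂ, (∀ I, MemLp (k I) 2) ∧ (∀ I, ∫ z, ‖k I z‖ ^ 2 ≤ C ^ 2) ∧
      ∀ F, (∀ I, Tst U (F I)) → T F = ∫ z, ∑ I, k I z * F I z := by
  let D : Submodule ℂ (ι → V N → ℂ) :=
    ⟨⟨⟨{F | ∀ I, Tst U (F I)}, fun h h' I => tst_add (h I) (h' I)⟩,
      fun I => ⟨contDiff_const, .zero, by simp⟩⟩, fun t F h I => tst_smul (h I) t⟩
  let j : D →ₗ[ℂ] PiLp 2 fun _ : ι => Lp ℂ 2 (volume : Measure (V N)) :=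
    ⟨⟨fun F => WithLp.toLp 2 fun I => (tst_l2 (F.2 I)).toLp _, fun F F' => rfl⟩, fun t F => rfl⟩
  have hj : ∀ F I, j F I =ᵐ[volume] F.1 I := fun F I => (tst_l2 (F.2 I)).coeFn_toLp
  obtain ⟨k, k1, k2⟩ := riesz j ⟨⟨fun F => T F.1, fun F F' => h1 _ _ F.2 F'.2⟩,
    fun t F => h2 t _ F.2⟩ hC fun F => le_of_sq_le_sq ((h3 _ F.2).trans_eq (by
      rw [mul_pow, PiLp.norm_sq_eq_of_L2]
      refine congrArg _ (Finset.sum_congr rfl fun I _ => ?_)
      rw [lp_sq]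
      exact integral_congr_ae ((hj F I).mono fun z hz => by simp only [hz]))) (by positivity)
  have m : ∀ I, MemLp (fun z => conj (k I z)) 2 := fun I => (Lp.memLp (k I)).star
  refine ⟨fun I z => conj (k I z), m, fun I => ?_, fun F hF => ?_⟩
  · simp only [RCLike.norm_conj]
    rw [← lp_sq]
    exact pow_le_pow_left₀ (norm_nonneg _) ((PiLp.norm_apply_le k I).trans k1) 2
  · refine (k2 ⟨F, hF⟩).trans ?_
    refine (PiLp.inner_apply _ _).trans ((Finset.sum_congr rfl fun I _ => ?_).trans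
      (integral_finsetSum _ fun I _ => (m I).integrable_mul (tst_l2 (hF I))).symm)
    rw [L2.inner_def]
    exact integral_congr_ae ((hj ⟨F, hF⟩ I).mono fun z hz => by simp [hz, mul_comm])

variable [DecidableEq ι]

omit [Fintype ι] in
theorem IsT.symm (h : IsT U a b c a' b' c') (hU : IsOpen U) (hs : Sm U a b c) :
    IsT U a' b' c' a b c := by
  have ev : ∀ {g g' : V N → ℂ}, (∀ x ∈ U, g x = g' x) → ∀ p, ∀ x ∈ U, pd p g x = pd p g' x :=
    fun h p x hx => by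
      rw [pd, pd, EventuallyEq.fderiv_eq (mem_of_superset (hU.mem_nhds hx) h)]
  have d : ∀ {g : V N → ℂ}, ContDiffOn ℝ ∞ g U → ∀ x ∈ U, HasFDerivAt g (fderiv ℝ g x) x :=
    fun hg x hx => ((hg.contDiffAt (hU.mem_nhds hx)).differentiableAt (by simp)).hasFDerivAt
  refine ⟨fun p q x hx => (h.ha q p x hx).symm, fun p I J x hx => ?_, fun I J x hx => ?_⟩
  · simp only [h.hb _ _ _ x hx, ev (h.ha _ _) _ x hx, eq_comm (a := J), add_comm (pd _ (a p _) x),
      sub_sub_cancel]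
  · have e : ∀ p, pd p (b' p J I) x = (if I = J then
        ∑ q, (pd p (pd q (a p q)) x + pd p (pd q (a q p)) x) else 0) - pd p (b p I J) x := fun p => by
      rw [ev (h.hb p J I) p x hx]
      by_cases hI : I = J
      · simp only [if_pos hI, if_pos hI.symm]
        exact (DFunLike.congr_fun ((HasFDerivAt.fun_sum (u := Finset.univ) fun q _ =>
          (d (contDiffOn_pd hU (hs.ha p q) q) x hx).fun_add
            (d (contDiffOn_pd hU (hs.ha q p) q) x hx)).fun_sub (d (hs.hb p I J) x hx)).fderiv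
              _).trans (by simp [pd])
      · simp only [if_neg hI, if_neg (Ne.symm hI), zero_sub, pd, fderiv_fun_neg,
          ContinuousLinearMap.neg_apply]
    simp only [h.hc _ _ x hx, ev (ev (h.ha _ _) _) _ x hx, e, eq_comm (a := J),
      Finset.sum_sub_distrib, Finset.sum_ite_irrel, Finset.sum_const_zero, Finset.sum_add_distrib]
    split_ifs
    · rw [Finset.sum_comm (f := fun p q => pd q (pd p (a q p)) x),
        Finset.sum_comm (f := fun p q => pd q (pd p (a p q)) x)]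
      ring
    · ring

/-- Functionals that kill the range of the operator are solutions of the transposed equation. -/
theorem rep_sol (hU : IsOpen U) (hs : Sm U a b c) (he : El U a) (ht : IsT U a b c a' b' c')
    (T : (ι → V N → ℂ) → ℂ)
    (h1 : ∀ F F', (∀ I, Tst U (F I)) → (∀ I, Tst U (F' I)) → T (F + F') = T F + T F')
    (h2 : ∀ (t : ℂ) F, (∀ I, Tst U (F I)) → T (t • F) = t * T F) {C : ℝ} (hC : 0 ≤ C)
    (h3 : ∀ F, (∀ I, Tst U (F I)) → ‖T F‖ ^ 2 ≤ C ^ 2 * ∑ I, ∫ z, ‖F I z‖ ^ 2)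
    (h4 : ∀ φ, (∀ I, Tst U (φ I)) → T (Sy a b c φ) = 0) :
    ∃ k : ι → V N → ℂ, (∀ I, ContDiffOn ℝ ∞ (k I) U) ∧ (∀ I, ∀ z ∈ U, Sy a' b' c' k I z = 0) ∧
      (∀ I, IntegrableOn (fun z => ‖k I z‖ ^ 2) U) ∧ (∀ I, ∫ z in U, ‖k I z‖ ^ 2 ≤ C ^ 2) ∧
      ∀ F, (∀ I, Tst U (F I)) → T F = ∫ z, ∑ I, k I z * F I z := by
  obtain ⟨k, k1, k2, k3⟩ := rep_l2 T h1 h2 hC h3
  obtain ⟨w, w1, w2, w3⟩ := reg_sys (f := fun _ _ => 0) hU (ht.sm hU hs) (ht.el he) (ht.symm hU hs)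
    (fun I => ((k1 I).locallyIntegrable one_le_two).locallyIntegrableOn U)
    (fun _ => contDiffOn_const) fun φ hφ => by
      rw [← k3 _ (hs.tst hU hφ), h4 φ hφ]
      simp
  have i : ∀ I, Integrable fun z => ‖k I z‖ ^ 2 := fun I =>
    (memLp_two_iff_integrable_sq_norm (k1 I).1).1 (k1 I)
  have e : ∀ I, (fun z => ‖k I z‖ ^ 2) =ᵐ[volume.restrict U] fun z => ‖w I z‖ ^ 2 := fun I =>
    (ae_restrict_iff' hU.measurableSet).2 (w2.mono fun z hz hz' => by simp only [hz hz' I])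
  refine ⟨w, w1, w3, fun I => (i I).integrableOn.congr (e I), fun I => ?_, fun F hF => ?_⟩
  · rw [← integral_congr_ae (e I)]
    exact (setIntegral_le_integral (i I) (.of_forall fun _ => sq_nonneg _)).trans (k2 I)
  · rw [k3 F hF]
    refine integral_congr_ae (w2.mono fun z hz => ?_)
    by_cases h' : z ∈ U
    · simp only [hz h']
    · simp only [tst_zero (hF _) h', mul_zero]

theorem rep_uniq (hU : IsOpen U) {k k' : ι → V N → ℂ} (h : ∀ I, ContinuousOn (k I) U)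
    (h' : ∀ I, ContinuousOn (k' I) U) (e : ∀ F : ι → V N → ℂ, (∀ I, Tst U (F I)) →
      ∫ z, ∑ I, k I z * F I z = ∫ z, ∑ I, k' I z * F I z) (I : ι) : EqOn (k I) (k' I) U := by
  refine Measure.eqOn_open_of_ae_eq (μ := volume) ?_ hU (h I) (h' I)
  rw [EventuallyEq, ae_restrict_iff' hU.measurableSet]
  refine (fund hU (((h I).sub (h' I)).locallyIntegrableOn hU.measurableSet) fun ψ hψ => ?_).mono
    fun x hx hx' => sub_eq_zero.1 (hx hx')
  have k := e _ (tst_single hψ I)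
  simp only [Pi.single_apply, ite_apply, mul_ite, Pi.zero_apply, mul_zero, Finset.sum_ite_eq',
    Finset.mem_univ, if_true] at k
  simp only [Pi.sub_apply, sub_mul]
  rw [integral_sub (int_cont (h I) hψ) (int_cont (h' I) hψ), k, sub_self]

end Vale.Agent.P088F
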