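import Vale.Agent.P088F.Geo1
import Vale.Agent.P088F.Ker1

/-! Interior estimate and regularity for a metric and a connection. -/

open MeasureTheory Set Filter Topology Metric
open scoped ContDiff ComplexConjugate

noncomputable section

namespace Vale.Agent.P088.Gl

open Vale.Agent.P292E Vale.Agent.P088F

variable {n N : ℕ}

/-- `Geo.Sm.sy`, `Geo.Sm.ew_iff`, `est_loc` with `j = 0`, `IEs.hom`; if the integral is infinite use `C > 0`. -/
theorem gI : GI n N := by
  intro γ y r hr h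
  obtain ⟨b, c, hs, he, hP⟩ := h.sy isOpen_ball
  obtain ⟨M, C, hC, hev⟩ := est_loc isOpen_ball hs he (mem_ball_self hr) 0
  obtain ⟨ρ, ⟨h1, h2⟩, hρ⟩ := (hev.and self_mem_nhdsWithin).exists
  refine ⟨N * (C / √(ρ ^ n)) ^ 2 + 1, fun u hu => ?_⟩
  obtain ⟨hu, hz⟩ := (h.ew_iff isOpen_ball continuousOn_const).1 hu
  by_cases ht : ∫⁻ z in ball y r, ENNReal.ofReal (‖u z‖ ^ 2) = ⊤
  · rw [ht, ENNReal.mul_top (ENNReal.ofReal_pos.2 (by positivity)).ne']
    exact le_top
  have hm : AEStronglyMeasurable (fun z => ‖u z‖ ^ 2) (volume.restrict (ball y r)) :=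
    (hu.continuousOn.norm.pow 2).aestronglyMeasurable measurableSet_ball
  have hi : IntegrableOn (fun z => ‖u z‖ ^ 2) (ball y r) :=
    ⟨hm, (hasFiniteIntegral_iff_ofReal (.of_forall fun _ => sq_nonneg _)).2 (lt_top_iff_ne_top.2 ht)⟩
  have hc : ∀ I, ContDiffOn ℝ ∞ (fun z => u z I) (ball y r) := fun I =>
    ((EuclideanSpace.proj I : Fb N →L[ℂ] ℂ).restrictScalars ℝ).contDiff.comp_contDiffOn hu
  have hle : ∀ I z, ‖u z I‖ ^ 2 ≤ ‖u z‖ ^ 2 := fun I z =>
    pow_le_pow_left₀ (norm_nonneg _) (PiLp.norm_apply_le (u z) I) 2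
  have hi' : ∀ I, IntegrableOn (fun z => ‖u z I‖ ^ 2) (ball y r) := fun I =>
    hi.mono' (((hc I).continuousOn.norm.pow 2).aestronglyMeasurable measurableSet_ball)
      (.of_forall fun z => by rw [Real.norm_of_nonneg (sq_nonneg _)]; exact hle I z)
  have h0 : 0 ≤ ∫ z in ball y r, ‖u z‖ ^ 2 := integral_nonneg fun _ => sq_nonneg _
  have k : ∀ I, ‖u y I‖ ≤ C / √(ρ ^ n) * √(∫ z in ball y r, ‖u z‖ ^ 2) := fun I => by
    have := h2.hom (u := fun I z => u z I) hρ (Real.sqrt_nonneg _) h1 (fun I => (hc I).mono h1) hi'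
      (fun I => by rw [Real.sq_sqrt h0]; exact integral_mono (hi' I) hi (hle I))
      (fun I z hz' => by
        rw [← hP u z (h1 hz') (hu.contDiffAt (isOpen_ball.mem_nhds (h1 hz'))), hz z (h1 hz')]
        simp) I le_rfl (mem_ball_self (half_pos hρ))
    simpa using this
  rw [← ofReal_integral_eq_lintegral_ofReal hi (.of_forall fun _ => sq_nonneg _),
    ← ENNReal.ofReal_mul (by positivity)]
  refine ENNReal.ofReal_le_ofReal ?_
  rw [EuclideanSpace.norm_sq_eq]
  refine (Finset.sum_le_card_nsmul _ _ _ fun I _ =>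
    pow_le_pow_left₀ (norm_nonneg _) (k I) 2).trans ?_
  rw [mul_pow, Real.sq_sqrt h0, Finset.card_fin, nsmul_eq_mul]
  nlinarith

theorem geo2_pair {Ω : Set (Ec n)} {γ : Geo n N} {k f φ : Ec n → Fb N} (hΩ : IsOpen Ω) (h : γ.Sm Ω)
    (hw : ∀ φ F, ET Ω φ → ET Ω F → EW Ω γ φ F → γ.pair k F = γ.pair f φ) (hφ : ET Ω φ) :
    -∫ z, inner ℂ (k z) (γ.P φ z) = γ.pair f φ := by
  have h1 := (h.et hΩ hφ).2.1
  rw [← hw φ _ hφ h1 ((h.ew_iff hΩ h1.1.continuous.continuousOn).2 ⟨hφ.1.contDiffOn, fun z hz => by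
    rw [smul_neg, neg_neg, smul_inv_smul₀ (h.vol_pos hz).ne']⟩), Geo.pair, ← integral_neg]
  refine integral_congr_ae (.of_forall fun z => ?_)
  by_cases hz : z ∈ Ω
  · simp only [inner_neg_right, smul_neg, ← Complex.coe_smul, inner_smul_right, smul_eq_mul]
    rw [← mul_assoc, ← Complex.ofReal_mul, mul_inv_cancel₀ (h.vol_pos hz).ne', Complex.ofReal_one,
      one_mul]
  · simp [geo1_P (γ := γ) fun k => hz (hφ.2.2 k)]

/-- Weak solutions with smooth right hand side: for a test `φ` take `F = -(vol⁻¹ • P φ)` (`Geo.Sm.et`, `ew_iff`); then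
`conj k` satisfies the hypothesis of `reg_sm` for the coefficients of `Geo.Sm.sy` with right hand side
`-(vol * conj f)`; put `u = conj w` and use `Geo.Sm.ibp'`. -/
theorem gR' {Ω : Set (Ec n)} {γ : Geo n N} {k f : Ec n → Fb N} (hΩ : IsOpen Ω) (h : γ.Sm Ω)
    (hk : LocallyIntegrableOn k Ω) (hf : ContDiffOn ℝ ∞ f Ω)
    (hw : ∀ φ F, ET Ω φ → ET Ω F → EW Ω γ φ F → γ.pair k F = γ.pair f φ) :
    ∃ u, EW Ω γ u f ∧ ∀ᵐ z, z ∈ Ω → k z = u z := by
  obtain ⟨b, c, hs, he, hP⟩ := h.sy hΩ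
  let π : Fin N → Fb N →L[ℝ] ℂ := fun I => Complex.conjCLE.toContinuousLinearMap.comp
    ((EuclideanSpace.proj I : Fb N →L[ℂ] ℂ).restrictScalars ℝ)
  obtain ⟨w, h1, h2⟩ := reg_sm (u := fun I x => π I (k x))
    (f := fun I x => -((γ.vol x : ℂ) * π I (f x))) hΩ hs he
    (fun I => (π I).locallyIntegrableOn_comp hk)
    (fun I => ((Complex.ofRealCLM.contDiff.comp_contDiffOn h.vol).mul
      ((π I).contDiff.comp_contDiffOn hf)).neg) fun φ hφ => by
      have hK : IsCompact (⋃ I, tsupport (φ I)) := isCompact_iUnion fun I => (hφ I).2.1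
      have hs' : tsupport (fun z => (WithLp.toLp 2 fun I => φ I z : Fb N)) ⊆ ⋃ I, tsupport (φ I) :=
        closure_minimal (fun x hx => by_contra fun h' => hx (PiLp.ext fun I =>
          image_eq_zero_of_notMem_tsupport (f := φ I) fun k => h' (mem_iUnion.2 ⟨I, k⟩))) hK.isClosed
      have hΦ : ET Ω fun z => (WithLp.toLp 2 fun I => φ I z : Fb N) :=
        ⟨(contDiff_piLp 2).2 fun I => (hφ I).1, hK.of_isClosed_subset (isClosed_tsupport _) hs',
          hs'.trans (iUnion_subset fun I => (hφ I).2.2)⟩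
      have k1 := neg_eq_iff_eq_neg.1 (geo2_pair hΩ h hw hΦ)
      rw [Geo.pair, ← integral_neg] at k1
      refine Eq.trans (integral_congr_ae (.of_forall fun z => ?_))
        (k1.trans (integral_congr_ae (.of_forall fun z => ?_)))
      · by_cases hz : z ∈ Ω
        · simp only [PiLp.inner_apply, hP _ z hz hΦ.1.contDiffAt]
          exact Finset.sum_congr rfl fun I _ => by simp [π, mul_comm]
        · simp [geo1_P (γ := γ) fun k => hz (hΦ.2.2 k),
            sy_zero (φ := φ) fun I k => hz ((hφ I).2.2 k)]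
      · simp only [PiLp.inner_apply, Complex.real_smul, Finset.mul_sum, ← Finset.sum_neg_distrib]
        exact Finset.sum_congr rfl fun I _ => by simp [π]; ring
  have hu : ContDiffOn ℝ ∞ (fun z => (WithLp.toLp 2 fun I => conj (w I z) : Fb N)) Ω :=
    (contDiffOn_piLp 2).2 fun I => Complex.conjCLE.contDiff.comp_contDiffOn (h1 I)
  have hae : ∀ᵐ z, z ∈ Ω → k z = (WithLp.toLp 2 fun I => conj (w I z) : Fb N) :=
    h2.mono fun z hz hz' => PiLp.ext fun I => by
      change k z I = conj (w I z)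
      rw [← hz hz' I]
      simp [π]
  refine ⟨_, ⟨hu, fun ζ hζ => ?_⟩, hae⟩
  rw [h.ibp' hΩ hu hζ.1.contDiffOn (.inr hζ), ← geo2_pair hΩ h hw hζ]
  congr 1
  refine integral_congr_ae (hae.mono fun z hz => ?_)
  by_cases hz' : z ∈ Ω
  · simp only [hz hz']
  · simp [geo1_P (γ := γ) fun k => hz' (hζ.2.2 k)]

theorem gR : GR n N := fun _ _ _ hΩ h hk hw =>
  gR' hΩ h hk contDiffOn_const fun φ F h1 h2 h3 => (hw φ F h1 h2 h3).trans (by simp [Geo.pair])

end Vale.Agent.P088.Gl
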