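import Vale.Agent.P088F.LNf

/-! P088, part L: the Green operator in a frame of solutions. -/

open MeasureTheory Set Filter Metric Topology Matrix
open scoped ContDiff ENNReal

noncomputable section

namespace Vale.Agent.P088.Gl

variable {n N : ℕ} [NeZero n] {ρ : ℝ} {γ γ₁ γ₂ : Geo n N} {E E₁ E₂ V : Ec n → Op N}
  {G G₁ G₂ : (Ec n → Fb N) → Ec n → Fb N} {s s₁ s₂ : Fin n → Ec n → Fb N} {l₀ : Fin N}

theorem lng_k {Ω : Set (Ec n)} (h : γ.Sm Ω) :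
    ContDiffOn ℝ ∞ (fun w => -(γ.cn w 0 0 / γ.vol w)) Ω :=
  ((lsm_cn h 0 0).div (lsm_vol h) fun _ hz => (lsm_vol_pos h hz).ne').neg

/-- The source of `Geo.ng` is a test section. -/
theorem et_src {Ω : Set (Ec n)} (hΩ : IsOpen Ω) (h : γ.Sm Ω) (hE : ContDiffOn ℝ ∞ E Ω)
    {F : Ec n → Fb N} (hF : ET Ω F) : ET Ω fun w => (-(γ.cn w 0 0 / γ.vol w)) • E w (F w) := by
  refine ET.of_supp hΩ hF ((lng_k h).smul (sm_app hE hF.1.contDiffOn)) fun z hz => ?_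
  rw [image_eq_zero_of_notMem_tsupport hz, map_zero, smul_zero]

theorem lng_src {Ω : Set (Ec n)} (h : γ.Sm Ω) {z : Ec n} (hz : z ∈ Ω) (ξ : Fb N) :
    -(γ.vol z • (-(γ.cn z 0 0 / γ.vol z)) • ξ) = γ.cn z 0 0 • ξ := by
  have := (lsm_vol_pos h hz).ne'
  rw [smul_smul, ← neg_smul]
  congr 1
  field_simp

theorem lng_dv (h : Frm ρ γ G E s l₀) {u : Ec n → Fb N} (hu : ContDiffOn ℝ ∞ u (ball 0 ρ))
    {z : Ec n} (hz : z ∈ ball (0 : Ec n) ρ) :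
    γ.Dv (fun y => E y (u y)) z = γ.cn z 0 0 • E z ((γ.nf E).ap u z) :=
  dv_frame isOpen_ball h.sm h.sE h.un (fun ξ => ((ew_dv0 isOpen_ball h.sm).1 (h.wE ξ)).2) hu hz

theorem frm_ng (h : Frm ρ γ G E s l₀) : NG (ball 0 ρ) (γ.nf E) (γ.ng E G) := by
  have hs : ∀ F, ET (ball 0 ρ) F →
      ET (ball 0 ρ) fun w => (-(γ.cn w 0 0 / γ.vol w)) • E w (F w) :=
    fun F hF => et_src isOpen_ball h.sm h.sE hF
  have hsm : ∀ F, ET (ball 0 ρ) F → ContDiffOn ℝ ∞ (γ.ng E G F) (ball 0 ρ) := fun F hF =>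
    sm_app (sm_inv h.sE h.un) (h.eg.sol _ (hs F hF)).1
  refine ⟨fun F F' hF hF' z hz => ?_, fun c F hF z hz => ?_, hsm, fun F hF z hz => ?_,
    fun φ F hφ hF e z hz => ?_⟩
  · have e : (fun w => (-(γ.cn w 0 0 / γ.vol w)) • E w ((F + F') w)) =
        (fun w => (-(γ.cn w 0 0 / γ.vol w)) • E w (F w)) +
          fun w => (-(γ.cn w 0 0 / γ.vol w)) • E w (F' w) := by
      funext w
      simp only [Pi.add_apply, map_add, smul_add]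
    simp only [Geo.ng, Pi.add_apply (Geo.ng γ E G F)]
    rw [e, h.eg.add _ _ (hs F hF) (hs F' hF') hz, Pi.add_apply, map_add]
  · have e : (fun w => (-(γ.cn w 0 0 / γ.vol w)) • E w ((c • F) w)) =
        c • fun w => (-(γ.cn w 0 0 / γ.vol w)) • E w (F w) := by
      funext w
      simp only [Pi.smul_apply, map_smul]
      rw [smul_comm]
    simp only [Geo.ng, Pi.smul_apply c (Geo.ng γ E G F)]
    rw [e, h.eg.smul c _ (hs F hF) hz, Pi.smul_apply, map_smul]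
  · have h1 := ((ew_dv isOpen_ball h.sm (hs F hF).1.continuous.continuousOn).1
      (h.eg.sol _ (hs F hF))).2 z hz
    have h2 : (fun y => E y (γ.ng E G F y)) =ᶠ[𝓝 z]
        G fun w => (-(γ.cn w 0 0 / γ.vol w)) • E w (F w) :=
      eventually_of_mem (isOpen_ball.mem_nhds hz) fun y hy => mul_inv_app (h.un y hy) _
    rw [← dv_congr γ h2, lng_dv h (hsm F hF) hz, lng_src h.sm hz] at h1
    exact app_inj (h.un z hz) (smul_right_injective _ (lsm_diag h.sm hz 0).ne' h1)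
  · have h1 := et_app isOpen_ball h.sE hφ
    have h2 : EW (ball 0 ρ) γ (fun y => E y (φ y))
        fun w => (-(γ.cn w 0 0 / γ.vol w)) • E w (F w) := by
      refine (ew_dv isOpen_ball h.sm (hs F hF).1.continuous.continuousOn).2
        ⟨h1.1.contDiffOn, fun y hy => ?_⟩
      rw [lng_dv h hφ.1.contDiffOn hy, lng_src h.sm hy, e hy]
    rw [Geo.ng, h.eg.inv _ _ h1 (hs F hF) h2 hz]
    exact inv_mul_app (h.un z hz) _

theorem frm_nrm (h : Frm ρ γ G E s l₀) : Nrm ρ (γ.nf E) (γ.ng E G) s l₀ := by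
  refine ⟨nf_sm isOpen_ball h.sm h.sE h.un, frm_ng h, h.ss, fun j z hz => ?_, h.re⟩
  have h1 := ((ew_dv0 isOpen_ball h.sm).1 (h.ws j)).2 z hz
  rw [lng_dv h (h.ss j) hz, smul_eq_zero_iff_right (lsm_diag h.sm hz 0).ne'] at h1
  exact app_inj (h.un z hz) (h1.trans (map_zero _).symm)

omit [NeZero n] in
theorem lng_l2 {μ : Measure (Ec n)} {u w : Ec n → Fb N} {M : ℝ} (hM : 0 ≤ M)
    (h : ∀ᵐ z ∂μ, ‖u z‖ ≤ M * ‖w z‖) :
    ∫⁻ z, ‖u z‖ₑ ^ 2 ∂μ ≤ ENNReal.ofReal (M ^ 2) * ∫⁻ z, ‖w z‖ₑ ^ 2 ∂μ := by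
  rw [← lintegral_const_mul' _ _ ENNReal.ofReal_ne_top]
  refine lintegral_mono_ae (h.mono fun z hz => ?_)
  rw [ENNReal.ofReal_pow hM, ← mul_pow, ← ofReal_norm, ← ofReal_norm, ← ENNReal.ofReal_mul hM]
  gcongr

omit [NeZero n] in
theorem lng_bd {X : Type} [NormedAddCommGroup X] {f : Ec n → X} (hρ : 0 < ρ)
    (hf : ContinuousOn f (ball 0 ρ)) : ∃ M : ℝ, 0 ≤ M ∧ ∀ z ∈ ball (0 : Ec n) (ρ / 2), ‖f z‖ ≤ M := by
  obtain ⟨M, hM⟩ := (isCompact_closedBall (0 : Ec n) (ρ / 2)).exists_bound_of_continuousOn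
    (hf.mono (closedBall_subset_ball (half_lt_self hρ)))
  exact ⟨|M|, abs_nonneg M, fun z hz => (hM z (ball_subset_closedBall hz)).trans (le_abs_self M)⟩

theorem frm_har (hρ : 0 < ρ) (h : Frm ρ γ G E s l₀) (hG : Har G 0) : Har (γ.ng E G) 0 := by
  obtain ⟨Λ, r₀, hr₀, H⟩ := hG
  obtain ⟨A, hA, bA⟩ := lng_bd hρ (sm_inv h.sE h.un).continuousOn
  obtain ⟨B, hB, bB⟩ := lng_bd hρ h.sE.continuousOn
  obtain ⟨C, hC, bC⟩ := lng_bd hρ (lng_k h.sm).continuousOn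
  refine ⟨A * (C * B) * Λ, min r₀ (ρ / 2), lt_min hr₀ (half_pos hρ), fun r hr hr' F hF => ?_⟩
  have h1 : ball (0 : Ec n) r ⊆ ball 0 (ρ / 2) := ball_subset_ball (hr'.trans (min_le_right _ _))
  have h2 : ball (0 : Ec n) r ⊆ ball 0 ρ := h1.trans (ball_subset_ball (half_le_self hρ.le))
  have h3 := H r hr (hr'.trans (min_le_left _ _)) _
    (et_src isOpen_ball (lsm_mono h.sm h2) (h.sE.mono h2) hF)
  have h4 : ∫⁻ z, ‖(-(γ.cn z 0 0 / γ.vol z)) • E z (F z)‖ₑ ^ 2 ≤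
      ENNReal.ofReal ((C * B) ^ 2) * ∫⁻ z, ‖F z‖ₑ ^ 2 := by
    refine lng_l2 (mul_nonneg hC hB) (Eventually.of_forall fun z => ?_)
    by_cases hz : z ∈ tsupport F
    · rw [norm_smul, mul_assoc]
      exact mul_le_mul (bC z (h1 (hF.2.2 hz))) ((E z).le_of_opNorm_le (bB z (h1 (hF.2.2 hz))) _)
        (norm_nonneg _) hC
    · rw [image_eq_zero_of_notMem_tsupport hz, map_zero, smul_zero, norm_zero, mul_zero]
  have h5 : ∫⁻ z in ball (0 : Ec n) r, ‖γ.ng E G F z‖ₑ ^ 2 ≤ ENNReal.ofReal (A ^ 2) *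
      ∫⁻ z in ball (0 : Ec n) r, ‖G (fun w => (-(γ.cn w 0 0 / γ.vol w)) • E w (F w)) z‖ₑ ^ 2 :=
    lng_l2 hA (ae_restrict_of_forall_mem measurableSet_ball fun z hz =>
      (Ring.inverse (E z)).le_of_opNorm_le (bA z (h1 hz)) _)
  refine h5.trans ((mul_le_mul_right (h3.trans (mul_le_mul_right h4 _)) _).trans (le_of_eq ?_))
  rw [← mul_assoc, ← mul_assoc, ← ENNReal.ofReal_mul (sq_nonneg _),
    ← ENNReal.ofReal_mul (by positivity)]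
  congr 2
  ring

theorem frm_agr {D U : Set (Ec n)} (h₁ : Frm ρ γ₁ G₁ E₁ s₁ l₀) (h₂ : Frm ρ γ₂ G₂ E₂ s₂ l₀)
    (hD : D ⊆ ball 0 ρ) (hU : U ⊆ D) (hi : EIso D γ₁ γ₂ id V) (hr : ERel D G₁ G₂ id V)
    (hV : ∀ z ∈ D, E₁ z = V z * E₂ z) (hs : ∀ j, EqOn (s₁ j) (s₂ j) D) :
    Agr U (γ₁.nf E₁) (γ₂.nf E₂) (γ₁.ng E₁ G₁) (γ₂.ng E₂ G₂) s₁ s₂ := by
  refine ⟨fun z hz => nf_eq hi (h₂.sE.mono hD) (fun z hz => h₂.un z (hD hz)) hV z (hU hz),
    fun j => (hs j).mono hU, fun F hF z hz => ?_⟩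
  have hF' : ET D F := ⟨hF.1, hF.2.1, hF.2.2.trans hU⟩
  have h1 := et_src hi.op (lsm_mono h₁.sm hD) (h₁.sE.mono hD) hF'
  have h2 := et_src hi.op (lsm_mono h₂.sm hD) (h₂.sE.mono hD) hF'
  have h3 := hr _ _ ((image_id D).symm ▸ h1) h2 (fun y hy => by
    have e := hi.met_id hy
    simp only [id]
    rw [cn_congr e, Geo.vol, e, hV y hy, ContinuousLinearMap.map_smul_of_tower]
    rfl) z (hU hz)
  have h4 : G₂ (fun w => (-(γ₂.cn w 0 0 / γ₂.vol w)) • E₂ w (F w)) z =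
      E₂ z (γ₂.ng E₂ G₂ F z) := (mul_inv_app (h₂.un z (hD (hU hz))) _).symm
  rw [id, h4] at h3
  rw [Geo.ng, h3]
  have h5 : V z (E₂ z (γ₂.ng E₂ G₂ F z)) = E₁ z (γ₂.ng E₂ G₂ F z) := by
    rw [hV z (hU hz)]
    rfl
  rw [h5]
  exact inv_mul_app (h₁.un z (hD (hU hz))) _

end Vale.Agent.P088.Gl
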