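import Vale.Agent.P088F.LR2
import Vale.Agent.P088F.LDefs

/-! P088, part L: the Hardy bound for Green operators. -/

namespace Vale.Agent.P088.Gl

theorem hz {n N : ℕ} (hn : 3 ≤ n) : HZ n N := fun _ _ _ _ hΩ hγ hG hy =>
  let ⟨ρ, Λ, hρ, _, _, h⟩ := gh hn hγ hΩ hG hy
  ⟨Λ, ρ, hρ, h⟩

end Vale.Agent.P088.Gl
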