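import Vale.Agent.P088F.LEn4
import Vale.Agent.P088F.LNg
import Vale.Agent.P088F.LRHar

/-! P088, part L: local continuation in matched coordinates. -/

open MeasureTheory Set Filter Metric Topology Matrix
open scoped ContDiff ENNReal

noncomputable section

namespace Vale.Agent.P088.Gl

variable {n N : ℕ} [NeZero n]

theorem nf_g0 {γ : Geo n N} (E : Ec n → Op N) (h : γ.g 0 = 1) : (γ.nf E).g 0 = 1 := by
  simp [Geo.nf, Geo.cn, Geo.vol, h]

theorem lm (hn : 3 ≤ n) (hU : GU n N) (hZ : LZ n N) : LM n N := by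
  intro ρ C l₀ γ₁ γ₂ G₁ G₂ E₁ E₂ V s₁ s₂ D hρ h₁ h₂ g0 s0 hD hc hi hr hV hs
  have m0 : (0 : Ec n) ∈ ball (0 : Ec n) ρ := mem_ball_self hρ
  have g1 : γ₁.g 0 = 1 := by
    rw [← g0]
    ext i j
    exact cap_eq (f := fun z => γ₁.g z i j) (g := fun z => γ₂.g z i j) (C := C) hρ
      (sm_at isOpen_ball (h₁.sm.g i j) m0).continuousAt
      (sm_at isOpen_ball (h₂.sm.g i j) m0).continuousAt fun z hz => by
        simp only [hi.met_id (hc hz)]
  have s1 : ∀ j i, dd i (s₁ j) 0 = ms l₀ j (bv i) := fun j i => by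
    rw [← s0]
    exact cap_eq (C := C) hρ (sm_at isOpen_ball (dd_sm isOpen_ball (h₁.ss j) i) m0).continuousAt
      (sm_at isOpen_ball (dd_sm isOpen_ball (h₂.ss j) i) m0).continuousAt
      (dd_eqOn (cap_open ρ C) ((hs j).mono hc))
  obtain ⟨ε, e0, e1, he⟩ := hZ ρ C l₀ _ _ _ _ _ _ hρ (frm_nrm h₁) (frm_nrm h₂)
    ⟨frm_har hρ h₁ (hz hn _ _ _ _ isOpen_ball h₁.sm h₁.eg m0), nf_g0 _ g1, s1⟩
    ⟨frm_har hρ h₂ (hz hn _ _ _ _ isOpen_ball h₂.sm h₂.eg m0), nf_g0 _ g0, s0⟩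
    (frm_agr h₁ h₂ hD hc hi hr hV hs)
  have b : ball (0 : Ec n) ε ⊆ ball 0 ρ := ball_subset_ball e1
  refine ⟨ε, e0, e1, endgame hn hU l₀ (O := ball 0 ε ∩ cap n ρ C) (h₁.sm.sub b) (h₂.sm.sub b)
    (h₁.sE.mono b) (h₂.sE.mono b) (fun z hz => h₁.un z (b hz)) (fun z hz => h₂.un z (b hz))
    (fun ξ => (h₁.wE ξ).mono b) (fun ξ => (h₂.wE ξ).mono b) he (isOpen_ball.inter (cap_open ρ C))
    (mem_closure_iff.1 (cap_closure hρ C) _ isOpen_ball (mem_ball_self e0)) inter_subset_left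
    (fun z hz => hi.met_id (hc hz.2)) fun z hz => ?_⟩
  rw [hV z (hc hz.2), mul_assoc, Ring.mul_inverse_cancel _ (h₂.un z (b hz.1)), mul_one]
  exact hi.uni z (hc hz.2)

end Vale.Agent.P088.Gl
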