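import Vale.Agent.P088F.LR4

/-! P088, part L: the Runge property for first order jets. -/

open MeasureTheory Set Filter Topology Metric
open scoped ContDiff ENNReal

noncomputable section

namespace Vale.Agent.P088.Gl

/-- Runge property for first order jets. -/
def RJ (n N : ℕ) : Prop :=
  ∀ (Ω : Set (Ec n)) (γ : Geo n N) (G : (Ec n → Fb N) → Ec n → Fb N) (D : Set (Ec n)) (x₀ : Ec n),
    IsOpen Ω → γ.Sm Ω → EG Ω γ G → IsOpen D → D ⊆ Ω → x₀ ∈ Ω → x₀ ∈ closure D → x₀ ∉ D →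
    ∀ (ξ : Fb N) (η : Ec n →L[ℝ] Fb N), ∃ F, ET D F ∧ G F x₀ = ξ ∧ fderiv ℝ (G F) x₀ = η

variable {n N : ℕ} {Ω : Set (Ec n)} {γ : Geo n N} {G : (Ec n → Fb N) → Ec n → Fb N}
  {u v F φ : Ec n → Fb N} {y : Ec n}

/-- the first order jet -/
def jet (u : Ec n → Fb N) (y : Ec n) : Fb N × (Fin n → Fb N) :=
  (u y, fun i => fderiv ℝ u y (bv i))

theorem jet_congr (h : u =ᶠ[𝓝 y] v) : jet u y = jet v y := by
  rw [jet, jet, h.eq_of_nhds, h.fderiv_eq]

theorem jet_zero : jet (0 : Ec n → Fb N) y = 0 := by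
  simp [jet, Prod.ext_iff, funext_iff]

theorem jet_add (hu : DifferentiableAt ℝ u y) (hv : DifferentiableAt ℝ v y) :
    jet (u + v) y = jet u y + jet v y := by
  rw [jet, fderiv_add hu hv]
  rfl

theorem jet_smul (c : ℂ) (hu : DifferentiableAt ℝ u y) : jet (c • u) y = c • jet u y := by
  rw [jet, fderiv_const_smul hu]
  rfl

theorem jet_le {a : ℝ} (h1 : ‖u y‖ ≤ a) (h2 : ‖fderiv ℝ u y‖ ≤ a) : ‖jet u y‖ ≤ a := by
  have ha := (norm_nonneg _).trans h1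
  refine max_le h1 ((pi_norm_le_iff_of_nonneg ha).2 fun i => ?_)
  refine ((fderiv ℝ u y).le_opNorm _).trans ?_
  rw [bv, EuclideanSpace.norm_single, norm_one, mul_one]
  exact h2

theorem lr5_add (h : ET Ω u) (h' : ET Ω v) : ET Ω (u + v) :=
  ⟨h.1.add h'.1, h.2.1.add h'.2.1, (tsupport_add u v).trans (union_subset h.2.2 h'.2.2)⟩

theorem lr5_smul (c : ℂ) (h : ET Ω u) : ET Ω (c • u) :=
  ⟨h.1.const_smul c, h.2.1.smul_left (f := fun _ => c),
    (tsupport_smul_subset_right (fun _ => c) u).trans h.2.2⟩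

theorem lr5_zero : ET Ω (0 : Ec n → Fb N) :=
  ⟨contDiff_const, HasCompactSupport.zero, by simp⟩

theorem lr5_cut {χ : Ec n → ℝ} (hχ : ContDiff ℝ ∞ χ) (h : ET Ω u) : ET Ω fun z => χ z • u z :=
  ⟨hχ.smul h.1, h.2.1.smul_left (f := χ), (tsupport_smul_subset_right χ u).trans h.2.2⟩

theorem lr5_ext {O : Set (Ec n)} (hγ : γ.Sm Ω) (hΩ : IsOpen Ω) (hO : IsOpen O) (hs : O ⊆ Ω)
    (hφ : ET O φ) (hF : ET O F) (h : EW O γ φ F) : EW Ω γ φ F := by
  refine (hγ.ew_iff hΩ hF.1.continuous.continuousOn).2 ⟨hφ.1.contDiffOn, fun z _ => ?_⟩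
  by_cases hz : z ∈ O
  · exact (((hγ.mono hs).ew_iff hO hF.1.continuous.continuousOn).1 h).2 z hz
  · rw [image_eq_zero_of_notMem_tsupport fun k => hz (hF.2.2 k),
      image_eq_zero_of_notMem_tsupport fun k => hz (hφ.2.2 (((hγ.mono hs).et hO hφ).2.2 k)),
      smul_zero, neg_zero]

theorem lr5_int (h : ET Ω F) : ∫⁻ z, ‖F z‖ₑ ^ 2 = ENNReal.ofReal (∫ z, ‖F z‖ ^ 2) := by
  have c : Continuous fun z => ‖F z‖ ^ 2 := h.1.continuous.norm.pow 2
  have i : Integrable fun z => ‖F z‖ ^ 2 := c.integrable_of_hasCompactSupport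
    (.intro h.2.1 fun z hz => by simp [image_eq_zero_of_notMem_tsupport hz])
  rw [ofReal_integral_eq_lintegral_ofReal i (.of_forall fun z => by positivity)]
  exact lintegral_congr fun z => by rw [ENNReal.ofReal_pow (norm_nonneg _), ofReal_norm_eq_enorm]

theorem lr5_dif (hΩ : IsOpen Ω) (hG : EG Ω γ G) (hy : y ∈ Ω) (h : ET Ω F) :
    DifferentiableAt ℝ (G F) y :=
  ((hG.sol F h).1.contDiffAt (hΩ.mem_nhds hy)).differentiableAt (by simp)

theorem lr5_jadd (hΩ : IsOpen Ω) (hG : EG Ω γ G) (hy : y ∈ Ω) (h : ET Ω u) (h' : ET Ω v) :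
    jet (G (u + v)) y = jet (G u) y + jet (G v) y :=
  (jet_congr ((hG.add u v h h').eventuallyEq_of_mem (hΩ.mem_nhds hy))).trans
    (jet_add (lr5_dif hΩ hG hy h) (lr5_dif hΩ hG hy h'))

theorem lr5_jsm (hΩ : IsOpen Ω) (hG : EG Ω γ G) (hy : y ∈ Ω) (c : ℂ) (h : ET Ω u) :
    jet (G (c • u)) y = c • jet (G u) y :=
  (jet_congr ((hG.smul c u h).eventuallyEq_of_mem (hΩ.mem_nhds hy))).trans
    (jet_smul c (lr5_dif hΩ hG hy h))

/-- The jet of a potential is bounded by the source, away from the point. -/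
theorem lr5_bd (hn : 3 ≤ n) (hγ : γ.Sm Ω) (hΩ : IsOpen Ω) (hG : EG Ω γ G) (hy : y ∈ Ω) :
    ∃ ρ : ℝ, 0 < ρ ∧ ball y ρ ⊆ Ω ∧ ∀ᶠ δ in 𝓝[>] (0 : ℝ), ∃ C : ℝ, ∀ F,
      ET (ball y ρ \ closedBall y δ) F → ‖jet (G F) y‖ ^ 2 ≤ C * ∫ z, ‖F z‖ ^ 2 := by
  obtain ⟨ρ, Λ, hρ, -, hb, hH⟩ := gh hn hγ hΩ hG hy
  obtain ⟨M, ρ', C, hρ', hC, hb', hI⟩ := gie hγ hΩ hy
  refine ⟨ρ, hρ, hb, ?_⟩
  filter_upwards [Ioo_mem_nhdsGT (lt_min hρ hρ')] with δ hδ
  have h0 : 0 < δ / 3 := by linarith [hδ.1]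
  have h1 : δ ≤ ρ := (hδ.2.trans_le (min_le_left _ _)).le
  have h2 : δ / 3 ≤ ρ' := by linarith [hδ.2.trans_le (min_le_right _ _), hδ.1]
  have h3 : 3 * (δ / 3) = δ := by ring
  refine ⟨(C * (1 + (δ / 3)⁻¹)) ^ 2 * ((Λ * ρ ^ 2) ^ 2 / (δ / 3) ^ n), fun F hF => ?_⟩
  have hI0 : 0 ≤ ∫ z, ‖F z‖ ^ 2 := integral_nonneg fun z => by positivity
  have hF1 : ET (ball y ρ) F := hF.mono' sdiff_subset
  obtain ⟨A, hA, e⟩ : ∃ A : ℝ, 0 ≤ A ∧
      A ^ 2 = (Λ * ρ ^ 2) ^ 2 / (δ / 3) ^ n * ∫ z, ‖F z‖ ^ 2 :=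
    ⟨√_, Real.sqrt_nonneg _, Real.sq_sqrt (by positivity)⟩
  have k := hI (δ / 3) h0 h2 (G F) 0 A 0 hA le_rfl ?_ contDiffOn_const (fun i _ z _ => by
    simp [iteratedFDeriv_zero]) ?_
  · rw [add_zero] at k
    have k2 : ‖fderiv ℝ (G F) y‖ ≤ (δ / 3)⁻¹ * (C * A) := by
      rw [le_inv_mul_iff₀ h0]
      exact k.2
    have p1 : 0 ≤ C * A := by positivity
    have p2 : 0 ≤ (δ / 3)⁻¹ * (C * A) := by positivity
    have k3 : ‖jet (G F) y‖ ≤ C * (1 + (δ / 3)⁻¹) * A :=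
      jet_le (by linarith [k.1]) (by linarith)
    rw [mul_assoc, ← e, ← mul_pow]
    exact pow_le_pow_left₀ (norm_nonneg _) k3 2
  · rw [h3]
    have s := (hG.sol F (hF1.mono' hb)).mono' ((ball_subset_ball h1).trans hb)
    refine ⟨s.1, fun ζ hζ => (s.2 ζ hζ).trans (integral_congr_ae (.of_forall fun z => ?_))⟩
    by_cases hz : z ∈ ball y δ
    · simp only [image_eq_zero_of_notMem_tsupport fun k =>
        (hF.2.2 k).2 (ball_subset_closedBall hz), Pi.zero_apply]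
    · simp only [image_eq_zero_of_notMem_tsupport fun k => hz (hζ.2.2 k), inner_zero_right]
  · rw [h3, e, ← mul_assoc, mul_div_cancel₀ _ (pow_pos h0 n).ne', ENNReal.ofReal_mul (sq_nonneg _),
      ← lr5_int hF]
    exact (lintegral_mono_set (ball_subset_ball h1)).trans (hH ρ hρ le_rfl F hF1)

theorem lr5_jet (y : Ec n) {ρ : ℝ} (hρ : 0 < ρ) (w : Fb N × (Fin n → Fb N)) :
    ∃ φ, ET (ball y ρ) φ ∧ jet φ y = w := by
  let β : ContDiffBump y := ⟨ρ / 3, ρ / 2, by positivity, by linarith⟩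
  let A : Ec n →L[ℝ] Fb N := ∑ i, (EuclideanSpace.proj i : Ec n →L[ℝ] ℝ).smulRight (w.2 i)
  refine ⟨fun z => β z • (w.1 + A (z - y)), ⟨β.contDiff.smul (by fun_prop),
    β.hasCompactSupport.smul_right (f' := fun z => w.1 + A (z - y)),
    (tsupport_smul_subset_left _ _).trans (β.tsupport_eq.le.trans
      (closedBall_subset_ball (half_lt_self hρ)))⟩, ?_⟩
  rw [jet_congr (v := fun z => w.1 + A (z - y))
    (β.eventuallyEq_one.mono fun z hz => by simp only [hz, Pi.one_apply, one_smul])]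
  have d : HasFDerivAt (fun z => w.1 + A (z - y)) A y := by
    simpa using (A.hasFDerivAt.comp y ((hasFDerivAt_id y).sub_const y)).const_add w.1
  refine Prod.ext (by simp [jet]) (funext fun j => ?_)
  rw [jet, d.fderiv]
  simp [A, bv, Pi.single_apply]

theorem rj (hn : 3 ≤ n) (hF : GF n N) : RJ n N := by
  intro Ω γ G D y hΩ hγ hG hD hDΩ hy hcl hyD ξ η
  obtain ⟨ρ, hρ, hb, hB⟩ := lr5_bd hn hγ hΩ hG hy
  let S : Submodule ℂ (Fb N × (Fin n → Fb N)) :=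
    { carrier := {w | ∃ F, ET D F ∧ jet (G F) y = w}
      add_mem' := by
        rintro _ _ ⟨F, h, rfl⟩ ⟨F', h', rfl⟩
        exact ⟨F + F', lr5_add h h', lr5_jadd hΩ hG hy (h.mono' hDΩ) (h'.mono' hDΩ)⟩
      zero_mem' := ⟨0, lr5_zero, by simpa using lr5_jsm hΩ hG hy 0 (lr5_zero (N := N))⟩
      smul_mem' := by
        rintro c _ ⟨F, h, rfl⟩
        exact ⟨c • F, lr5_smul c h, lr5_jsm hΩ hG hy c (h.mono' hDΩ)⟩ }
  have hS : S = ⊤ := by
    by_contra hne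
    obtain ⟨l, hl, hk⟩ := S.exists_le_ker_of_lt_top (lt_top_iff_ne_top.2 hne)
    let L := LinearMap.toContinuousLinearMap l
    have hL : ∀ w, ‖l w‖ ≤ ‖L‖ * ‖w‖ := L.le_opNorm
    obtain ⟨p, hp1, hp2⟩ := mem_closure_iff.1 hcl _ isOpen_ball (mem_ball_self hρ)
    have hp : 0 < dist p y := dist_pos.2 fun e => hyD (e ▸ hp2)
    have s1 : ∀ F, ET (ball y ρ) F → y ∉ tsupport F → l (jet (G F) y) = 0 := fun F h1 h2 => by
      obtain ⟨δ₀, hδ₀, hc⟩ := nhds_basis_closedBall.mem_iff.1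
        ((isClosed_tsupport F).isOpen_compl.mem_nhds h2)
      obtain ⟨δ, ⟨C, hC⟩, hδ⟩ := (hB.and (Ioo_mem_nhdsGT (lt_min hδ₀ hp))).exists
      have ho : IsOpen (ball y ρ \ closedBall y δ) := isOpen_ball.sdiff isClosed_closedBall
      have hs : ball y ρ \ closedBall y δ ⊆ Ω := sdiff_subset.trans hb
      refine hF _ (D ∩ (ball y ρ \ closedBall y δ)) γ (fun F => l (jet (G F) y)) (‖L‖ ^ 2 * C) ho
        (annulus_conn hn y hδ.1.le) (hγ.mono hs) (hD.inter ho)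
        ⟨p, hp2, hp1, fun k => (hδ.2.trans_le (min_le_right _ _)).not_ge k⟩ inter_subset_right
        (fun F F' h h' => ?_) (fun c F h => ?_) (fun F h => ?_) (fun φ F h h' e => ?_)
        (fun F h => hk ⟨F, h.mono' inter_subset_left, rfl⟩) F
        ⟨h1.1, h1.2.1, fun z hz => ⟨h1.2.2 hz, fun k => hc (closedBall_subset_closedBall
          (hδ.2.trans_le (min_le_left _ _)).le k) hz⟩⟩
      · rw [lr5_jadd hΩ hG hy (h.mono' hs) (h'.mono' hs), map_add]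
      · rw [lr5_jsm hΩ hG hy c (h.mono' hs), map_smul, smul_eq_mul]
      · refine (pow_le_pow_left₀ (norm_nonneg _) (hL _) 2).trans ?_
        rw [mul_pow, mul_assoc]
        exact mul_le_mul_of_nonneg_left (hC F h) (sq_nonneg _)
      · rw [jet_congr ((hG.inv φ F (h.mono' hs) (h'.mono' hs)
          (lr5_ext hγ hΩ ho hs h h' e)).eventuallyEq_of_mem (hΩ.mem_nhds hy)),
          jet_congr (notMem_tsupport_iff_eventuallyEq.1 fun k =>
            (h.2.2 k).2 (mem_closedBall_self hδ.1.le)), jet_zero, map_zero]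
    refine hl (LinearMap.ext fun w => ?_)
    obtain ⟨φ, hφ, rfl⟩ := lr5_jet y hρ w
    have hP := ((hγ.mono hb).et isOpen_ball hφ).2.1
    obtain ⟨F, eF⟩ : ∃ F, F = fun z => -((γ.vol z)⁻¹ • γ.P φ z) := ⟨_, rfl⟩
    rw [← eF] at hP
    have e : EW Ω γ φ F := (hγ.ew_iff hΩ hP.1.continuous.continuousOn).2
      ⟨hφ.1.contDiffOn, fun z hz => by
        rw [eF, smul_neg, neg_neg, smul_inv_smul₀ (hγ.vol_pos hz).ne']⟩
    rw [← jet_congr ((hG.inv φ F (hφ.mono' hb) (hP.mono' hb) e).eventuallyEq_of_mem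
      (hΩ.mem_nhds hy)), LinearMap.zero_apply, ← norm_le_zero_iff]
    refine le_of_forall_pos_le_add fun ε hε => ?_
    have hL1 : 0 < ‖L‖ + 1 := by positivity
    obtain ⟨χ, c1, -, -, c2, c3, c4⟩ := gs hn Ω γ G F y (ε / (‖L‖ + 1)) hΩ hγ hG (hP.mono' hb) hy
      (by positivity)
    have c5 : ContDiff ℝ ∞ fun z => 1 - χ z := contDiff_const.sub c1
    have e2 : F = (fun z => χ z • F z) + fun z => (1 - χ z) • F z := funext fun z => by
      rw [Pi.add_apply, ← add_smul, add_sub_cancel, one_smul]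
    rw [e2, lr5_jadd hΩ hG hy (lr5_cut c1 (hP.mono' hb)) (lr5_cut c5 (hP.mono' hb)), map_add,
      s1 _ (lr5_cut c5 hP) (notMem_tsupport_iff_eventuallyEq.2
        (c2.mono fun z hz => by simp only [hz, sub_self, zero_smul, Pi.zero_apply])),
      add_zero, zero_add]
    refine (hL _).trans ((mul_le_mul (le_add_of_nonneg_right zero_le_one) (jet_le c3 c4)
      (norm_nonneg _) hL1.le).trans_eq (mul_div_cancel₀ _ hL1.ne'))
  obtain ⟨F, h, e⟩ : (ξ, fun i => η (bv i)) ∈ S := hS ▸ Submodule.mem_top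
  refine ⟨F, h, congrArg Prod.fst e, ContinuousLinearMap.ext fun v => ?_⟩
  rw [bv_sum v, map_sum, map_sum]
  exact Finset.sum_congr rfl fun i _ => by
    rw [map_smul, map_smul]
    exact congrArg _ (congrFun (congrArg Prod.snd e) i)

end Vale.Agent.P088.Gl
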