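import Vale.Agent.P088F.LC
import Vale.Agent.P088F.LR5
import Vale.Agent.P088F.LMm
import Vale.Agent.P088F.LZm
import Vale.Agent.P088F.LVw

/-! P088, part L: local continuation from the local theorem. -/

namespace Vale.Agent.P088.Gl

theorem lc {n N : ℕ} [NeZero n] (hn : 3 ≤ n) (l₀ : Fin N) (hU : GU n N) (hF : GF n N)
    (hT : P088F.LT0 n (Fin N)) : LC n N :=
  lc_of l₀ (rj hn hF) (lm hn hU (lz (lv hT)))

end Vale.Agent.P088.Gl
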