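import Vale.Agent.P088F.LR1
import Vale.Agent.P088F.Geo1

/-! P088, part L: the scale invariant bound for Green operators. -/

open MeasureTheory Set Filter Topology Metric
open scoped ContDiff ENNReal

noncomputable section

namespace Vale.Agent.P088.Gl

variable {n N : ℕ} {Ω : Set (Ec n)} {γ : Geo n N} {G : (Ec n → Fb N) → Ec n → Fb N}

theorem ET.mono' {Ω' : Set (Ec n)} {F : Ec n → Fb N} (h : ET Ω F) (hs : Ω ⊆ Ω') : ET Ω' F :=
  ⟨h.1, h.2.1, h.2.2.trans hs⟩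

theorem EW.mono' {Ω' : Set (Ec n)} {u F : Ec n → Fb N} (h : EW Ω γ u F) (hs : Ω' ⊆ Ω) :
    EW Ω' γ u F := ⟨h.1.mono hs, fun ζ hζ => h.2 ζ (hζ.mono' hs)⟩

theorem lr2_re (x y : Fb N) : (inner ℂ x y).re = inner ℝ x y := by
  simp [PiLp.inner_apply, Complex.inner]

/-- The energy density as a quadratic form. -/
def lr2Q (γ : Geo n N) (z : Ec n) (D : Fin n → Fb N) : ℝ :=
  ∑ i, ∑ j, γ.h i j z * inner ℝ (D i) (D j)

theorem lr2_ipm (z : Ec n) (D : Fin n → Fb N) : lr2Q γ z D = γ.vol z * ipm (γ.g z)⁻¹ D D := by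
  simp only [lr2Q, ipm, Geo.h, Finset.mul_sum, mul_assoc]

theorem lr2_den (z : Ec n) (u : Ec n → Fb N) :
    γ.vol z * (γ.den u u z).re = lr2Q γ z fun i => γ.D i u z := by
  rw [lr2_ipm]
  simp only [Geo.den, ipm, Complex.re_sum, Complex.smul_re, lr2_re, smul_eq_mul]

theorem lr2_low (h : γ.Sm Ω) {K : Set (Ec n)} (hK : IsCompact K) (hs : K ⊆ Ω) :
    ∃ k : ℝ, 0 < k ∧ ∀ z ∈ K, ∀ D : Fin n → Fb N, k * ‖D‖ ^ 2 ≤ lr2Q γ z D := by
  have hc : ContinuousOn (fun p : Ec n × (Fin n → Fb N) => lr2Q γ p.1 p.2)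
      (K ×ˢ sphere (0 : Fin n → Fb N) 1) := by
    refine continuousOn_finsetSum _ fun i _ => continuousOn_finsetSum _ fun j _ => ?_
    refine ((h.h i j).continuousOn.comp continuousOn_fst fun p hp => hs hp.1).mul ?_
    exact (((continuous_apply i).comp continuous_snd).inner
      ((continuous_apply j).comp continuous_snd)).continuousOn
  obtain ⟨k, hk, hk'⟩ := (hK.prod (isCompact_sphere (0 : Fin n → Fb N) 1)).exists_forall_le' hc
    (a := 0) fun p hp => by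
      rw [lr2_ipm]
      refine mul_pos (h.vol_pos (hs hp.1)) (lt_of_le_of_ne
        (ipm_nonneg (h.pos _ (hs hp.1)).inv _) fun h0 => ?_)
      have h1 : p.2 = 0 := funext fun i => ipm_eq_zero (h.pos _ (hs hp.1)).inv h0.symm i
      have h2 := hp.2
      rw [h1] at h2
      simp at h2
  refine ⟨k, hk, fun z hz D => ?_⟩
  by_cases hD : D = 0
  · simp [hD, lr2Q]
  · have hn : 0 < ‖D‖ := norm_pos_iff.2 hD
    have h1 := hk' (z, ‖D‖⁻¹ • D) ⟨hz, by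
      rw [mem_sphere_zero_iff_norm, norm_smul, norm_inv, norm_norm, inv_mul_cancel₀ hn.ne']⟩
    have h2 : lr2Q γ z D = ‖D‖ ^ 2 * lr2Q γ z (‖D‖⁻¹ • D) := by
      simp only [lr2Q, Pi.smul_apply, real_inner_smul_left, real_inner_smul_right, Finset.mul_sum]
      refine Finset.sum_congr rfl fun i _ => Finset.sum_congr rfl fun j _ => ?_
      field_simp
    rw [h2, mul_comm]
    exact mul_le_mul_of_nonneg_left h1 (by positivity)

theorem lr2_op (L : Ec n →L[ℝ] Fb N) {M : ℝ} (hM : 0 ≤ M) (h : ∀ i, ‖L (bv i)‖ ≤ M) :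
    ‖L‖ ≤ n * M := by
  refine L.opNorm_le_bound (by positivity) fun v => ?_
  calc ‖L v‖ = ‖∑ k, v k • L (bv k)‖ := by
        conv_lhs => rw [bv_sum v]
        simp only [map_sum, map_smul]
    _ ≤ ∑ k, ‖v k • L (bv k)‖ := norm_sum_le _ _
    _ ≤ ∑ _k : Fin n, M * ‖v‖ := Finset.sum_le_sum fun k _ => by
        rw [norm_smul, mul_comm]
        exact mul_le_mul (h k) (PiLp.norm_apply_le v k) (norm_nonneg _) hM
    _ = _ := by
        rw [Finset.sum_const, Finset.card_univ, Fintype.card_fin, nsmul_eq_mul, mul_assoc]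

/-- On a compact set `(γ.g z)⁻¹ ≥ k > 0` (minimum of the continuous function
`(z, ξ) ↦ ξ ⬝ᵥ (γ.g z)⁻¹ *ᵥ ξ` on `K ×ˢ sphere`; `(γ.den u u z).re = ipm (γ.g z)⁻¹ D D`, apply
`ipm_nonneg`-type argument to `(γ.g z)⁻¹ - k • 1` via `ipm_basis`), `vol ≥ k`, `‖a i‖ ≤ C`, and
`fderiv u z (bv i) = D i u z - a i z (u z)`, `‖L‖ ≤ ∑ i, ‖L (bv i)‖` (`bv_sum`). -/
theorem den_ge (h : γ.Sm Ω) (hΩ : IsOpen Ω) {K : Set (Ec n)} (hK : IsCompact K) (hs : K ⊆ Ω) :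
    ∃ C : ℝ, 0 ≤ C ∧ ∀ z ∈ K, γ.vol z ≤ C ∧ ∀ u : Ec n → Fb N,
      ‖fderiv ℝ u z‖ ^ 2 + ‖u z‖ ^ 2 ≤ C * (γ.vol z * ((γ.den u u z).re + ‖u z‖ ^ 2)) := by
  obtain ⟨k1, hk1, h1⟩ := lr2_low h hK hs
  obtain ⟨k2, hk2, h2⟩ := hK.exists_forall_le' (h.vol.continuousOn.mono hs) (a := 0)
    fun z hz => h.vol_pos (hs hz)
  obtain ⟨C1, h3⟩ := hK.exists_bound_of_continuousOn (h.vol.continuousOn.mono hs)
  obtain ⟨C2, h4⟩ := hK.exists_bound_of_continuousOn (f := fun z i => γ.a i z)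
    (continuousOn_pi.2 fun i => (h.a i).continuousOn.mono hs)
  refine ⟨|C1| + 2 * n ^ 2 / k1 + (2 * n ^ 2 * C2 ^ 2 + 1) / k2, by positivity,
    fun z hz => ⟨?_, fun u => ?_⟩⟩
  · have h5 : γ.vol z ≤ |C1| := (le_abs_self _).trans ((h3 z hz).trans (le_abs_self _))
    have h6 : 0 ≤ 2 * (n : ℝ) ^ 2 / k1 + (2 * n ^ 2 * C2 ^ 2 + 1) / k2 := by positivity
    linarith
  · have hC2 : 0 ≤ C2 := (norm_nonneg _).trans (h4 z hz)
    have h5 := h1 z hz fun i => γ.D i u z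
    rw [mul_add (γ.vol z), lr2_den]
    have h6 : ‖fderiv ℝ u z‖ ≤ n * (‖fun i => γ.D i u z‖ + C2 * ‖u z‖) := by
      refine lr2_op _ (by positivity) fun i => ?_
      have e : fderiv ℝ u z (bv i) = γ.D i u z - γ.a i z (u z) := by
        rw [Geo.D, add_sub_cancel_right]
      rw [e]
      refine (norm_sub_le _ _).trans (add_le_add (norm_le_pi_norm (fun i => γ.D i u z) i) ?_)
      exact ((γ.a i z).le_opNorm _).trans (mul_le_mul_of_nonneg_right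
        ((norm_le_pi_norm (fun i => γ.a i z) i).trans (h4 z hz)) (norm_nonneg _))
    generalize ‖fun i => γ.D i u z‖ = d at h5 h6
    generalize (lr2Q γ z fun i => γ.D i u z) = Q at h5 ⊢
    have h7 : k2 * ‖u z‖ ^ 2 ≤ γ.vol z * ‖u z‖ ^ 2 :=
      mul_le_mul_of_nonneg_right (h2 z hz) (by positivity)
    generalize γ.vol z * ‖u z‖ ^ 2 = P at h7 ⊢
    have hQ : 0 ≤ Q := le_trans (by positivity) h5
    have hP : 0 ≤ P := le_trans (by positivity) h7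
    have h8 : ‖fderiv ℝ u z‖ ^ 2 ≤ 2 * n ^ 2 * d ^ 2 + 2 * n ^ 2 * C2 ^ 2 * ‖u z‖ ^ 2 := by
      refine (pow_le_pow_left₀ (norm_nonneg _) h6 2).trans ?_
      nlinarith [mul_nonneg (sq_nonneg (n : ℝ)) (sq_nonneg (d - C2 * ‖u z‖))]
    have h9 : 2 * n ^ 2 * d ^ 2 ≤ 2 * (n : ℝ) ^ 2 / k1 * Q := by
      calc 2 * (n : ℝ) ^ 2 * d ^ 2 = 2 * (n : ℝ) ^ 2 / k1 * (k1 * d ^ 2) := by field_simp
        _ ≤ _ := mul_le_mul_of_nonneg_left h5 (by positivity)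
    have h10 : (2 * n ^ 2 * C2 ^ 2 + 1) * ‖u z‖ ^ 2 ≤ (2 * (n : ℝ) ^ 2 * C2 ^ 2 + 1) / k2 * P := by
      calc (2 * (n : ℝ) ^ 2 * C2 ^ 2 + 1) * ‖u z‖ ^ 2
          = (2 * (n : ℝ) ^ 2 * C2 ^ 2 + 1) / k2 * (k2 * ‖u z‖ ^ 2) := by field_simp
        _ ≤ _ := mul_le_mul_of_nonneg_left h7 (by positivity)
    have a1 : 0 ≤ |C1| * (Q + P) := by positivity
    have a2 : 0 ≤ 2 * (n : ℝ) ^ 2 / k1 * P := by positivity
    have a3 : 0 ≤ (2 * (n : ℝ) ^ 2 * C2 ^ 2 + 1) / k2 * Q := by positivity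
    generalize 2 * (n : ℝ) ^ 2 / k1 = A at *
    generalize (2 * (n : ℝ) ^ 2 * C2 ^ 2 + 1) / k2 = B at *
    nlinarith

/-- the scale invariant bound -/
def GH (G : (Ec n → Fb N) → Ec n → Fb N) (y : Ec n) (ρ Λ : ℝ) : Prop :=
  ∀ r, 0 < r → r ≤ ρ → ∀ F, ET (ball y r) F →
    ∫⁻ z in ball y r, ‖G F z‖ₑ ^ 2 ≤ ENNReal.ofReal ((Λ * r ^ 2) ^ 2) * ∫⁻ z, ‖F z‖ₑ ^ 2

theorem lr2_amgm {L : ℝ} (hL : 0 ≤ L) (x y : Fb N) :
    2 * (ENNReal.ofReal L * (‖x‖ₑ * ‖y‖ₑ)) ≤ ENNReal.ofReal (L ^ 2) * ‖x‖ₑ ^ 2 + ‖y‖ₑ ^ 2 := by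
  rw [← ofReal_norm x, ← ofReal_norm y]
  have hx := norm_nonneg x
  have hy := norm_nonneg y
  generalize ‖x‖ = a at hx ⊢
  generalize ‖y‖ = b at hy ⊢
  rw [← ENNReal.ofReal_pow hx, ← ENNReal.ofReal_pow hy, ← ENNReal.ofReal_mul hx,
    ← ENNReal.ofReal_mul hL, ← ENNReal.ofReal_mul (by positivity), ← ENNReal.ofReal_ofNat 2,
    ← ENNReal.ofReal_mul (by norm_num), ← ENNReal.ofReal_add (by positivity) (by positivity)]
  exact ENNReal.ofReal_le_ofReal (by nlinarith [sq_nonneg (L * a - b)])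

theorem lr2_pair {B : Set (Ec n)} (hB : MeasurableSet B) {F u : Ec n → Fb N} {C C' : ℝ}
    (hF : tsupport F ⊆ B) (hv : ∀ z ∈ B, |γ.vol z| ≤ C) :
    ENNReal.ofReal (C' * (γ.pair F u).re) ≤
      ENNReal.ofReal |C'| * (ENNReal.ofReal C * ∫⁻ z in B, ‖F z‖ₑ * ‖u z‖ₑ) := by
  have h1 : C' * (γ.pair F u).re ≤ |C'| * ‖γ.pair F u‖ := by
    refine (le_abs_self _).trans ?_
    rw [abs_mul]
    exact mul_le_mul_of_nonneg_left (Complex.abs_re_le_norm _) (abs_nonneg _)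
  refine (ENNReal.ofReal_le_ofReal h1).trans ?_
  rw [ENNReal.ofReal_mul (abs_nonneg _), ofReal_norm]
  refine mul_le_mul_right ((enorm_integral_le_lintegral_enorm _).trans ?_) _
  rw [← lintegral_const_mul' _ _ ENNReal.ofReal_ne_top, ← lintegral_indicator hB]
  refine lintegral_mono fun z => ?_
  by_cases hz : z ∈ B
  · rw [indicator_of_mem hz, enorm_smul]
    refine mul_le_mul' ?_ ?_
    · rw [Real.enorm_eq_ofReal_abs]
      exact ENNReal.ofReal_le_ofReal (hv z hz)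
    · rw [← ofReal_norm, ← ofReal_norm (F z), ← ofReal_norm (u z),
        ← ENNReal.ofReal_mul (norm_nonneg _)]
      exact ENNReal.ofReal_le_ofReal (norm_inner_le_norm _ _)
  · simp [image_eq_zero_of_notMem_tsupport fun k => hz (hF k)]

/-- `closedBall y (2 * ρ) ⊆ Ω`, `u = G F`, `a = ∫_{ball y r} ‖u‖²` is finite (continuity on the
closed ball). `hardy_loc` (radius `2 * ρ`), `den_ge`, `EG.bound` give
`a ≤ C r² re (pair F u) ≤ C' r² ∫_{ball y r} ‖F‖ ‖u‖ ≤ a / 2 + (C' r²)² ∫ ‖F‖² / 2`. -/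
theorem gh (hn : 3 ≤ n) (h : γ.Sm Ω) (hΩ : IsOpen Ω) (hG : EG Ω γ G) {y : Ec n} (hy : y ∈ Ω) :
    ∃ ρ Λ : ℝ, 0 < ρ ∧ 0 ≤ Λ ∧ ball y ρ ⊆ Ω ∧ GH G y ρ Λ := by
  obtain ⟨ε, hε, hεΩ⟩ := nhds_basis_closedBall.mem_iff.1 (hΩ.mem_nhds hy)
  obtain ⟨C1, hC1, h1⟩ := hardy_loc (N := N) hn y hε
  obtain ⟨C2, hC2, h2⟩ := den_ge h hΩ (isCompact_closedBall y ε) hεΩ
  obtain ⟨C3, h3⟩ := hG.bound
  have hb : ball y ε ⊆ Ω := ball_subset_closedBall.trans hεΩ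
  refine ⟨ε / 2, C1 * C2 * |C3| * C2, by positivity, by positivity,
    (ball_subset_ball (by linarith)).trans hb, fun r hr hrε F hF => ?_⟩
  have hrb : ball y r ⊆ ball y ε := ball_subset_ball (by linarith)
  have hF' : ET Ω F := hF.mono' (hrb.trans hb)
  have hu : ContDiffOn ℝ ∞ (G F) Ω := (hG.sol F hF').1
  have hfin : ∫⁻ z in ball y r, ‖G F z‖ₑ ^ 2 ≠ ⊤ := by
    obtain ⟨M, hM⟩ := (isCompact_closedBall y ε).exists_bound_of_continuousOn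
      (hu.continuousOn.mono hεΩ)
    refine (setLIntegral_lt_top_of_le_nnreal measure_ball_lt_top.ne
      ⟨M.toNNReal ^ 2, fun z hz => ?_⟩).ne
    rw [ENNReal.coe_pow, ← ofReal_norm]
    exact pow_le_pow_left' (ENNReal.ofReal_le_ofReal (hM z (ball_subset_closedBall (hrb hz)))) 2
  have e1 : ∫⁻ z in ball y ε, ENNReal.ofReal (‖fderiv ℝ (G F) z‖ ^ 2 + ‖G F z‖ ^ 2) ≤
      ENNReal.ofReal C2 * ENNReal.ofReal (C3 * (γ.pair F (G F)).re) := by
    refine le_trans ?_ (mul_le_mul_right ((lintegral_mono_set hb).trans (h3 F hF')) _)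
    rw [← lintegral_const_mul' _ _ ENNReal.ofReal_ne_top]
    refine setLIntegral_mono' measurableSet_ball fun z hz => ?_
    rw [← ENNReal.ofReal_mul hC2]
    exact ENNReal.ofReal_le_ofReal ((h2 z (ball_subset_closedBall hz)).2 _)
  have e2 := lr2_pair (γ := γ) (u := G F) (C := C2) (C' := C3) measurableSet_ball hF.2.2
    fun z hz => by
      rw [abs_of_pos (h.vol_pos (hb (hrb hz)))]
      exact (h2 z (ball_subset_closedBall (hrb hz))).1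
  have e3 : ∫⁻ z in ball y r, ‖G F z‖ₑ ^ 2 ≤
      ENNReal.ofReal (C1 * C2 * |C3| * C2 * r ^ 2) * ∫⁻ z in ball y r, ‖F z‖ₑ * ‖G F z‖ₑ := by
    refine (h1 (G F) (hu.mono hb) r hr hrε).trans
      ((mul_le_mul_right (e1.trans (mul_le_mul_right e2 _)) _).trans_eq ?_)
    rw [← mul_assoc, ← mul_assoc, ← mul_assoc, ← ENNReal.ofReal_mul (by positivity),
      ← ENNReal.ofReal_mul (by positivity), ← ENNReal.ofReal_mul (by positivity)]
    congr 2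
    ring
  have hm : Measurable fun z => ENNReal.ofReal ((C1 * C2 * |C3| * C2 * r ^ 2) ^ 2) * ‖F z‖ₑ ^ 2 :=
    (hF.1.continuous.measurable.enorm.pow_const 2).const_mul _
  have e4 : 2 * ∫⁻ z in ball y r, ‖G F z‖ₑ ^ 2 ≤
      ENNReal.ofReal ((C1 * C2 * |C3| * C2 * r ^ 2) ^ 2) * (∫⁻ z, ‖F z‖ₑ ^ 2) +
        ∫⁻ z in ball y r, ‖G F z‖ₑ ^ 2 := by
    refine (mul_le_mul_right e3 2).trans ?_
    rw [← lintegral_const_mul' _ _ ENNReal.ofReal_ne_top,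
      ← lintegral_const_mul' _ _ ENNReal.ofNat_ne_top]
    refine (lintegral_mono fun z => lr2_amgm (by positivity) (F z) (G F z)).trans ?_
    rw [lintegral_add_left hm, lintegral_const_mul' _ _ ENNReal.ofReal_ne_top]
    exact add_le_add_left (mul_le_mul_right (setLIntegral_le_lintegral _ _) _) _
  rw [two_mul] at e4
  exact (ENNReal.add_le_add_iff_right hfin).1 e4

end Vale.Agent.P088.Gl
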