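import Vale.Agent.P088F.Geo1

/-! P088, part L: interior estimate for values and gradients at small scales. -/

open MeasureTheory Set Filter Topology Metric
open scoped ContDiff ENNReal

noncomputable section

namespace Vale.Agent.P088.Gl

open Vale.Agent.P292E Vale.Agent.P088F

variable {n N : ℕ} {Ω : Set (Ec n)} {γ : Geo n N}

/-- A component as a real linear map. -/
def lr3L (I : Fin N) : Fb N →L[ℝ] ℂ :=
  (EuclideanSpace.proj I : Fb N →L[ℂ] ℂ).restrictScalars ℝ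

theorem lr3L_le (I : Fin N) : ‖lr3L I‖ ≤ 1 :=
  ContinuousLinearMap.opNorm_le_bound _ zero_le_one fun x => by
    rw [one_mul]
    exact PiLp.norm_apply_le x I

theorem lr3_comp {u : Ec n → Fb N} {s : Set (Ec n)} (hu : ContDiffOn ℝ ∞ u s) (I : Fin N) :
    ContDiffOn ℝ ∞ (fun z => u z I) s := (lr3L I).contDiff.comp_contDiffOn hu

theorem lr3_norm (x : Fb N) : ‖x‖ ≤ ∑ I, ‖x I‖ := by
  rw [EuclideanSpace.norm_eq]
  exact Real.sqrt_le_iff.2 ⟨Finset.sum_nonneg fun _ _ => norm_nonneg _,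
    Finset.sum_sq_le_sq_sum_of_nonneg fun _ _ => norm_nonneg _⟩

theorem lr3_fd {u : Ec n → Fb N} {y : Ec n} (hu : DifferentiableAt ℝ u y) :
    ‖fderiv ℝ u y‖ ≤ ∑ I, ‖fderiv ℝ (fun z => u z I) y‖ := by
  refine ContinuousLinearMap.opNorm_le_bound _ (Finset.sum_nonneg fun _ _ => norm_nonneg _)
    fun w => (lr3_norm _).trans ?_
  rw [Finset.sum_mul]
  refine Finset.sum_le_sum fun I _ => ?_
  have h : HasFDerivAt (fun z => u z I) ((lr3L I).comp (fderiv ℝ u y)) y :=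
    (lr3L I).hasFDerivAt.comp y hu.hasFDerivAt
  rw [h.fderiv]
  exact ((lr3L I).comp (fderiv ℝ u y)).le_opNorm w

theorem lr3_bd (t : Fin n → Fin n → ℝ) : ∃ S : ℝ, 0 ≤ S ∧ ∀ p q, t p q ≤ S := by
  obtain ⟨S, hS⟩ := (finite_range fun a : Fin n × Fin n => t a.1 a.2).bddAbove
  exact ⟨max S 0, le_max_right _ _, fun p q => (hS ⟨(p, q), rfl⟩).trans (le_max_left _ _)⟩

theorem lr3_shift {M : ℕ} {y : Ec n} {r K : ℝ} (hr : 0 < r) {g : Ec n → ℂ} (c : ℂ)
    (h : Cs M y r 0 K fun z => g z - c) : Cs M y r 0 (K + ‖c‖) g := by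
  have e : g = fun z => (g z - c) + c := funext fun z => (sub_add_cancel _ _).symm
  rw [e]
  refine ⟨h.1.add contDiffOn_const, fun i hi z hz => ?_⟩
  rw [fun_iteratedFDeriv_add_apply (BdC_at isOpen_ball h.1 hz i) contDiffAt_const]
  refine (mul_le_mul_of_nonneg_left (norm_add_le _ _) (by positivity)).trans ?_
  rw [mul_add]
  refine add_le_add (h.2 i hi z hz) ?_
  rcases eq_or_ne i 0 with rfl | h0
  · simp
  · simp [iteratedFDeriv_const_of_ne h0]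

theorem lr3_int {u : Ec n → Fb N} {s : Set (Ec n)} (hs : MeasurableSet s) (hu : ContinuousOn u s)
    {T : ℝ} (hT : 0 ≤ T) (h : ∫⁻ z in s, ‖u z‖ₑ ^ 2 ≤ ENNReal.ofReal T) (I : Fin N) :
    IntegrableOn (fun z => ‖u z I‖ ^ 2) s ∧ ∫ z in s, ‖u z I‖ ^ 2 ≤ T := by
  have hm : AEStronglyMeasurable (fun z => ‖u z I‖ ^ 2) (volume.restrict s) :=
    (((lr3L I).continuous.comp_continuousOn hu).norm.pow 2).aestronglyMeasurable hs
  have h0 : 0 ≤ᵐ[volume.restrict s] fun z => ‖u z I‖ ^ 2 := ae_of_all _ fun _ => sq_nonneg _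
  have h1 : ∫⁻ z in s, ENNReal.ofReal (‖u z I‖ ^ 2) ≤ ENNReal.ofReal T := by
    refine (lintegral_mono fun z => ?_).trans h
    rw [← ofReal_norm, ← ENNReal.ofReal_pow (norm_nonneg _)]
    exact ENNReal.ofReal_le_ofReal (pow_le_pow_left₀ (norm_nonneg _) (PiLp.norm_apply_le _ I) 2)
  refine ⟨⟨hm, (hasFiniteIntegral_iff_ofReal h0).2 (h1.trans_lt ENNReal.ofReal_lt_top)⟩, ?_⟩
  rw [integral_eq_lintegral_of_nonneg_ae h0 hm]
  exact ENNReal.toReal_le_of_le_ofReal hT h1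

/-- All derivatives of order `≤ M` are bounded on a compact ball inside `Ω`; for `i + s = 0` use
continuity at `y`, otherwise `r ^ (i + s) ≤ r`. -/
theorem cs_small (hΩ : IsOpen Ω) {g : Ec n → ℂ} (hg : ContDiffOn ℝ ∞ g Ω) {y : Ec n} (hy : y ∈ Ω)
    (M s : ℕ) (h0 : s = 0 → g y = 0) {ε : ℝ} (hε : 0 < ε) :
    ∀ᶠ r in 𝓝[>] (0 : ℝ), Cs M y r s ε g := by
  obtain ⟨R, hR, hRΩ⟩ := nhds_basis_closedBall.mem_iff.1 (hΩ.mem_nhds hy)
  obtain ⟨B, hB0, hB⟩ := exists_Bd M hΩ hg (isCompact_closedBall y R) hRΩ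
  obtain ⟨δ, hδ, h1⟩ := Metric.continuousAt_iff.1
    (hg.continuousOn.continuousAt (hΩ.mem_nhds hy)) ε hε
  have ht : 0 < min (min (R / 3) (δ / 3)) (min 1 (ε / (B + 1))) := by positivity
  filter_upwards [Ioc_mem_nhdsGT ht] with r hr
  obtain ⟨hr0, hr1⟩ := hr
  simp only [le_min_iff] at hr1
  obtain ⟨⟨a1, a2⟩, a3, a4⟩ := hr1
  have hs : ball y (3 * r) ⊆ closedBall y R :=
    ball_subset_closedBall.trans (closedBall_subset_closedBall (by linarith))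
  refine ⟨hg.mono (hs.trans hRΩ), fun i hi z hz => ?_⟩
  rcases Nat.eq_zero_or_pos (i + s) with h2 | h2
  · obtain ⟨rfl, rfl⟩ := Nat.add_eq_zero_iff.1 h2
    have h3 := h1 (x := z) ((mem_ball.1 hz).trans_le (by linarith))
    rw [h0 rfl, dist_zero_right] at h3
    simpa using h3.le
  · have h3 : r ^ (i + s) ≤ r := pow_le_of_le_one hr0.le a3 h2.ne'
    rw [le_div_iff₀ (by positivity)] at a4
    exact (mul_le_mul h3 (hB i hi z (hs hz)) (norm_nonneg _) hr0.le).trans (by nlinarith)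

/-- Minimum of the symbol on the unit sphere, homogeneity. -/
theorem symb_ge {a : Fin n → Fin n → ℂ} (h : ∀ ξ : V n, ξ ≠ 0 → 0 < symb a ξ) :
    ∃ k : ℝ, 0 < k ∧ ∀ ξ : V n, k * ‖ξ‖ ^ 2 ≤ symb a ξ := by
  have hc : Continuous (symb a) := by
    unfold symb
    fun_prop
  have hh : ∀ (t : ℝ) (ξ : V n), symb a (t • ξ) = t ^ 2 * symb a ξ := fun t ξ => by
    rw [symb, symb, ← Complex.re_ofReal_mul]
    congr 1
    simp only [Finset.mul_sum, PiLp.smul_apply, smul_eq_mul]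
    refine Finset.sum_congr rfl fun p _ => Finset.sum_congr rfl fun q _ => ?_
    push_cast
    ring
  obtain ⟨k, hk, h1⟩ := (isCompact_sphere (0 : V n) 1).exists_forall_le' hc.continuousOn (a := 0)
    fun ξ hξ => h ξ (ne_of_mem_sphere hξ one_ne_zero)
  refine ⟨k, hk, fun ξ => ?_⟩
  rcases eq_or_ne ξ 0 with rfl | h0
  · simp [symb]
  · have h2 : ‖ξ‖ ≠ 0 := norm_ne_zero_iff.2 h0
    have h3 := h1 (‖ξ‖⁻¹ • ξ) (by
      rw [mem_sphere_zero_iff_norm, norm_smul, norm_inv, norm_norm, inv_mul_cancel₀ h2])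
    have h4 := hh ‖ξ‖ (‖ξ‖⁻¹ • ξ)
    rw [smul_inv_smul₀ h2] at h4
    rw [h4, mul_comm]
    exact mul_le_mul_of_nonneg_left h3 (sq_nonneg _)

/-- Leibniz rule (`norm_iteratedFDerivWithin_mul_le` on the open ball or `Cs.cl`-type lemmas), the
component map `F ↦ F I` has norm `≤ 1`. -/
theorem cs_src {M : ℕ} {y : Ec n} {r K B : ℝ} (hr : 0 < r) {v : Ec n → ℂ} (hv : Cs M y r 0 K v)
    {F : Ec n → Fb N} (hF : ContDiffOn ℝ ∞ F (ball y (3 * r)))
    (hB : ∀ i ≤ M, ∀ z ∈ ball y (3 * r), r ^ (i + 2) * ‖iteratedFDeriv ℝ i F z‖ ≤ B) (I : Fin N) :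
    Cs M y r 2 (2 ^ M * K * B) fun z => v z * F z I := by
  have hFI := lr3_comp hF I
  refine ⟨hv.1.mul hFI, fun i hi z hz => ?_⟩
  have hK : 0 ≤ K := le_trans (by positivity) (hv.2 0 (Nat.zero_le _) z hz)
  have hB0 : 0 ≤ B := le_trans (by positivity) (hB 0 (Nat.zero_le _) z hz)
  have h1 := norm_iteratedFDerivWithin_mul_le (𝕜 := ℝ) hv.1 hFI isOpen_ball.uniqueDiffOn hz
    (BdC_le i)
  rw [iteratedFDerivWithin_of_isOpen i isOpen_ball hz] at h1
  refine (mul_le_mul_of_nonneg_left h1 (by positivity)).trans ?_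
  rw [Finset.mul_sum]
  calc _ ≤ ∑ j ∈ Finset.range (i + 1), (i.choose j : ℝ) * K * B := by
        refine Finset.sum_le_sum fun j hj => ?_
        have hj' : j ≤ i := Nat.lt_succ_iff.1 (Finset.mem_range.1 hj)
        rw [iteratedFDerivWithin_of_isOpen j isOpen_ball hz,
          iteratedFDerivWithin_of_isOpen _ isOpen_ball hz]
        have a1 := hv.2 j (hj'.trans hi) z hz
        have a2 : r ^ (i - j + 2) * ‖iteratedFDeriv ℝ (i - j) (fun z => F z I) z‖ ≤ B := by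
          refine le_trans (mul_le_mul_of_nonneg_left ?_ (by positivity))
            (hB (i - j) ((Nat.sub_le _ _).trans hi) z hz)
          exact ((lr3L I).norm_iteratedFDeriv_comp_left
            (BdC_at isOpen_ball hF hz (i - j)) le_rfl).trans
              (mul_le_of_le_one_left (norm_nonneg _) (lr3L_le I))
        have e : r ^ (i + 2) = r ^ (j + 0) * r ^ (i - j + 2) := by
          rw [← pow_add]
          congr 1
          omega
        have a3 := mul_le_mul_of_nonneg_left (mul_le_mul a1 a2 (by positivity) hK)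
          (Nat.cast_nonneg (α := ℝ) (i.choose j))
        rw [e]
        linarith
    _ = 2 ^ i * K * B := by
        rw [← Finset.sum_mul, ← Finset.sum_mul, ← Nat.cast_sum, Nat.sum_range_choose]
        push_cast
        rfl
    _ ≤ 2 ^ M * K * B := by
        have : (2 : ℝ) ^ i ≤ 2 ^ M := pow_le_pow_right₀ one_le_two hi
        gcongr

/-- `Geo.Sm.sy`, `Geo.Sm.ew_iff`, `est_sys n 1 (Fin N)` with `a₀ = a y`, `f I = -vol * F I`
(`v = -vol` is `Cs M y r 0 (|vol y| + 1)` by `cs_small` for `vol - vol y`); pass from components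
to vectors (`‖x‖ ≤ ∑ I, ‖x I‖`). -/
theorem gie (h : γ.Sm Ω) (hΩ : IsOpen Ω) {y : Ec n} (hy : y ∈ Ω) :
    ∃ (M : ℕ) (ρ C : ℝ), 0 < ρ ∧ 0 ≤ C ∧ ball y (3 * ρ) ⊆ Ω ∧ ∀ r : ℝ, 0 < r → r ≤ ρ →
      ∀ (u F : Ec n → Fb N) (A B : ℝ), 0 ≤ A → 0 ≤ B → EW (ball y (3 * r)) γ u F →
        ContDiffOn ℝ ∞ F (ball y (3 * r)) →
        (∀ i ≤ M, ∀ z ∈ ball y (3 * r), r ^ (i + 2) * ‖iteratedFDeriv ℝ i F z‖ ≤ B) →
        ∫⁻ z in ball y (3 * r), ‖u z‖ₑ ^ 2 ≤ ENNReal.ofReal (r ^ n * A ^ 2) →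
        ‖u y‖ ≤ C * (A + B) ∧ r * ‖fderiv ℝ u y‖ ≤ C * (A + B) := by
  obtain ⟨b, c, hs, hel, hP⟩ := h.sy hΩ
  obtain ⟨M, hM⟩ := est_sys n 1 (Fin N)
  obtain ⟨k, hk, hk'⟩ := symb_ge (hel y hy)
  obtain ⟨ε, hε, hK⟩ := hM k hk
  obtain ⟨S, hS0, hS⟩ := lr3_bd fun p q => ‖(γ.h q p y : ℂ)‖
  obtain ⟨C, hC0, hC⟩ := hK (S + 1)
  have hv : ContDiffOn ℝ ∞ (fun z => -(γ.vol z : ℂ)) Ω :=
    (Complex.ofRealCLM.contDiff.comp_contDiffOn h.vol).neg
  have e1 : ∀ᶠ r in 𝓝[>] (0 : ℝ), ∀ p q, Cs M y r 0 ε fun z => (γ.h q p z : ℂ) - γ.h q p y :=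
    eventually_all.2 fun p => eventually_all.2 fun q =>
      cs_small hΩ ((hs.ha p q).sub contDiffOn_const) hy M 0 (fun _ => sub_self _) hε
  have e2 : ∀ᶠ r in 𝓝[>] (0 : ℝ), ∀ p I J, Cs M y r 1 ε (b p I J) :=
    eventually_all.2 fun p => eventually_all.2 fun I => eventually_all.2 fun J =>
      cs_small hΩ (hs.hb p I J) hy M 1 (fun h => absurd h one_ne_zero) hε
  have e3 : ∀ᶠ r in 𝓝[>] (0 : ℝ), ∀ I J, Cs M y r 2 1 (c I J) :=
    eventually_all.2 fun I => eventually_all.2 fun J =>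
      cs_small hΩ (hs.hc I J) hy M 2 (fun h => absurd h two_ne_zero) one_pos
  have e4 : ∀ᶠ r in 𝓝[>] (0 : ℝ), Cs M y r 0 1 fun z => -(γ.vol z : ℂ) - -(γ.vol y : ℂ) :=
    cs_small hΩ (hv.sub contDiffOn_const) hy M 0 (fun _ => sub_self _) one_pos
  have e5 : ∀ᶠ r in 𝓝[>] (0 : ℝ), ball y (3 * r) ⊆ Ω := by
    obtain ⟨R, hR, hRΩ⟩ := Metric.isOpen_iff.1 hΩ y hy
    filter_upwards [Ioc_mem_nhdsGT (show 0 < R / 3 by positivity)] with r hr
    exact (ball_subset_ball (by linarith [hr.2])).trans hRΩ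
  obtain ⟨ρ, hρ, h1⟩ := mem_nhdsGT_iff_exists_Ioc_subset.1 (e1.and (e2.and (e3.and (e4.and e5))))
  obtain ⟨T, hT⟩ : ∃ T : ℝ, T = 2 ^ M * (1 + ‖-(γ.vol y : ℂ)‖) := ⟨_, rfl⟩
  have hT0 : 0 ≤ T := by
    rw [hT]
    positivity
  refine ⟨M, ρ, N * (C * (1 + T)), hρ, by positivity, (h1 ⟨hρ, le_rfl⟩).2.2.2.2,
    fun r hr hrρ u F A B hA hB hu hF hFB hi => ?_⟩
  obtain ⟨a1, a2, a3, a4, a5⟩ := h1 ⟨hr, hrρ⟩
  obtain ⟨hu1, hu2⟩ := ((h.mono a5).ew_iff isOpen_ball hF.continuousOn).1 hu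
  have l := lr3_int measurableSet_ball hu1.continuousOn (by positivity) hi
  have h2 := hC (fun p q => (γ.h q p y : ℂ)) (fun p q z => (γ.h q p z : ℂ)) b c
    (fun I z => u z I) (fun I z => -(γ.vol z : ℂ) * F z I) y r A (T * B) hr hA (by positivity) hk'
    (fun p q => (hS p q).trans (le_add_of_nonneg_right zero_le_one)) a1 a2
    (fun I J => (a3 I J).mono (le_add_of_nonneg_left hS0))
    (fun I => hT ▸ cs_src hr (lr3_shift hr _ a4) hF hFB I) (lr3_comp hu1) (fun I => (l I).1)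
    (fun I => (l I).2) fun I z hz => by
      rw [← hP u z (a5 hz) (hu1.contDiffAt (isOpen_ball.mem_nhds hz)) I, hu2 z hz]
      simp
  have hy' : y ∈ ball y (r / 2) := mem_ball_self (by positivity)
  have h3 : C * (A + T * B) ≤ C * (1 + T) * (A + B) := by
    rw [mul_assoc]
    exact mul_le_mul_of_nonneg_left (by nlinarith [mul_nonneg hT0 hA]) hC0
  have h4 : ∑ _I : Fin N, C * (1 + T) * (A + B) = N * (C * (1 + T)) * (A + B) := by
    simp [mul_assoc]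
  have hd : DifferentiableAt ℝ u y :=
    (hu1.contDiffAt (ball_mem_nhds y (by positivity))).differentiableAt (by simp)
  rw [← h4]
  refine ⟨(lr3_norm _).trans (Finset.sum_le_sum fun I _ => ?_),
    (mul_le_mul_of_nonneg_left (lr3_fd hd) hr.le).trans ?_⟩
  · simpa using (h2 I 0 zero_le_one y hy').trans h3
  · rw [Finset.mul_sum]
    refine Finset.sum_le_sum fun I _ => ?_
    have h5 := (h2 I 1 le_rfl y hy').trans h3
    rwa [pow_one, norm_iteratedFDeriv_one] at h5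

end Vale.Agent.P088.Gl
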