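import Vale.Agent.P088F.LR0
import Vale.Agent.P088F.LR2
import Vale.Agent.P088F.LR3

/-! P088, part L: small sources have small potentials. -/

open MeasureTheory Set Filter Topology Metric
open scoped ContDiff ENNReal

noncomputable section

namespace Vale.Agent.P088.Gl

variable {n N : ℕ}

theorem lr4_bd {Ω : Set (Ec n)} {F : Ec n → Fb N} (hF : ET Ω F) (M : ℕ) :
    ∃ B : ℝ, ∀ i ≤ M, ∀ z, ‖iteratedFDeriv ℝ i F z‖ ≤ B := by
  have h : ∀ i : ℕ, ∃ C, ∀ z, ‖iteratedFDeriv ℝ i F z‖ ≤ C := fun i =>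
    (hF.1.continuous_iteratedFDeriv (by exact_mod_cast le_top)).bounded_above_of_compact_support
      (hF.2.1.iteratedFDeriv i)
  choose C hC using h
  refine ⟨∑ i ∈ Finset.range (M + 1), |C i|, fun i hi z => ((hC i z).trans (le_abs_self _)).trans ?_⟩
  exact Finset.single_le_sum (f := fun i => |C i|) (fun _ _ => abs_nonneg _)
    (Finset.mem_range.2 (Nat.lt_succ_of_le hi))

theorem lr4_int {F : Ec n → Fb N} {y : Ec n} {r D : ℝ} (hr : 0 < r)
    (hs : tsupport F ⊆ ball y (3 * r)) (hD : ∀ z, ‖F z‖ ≤ D) :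
    ∫⁻ z, ‖F z‖ₑ ^ 2 ≤ ENNReal.ofReal (r ^ n * (D ^ 2 * volume.real (ball (0 : Ec n) 3))) := by
  have h0 : 0 ≤ D := (norm_nonneg _).trans (hD y)
  rw [← setLIntegral_eq_of_support_subset (s := ball y (3 * r)) fun z hz => hs
    (subset_tsupport F fun h => hz (by simp [h]))]
  refine (lintegral_mono (g := fun _ => ENNReal.ofReal (D ^ 2)) fun z => ?_).trans ?_
  · simp only
    rw [ENNReal.ofReal_pow h0, ← ofReal_norm]
    exact pow_le_pow_left' (ENNReal.ofReal_le_ofReal (hD z)) 2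
  · rw [setLIntegral_const, mul_comm 3 r, Measure.addHaar_ball_mul_of_pos _ _ hr,
      finrank_euclideanSpace_fin, ENNReal.ofReal_mul (pow_pos hr n).le,
      ENNReal.ofReal_mul (sq_nonneg D), ofReal_measureReal measure_ball_lt_top.ne, mul_left_comm]

/-- `χ` from `bump_scale` at scale `r`, `χ • F` is a test section of `ball y (3 * r)` bounded by
`B₀` (all derivatives of order `≤ M` of `F` are bounded: compact support). `gh` at radius `3 * r`
gives `A = C r²`, and `B = K B₀ r²`; `gie` gives `C r²` and `C r`. Take `r` small. -/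
theorem gs (hn : 3 ≤ n) : GS n N := by
  intro Ω γ G F y η hΩ hγ hG hF hy hη
  obtain ⟨ρ₁, Λ, hρ₁, hΛ, hb₁, hH⟩ := gh hn hγ hΩ hG hy
  obtain ⟨M, ρ₂, C, hρ₂, hC, hb₂, hI⟩ := gie hγ hΩ hy
  obtain ⟨K, hK, hχ⟩ := bump_scale n N M
  obtain ⟨B, hB⟩ := lr4_bd hF M
  have hB0 : 0 ≤ B := (norm_nonneg _).trans (hB 0 (Nat.zero_le _) y)
  obtain ⟨v, hv⟩ : ∃ v, v = volume.real (ball (0 : Ec n) 3) := ⟨_, rfl⟩
  have hv0 : 0 ≤ v := hv ▸ measureReal_nonneg
  obtain ⟨E, hE⟩ : ∃ E, E = C * (9 * Λ * (K * B) * √v + K * B) := ⟨_, rfl⟩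
  have hE0 : 0 ≤ E := by rw [hE]; positivity
  obtain ⟨r, hr, r1, r2, r3, r4⟩ : ∃ r : ℝ, 0 < r ∧ r ≤ 1 ∧ 3 * r ≤ ρ₁ ∧ r ≤ ρ₂ ∧
      (E + 3) * r ≤ η := by
    refine ⟨min (min 1 (ρ₁ / 3)) (min ρ₂ (η / (E + 3))), by positivity,
      (min_le_left _ _).trans (min_le_left _ _), ?_, (min_le_right _ _).trans (min_le_left _ _),
      (le_div_iff₀' (by positivity)).1 ((min_le_right _ _).trans (min_le_right _ _))⟩
    exact (le_div_iff₀' three_pos).1 ((min_le_left _ _).trans (min_le_right _ _))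
  obtain ⟨χ, c1, c2, c3, c4, c5⟩ := hχ y r hr r1
  have c6 := c5 F B hF.1 hB
  have hT : ET (ball y (3 * r)) fun z => χ z • F z := ⟨c1.smul hF.1,
    HasCompactSupport.smul_left (f := χ) hF.2.1, (tsupport_smul_subset_left χ F).trans
      (c2.trans (closedBall_subset_ball (by linarith only [hr])))⟩
  have hs : ball y (3 * r) ⊆ Ω := (ball_subset_ball r2).trans hb₁
  have h0 := lr4_int hr hT.2.2 (D := K * B) fun z => by
    have := c6 0 (Nat.zero_le _) z
    rwa [pow_zero, one_mul, norm_iteratedFDeriv_zero] at this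
  have h1 := (hH (3 * r) (by positivity) r2 _ hT).trans (mul_le_mul_right h0 _)
  have e0 : (Λ * (3 * r) ^ 2) ^ 2 * (r ^ n * ((K * B) ^ 2 * v)) =
      r ^ n * (9 * Λ * (K * B) * √v * r ^ 2) ^ 2 := by
    rw [mul_pow _ (r ^ 2), mul_pow _ √v, Real.sq_sqrt hv0]; ring
  rw [← ENNReal.ofReal_mul (sq_nonneg _), ← hv, e0] at h1
  obtain ⟨h2, h3⟩ := hI r hr r3 _ _ _ (K * B * r ^ 2) (by positivity)
    (by positivity) ((hG.sol _ (hT.mono' hs)).mono' hs) hT.1.contDiffOn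
    (fun i hi z _ => by
      rw [pow_add, mul_right_comm]
      exact mul_le_mul_of_nonneg_right (c6 i hi z) (sq_nonneg r)) h1
  have e : C * (9 * Λ * (K * B) * √v * r ^ 2 + K * B * r ^ 2) = r * (E * r) := by rw [hE]; ring
  rw [e] at h2 h3
  have h4 : 0 ≤ E * r := by positivity
  refine ⟨χ, c1, c2.trans (closedBall_subset_ball (by nlinarith)), c3, c4,
    h2.trans ((mul_le_of_le_one_left h4 r1).trans (by linarith)),
    (le_of_mul_le_mul_left h3 hr).trans (by linarith)⟩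

end Vale.Agent.P088.Gl
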