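import Vale.Agent.P088F.PR1

/-! Part R: the interior estimate. -/

open MeasureTheory Set Filter Topology Metric
open scoped ContDiff ENNReal

noncomputable section

namespace Vale.Agent.P088F

open Vale.Agent.P292E

variable {n : ℕ} {ι : Type} [Fintype ι]

omit [Fintype ι] in
theorem Op.Bdd.gc {L : Op n ι} {K : ℕ} {M c : ℝ} (h : L.Bdd K M c) (hL : L.Sm) (j k : Fin n) :
    Bd K (L.gc j k) univ M :=
  (Bd.clm Complex.ofRealCLM isOpen_univ (hL.g j k).contDiffOn (h.g j k)).mono le_rfl le_rfl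
    (by simp)

theorem cs_small {M s : ℕ} {x : V n} {r K ε : ℝ} {g : V n → ℂ} (hr : 0 < r) (h1 : r ≤ 1)
    (h2 : 3 * r * |K| ≤ ε) (hg : ContDiff ℝ ∞ g) (h : Bd (M + 1) g univ K) (t : ℂ)
    (ht : s = 0 → t = g x) (ht' : s ≠ 0 → t = 0) : Cs M x r s ε fun z => g z - t := by
  have hK := le_abs_self K
  have h3 : r * K ≤ ε := by nlinarith [abs_nonneg K]
  refine ⟨(hg.sub contDiff_const).contDiffOn, fun i hi z hz => ?_⟩
  rcases Nat.eq_zero_or_pos i with rfl | hi0
  · rcases eq_or_ne s 0 with rfl | hs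
    · rw [pow_zero, one_mul, norm_iteratedFDeriv_zero, ht rfl]
      refine (convex_univ.norm_image_sub_le_of_norm_fderiv_le (𝕜 := ℝ) (C := |K|)
        (fun y _ => hg.differentiable (by simp) y) (fun y _ => ?_) trivial trivial).trans ?_
      · simpa using (h 1 (by omega) y trivial).trans hK
      · nlinarith [mem_ball_iff_norm.1 hz, abs_nonneg K]
    · simp only [ht' hs, sub_zero]
      exact (mul_le_mul (pow_le_of_le_one hr.le h1 (by omega)) (h 0 (by omega) z trivial)
        (norm_nonneg _) hr.le).trans h3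
  · rw [fun_iteratedFDeriv_sub_apply (hg.contDiffAt.of_le (BdC_le i)) contDiffAt_const,
      iteratedFDeriv_const_of_ne hi0.ne', Pi.zero_apply, sub_zero]
    exact (mul_le_mul (pow_le_of_le_one hr.le h1 (by omega)) (h i (by omega) z trivial)
      (norm_nonneg _) hr.le).trans h3

/-- The estimate with right hand side, at all small scales. -/
theorem ies (n j : ℕ) (ι : Type) [Fintype ι] : ∃ K : ℕ, ∀ M c : ℝ, 0 < c → ∃ δ C : ℝ, 0 < δ ∧
    δ ≤ 1 / 3 ∧ 0 ≤ C ∧ ∀ L : Op n ι, L.Sm → L.Bdd (K + 1) M c → ∀ x r, 0 < r → r ≤ δ →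
      IEs K j L.gc L.a L.c x r C := by
  obtain ⟨K, hK⟩ := est_sys n j ι
  refine ⟨K, fun M c hc => ?_⟩
  obtain ⟨ε, hε, h⟩ := hK c hc
  obtain ⟨C, hC, h⟩ := h M
  refine ⟨min (1 / 3) (ε / (3 * (|M| + 1))), C, by positivity, min_le_left _ _, hC,
    fun L hL hB x r hr hδ u f A B hA hB' => ?_⟩
  have h1 : r ≤ 1 := (hδ.trans (min_le_left _ _)).trans (by norm_num)
  have h2 : 3 * r * |M| ≤ ε := by
    have := (le_div_iff₀ (by positivity)).1 (hδ.trans (min_le_right _ _))
    linarith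
  exact h (fun p q => L.gc p q x) L.gc L.a L.c u f x r A B hr hA hB'
    (fun ξ => (hB.ell x ξ).trans_eq (L.symb_eq x ξ).symm) (fun p q => (hB.gc hL p q).norm_le trivial)
    (fun p q => cs_small hr h1 h2 (hL.gc p q) (hB.gc hL p q) _ (fun _ => rfl) (by simp))
    (fun p I J => by
      simpa using cs_small (s := 1) (x := x) hr h1 h2 (hL.a p I J) (hB.a p I J) 0 (by simp) (by simp))
    fun I J => cs_of_bd' hr h1 (hL.c I J).contDiffOn
      ((hB.c I J).mono (Nat.le_succ _) (subset_univ _) le_rfl)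

theorem ie : IE n ι := fun j => by
  obtain ⟨K, hK⟩ := ies n j ι
  refine ⟨K + 1, fun M c hc => ?_⟩
  obtain ⟨δ, C, h0, h1, hC, h⟩ := hK M c hc
  refine ⟨C / √(δ ^ n) / δ ^ j, fun L hL hB x r hr hr1 u hu A hA hN l i hi => ?_⟩
  have s : ball x (3 * (δ * r)) ⊆ ball x r := ball_subset_ball (by nlinarith)
  have k := n2_le measurableSet_ball (fun l => (hu.1 l).continuousOn) (by positivity) hN
  have h2 := (h L hL hB x (δ * r) (by positivity) (mul_le_of_le_one_right h0.le hr1)).hom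
    (A := A * √(r ^ n)) (by positivity) (by positivity) s (fun l => (hu.1 l).mono s)
    (fun l => (k l).1) (fun l => (k l).2.trans_eq (by rw [mul_pow, Real.sq_sqrt (by positivity)]))
    (fun l z hz => by rw [← Op.ap_eq, hu.2 l z (s hz)]) l hi (mem_ball_self (by positivity))
  rw [mul_pow, mul_pow, Real.sqrt_mul (by positivity), mul_assoc] at h2
  have h3 : δ ^ j ≤ δ ^ i := pow_le_pow_of_le_one h0.le (by linarith) hi
  rw [le_div_iff₀' (by positivity), div_mul_eq_mul_div, le_div_iff₀' (by positivity)]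
  refine ((mul_le_mul_of_nonneg_right h3 (by positivity)).trans h2).trans_eq ?_
  field_simp

end Vale.Agent.P088F
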