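import Vale.Agent.P088F.CTr2
import Vale.Agent.P088F.CLevB
import Vale.Agent.P088F.PA2
import Vale.Agent.P088F.PR3

/-! P088, part C: the slab lemma. -/

open MeasureTheory Set Filter Topology Metric
open scoped ContDiff ENNReal

noncomputable section

namespace Vale.Agent.P088.Cr

open Vale.Agent.P292E Vale.Agent.P088F

variable {n : ℕ} {ι : Type} [Fintype ι] [DecidableEq ι]

theorem pc_mv {F W : Type} [NormedAddCommGroup F] [NormedSpace ℝ F] [NormedAddCommGroup W]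
    [NormedSpace ℝ W] {f : F → W} {p x y : F} {r C : ℝ} (hf : ContDiffOn ℝ ∞ f (ball p r))
    (h : ∀ q ∈ ball p r, ‖iteratedFDeriv ℝ 1 f q‖ ≤ C) (hx : x ∈ ball p r) (hy : y ∈ ball p r) :
    ‖f y - f x‖ ≤ C * ‖y - x‖ :=
  (convex_ball p r).norm_image_sub_le_of_norm_fderiv_le
    (fun z hz => (hf.contDiffAt (isOpen_ball.mem_nhds hz)).differentiableAt (by simp))
    (fun z hz => norm_iteratedFDeriv_one (𝕜 := ℝ) (x := z) f ▸ h z hz) hx hy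

theorem t2_of_bd {F : Type} [NormedAddCommGroup F] [NormedSpace ℝ F] {Θ : F → ℝ} {p : F} {r C : ℝ}
    (hr : 0 < r) (hΘ : ContDiffOn ℝ ∞ Θ (ball p r))
    (h : ∀ i ≤ 3, ∀ q ∈ ball p r, ‖iteratedFDeriv ℝ i Θ q‖ ≤ C) : T2 Θ p r C := by
  have hΩ : IsOpen (ball p r) := isOpen_ball
  have h1 : ContDiffOn ℝ ∞ (fderiv ℝ Θ) (ball p r) := hΘ.fderiv_of_isOpen hΩ (by simp)
  have h2 : ContDiffOn ℝ ∞ (fderiv ℝ (fderiv ℝ Θ)) (ball p r) := h1.fderiv_of_isOpen hΩ (by simp)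
  have b1 : ∀ q ∈ ball p r, ‖fderiv ℝ Θ q‖ ≤ C := fun q hq => by
    rw [← norm_iteratedFDeriv_one]
    exact h 1 (by norm_num) q hq
  have b2 : ∀ q ∈ ball p r, ‖fderiv ℝ (fderiv ℝ Θ) q‖ ≤ C := fun q hq => by
    rw [← norm_iteratedFDeriv_one, norm_iteratedFDeriv_fderiv]
    exact h 2 (by norm_num) q hq
  have b3 : ∀ q ∈ ball p r, ‖iteratedFDeriv ℝ 1 (fderiv ℝ (fderiv ℝ Θ)) q‖ ≤ C := fun q hq => by
    rw [norm_iteratedFDeriv_fderiv, norm_iteratedFDeriv_fderiv]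
    exact h 3 le_rfl q hq
  have hp' : p ∈ ball p r := mem_ball_self hr
  have hC : 0 ≤ C := (norm_nonneg _).trans (b1 p hp')
  have hv' : ∀ v, ‖v‖ < r → p + v ∈ ball p r := fun v hv => by simpa using hv
  have at0 : ∀ y ∈ ball p r, ContDiffAt ℝ ∞ Θ y := fun y hy => hΘ.contDiffAt (hΩ.mem_nhds hy)
  have d0 : ∀ y ∈ ball p r, DifferentiableAt ℝ Θ y := fun y hy =>
    (at0 y hy).differentiableAt (by simp)
  have d1 : ∀ y ∈ ball p r, DifferentiableAt ℝ (fderiv ℝ Θ) y := fun y hy =>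
    (h1.contDiffAt (hΩ.mem_nhds hy)).differentiableAt (by simp)
  refine ⟨b1 p hp', b2 p hp', fun v hv => d0 _ (hv' v hv), fun v hv => ?_, fun v hv => ?_⟩
  · simpa only [add_sub_cancel_left] using
      (convex_ball p r).norm_image_sub_le_of_norm_fderiv_le d1 b2 hp' (hv' v hv)
  · have s1 : closedBall p ‖v‖ ⊆ ball p r := closedBall_subset_ball hv
    have p1 : p ∈ closedBall p ‖v‖ := mem_closedBall_self (norm_nonneg v)
    have e1 : ∀ y ∈ closedBall p ‖v‖,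
        ‖fderiv ℝ (fderiv ℝ Θ) y - fderiv ℝ (fderiv ℝ Θ) p‖ ≤ C * ‖v‖ := fun y hy =>
      (pc_mv h2 b3 hp' (s1 hy)).trans
        (mul_le_mul_of_nonneg_left (mem_closedBall_iff_norm.1 hy) hC)
    have e2 : ∀ y ∈ closedBall p ‖v‖, ‖fderiv ℝ Θ y - fderiv ℝ (fderiv ℝ Θ) p (y - p) -
        fderiv ℝ Θ p‖ ≤ C * ‖v‖ * ‖v‖ := fun y hy => by
      rw [sub_right_comm]
      exact ((convex_closedBall p ‖v‖).norm_image_sub_le_of_norm_fderiv_le'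
        (fun y hy => d1 y (s1 hy)) e1 p1 hy).trans
        (mul_le_mul_of_nonneg_left (mem_closedBall_iff_norm.1 hy) (by positivity))
    have sy := (at0 p hp').isSymmSndFDerivAt
      (by rw [minSmoothness_of_isRCLikeNormedField]; exact WithTop.coe_le_coe.2 le_top)
    have e3 := (convex_closedBall p ‖v‖).norm_image_sub_le_of_norm_hasFDerivWithin_le'
      (f := fun y => Θ y - fderiv ℝ (fderiv ℝ Θ) p (y - p) (y - p) / 2)
      (f' := fun y => fderiv ℝ Θ y - fderiv ℝ (fderiv ℝ Θ) p (y - p)) (fun y hy => by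
        have k1 := (hasFDerivAt_id (𝕜 := ℝ) y).sub_const p
        have k2 := (((fderiv ℝ (fderiv ℝ Θ) p).hasFDerivAt.comp y k1).clm_apply k1).mul_const
          (2⁻¹ : ℝ)
        refine (((d0 y (s1 hy)).hasFDerivAt.fun_sub k2).congr_fderiv
          (ContinuousLinearMap.ext fun u => ?_)).hasFDerivWithinAt
        simp only [ContinuousLinearMap.sub_apply, ContinuousLinearMap.smul_apply,
          ContinuousLinearMap.add_apply, ContinuousLinearMap.comp_apply, Function.comp_apply,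
          ContinuousLinearMap.flip_apply, ContinuousLinearMap.id_apply, id, smul_eq_mul, sy.eq u]
        ring) e2 p1 (y := p + v) (by simp)
    simp only [add_sub_cancel_left, sub_self, map_zero, zero_div, sub_zero, Real.norm_eq_abs] at e3
    calc _ = |Θ (p + v) - fderiv ℝ (fderiv ℝ Θ) p v v / 2 - Θ p - fderiv ℝ Θ p v| := by
          congr 1; ring
      _ ≤ _ := e3.trans_eq (by ring)

theorem pc_le {l : V n →L[ℝ] ℝ} {ϖ : V n} {M : ℝ} (h : ∀ a, l a = inner ℝ ϖ a) (hl : ‖l‖ ≤ M) :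
    ‖ϖ‖ ≤ M := by
  have : l = innerSL ℝ ϖ := ContinuousLinearMap.ext fun a => by rw [h, innerSL_apply_apply]
  rwa [this, innerSL_apply_norm] at hl

theorem pc_cvx (n : ℕ) (C e : ℝ) : ∃ B : ℝ, ∀ (x₀ : V n) (w : V n →L[ℝ] ℝ)
    (q : V n →L[ℝ] V n →L[ℝ] ℝ), ‖w‖ ≤ C → ‖q‖ ≤ C →
    ContDiff ℝ ∞ (cvx e (qd x₀ w q)) ∧ Bd 4 (cvx e (qd x₀ w q)) (ball x₀ 1) B := by
  have h1 : ContDiff ℝ ∞ fun v : ((V n →L[ℝ] ℝ) × (V n →L[ℝ] V n →L[ℝ] ℝ)) × V n =>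
      -v.1.1 v.2 + v.1.2 v.2 v.2 / 2 :=
    (contDiff_fst.fst.clm_apply contDiff_snd).neg.add
      (((contDiff_fst.snd.clm_apply contDiff_snd).clm_apply contDiff_snd).div_const 2)
  obtain ⟨B, -, hb⟩ := bd_par (h1.add ((contDiff_const (c := e)).mul (h1.pow 2)))
    ((isCompact_closedBall 0 C).prod (isCompact_closedBall 0 C)) (isCompact_closedBall 0 1) 4
  exact ⟨B, fun x₀ w q hw hq => ⟨(qd_smooth x₀ w q).add (contDiff_const.mul ((qd_smooth x₀ w q).pow 2)),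
    fun i hi x hx => hb (w, q) ⟨mem_closedBall_zero_iff.2 hw, (mem_closedBall_zero_iff (a := q)).2 hq⟩
      x₀ i hi x (mem_closedBall_zero_iff.2 (mem_ball_iff_norm.1 hx).le)⟩⟩

theorem slab (hS : SCl n ι) (hI : IE n ι) (hU : UCP n ι) : SLAB n ι := by
  obtain ⟨K1, hK1⟩ := iea hI
  obtain ⟨K2, hK2⟩ := caa hI
  refine ⟨max 3 (max K1 K2), fun M c r hc hr => ?_⟩
  obtain ⟨Cq, hq⟩ := lv_q n (M := M) hc
  obtain ⟨e, c', he, he1, hc', hcc, hsup⟩ := lv_sup n (M := M) hc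
  obtain ⟨k', C', hk', hC', hfin⟩ := lv_fin n (M := M) (C := Cq) hc
  obtain ⟨C, c1, c2, c3, c4, c5⟩ : ∃ C, 1 ≤ C ∧ M ≤ C ∧ Cq ≤ C ∧ C' ≤ C ∧ 1 / c ≤ C :=
    ⟨max 1 (max M (max Cq (max C' (1 / c)))), by simp, by simp, by simp, by simp, by simp⟩
  obtain ⟨M', hM'⟩ := pc_cvx n C e
  obtain ⟨δs, τ₀, Cs, s0, s1, s2, s3, hs⟩ := hS (max M M') c' hc'
  obtain ⟨δ₁, d0, hd⟩ := slab0 ι n hk' c1 hr
  obtain ⟨h₁, h0, hh⟩ := hd (min δ₁ δs) (lt_min d0 s0) (min_le_left _ _)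
  obtain ⟨η, θ, r', B, t0, t1, t2, t3, t4, t5, -, ht⟩ := slabTR ι n c1 he he1 (lt_min d0 s0)
    ((min_le_right _ _).trans s1) (lt_min h0 one_pos) (min_le_right h₁ 1)
  obtain ⟨Ci, i0, hi⟩ := hK1 M c r' hc t4 t5
  obtain ⟨Cc, a0, ha⟩ := hK2 M c r' B (volume.real (ball (0 : V n) (min δ₁ δs))) Cs hc t4 t5 s3
  obtain ⟨Ct, u0, hu⟩ := ht Ci Cc τ₀ i0 a0
  obtain ⟨ρ, C₀, r0, r1, r2, hρ⟩ := hh _ η θ Ct t0 t1 (min_le_left _ _) t2 t3 u0
  refine ⟨ρ, C₀, r0, r1, fun P Q Θ p w w' k A W hP hQ bP bQ hΘ hb g1 g2 w1 w2 k1 k2 hL hW hA A0 => ?_⟩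
  have hball : ball p ρ = ball p.1 ρ ×ˢ ball p.2 ρ := (ball_prod_same p.1 p.2 ρ).symm
  rcases A0.eq_or_lt with rfl | A0
  · refine ⟨fun _ _ _ _ => 0, hball ▸ sol_of_sl (W := 0) hP hQ isOpen_ball isOpen_ball
      ⟨fun _ _ => continuousOn_const, fun _ _ _ => (sh_po hP).zero, fun _ _ _ => (sh_po hQ).zero⟩,
      fun _ _ _ _ => by simp, fun q hq hq' l m =>
        (norm_le_zero_iff.1 (hA q ⟨ball_subset_ball r1 hq, hq'⟩ l m)).symm⟩
  have T := t2_of_bd hr hΘ hb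
  have hdf : DifferentiableAt ℝ Θ p := by simpa using T.df 0 (by simpa using hr)
  have n1 : ‖d1 Θ p‖ ≤ M := (ContinuousLinearMap.opNorm_comp_le _ _).trans
    ((mul_le_of_le_one_right (norm_nonneg _) (ContinuousLinearMap.norm_inl_le_one ℝ _ _)).trans T.n1)
  have n2 : ‖d2 Θ p‖ ≤ M := (ContinuousLinearMap.opNorm_comp_le _ _).trans
    ((mul_le_of_le_one_right (norm_nonneg _) (ContinuousLinearMap.norm_inr_le_one ℝ _ _)).trans T.n1)
  have hk : |k| ≤ M := by rwa [abs_of_pos (hc.trans_le k1)]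
  have key : ∀ (L : Op n ι) (x ϖ v : V n) (l : V n →L[ℝ] ℝ), L.Sm → L.Bdd (max 3 (max K1 K2)) M c →
      c ≤ ‖ϖ‖ → ‖v‖ ≤ M → ‖l‖ ≤ M → (∀ a, l a = inner ℝ ϖ a) → Gb L.g x M c ∧
      ∃ q : V n →L[ℝ] V n →L[ℝ] ℝ, ‖q‖ ≤ Cq ∧ (∀ ξ, q (gv L.g x ξ) (gv L.g x ξ) = lvE L.g x ϖ v k ξ) ∧
        TR (Po L) (sA x (qd x l q) (min δ₁ δs) (min h₁ 1)) (sD x (qd x l q) (min δ₁ δs) (min h₁ 1))
          (sD x (qd x l q) (min δ₁ δs / 4) η) θ Ct := by
    intro L x ϖ v l hL bL z1 z2 z3 z4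
    have G := gb_of hL (bdd_mono bL (le_max_of_le_left (by norm_num)) le_rfl le_rfl) x
    obtain ⟨q, q1, q2⟩ := hq L.g x ϖ v k G z1 (pc_le z4 z3) z2 hk
    obtain ⟨m1, m2⟩ := hM' x l q (z3.trans c2) (q1.trans c3)
    refine ⟨G, q, q1, q2, hu (sh_po hL) x l q (z3.trans c2) (q1.trans c3)
      (hi L hL (bdd_mono bL (by simp) le_rfl le_rfl) _)
      (ha L _ _ τ₀ hL (bdd_mono bL (by simp) le_rfl le_rfl) isOpen_ball isBounded_ball
        (Measure.addHaar_real_ball_center volume x _).le m1.continuous.continuousOn s2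
        fun τ hτ u hu => hs L _ x hL (bdd_mono bL (le_max_left _ _) (le_max_left _ _) hcc) m1
          (fun i hi y hy => (m2 i hi y hy).trans (le_max_right _ _))
          (hsup L.g x ϖ v k l q G z1 (pc_le z4 z3) k1 z4 q2) τ hτ u
          (hu.mono (ball_subset_ball (min_le_right _ _))))⟩
  obtain ⟨G1, q₁, x1, x2, x3⟩ := key P p.1 _ w _ hP bP g1 w1 n1 (d1_eq hdf)
  obtain ⟨G2, q₂, y1, y2, y3⟩ := key Q p.2 _ w' _ hQ bQ g2 w2 n2 (d2_eq hdf)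
  have g0 : 0 < ‖gry Θ p‖ := hc.trans_le g2
  obtain ⟨W', z1, z2, z3⟩ := hρ (sh_po hP) (sh_po hQ) Θ p q₁ q₂ (‖gry Θ p‖⁻¹ • gry Θ p) A (unc W)
    (uc_of hU hQ _) (t2_of_bd hr hΘ fun i hi q hq => (hb i hi q hq).trans c2) (x1.trans c3)
    (y1.trans c3) (by rw [norm_smul, norm_inv, norm_norm, inv_mul_cancel₀ g0.ne'])
    (by
      rw [d2_eq hdf, inner_smul_right, real_inner_self_eq_norm_sq, sq, inv_mul_cancel_left₀ g0.ne']
      exact (one_div_le (by linarith) hc).2 c5 |>.trans g2)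
    (fun v => (hfin P.g Q.g Θ p w w' k q₁ q₂ G1 G2 hdf T.n1 T.n2 g2 k1 x1 y1 x2 y2 hL v).trans
      (by gcongr)) x3 y3 A0 (so_of_sol hW) fun l m z hz => hA z hz l m
  exact ⟨_, hball ▸ sol_of_sl hP hQ isOpen_ball isOpen_ball z1, fun q hq l m => z2 l m q hq,
    fun q hq hq' l m => z3 l m q hq hq'⟩

theorem slab' : SLAB n ι := slab scl ie ucp

theorem tr' : P088F.TR n ι := tr sc ie

end Vale.Agent.P088.Cr
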