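import Vale.Agent.P088F.HJA

/-! P088F, part H: cutoff functions and the source term. -/

open scoped ContDiff Topology ENNReal
open Set Filter MeasureTheory Metric

noncomputable section

namespace Vale.Agent.P088F

open Vale.Agent.P292E

variable {n : ℕ} {ι : Type} [Fintype ι]

/-- the model cutoff -/
def hjb (n : ℕ) : ContDiffBump (0 : V n) := ⟨5, 6, by norm_num, by norm_num⟩

/-- the cutoff at scale `r` -/
def hjc (x : V n) (r : ℝ) (y : V n) : ℂ := hjb n (-(r⁻¹ • x) + r⁻¹ • y)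

theorem hjg_sm : ContDiff ℝ ∞ fun y : V n => (hjb n y : ℂ) :=
  Complex.ofRealCLM.contDiff.comp (hjb n).contDiff

theorem hjc_sm (x : V n) (r : ℝ) : ContDiff ℝ ∞ (hjc x r) := hjg_sm.comp (by fun_prop)

theorem hjc_nm {x y : V n} {r : ℝ} (hr : 0 < r) : ‖-(r⁻¹ • x) + r⁻¹ • y‖ = ‖y - x‖ / r := by
  rw [neg_add_eq_sub, ← smul_sub, norm_smul, norm_inv, Real.norm_of_nonneg hr.le, inv_mul_eq_div]

theorem hjc_one {x y : V n} {r : ℝ} (hr : 0 < r) (h : ‖y - x‖ ≤ 5 * r) : hjc x r y = 1 := by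
  rw [hjc, (hjb n).one_of_mem_closedBall, Complex.ofReal_one]
  rw [mem_closedBall_zero_iff, hjc_nm hr, div_le_iff₀ hr]
  exact h

theorem hjc_zero {x y : V n} {r : ℝ} (hr : 0 < r) (h : 6 * r ≤ ‖y - x‖) : hjc x r y = 0 := by
  rw [hjc, (hjb n).zero_of_le_dist, Complex.ofReal_zero]
  rw [dist_zero_right, hjc_nm hr, le_div_iff₀ hr]
  exact h

theorem hjc_tst {x : V n} {r : ℝ} (hr : 0 < r) {s : Set (V n)} (hs : IsOpen s)
    (h : closedBall x (6 * r) ⊆ s) : Tst s (hjc x r) :=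
  tst_of hs (hjc_sm x r).contDiffOn (isCompact_closedBall x _) h fun _ hy =>
    hjc_zero hr (not_lt.1 fun h' => hy (mem_closedBall_iff_norm.2 h'.le))

theorem hjc_bd (n : ℕ) : ∃ C : ℝ, 0 ≤ C ∧ ∀ (x y : V n) (r : ℝ), 0 < r →
    (∀ j, ‖pd j (hjc x r) y‖ ≤ C / r) ∧ ∀ j k, ‖pd j (pd k (hjc x r)) y‖ ≤ C / r ^ 2 := by
  have t : Tst univ fun y : V n => (hjb n y : ℂ) :=
    ⟨hjg_sm, (hjb n).hasCompactSupport.comp_left Complex.ofReal_zero, subset_univ _⟩
  obtain ⟨C, hC, h⟩ := cut_Bd 2 isOpen_univ t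
  have h2 := h (fun _ => 1) 1 zero_le_one contDiffOn_const (by simpa using Bd_const 2 (1 : ℂ) univ)
  simp only [mul_one] at h2
  have h1 := fun j => h2.pd isOpen_univ t.1.contDiffOn j
  have h0 := fun j k => (h1 k).pd isOpen_univ (t.pd k).1.1.contDiffOn j
  refine ⟨C, hC, fun x y r hr => ?_⟩
  have e1 : ∀ j, pd j (hjc x r) = fun y => (r⁻¹ : ℝ) * pd j (fun y : V n => (hjb n y : ℂ))
      (-(r⁻¹ • x) + r⁻¹ • y) := fun j => by
    have k := pd_sc (fun y : V n => (hjb n y : ℂ)) (-(r⁻¹ • x)) r⁻¹ 1 j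
    simp only [one_mul] at k
    exact k
  refine ⟨fun j => ?_, fun j k => ?_⟩
  · rw [e1, norm_mul, Complex.norm_real, norm_inv, Real.norm_of_nonneg hr.le, inv_mul_eq_div]
    exact div_le_div_of_nonneg_right ((h1 j).norm_le trivial) hr.le
  · rw [e1, pd_sc, norm_mul, norm_mul, Complex.norm_real, norm_inv, Real.norm_of_nonneg hr.le,
      ← mul_inv, inv_mul_eq_div, ← sq]
    exact div_le_div_of_nonneg_right ((h0 j k).norm_le trivial) (by positivity)

/-- The product rule for the operator. -/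
theorem hj_ap_mul (L : Op n ι) {χ : V n → ℂ} (hχ : ContDiff ℝ ∞ χ) {s : Set (V n)} (hs : IsOpen s)
    {u : Fam n ι} (hu : ∀ l, ContDiffOn ℝ ∞ (u l) s) (l : ι) {x : V n} (hx : x ∈ s) :
    L.ap (fun m y => χ y * u m y) l x = χ x * L.ap u l x +
      (∑ j, ∑ k, L.gc j k x * (pd j (pd k χ) x * u l x + pd k χ x * pd j (u l) x +
        pd j χ x * pd k (u l) x) + ∑ m, ∑ j, L.a j l m x * (pd j χ x * u m x)) := by
  have d : ∀ {g : V n → ℂ}, ContDiffOn ℝ ∞ g s → ∀ y ∈ s, DifferentiableAt ℝ g y :=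
    fun hg y hy => (hg.contDiffAt (hs.mem_nhds hy)).differentiableAt (by simp)
  have c := hχ.contDiffOn (s := s)
  have e1 : ∀ m j, ∀ y ∈ s, pd j (fun y => χ y * u m y) y = pd j χ y * u m y + χ y * pd j (u m) y :=
    fun m j y hy => sys_pd_mul (d c y hy) (d (hu m) y hy) j
  have e2 : ∀ j k, pd j (pd k fun y => χ y * u l y) x = pd j (pd k χ) x * u l x +
      pd k χ x * pd j (u l) x + (pd j χ x * pd k (u l) x + χ x * pd j (pd k (u l)) x) :=
    fun j k => by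
      have c1 := contDiffOn_pd hs c k
      have c2 := contDiffOn_pd hs (hu l) k
      rw [(hj_pd_ev (mem_of_superset (hs.mem_nhds hx) (e1 l k)) j).eq_of_nhds,
        hj_pd_add hs (c1.mul (hu l)) (c.mul c2) j hx, sys_pd_mul (d c1 x hx) (d (hu l) x hx),
        sys_pd_mul (d c x hx) (d c2 x hx)]
  simp only [Op.ap, e2, fun m j => e1 m j x hx, mul_add, Finset.sum_add_distrib, Finset.mul_sum,
    mul_left_comm (χ x)]
  ring

/-- the source term -/
def hjF (L : Op n ι) (x : V n) (r : ℝ) (u : Fam n ι) : Fam n ι :=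
  L.ap fun m y => hjc x r y * u m y

/-- the closed annulus -/
def hjA (x : V n) (r : ℝ) : Set (V n) := closedBall x (6 * r) \ ball x (5 * r)

theorem hjA_cpt (x : V n) (r : ℝ) : IsCompact (hjA x r) :=
  (isCompact_closedBall x _).diff isOpen_ball

variable {L : Op n ι} {s : Set (V n)} {u : Fam n ι} {x : V n} {r : ℝ}

omit [Fintype ι] in
theorem hj_cu_tst (hr : 0 < r) (hs : IsOpen s) (h : closedBall x (6 * r) ⊆ s)
    (hu : ∀ l, ContDiffOn ℝ ∞ (u l) s) : TstF s fun m y => hjc x r y * u m y :=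
  fun m => cut_contDiff hs (hjc_tst hr hs h) (hu m)

theorem hjF_zero (hr : 0 < r) (h : closedBall x (6 * r) ⊆ s) (hu : SolOn L s u) (m : ι) (y : V n)
    (hy : y ∉ hjA x r) : hjF L x r u m y = 0 := by
  by_cases h1 : y ∈ ball x (5 * r)
  · refine (hj_ap_ev L (v := u) (fun l => ?_) m).trans
      (hu.2 m y (h (ball_subset_closedBall (ball_subset_ball (by linarith) h1))))
    filter_upwards [isOpen_ball.mem_nhds h1] with z hz
    rw [hjc_one hr (mem_ball_iff_norm.1 hz).le, one_mul]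
  · have h2 : y ∉ closedBall x (6 * r) := fun h' => hy ⟨h', h1⟩
    refine (hj_ap_ev L (v := (0 : ℂ) • u) (fun l => ?_) m).trans (by rw [hj_ap_smul, zero_mul])
    filter_upwards [isClosed_closedBall.isOpen_compl.mem_nhds h2] with z hz
    rw [hjc_zero hr (not_lt.1 fun h' => hz (mem_closedBall_iff_norm.2 h'.le))]
    rfl

theorem hjF_tst (hL : L.Sm) (hr : 0 < r) (hs : IsOpen s) (h : closedBall x (6 * r) ⊆ s)
    (hu : SolOn L s u) {O : Set (V n)} (hO : IsOpen O) (h' : hjA x r ⊆ O) :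
    TstF O (hjF L x r u) := fun m =>
  tst_of hO (hj_ap_tst hL hs (hj_cu_tst hr hs h hu.1) m).1.contDiffOn (hjA_cpt x r) h'
    (hjF_zero hr h hu m)

theorem hjF_bd (n : ℕ) (ι : Type) [Fintype ι] : ∃ C : ℝ, 0 ≤ C ∧ ∀ (L : Op n ι) (s : Set (V n))
    (u : Fam n ι) (x y : V n) (r M : ℝ), 0 < r → r ≤ 1 → IsOpen s → SolOn L s u → y ∈ s →
    (∀ j k, ‖L.gc j k y‖ ≤ 2) → (∀ j l m, ‖L.a j l m y‖ ≤ 2) → (∀ l, ‖u l y‖ ≤ M) →
    (∀ j l, ‖pd j (u l) y‖ ≤ M / r) → ∀ l, ‖hjF L x r u l y‖ ≤ C * M / r ^ 2 := by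
  obtain ⟨C, hC, h⟩ := hjc_bd n
  refine ⟨n * n * (6 * C) + Fintype.card ι * n * (2 * C), by positivity,
    fun L s u x y r M hr hr1 hs hu hy h1 h2 h3 h4 l => ?_⟩
  obtain ⟨h5, h6⟩ := h x y r hr
  have hM : 0 ≤ M := (norm_nonneg _).trans (h3 l)
  have b1 : ∀ j k m, ‖pd j (pd k (hjc x r)) y * u m y‖ ≤ C * M / r ^ 2 := fun j k m =>
    (norm_mul_le_of_le (h6 j k) (h3 m)).trans_eq (by ring)
  have b2 : ∀ j k m, ‖pd j (hjc x r) y * pd k (u m) y‖ ≤ C * M / r ^ 2 := fun j k m =>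
    (norm_mul_le_of_le (h5 j) (h4 k m)).trans_eq (by ring)
  have b3 : ∀ j m, ‖pd j (hjc x r) y * u m y‖ ≤ C * M / r ^ 2 := fun j m =>
    (norm_mul_le_of_le (h5 j) (h3 m)).trans (by
      rw [div_mul_eq_mul_div]
      exact div_le_div_of_nonneg_left (by positivity) (by positivity) (by nlinarith))
  rw [hjF, hj_ap_mul L (hjc_sm x r) hs hu.1 l hy, hu.2 l y hy, mul_zero, zero_add]
  refine (norm_add_le_of_le
    (norm_sum_le_of_le _ fun j _ => norm_sum_le_of_le _ fun k _ => norm_mul_le_of_le (h1 j k)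
      (norm_add_le_of_le (norm_add_le_of_le (b1 j k l) (b2 k j l)) (b2 j k l)))
    (norm_sum_le_of_le _ fun m _ => norm_sum_le_of_le _ fun j _ => norm_mul_le_of_le (h2 j l m)
      (b3 j m))).trans_eq ?_
  simp only [Finset.sum_const, Finset.card_univ, Fintype.card_fin, nsmul_eq_mul]
  ring

/-- the kernel applied to the source term -/
def hjJ (L : Op n ι) (W : Kr n ι) (r : V n → ℝ) (u : Fam n ι) : Fam n ι := fun l x =>
  ∫ y, ∑ m, W l m x y * hjF L x (r x) u m y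

theorem hj_int {O : Set (V n)} {w F : Fam n ι} (hw : ∀ m, ContinuousOn (w m) O) (hF : TstF O F) :
    Integrable fun y => ∑ m, w m y * F m y :=
  integrable_finsetSum _ fun m _ => int_cont (hw m) (hF m)

theorem hjF_add (hr : 0 < r) (hs : IsOpen s) (h : closedBall x (6 * r) ⊆ s)
    {v : Fam n ι} (hu : SolOn L s u) (hv : SolOn L s v) (m : ι) (y : V n) :
    hjF L x r (u + v) m y = hjF L x r u m y + hjF L x r v m y := by
  rw [hjF, hjF, hjF, ← hj_ap_add L isOpen_univ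
    (fun m => (hj_cu_tst hr hs h hu.1 m).1.contDiffOn)
    (fun m => (hj_cu_tst hr hs h hv.1 m).1.contDiffOn) m (mem_univ y)]
  exact hj_ap_ev L (fun l => .of_forall fun z => mul_add _ _ _) m

theorem hjF_smul (t : ℂ) (m : ι) (y : V n) : hjF L x r (t • u) m y = t * hjF L x r u m y := by
  rw [hjF, hjF, ← hj_ap_smul]
  exact hj_ap_ev L (fun l => .of_forall fun z => mul_left_comm _ _ _) m

/-- The cutoff may be frozen. -/
theorem hj_indep [DecidableEq ι] (hTB : TB n ι) {P : Op n ι} (hL : L.Sm) {Ω : Set (V n × V n)}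
    {W : Kr n ι} (hW : Sol P L.t Ω W) (hs : IsOpen s) (hu : SolOn L s u) {x₀ : V n} {r₀ : ℝ}
    (hr : 0 < r) (hr₀ : 0 < r₀) (h : closedBall x (6 * r) ⊆ s) (h₀ : closedBall x₀ (6 * r₀) ⊆ s)
    (h1 : ‖x - x₀‖ + r < 5 * r₀) (h2 : ∀ y ∈ s, r < ‖y - x‖ → (x, y) ∈ Ω) (l : ι) :
    ∫ y, ∑ m, W l m x y * hjF L x r u m y = ∫ y, ∑ m, W l m x y * hjF L x₀ r₀ u m y := by
  have hO : IsOpen (s \ closedBall x r) := hs.sdiff isClosed_closedBall
  have hΩ : ∀ y ∈ s \ closedBall x r, (x, y) ∈ Ω := fun y hy =>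
    h2 y hy.1 (not_le.1 fun h' => hy.2 (mem_closedBall_iff_norm.2 h'))
  have b1 : closedBall x r ⊆ ball x (5 * r) := closedBall_subset_ball (by linarith)
  have b2 : closedBall x r ⊆ ball x₀ (5 * r₀) := closedBall_subset_ball' (by
    rw [dist_eq_norm]
    linarith)
  have t1 := hjF_tst hL hr hs h hu hO fun y hy => ⟨h hy.1, fun h' => hy.2 (b1 h')⟩
  have t2 := hjF_tst hL hr₀ hs h₀ hu hO fun y hy => ⟨h₀ hy.1, fun h' => hy.2 (b2 h')⟩
  have c : ∀ m, ContinuousOn (fun y => W l m x y) (s \ closedBall x r) := fun m =>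
    (hW.sm l m).continuousOn.comp (f := fun y => (x, y)) (by fun_prop) hΩ
  have t3 : Tst (s \ closedBall x r) fun y => hjc x r y - hjc x₀ r₀ y :=
    tst_of hO ((hjc_sm x r).sub (hjc_sm x₀ r₀)).contDiffOn
      (((isCompact_closedBall x (6 * r)).union (isCompact_closedBall x₀ (6 * r₀))).diff
        (isOpen_ball.inter isOpen_ball : IsOpen (ball x (5 * r) ∩ ball x₀ (5 * r₀))))
      (fun y hy => ⟨hy.1.elim (fun k => h k) fun k => h₀ k, fun h' => hy.2 ⟨b1 h', b2 h'⟩⟩)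
      fun y hy => by
        by_cases k : y ∈ ball x (5 * r) ∩ ball x₀ (5 * r₀)
        · rw [hjc_one hr (mem_ball_iff_norm.1 k.1).le, hjc_one hr₀ (mem_ball_iff_norm.1 k.2).le,
            sub_self]
        · have k' : y ∉ closedBall x (6 * r) ∪ closedBall x₀ (6 * r₀) := fun h' => hy ⟨h', k⟩
          rw [hjc_zero hr (not_lt.1 fun h' => k' (.inl (mem_closedBall_iff_norm.2 h'.le))),
            hjc_zero hr₀ (not_lt.1 fun h' => k' (.inr (mem_closedBall_iff_norm.2 h'.le))), sub_self]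
  have t4 : TstF (s \ closedBall x r) fun m y => (hjc x r y - hjc x₀ r₀ y) * u m y := fun m =>
    cut_contDiff hO t3 ((hu.1 m).mono sdiff_subset)
  have e : ∀ m y, hjF L x r u m y =
      L.ap (fun m y => (hjc x r y - hjc x₀ r₀ y) * u m y) m y + hjF L x₀ r₀ u m y := fun m y => by
    rw [hjF, hjF, ← hj_ap_add L isOpen_univ (fun m => (t4 m).1.contDiffOn)
      (fun m => (hj_cu_tst hr₀ hs h₀ hu.1 m).1.contDiffOn) m (mem_univ y)]
    exact hj_ap_ev L (fun l => .of_forall fun z => by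
      simp only [Pi.add_apply]
      ring) m
  simp only [e, mul_add, Finset.sum_add_distrib]
  rw [integral_add (hj_int c (hj_ap_tst hL hO t4)) (hj_int c t2), hj_wk hTB hL hW hO hΩ t4 l,
    zero_add]

end Vale.Agent.P088F
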