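import Vale.Agent.P088F.HSol
import Vale.Agent.P088F.HConn
import Vale.Agent.P088F.HJB
import Vale.Agent.P088F.PR1

/-! P088, part H: the intertwining operator. -/

open MeasureTheory Set Filter Topology Metric
open scoped ContDiff FourierTransform ComplexConjugate

noncomputable section

namespace Vale.Agent.P088.Mo

open Vale.Agent.P292E

open Vale.Agent.P088F hiding psi pr Cl El

theorem hj_n2 (n : ℕ) (ι : Type) [Fintype ι] : ∃ c : ℝ, 1 ≤ c ∧ ∀ (u : Fam n ι) (y : V n)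
    (r M : ℝ), 0 < r → (∀ l, ∀ z ∈ ball y r, ‖u l z‖ ≤ M) →
      N2 (ball y r) u ≤ ENNReal.ofReal ((c * M) ^ 2 * r ^ n) := by
  obtain ⟨v, hv⟩ : ∃ v, v = (volume (ball (0 : V n) 1)).toReal := ⟨_, rfl⟩
  have h0 : 0 ≤ v := hv ▸ ENNReal.toReal_nonneg
  refine ⟨Fintype.card ι * v + 1, le_add_of_nonneg_left (by positivity), fun u y r M hr h => ?_⟩
  have h1 : ∀ l, ∫⁻ z in ball y r, ‖u l z‖ₑ ^ 2 ≤ ENNReal.ofReal (M ^ 2 * (r ^ n * v)) := fun l => by
    refine (setLIntegral_mono' (g := fun _ => ENNReal.ofReal (M ^ 2)) measurableSet_ball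
      fun z hz => ?_).trans_eq ?_
    · rw [← ofReal_norm, ← ENNReal.ofReal_pow (norm_nonneg _)]
      exact ENNReal.ofReal_le_ofReal (pow_le_pow_left₀ (norm_nonneg _) (h l z hz) 2)
    · rw [setLIntegral_const, Measure.addHaar_ball_of_pos _ _ hr, finrank_euclideanSpace_fin,
        ENNReal.ofReal_mul (sq_nonneg M), ENNReal.ofReal_mul (by positivity), hv,
        ENNReal.ofReal_toReal measure_ball_lt_top.ne]
  refine (Finset.sum_le_card_nsmul _ _ _ fun l _ => h1 l).trans ?_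
  rw [← ENNReal.ofReal_nsmul, nsmul_eq_mul, Finset.card_univ]
  refine ENNReal.ofReal_le_ofReal ?_
  have h2 : 0 ≤ (Fintype.card ι : ℝ) * v := by positivity
  have h3 : 0 ≤ M ^ 2 * r ^ n := by positivity
  nlinarith [mul_nonneg h3 h2, mul_nonneg h3 (mul_nonneg h2 h2)]

theorem hj_b_cont {n : ℕ} [NeZero n] (P : Par) : Continuous (P.b : V n → ℝ) := by
  unfold Par.b P088F.psi
  fun_prop

theorem hj_new_open (n : ℕ) [NeZero n] (P : Par) : IsOpen (P.new n) := by
  have h := hj_b_cont (n := n) P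
  have h1 : Continuous fun p : V n × V n => P088F.psi P.κ p.1 := by
    unfold P088F.psi
    fun_prop
  have h2 : Continuous fun p : V n × V n => P.b p.1 / 2 := by fun_prop
  exact (isOpen_lt continuous_fst.norm continuous_const).and ((isOpen_lt continuous_snd.norm
    continuous_const).and ((isOpen_lt h1 continuous_const).and
      (isOpen_lt h2 (continuous_fst.sub continuous_snd).norm)))

theorem hj_b_eq {n : ℕ} [NeZero n] (P : Par) (x : V n) :
    bb 0 ⟨P.κ, P.a, P.N⟩ P.B x = P.b x := by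
  rw [bb, Par.b, tt, ← mul_neg, neg_sub]
  rfl

theorem hj_om {n : ℕ} [NeZero n] {P : Par} (hN : 2 ≤ P.N) (hB : 0 < P.B) (hB' : P.B ≤ 1 / 100)
    {x : V n} (hx : x ∈ Om 0 ⟨P.κ, P.a, P.N⟩) : 0 < P.b x ∧ P.b x ≤ 1 ∧ ‖x‖ < 2 ∧
      P088F.psi P.κ x < P.a - 1 / P.N ∧ closedBall x (8 * P.b x) ⊆ ball 0 2 ∧
      closedBall x (6 * P.b x) ⊆ ball 0 2 ∧
      ∀ y ∈ ball (0 : V n) 2, P.b x < ‖y - x‖ → (x, y) ∈ P.new n := by
  have h0 : 0 < P.b x := mul_pos hB (Real.exp_pos _)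
  have h1 : 1 < P.N * (P.a - P088F.psi P.κ x) := hx.2
  have h2 : P.b x ≤ P.B := mul_le_of_le_one_right hB.le (Real.exp_le_one_iff.2 (by linarith))
  have h3 : P088F.psi P.κ x < P.a - 1 / P.N := by
    rw [lt_sub_comm, div_lt_iff₀' (by linarith)]
    exact h1
  have h4 : closedBall x (8 * P.b x) ⊆ ball 0 2 := closedBall_subset_ball' (by
    rw [dist_zero_right]
    linarith [hx.1])
  refine ⟨h0, by linarith, by linarith [hx.1], h3, h4,
    (closedBall_subset_closedBall (by linarith)).trans h4, fun y hy h => ⟨by linarith [hx.1],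
      (mem_ball_zero_iff.1 hy).trans (by norm_num), ?_, ?_⟩⟩
  · exact h3.trans (sub_lt_self _ (by positivity))
  · rw [norm_sub_rev]
    linarith

/-- `J u l x = ∫ y, ∑ m, W l m x y * L2.ap (χ x * u) m y`, where `χ x y = χ₀ (b(x)⁻¹ • (y - x))`, `χ₀` a bump with
radii `5`, `6`. For `x` near `x₀` one may use `χ x₀` (the difference is a test family in an annulus where
`W l · x ·` solves `L2.t`; last item of `TB`), so `J u` is smooth and `L1 (J u) = 0` (differentiate under the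
integral). `ext`: `Ker.rep` for `K2`. `bd`: `L2.ap (χ u) = 2 g ∂χ ∂u + (g ∂∂χ + a ∂χ) u`, `IE` with `r = b` for
`∂u`, `WB`. Last claim: `UCP` on `Om` (`Om_conn`). Note `P.b = bb 0 ⟨κ, a, N⟩ B`. -/
theorem exists_J {n : ℕ} [NeZero n] (ι : Type) [Fintype ι] [DecidableEq ι] (hie : IE n ι)
    (htb : TB n ι) (huc : UCP n ι) : ∃ (K : ℕ) (ε₀ C : ℝ), 0 < ε₀ ∧ 0 ≤ C ∧
    ∀ (P : Par) (d : Dat n ι) (ε D Λ : ℝ) (c₀ e K' : ℕ) (W : Kr n ι), K ≤ K' → ε ≤ ε₀ →
      Ok ⟨P.κ, P.a, P.N⟩ → 2 ≤ P.N → 0 < P.B → P.B ≤ 1 / 100 → d.Ok K' ε 30 c₀ Λ →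
      (∀ l m x, d.L1.c l m x = 0) → (∀ l m x, d.L2.c l m x = 0) → d.Ext (P.new n) W → 0 ≤ D →
      P.WB W D e → ∃ J, JO 0 ⟨P.κ, P.a, P.N⟩ P.B (C * D / P.B ^ e) (e + 2) d.L1.gc d.L1.a d.L2.gc
        d.L2.a J ∧ ∀ u v, So d.L2.gc d.L2.a u → So d.L1.gc d.L1.a v →
          (∀ l, ∀ x ∈ ball (0 : V n) 2, x 0 < 0 → v l x = u l x) →
          ∀ l, ∀ x ∈ Om 0 ⟨P.κ, P.a, P.N⟩, J u l x = v l x := by
  obtain ⟨K, h1⟩ := hie 1
  obtain ⟨C₁, h1⟩ := h1 2 (1 / 2) (by norm_num)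
  obtain ⟨ε₀, hε, h2⟩ := htb.2.2.2.2.1
  obtain ⟨C₂, hC₂, h3⟩ := hjF_bd n ι
  obtain ⟨c, hc, h4⟩ := hj_n2 n ι
  refine ⟨K, ε₀, Fintype.card ι * (C₂ * (1 + |C₁| * c)) * volume.real (ball (0 : V n) 2), hε,
    by positivity, fun P d ε D Λ c₀ e K' W hK hε' hp hN hB hB' hd c1 c2 hW hD hWB => ?_⟩
  have om := fun x => hj_om (n := n) hN hB hB' (x := x)
  have so := fun u => (so_iff d.L2 c2 u).1
  have an : ∀ x ∈ Om 0 ⟨P.κ, P.a, P.N⟩, ∀ y ∈ hjA x (P.b x), y ∈ ball (0 : V n) 2 ∧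
      5 * P.b x ≤ ‖y - x‖ := fun x hx y hy =>
    ⟨(om x hx).2.2.2.2.2.1 hy.1, not_lt.1 fun h => hy.2 (mem_ball_iff_norm.2 h)⟩
  have sol : ∀ u, So d.L2.gc d.L2.a u → SolOn d.L1 (Om 0 ⟨P.κ, P.a, P.N⟩) (hjJ d.L2 W P.b u) :=
    fun u hu => by
      have key : ∀ x₀ ∈ Om 0 ⟨P.κ, P.a, P.N⟩, ∃ O, IsOpen O ∧ x₀ ∈ O ∧
          SolOn d.L1 O (hjJ d.L2 W P.b u) := fun x₀ h₀ => by
        obtain ⟨k1, -, -, -, -, k2, -⟩ := om x₀ h₀
        have hO : IsOpen (Om 0 ⟨P.κ, P.a, P.N⟩ ∩ {x | ‖x - x₀‖ + P.b x < 5 * P.b x₀}) :=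
          (Om_open _ _).inter (isOpen_lt (by have := hj_b_cont (n := n) P; fun_prop) continuous_const)
        refine ⟨_, hO, ⟨h₀, by
          rw [mem_ofPred_eq, sub_self, norm_zero]
          linarith⟩, hj_sol_congr hO (hj_par rg htb hd.sm1
          (hj_new_open n P) hW.sol hO (hjA_cpt x₀ (P.b x₀)) (fun q hq => ?_) (fun m => (hjF_tst
            hd.sm2 k1 isOpen_ball k2 (so u hu) isOpen_univ (subset_univ _) m).1.continuous)
          (hjF_zero k1 k2 (so u hu))) fun l x hx => ?_⟩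
        · obtain ⟨k3, k4⟩ := an x₀ h₀ _ hq.2
          refine (om _ hq.1.1).2.2.2.2.2.2 _ k3 ?_
          have k5 : ‖q.1 - x₀‖ + P.b q.1 < 5 * P.b x₀ := hq.1.2
          linarith [norm_sub_le_norm_sub_add_norm_sub q.2 q.1 x₀]
        · obtain ⟨k3, -, -, -, -, k4, k5⟩ := om x hx.1
          exact hj_indep htb hd.sm2 hW.sol isOpen_ball (so u hu) k3 k1 k4 k2 hx.2 k5 l
      choose! O k1 k2 k3 using key
      exact ⟨fun l x hx => (((k3 x hx).1 l).contDiffAt
        ((k1 x hx).mem_nhds (k2 x hx))).contDiffWithinAt, fun l x hx => (k3 x hx).2 l x (k2 x hx)⟩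
  have ext : ∀ u, So d.L2.gc d.L2.a u → ∀ l, ∀ x ∈ Om 0 ⟨P.κ, P.a, P.N⟩, x 0 < 0 →
      hjJ d.L2 W P.b u l x = u l x := fun u hu l x hx h0 => by
    obtain ⟨k1, -, k2, -, -, k3, k4⟩ := om x hx
    have k := hd.k2.rep x (mem_ball_zero_iff.2 (by linarith)) _
      ((hj_cu_tst k1 isOpen_ball k3 (so u hu).1).mono (ball_subset_ball (by norm_num)))
      (mem_of_superset (ball_mem_nhds x (by positivity : 0 < 5 * P.b x)) fun y hy m =>
        hjF_zero k1 k3 (so u hu) m y fun h => h.2 hy) l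
    rw [hjc_one k1 (by rw [sub_self, norm_zero]; positivity), one_mul] at k
    refine (integral_congr_ae (.of_forall fun y => Finset.sum_congr rfl fun m _ => ?_)).trans k.symm
    by_cases hy : y ∈ hjA x (P.b x)
    · obtain ⟨k5, k6⟩ := an x hx y hy
      rw [hW.e2 (x, y) (k4 y k5 (by linarith)) h0 l m]
      rfl
    · exact (mul_eq_zero_of_right _ (hjF_zero k1 k3 (so u hu) m y hy)).trans
        (mul_eq_zero_of_right _ (hjF_zero k1 k3 (so u hu) m y hy)).symm
  refine ⟨hjJ d.L2 W P.b, ⟨fun u v hu hv l x hx => ?_, fun t u _ l x _ => ?_,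
    fun u hu => (sol u hu).1, fun u hu l x hx => (ap_eq d.L1 c1 _ l x).symm.trans
      ((sol u hu).2 l x hx), ext, fun u hu l x hx M hM => ?_⟩, fun u v hu hv h l x hx => ?_⟩
  · obtain ⟨k1, -, -, -, -, k2, k3⟩ := om x hx
    have hO : IsOpen (ball (0 : V n) 2 \ closedBall x (P.b x)) :=
      isOpen_ball.sdiff isClosed_closedBall
    have i : ∀ u, So d.L2.gc d.L2.a u → Integrable fun y => ∑ m, W l m x y *
        hjF d.L2 x (P.b x) u m y := fun u hu =>
      hj_int (fun m => (hW.sol.sm l m).continuousOn.comp (f := fun y => (x, y)) (by fun_prop)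
        fun y hy => k3 y hy.1 (not_le.1 fun h' => hy.2 (mem_closedBall_iff_norm.2 h')))
        (hjF_tst hd.sm2 k1 isOpen_ball k2 (so u hu) hO fun y hy => ⟨k2 hy.1, fun h' =>
          hy.2 (closedBall_subset_ball (by linarith) h')⟩)
    simp only [hjJ, hjF_add k1 isOpen_ball k2 (so u hu) (so v hv), mul_add, Finset.sum_add_distrib]
    exact integral_add (i u hu) (i v hv)
  · simp only [hjJ, hjF_smul, mul_left_comm _ t, ← Finset.mul_sum]
    exact integral_const_mul _ _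
  · obtain ⟨k1, k2, k3, k4, k5, k6, -⟩ := om x hx
    rw [hj_b_eq] at hM ⊢
    have hM0 : 0 ≤ M := (norm_nonneg _).trans (hM l x (mem_closedBall_self (by positivity)))
    have bd := h2 K d.L2 ε hd.sm2 hε' (hd.nr2.mono hK le_rfl)
    have b1 : ∀ y ∈ hjA x (P.b x), ‖∑ m, W l m x y * hjF d.L2 x (P.b x) u m y‖ ≤
        Fintype.card ι * (D / (P.B * P.b x) ^ e * (C₂ * ((1 + |C₁| * c) * M) / P.b x ^ 2)) :=
      fun y hy => by
        obtain ⟨k7, k8⟩ := an x hx y hy
        have k9 : ball y (P.b x) ⊆ closedBall x (8 * P.b x) :=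
          ball_subset_closedBall.trans (closedBall_subset_closedBall' (by
            linarith [mem_closedBall.1 hy.1]))
        have b2 : M ≤ (1 + |C₁| * c) * M := le_mul_of_one_le_left hM0
          (le_add_of_nonneg_right (by positivity))
        refine (norm_sum_le_of_le _ fun m _ => norm_mul_le_of_le
          (hWB x y k3 k4 ((mem_ball_zero_iff.1 k7).le.trans (by norm_num))
            (by rw [norm_sub_rev]; linarith) l m)
          (h3 d.L2 _ u x y _ _ k1 k2 isOpen_ball (so u hu) k7 (fun j k => ?_)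
            (fun j l m => (bd.a j l m).norm_le trivial)
            (fun l => (hM l y (k9 (mem_ball_self k1))).trans b2) (fun j l => ?_) m)).trans_eq ?_
        · rw [Op.gc, Complex.norm_real]
          exact (bd.g j k).norm_le trivial
        · have b3 := h1 d.L2 hd.sm2 bd y _ k1 k2 u ((so u hu).mono (k9.trans k5)) (c * M)
            (by positivity) (h4 u y _ M k1 fun l z hz => hM l z (k9 hz)) l 1 le_rfl
          rw [norm_iteratedFDeriv_one, pow_one] at b3
          refine ((fderiv ℝ (u l) y).le_opNorm _).trans ?_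
          rw [show ‖(ee j : V n)‖ = 1 by simp [ee], mul_one]
          refine b3.trans (div_le_div_of_nonneg_right ?_ k1.le)
          nlinarith [mul_le_mul_of_nonneg_right (le_abs_self C₁) (by positivity : 0 ≤ c * M)]
        · rw [Finset.sum_const, Finset.card_univ, nsmul_eq_mul]
    rw [hjJ, ← setIntegral_eq_integral_of_forall_compl_eq_zero (s := hjA x (P.b x))
      fun y hy => Finset.sum_eq_zero fun m _ =>
        mul_eq_zero_of_right _ (hjF_zero k1 k6 (so u hu) m y hy)]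
    refine (mul_le_mul_of_nonneg_right ((norm_setIntegral_le_of_norm_le_const
      (hjA_cpt _ _).measure_lt_top b1).trans (mul_le_mul_of_nonneg_left (measureReal_mono
        (fun y hy => (an x hx y hy).1) measure_ball_lt_top.ne) (by positivity)))
      (by positivity)).trans_eq ?_
    rw [mul_pow]
    field_simp
    ring
  · obtain ⟨k1, k2⟩ := Om_conn (o := (0 : Fin n)) hp hN
    have sv := ((so_iff d.L1 c1 v).1 hv).mono fun y (hy : y ∈ Om 0 ⟨P.κ, P.a, P.N⟩) =>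
      mem_ball_zero_iff.2 (om y hy).2.2.1
    have sw : ∀ l, ContDiffOn ℝ ∞ (((-1 : ℂ) • v) l) (Om 0 ⟨P.κ, P.a, P.N⟩) := fun l =>
      contDiffOn_const.mul (sv.1 l)
    have k := huc d.L1 _ (hjJ d.L2 W P.b u + (-1 : ℂ) • v) hd.sm1 (Om_open _ _) k1
      ⟨fun l => ((sol u hu).1 l).add (sw l), fun l y hy => by
        rw [hj_ap_add _ (Om_open _ _) (sol u hu).1 sw l hy, hj_ap_smul, (sol u hu).2 l y hy,
          sv.2 l y hy, mul_zero, add_zero]⟩ _ k2 (by
        filter_upwards [(Om_open _ _).mem_nhds k2, (isOpen_lt (by fun_prop) continuous_const :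
          IsOpen {y : V n | y 0 < 0}).mem_nhds (by simp [ee])] with y hy hy' l
        simp only [Pi.add_apply, Pi.smul_apply, smul_eq_mul, ext u hu l y hy hy',
          h l y (mem_ball_zero_iff.2 (om y hy).2.2.1) hy']
        ring) l x hx
    simp only [Pi.add_apply, Pi.smul_apply, smul_eq_mul] at k
    linear_combination k

end Vale.Agent.P088.Mo
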