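import Vale.Agent.P088F.HS
import Vale.Agent.P088F.HJ

/-! P088, part H: the contract. -/

open MeasureTheory Set Filter Topology Metric
open scoped ContDiff

noncomputable section

namespace Vale.Agent.P088F

open Vale.Agent.P292E

theorem ph_zero {n : ℕ} {F : Type} [NormedAddCommGroup F] [NormedSpace ℝ F] {f : V n → F} {x : V n}
    (h : f =ᶠ[𝓝 x] fun _ => 0) (i : ℕ) : ‖iteratedFDeriv ℝ i f x‖ = 0 := by
  rw [(h.iteratedFDeriv ℝ i).eq_of_nhds]
  simp

theorem ph_nr {n : ℕ} {ι : Type} [NeZero n] {L : Op n ι} {K : ℕ} {δ : ℝ} (h : L.Sm)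
    (h' : L.Near K δ) (h0 : ∀ x, L.g 0 0 x = 1) : P088.Mo.Nr 0 K δ L.gc L.a := by
  refine ⟨fun j k => (h.gc j k).contDiffOn, fun j l m => (h.a j l m).contDiffOn, fun j k => ?_,
    fun j l m => (h'.a j l m).mono le_rfl (subset_univ _) le_rfl,
    fun j k x _ => congrFun (h.gc_symm j k) x, fun x _ => by rw [Op.gc, h0, Complex.ofReal_one]⟩
  have k1 := (h'.g j k).clm Complex.ofRealCLM isOpen_univ ((h.g j k).sub contDiff_const).contDiffOn
  rw [Complex.ofRealCLM_norm, one_mul] at k1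
  refine (k1.congr isOpen_univ fun x _ => ?_).mono le_rfl (subset_univ _) le_rfl
  simp only [Op.gc, Complex.ofRealCLM_apply, Complex.ofReal_sub]
  split_ifs <;> rfl

/-- `e' = 2 e + 2`; `κ₀ = min (κ₀ of hs_main with c = e + 2) (1/10)`; `c = 1/10`, `N₀ = 2` (so `B ≤ 1/100`);
`K` the maximum and `ε` the minimum of those of `hs_main`, `exists_J`, `exists_sol`. For `1 ≤ ‖x‖ < 2`
with `psi < a` one has `x 0 < 0`, where the coefficients agree near `x`. Real versus complex coefficients: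
`Complex.ofRealLI.norm_iteratedFDeriv_comp_left`. `P.b x / P.B = exp (-tt x)`. -/
theorem stepS {n : ℕ} {ι : Type} [Fintype ι] [DecidableEq ι] [NeZero n] (hn : 3 ≤ n)
    (hie : IE n ι) (htb : TB n ι) (huc : UCP n ι) : StepS n ι := by
  refine fun e => ⟨2 * e + 2, fun q => ?_⟩
  obtain ⟨κ₁, hκ₁, K₁, f, δ, C₁, hδ, hC₁, h1⟩ := P088.Mo.hs_main hn ι 0 (e + 2) q
  obtain ⟨K₂, ε₂, C₂, hε₂, hC₂, h2⟩ := P088.Mo.exists_J ι hie htb huc
  refine ⟨min κ₁ (1 / 10), lt_min hκ₁ (by norm_num), fun κ k0 k1 => ⟨1 / 10, 2, by norm_num,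
    fun c₀ Λ => ?_⟩⟩
  obtain ⟨K₃, ε₃, hε₃, h3⟩ := P088.Mo.exists_sol n ι K₁ δ Λ hδ
  refine ⟨max K₁ (max K₂ K₃), f, min δ (min ε₂ ε₃), C₁ * (C₂ + 1), lt_min hδ (lt_min hε₂ hε₃),
    fun P d D W l₀ s s' hκ hP hd hm hW hD hWB x hx hψ => ?_⟩
  subst hκ
  have hN : 2 ≤ P.N := hP.N0
  have hB := hP.B0
  have hB' : P.B ≤ 1 / 100 := by
    have b1 : √P.B * 1 ≤ √P.B * P.N ^ 3 :=
      mul_le_mul_of_nonneg_left (one_le_pow₀ (by linarith)) (Real.sqrt_nonneg _)
    have b2 := Real.sq_sqrt hB.le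
    nlinarith [hP.B1, Real.sqrt_nonneg P.B]
  have k2 := k1.trans (min_le_right _ _)
  have hb : 0 < P.b x := mul_pos hB (Real.exp_pos _)
  have h0 : 0 ≤ C₁ * (C₂ + 1) * P.N ^ f * (D + 1) / P.B ^ (2 * e + 2) * (P.b x / P.B) ^ q := by
    positivity
  have hc : ∀ i l m, ‖iteratedFDeriv ℝ i (fun y => d.L1.c l m y - d.L2.c l m y) x‖ = 0 :=
    fun i l m => ph_zero (.of_forall fun y => by simp only [hm.c1, hm.c2, sub_self]) i
  by_cases hx1 : ‖x‖ < 1
  · have hp : P088.Mo.Ok ⟨P.κ, P.a, P.N⟩ := ⟨k0, k2, hP.a0, hP.a1, by linarith⟩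
    obtain ⟨J, j1, j2⟩ := h2 P d _ D Λ c₀ e _ W ((le_max_left _ _).trans (le_max_right _ _))
      ((min_le_right _ _).trans (min_le_left _ _)) hp hN hB hB' hd hm.c1 hm.c2 hW hD hWB
    have sb : ball (0 : V n) 2 ⊆ ball 0 30 := ball_subset_ball (by norm_num)
    have s1 := fun j => (P088.Mo.so_iff d.L1 hm.c1 _).2 ((hm.s1 j).mono sb)
    have s2 := fun j => (P088.Mo.so_iff d.L2 hm.c2 _).2 ((hm.s2 j).mono sb)
    have ht : 3 < P088.Mo.tt 0 ⟨P.κ, P.a, P.N⟩ x := by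
      rw [lt_sub_comm, div_lt_iff₀' (by linarith)] at hψ
      exact hψ
    have key := h1 ⟨P.κ, P.a, P.N⟩ P.B _ _ _ _ _ J l₀ s' hp (k1.trans (min_le_left _ _)) hB hB'
      (by positivity) (ph_nr hd.sm1 (hd.nr1.mono (le_max_left _ _) (min_le_left _ _)) hm.g1)
      (ph_nr hd.sm2 (hd.nr2.mono (le_max_left _ _) (min_le_left _ _)) hm.g2)
      (fun j k y => Complex.conj_ofReal _) (fun j k y => Complex.conj_ofReal _)
      (fun y hy => ⟨fun j k => congrArg Complex.ofReal ((hd.eqU y hy).1 j k), (hd.eqU y hy).2.1⟩) j1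
      (h3 d.L2 d.G2 hd.sm2 (hd.nr2.mono ((le_max_right _ _).trans (le_max_right _ _))
        ((min_le_right _ _).trans (min_le_right _ _))) hm.c2 hd.lg)
      (fun e => j2 _ _ (P088.Mo.so_const e) (P088.Mo.so_const e) fun _ _ _ _ => rfl) s2
      (fun j l => (hm.nr2 j l).mono (le_max_left _ _) sb (min_le_left _ _))
      (fun j y hy => by
        rw [j2 _ _ (s2 j) (s1 j) (fun l z hz hz' => hm.eqU j l z (sb hz) hz') l₀ y hy]
        exact hm.re j y (sb (P088.Mo.Om_sub2 _ _ hy))) x hx1 ht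
    have e1 : Real.exp (-(q * P088.Mo.tt 0 ⟨P.κ, P.a, P.N⟩ x)) = (P.b x / P.B) ^ q := by
      rw [← P088.Mo.hj_b_eq, P088.Mo.bb, mul_div_cancel_left₀ _ hB.ne', ← Real.exp_nat_mul, mul_neg]
    have e2 : C₂ * D / P.B ^ e / P.B ^ (e + 2) + 1 ≤ (C₂ + 1) * (D + 1) / P.B ^ (2 * e + 2) := by
      rw [div_div, ← pow_add, show e + (e + 2) = 2 * e + 2 by ring, div_add_one (by positivity)]
      refine div_le_div_of_nonneg_right ?_ (by positivity)
      have b1 : P.B ^ (2 * e + 2) ≤ 1 := pow_le_one₀ hB.le (by linarith)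
      linarith
    have e3 : C₁ * P.N ^ f * (C₂ * D / P.B ^ e / P.B ^ (e + 2) + 1) *
        Real.exp (-(q * P088.Mo.tt 0 ⟨P.κ, P.a, P.N⟩ x)) ≤
        C₁ * (C₂ + 1) * P.N ^ f * (D + 1) / P.B ^ (2 * e + 2) * (P.b x / P.B) ^ q := by
      rw [e1]
      exact (mul_le_mul_of_nonneg_right (mul_le_mul_of_nonneg_left e2 (by positivity))
        (by positivity)).trans_eq (by ring)
    refine fun i hi => ⟨fun j k => le_trans (le_of_eq ?_) (((key i hi).1 j k).trans e3),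
      fun j l m => ((key i hi).2 j l m).trans e3, fun l m => (hc i l m).trans_le h0⟩
    rw [← Complex.ofRealLI.norm_iteratedFDeriv_comp_left
      (((hd.sm1.g j k).sub (hd.sm2.g j k)).contDiffAt (x := x)) (BdC_le i)]
    exact congrArg (fun g => ‖iteratedFDeriv ℝ i g x‖) (funext fun y => Complex.ofReal_sub _ _)
  · have hx0 : x 0 < 0 := by
      by_contra h
      have b1 : x 0 ≤ ‖x‖ := (le_abs_self _).trans (PiLp.norm_apply_le x 0)
      have b2 : 0 < 3 / P.N := by positivity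
      have b3 : 1 ≤ ‖x‖ ^ 2 := one_le_pow₀ (not_lt.1 hx1)
      have b4 : P.κ * x 0 ≤ 1 / 5 := by nlinarith
      rw [psi] at hψ
      nlinarith [hP.a1, mul_le_mul_of_nonneg_left b3 k0.le,
        mul_le_mul_of_nonneg_left b4 (not_lt.1 h)]
    have ev : ∀ᶠ y in 𝓝 x, y ∈ Ux n :=
      (isOpen_lt (by fun_prop) continuous_const : IsOpen {y : V n | y 0 < 0}).mem_nhds hx0
    exact fun i _ => ⟨fun j k => (ph_zero (ev.mono fun y hy =>
      sub_eq_zero.2 ((hd.eqU y hy).1 j k)) i).trans_le h0, fun j l m => (ph_zero (ev.mono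
        fun y hy => sub_eq_zero.2 ((hd.eqU y hy).2.1 j l m)) i).trans_le h0,
      fun l m => (hc i l m).trans_le h0⟩

end Vale.Agent.P088F
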