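import Vale.Agent.P088F.Reg1

/-! Separately solving kernels are jointly smooth. -/

open MeasureTheory Set Filter Topology Metric
open scoped ContDiff

noncomputable section

namespace Vale.Agent.P088F

open Vale.Agent.P292E

variable {N : ℕ} {ι κ : Type} [Fintype ι] [Fintype κ] [DecidableEq ι] [DecidableEq κ]
  {X Y : Set (V N)} {a : Fin N → Fin N → V N → ℂ} {b : Fin N → ι → ι → V N → ℂ}
  {c : ι → ι → V N → ℂ} {α : Fin N → Fin N → V N → ℂ} {β : Fin N → κ → κ → V N → ℂ}
  {γ : κ → κ → V N → ℂ} {W : ι → κ → V N × V N → ℂ}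

/-- Test functions on the product. -/
def Reg2T (U : Set (V N × V N)) (t : V N × V N → ℂ) : Prop :=
  ContDiff ℝ ∞ t ∧ HasCompactSupport t ∧ tsupport t ⊆ U

theorem Reg2T.d {U : Set (V N × V N)} {t : V N × V N → ℂ} (h : Reg2T U t) (v : V N × V N) :
    Reg2T U (P299.m2d v t) :=
  have k : tsupport (P299.m2d v t) ⊆ tsupport t := tsupport_fderiv_apply_subset ℝ v
  ⟨(h.1.fderiv_right (m := ∞) le_rfl).clm_apply contDiff_const,
    h.2.1.of_isClosed_subset (isClosed_tsupport _) k, k.trans h.2.2⟩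

theorem Reg2T.int {U : Set (V N × V N)} {t g : V N × V N → ℂ} (h : Reg2T U t)
    (hg : ContinuousOn g U) : Integrable fun z => g z * t z :=
  (((hg.mono h.2.2).mul h.1.continuous.continuousOn).integrableOn_compact
    h.2.1).integrable_of_forall_notMem_eq_zero fun x hx => by
      rw [Pi.mul_apply, image_eq_zero_of_notMem_tsupport hx, mul_zero]

theorem Reg2T.swap {t : V N × V N → ℂ} (h : Reg2T (X ×ˢ Y) t) :
    Reg2T (Y ×ˢ X) fun z => t z.swap :=
  ⟨h.1.comp (contDiff_snd.prodMk contDiff_fst), h.2.1.comp_homeomorph (Homeomorph.prodComm _ _),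
    fun _ hz => have k := h.2.2 (tsupport_comp_subset_preimage t continuous_swap hz); ⟨k.2, k.1⟩⟩

theorem reg2_l {t : V N × V N → ℂ} (h : ContDiff ℝ ∞ t) (p : Fin N) (y : V N) :
    pd p (fun x => t (x, y)) = fun x => P299.m2d (ee p, 0) t (x, y) := funext fun x => by
  have k := (h.differentiable (by simp) (x, y)).hasFDerivAt.comp x
    (hasFDerivAt_prodMk_left (𝕜 := ℝ) x y)
  exact (congrArg (fun L : V N →L[ℝ] ℂ => L (ee p)) k.fderiv).trans rfl

theorem reg2_r {t : V N × V N → ℂ} (h : ContDiff ℝ ∞ t) (p : Fin N) (x : V N) :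
    pd p (fun y => t (x, y)) = fun y => P299.m2d (0, ee p) t (x, y) := funext fun y => by
  have k := (h.differentiable (by simp) (x, y)).hasFDerivAt.comp y
    (hasFDerivAt_prodMk_right (𝕜 := ℝ) x y)
  exact (congrArg (fun L : V N →L[ℝ] ℂ => L (ee p)) k.fderiv).trans rfl

omit [DecidableEq ι] in
theorem reg2_half (hX : IsOpen X) (h1 : Sm X a b c) {W t : ι → V N × V N → ℂ}
    (hW : ∀ l, ContinuousOn (W l) (X ×ˢ Y))
    (w1 : ∀ y ∈ Y, ∀ φ : ι → V N → ℂ, (∀ l, Tst X (φ l)) →
      ∫ x, ∑ l, W l (x, y) * Sy a b c φ l x = 0) (ht : ∀ l, Reg2T (X ×ˢ Y) (t l)) :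
    Integrable (fun z : V N × V N => ∑ l, W l z * Sy a b c (fun l x => t l (x, z.2)) l z.1) ∧
      ∫ z : V N × V N, ∑ l, W l z * Sy a b c (fun l x => t l (x, z.2)) l z.1 = 0 := by
  have cf : ∀ {g : V N → ℂ}, ContDiffOn ℝ ∞ g X → ∀ l,
      ContinuousOn (fun z : V N × V N => W l z * g z.1) (X ×ˢ Y) := fun hg l =>
    (hW l).mul (hg.continuousOn.comp continuousOn_fst fun z hz => hz.1)
  have i : Integrable
      (fun z : V N × V N => ∑ l, W l z * Sy a b c (fun l x => t l (x, z.2)) l z.1) := by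
    simp only [Sy, reg2_l (ht _).1, reg2_l ((ht _).d _).1, mul_add, Finset.mul_sum, ← mul_assoc]
    exact integrable_finsetSum _ fun l _ =>
      ((integrable_finsetSum _ fun p _ => integrable_finsetSum _ fun q _ =>
        (((ht l).d _).d _).int (cf (h1.ha p q) l)).add
        (integrable_finsetSum _ fun p _ => integrable_finsetSum _ fun J _ =>
          ((ht J).d _).int (cf (h1.hb p l J) l))).add
        (integrable_finsetSum _ fun J _ => (ht J).int (cf (h1.hc l J) l))
  refine ⟨i, (integral_prod_symm _ i).trans (integral_eq_zero_of_ae (.of_forall fun y => ?_))⟩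
  by_cases hy : y ∈ Y
  · refine w1 y hy (fun l x => t l (x, y)) fun l => tst_of hX
      ((ht l).1.comp (contDiff_id.prodMk contDiff_const)).contDiffOn
      ((ht l).2.1.isCompact.image continuous_fst) ?_ fun x hx =>
        image_eq_zero_of_notMem_tsupport fun h => hx ⟨_, h, rfl⟩
    rintro _ ⟨z, hz, rfl⟩
    exact ((ht l).2.2 hz).1
  · refine integral_eq_zero_of_ae (.of_forall fun x => Finset.sum_eq_zero fun l _ => ?_)
    rw [sy_zero (φ := fun l x => t l (x, y)), mul_zero]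
    exact fun I h => hy ((ht I).2.2 (tsupport_comp_subset_preimage (t I)
      (f := fun x => (x, y)) (continuous_id.prodMk continuous_const) h)).2

theorem reg2_el (e1 : El X a) {x : V N} (hx : x ∈ X) (ξ : V N →L[ℝ] ℝ) :
    0 ≤ (∑ p, ∑ q, a p q x * ξ (ee p) * ξ (ee q)).re ∧
      (ξ ≠ 0 → 0 < (∑ p, ∑ q, a p q x * ξ (ee p) * ξ (ee q)).re) := by
  have k : ξ ≠ 0 → 0 < (∑ p, ∑ q, a p q x * ξ (ee p) * ξ (ee q)).re := fun hξ => by
    refine e1 x hx (WithLp.toLp 2 fun p => ξ (ee p)) fun h => hξ ?_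
    refine ContinuousLinearMap.coe_injective
      ((EuclideanSpace.basisFun (Fin N) ℝ).toBasis.ext fun p => ?_)
    simpa [ee] using congrArg (fun v : V N => v p) h
  refine ⟨?_, k⟩
  by_cases h : ξ = 0
  · simp [h]
  · exact (k h).le

/-- Apply `P299.m2_sys` on `V N × V N` (index set `ι × κ`, directions `(ee p, 0)` and `(0, ee p)`, product Haar measure);
the weak equation follows from `integral_prod`, `integral_prod_symm` and the weak equations of the slices. -/
theorem sep_weak (hX : IsOpen X) (hY : IsOpen Y) (h1 : Sm X a b c) (e1 : El X a) (h2 : Sm Y α β γ)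
    (e2 : El Y α) (hW : ∀ l m, ContinuousOn (W l m) (X ×ˢ Y))
    (w1 : ∀ m, ∀ y ∈ Y, ∀ φ : ι → V N → ℂ, (∀ l, Tst X (φ l)) →
      ∫ x, ∑ l, W l m (x, y) * Sy a b c φ l x = 0)
    (w2 : ∀ l, ∀ x ∈ X, ∀ φ : κ → V N → ℂ, (∀ m, Tst Y (φ m)) →
      ∫ y, ∑ m, W l m (x, y) * Sy α β γ φ m y = 0) (l : ι) (m : κ) :
    ContDiffOn ℝ ∞ (W l m) (X ×ˢ Y) := by
  intro z hz
  have hU := hX.prod hY
  have : (volume : Measure (V N × V N)).IsAddHaarMeasure := Measure.prod.instIsAddHaarMeasure _ _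
  have c1 : ∀ {g : V N → ℂ}, ContDiffOn ℝ ∞ g X → ∀ (P : Prop) [Decidable P],
      ContDiffOn ℝ ∞ (fun z : V N × V N => if P then g z.1 else 0) (X ×ˢ Y) := fun hg P _ => by
    split_ifs
    exacts [hg.comp contDiffOn_fst fun z hz => hz.1, contDiffOn_const]
  have c2 : ∀ {g : V N → ℂ}, ContDiffOn ℝ ∞ g Y → ∀ (P : Prop) [Decidable P],
      ContDiffOn ℝ ∞ (fun z : V N × V N => if P then g z.2 else 0) (X ×ˢ Y) := fun hg P _ => by
    split_ifs
    exacts [hg.comp contDiffOn_snd fun z hz => hz.2, contDiffOn_const]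
  obtain ⟨O, k1, k2, g, k3, k4⟩ := P299.m2_sys (F := V N × V N) volume
    (ι := Fin N × Fin N ⊕ Fin N × Fin N) (ι' := Fin N ⊕ Fin N) (κ := ι × κ)
    (Sum.elim (fun i => (ee i.1, 0)) fun i => (0, ee i.1))
    (Sum.elim (fun i => (ee i.2, 0)) fun i => (0, ee i.2))
    (Sum.elim (fun p => (ee p, 0)) fun p => (0, ee p))
    (Sum.elim (fun i z => a i.1 i.2 z.1) fun i z => α i.1 i.2 z.2)
    (Sum.elim (fun p z => .of fun I J => if I.2 = J.2 then b p I.1 J.1 z.1 else 0)
      fun p z => .of fun I J => if I.1 = J.1 then β p I.2 J.2 z.2 else 0)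
    (fun z => .of fun I J => (if I.2 = J.2 then c I.1 J.1 z.1 else 0) +
      if I.1 = J.1 then γ I.2 J.2 z.2 else 0) (fun z I => W I.1 I.2 z) (fun _ _ => 0) hU
    (by rintro (i | i)
        exacts [(h1.ha _ _).comp contDiffOn_fst fun z hz => hz.1,
          (h2.ha _ _).comp contDiffOn_snd fun z hz => hz.2])
    (by rintro (i | i) I J
        exacts [c1 (h1.hb _ _ _) _, c2 (h2.hb _ _ _) _])
    (fun I J => (c1 (h1.hc _ _) _).add (c2 (h2.hc _ _) _)) (fun _ => contDiffOn_const)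
    (fun I => (hW _ _).locallyIntegrableOn hU.measurableSet) (fun t ht => by
      have ht' : ∀ I, Reg2T (X ×ˢ Y) (t I) := ht
      have a1 := fun m => reg2_half hX h1 (fun l => hW l m) (w1 m) fun l => ht' (l, m)
      have a2 := fun l => reg2_half hY h2 (W := fun m z => W l m z.swap)
        (fun m => (hW l m).comp continuous_swap.continuousOn fun z hz => ⟨hz.2, hz.1⟩) (w2 l)
        fun m => (ht' (l, m)).swap
      have a3 : ∀ l, Integrable fun z : V N × V N =>
          ∑ m, W l m z * Sy α β γ (fun m y => t (l, m) (z.1, y)) m z.2 := fun l => (a2 l).1.swap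
      have a4 : ∀ l, ∫ z : V N × V N,
          ∑ m, W l m z * Sy α β γ (fun m y => t (l, m) (z.1, y)) m z.2 = 0 := fun l =>
        .trans (integral_prod_swap _).symm (a2 l).2
      have a5 := integral_add (integrable_finsetSum Finset.univ fun m _ => (a1 m).1)
        (integrable_finsetSum Finset.univ fun l _ => a3 l)
      rw [integral_finsetSum _ fun m _ => (a1 m).1, integral_finsetSum _ fun l _ => a3 l,
        Finset.sum_eq_zero fun m _ => (a1 m).2, Finset.sum_eq_zero fun l _ => a4 l] at a5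
      simp only [zero_mul, Finset.sum_const_zero, integral_zero]
      refine (integral_congr_ae (.of_forall fun z => ?_)).trans (a5.trans (add_zero _))
      beta_reduce
      rw [Finset.sum_comm (s := (Finset.univ : Finset κ)), Fintype.sum_prod_type]
      simp only [← Finset.sum_add_distrib, ← mul_add]
      refine Finset.sum_congr rfl fun l _ => Finset.sum_congr rfl fun m _ => congrArg _ ?_
      simp only [Sy, reg2_l (ht' _).1, reg2_l ((ht' _).d _).1, reg2_r (ht' _).1,
        reg2_r ((ht' _).d _).1, Fintype.sum_sum_type, Fintype.sum_prod_type, Sum.elim_inl,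
        Sum.elim_inr, Matrix.of_apply, add_mul, ite_mul, zero_mul, Finset.sum_add_distrib,
        Finset.sum_ite_eq, Finset.mem_univ, if_true, Finset.sum_ite_irrel, Finset.sum_const_zero]
      ring) hz fun ξ hξ => by
      have b1 := reg2_el e1 hz.1 (ξ.comp (ContinuousLinearMap.inl ℝ _ _))
      have b2 := reg2_el e2 hz.2 (ξ.comp (ContinuousLinearMap.inr ℝ _ _))
      simp only [Fintype.sum_sum_type, Fintype.sum_prod_type, Sum.elim_inl, Sum.elim_inr,
        Complex.add_re]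
      by_cases h : ξ.comp (ContinuousLinearMap.inl ℝ _ _) = 0
      · exact add_pos_of_nonneg_of_pos b1.1 (b2.2 fun h' => hξ
          (ContinuousLinearMap.prod_ext (h.trans (by simp)) (h'.trans (by simp))))
      · exact add_pos_of_pos_of_nonneg (b1.2 h) b2.1
  have ho := k1.inter hU
  have e : EqOn (W l m) (g (l, m)) (O ∩ X ×ˢ Y) :=
    Measure.eqOn_open_of_ae_eq (μ := volume) ((ae_restrict_iff' ho.measurableSet).2
      (k4.mono fun x hx hx' => hx hx'.1 (l, m))) ho ((hW l m).mono inter_subset_right)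
      ((k3 _).continuousOn.mono inter_subset_left)
  exact (((k3 _).contDiffAt (k1.mem_nhds k2)).congr_of_eventuallyEq
    (mem_of_superset (ho.mem_nhds ⟨k2, hz⟩) e)).contDiffWithinAt

/-- The transposed coefficients exist. -/
theorem exists_isT (U : Set (V N)) (a : Fin N → Fin N → V N → ℂ) (b : Fin N → ι → ι → V N → ℂ)
    (c : ι → ι → V N → ℂ) : ∃ a' b' c', IsT U a b c a' b' c' := by
  exact ⟨fun p q x => a q p x, _, _, fun _ _ _ _ => rfl, fun _ _ _ _ _ => rfl, fun _ _ _ _ => rfl⟩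

/-- Classical version on any open set: localize to a product of balls, use `ibp_sys`, `IsT.sm`, `IsT.el`, `sep_weak`. -/
theorem sep {Ω : Set (V N × V N)} (hΩ : IsOpen Ω) (hX : IsOpen X) (hY : IsOpen Y)
    (hs : Ω ⊆ X ×ˢ Y) (h1 : Sm X a b c) (e1 : El X a) (h2 : Sm Y α β γ)
    (e2 : El Y α) (hW : ∀ l m, ContinuousOn (W l m) Ω)
    (s1 : ∀ l m y, ContDiffOn ℝ ∞ (fun x => W l m (x, y)) {x | (x, y) ∈ Ω})
    (s2 : ∀ l m x, ContDiffOn ℝ ∞ (fun y => W l m (x, y)) {y | (x, y) ∈ Ω})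
    (w1 : ∀ l m, ∀ p ∈ Ω, Sy a b c (fun l x => W l m (x, p.2)) l p.1 = 0)
    (w2 : ∀ l m, ∀ p ∈ Ω, Sy α β γ (fun m y => W l m (p.1, y)) m p.2 = 0) (l : ι) (m : κ) :
    ContDiffOn ℝ ∞ (W l m) Ω := by
  intro z hz
  obtain ⟨X', Y', hX', hY', z1, z2, hs'⟩ := isOpen_prod_iff.1 hΩ z.1 z.2 hz
  have i1 : X' ⊆ X := fun x hx => (hs (hs' (mk_mem_prod hx z2))).1
  have i2 : Y' ⊆ Y := fun y hy => (hs (hs' (mk_mem_prod z1 hy))).2
  obtain ⟨a', b', c', t1⟩ := exists_isT X' a b c
  obtain ⟨α', β', γ', t2⟩ := exists_isT Y' α β γ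
  refine ((sep_weak hX' hY' (t1.sm hX' (h1.mono i1)) (t1.el fun x hx => e1 x (i1 hx))
    (t2.sm hY' (h2.mono i2)) (t2.el fun x hx => e2 x (i2 hx)) (fun l m => (hW l m).mono hs')
    (fun m y hy φ hφ => ?_) (fun l x hx φ hφ => ?_) l m).contDiffAt
      ((hX'.prod hY').mem_nhds ⟨z1, z2⟩)).contDiffWithinAt
  · refine (ibp_sys (u := fun l x => W l m (x, y)) hX' (h1.mono i1) t1
      (fun l => (s1 l m y).mono fun x hx => hs' (mk_mem_prod hx hy)) hφ).trans
      (integral_eq_zero_of_ae (.of_forall fun x => Finset.sum_eq_zero fun l _ => ?_))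
    by_cases hx : x ∈ X'
    · exact mul_eq_zero_of_left (w1 l m (x, y) (hs' (mk_mem_prod hx hy))) _
    · exact mul_eq_zero_of_right _ (tst_zero (hφ l) hx)
  · refine (ibp_sys (u := fun m y => W l m (x, y)) hY' (h2.mono i2) t2
      (fun m => (s2 l m x).mono fun y hy => hs' (mk_mem_prod hx hy)) hφ).trans
      (integral_eq_zero_of_ae (.of_forall fun y => Finset.sum_eq_zero fun m _ => ?_))
    by_cases hy : y ∈ Y'
    · exact mul_eq_zero_of_left (w2 l m (x, y) (hs' (mk_mem_prod hx hy))) _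
    · exact mul_eq_zero_of_right _ (tst_zero (hφ m) hy)

end Vale.Agent.P088F
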