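import Vale.Agent.P088F.Mono
import Vale.Agent.P088F.PR2
import Vale.Agent.P088F.PR3
import Vale.Agent.P088F.Reg2

/-! Part R: the Green kernel. -/

open MeasureTheory Set Filter Topology Metric
open scoped ContDiff ENNReal

noncomputable section

namespace Vale.Agent.P088F

open Vale.Agent.P292E

variable {n : ℕ} {ι : Type} [Fintype ι] {L : Op n ι} {B Y : Set (V n)} {G : Fam n ι → Fam n ι}
  {Λ r C C' : ℝ} {F : Fam n ι} {x y : V n} {M : ℕ}

/-- The norm of a test family. -/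
def nr (F : Fam n ι) : ℝ := √(∑ l, ∫ z, ‖F l z‖ ^ 2)

theorem nr_sq (F : Fam n ι) : nr F ^ 2 = ∑ l, ∫ z, ‖F l z‖ ^ 2 :=
  Real.sq_sqrt (Finset.sum_nonneg fun _ _ => integral_nonneg fun _ => sq_nonneg _)

theorem LG.pt (hG : LG L B G Λ) (hB : IsOpen B) (h : IEs M 1 L.gc L.a L.c x r C) (hr : 0 < r)
    (h1 : ball x (3 * r) ⊆ B) (h2 : Y ⊆ B) (h3 : Disjoint (ball x (3 * r)) Y) (hF : TstF Y F)
    (l : ι) {i : ℕ} (hi : i ≤ 1) {z : V n} (hz : z ∈ ball x (r / 2)) :
    r ^ i * ‖iteratedFDeriv ℝ i (G F l) z‖ ≤ C / √(r ^ n) * |Λ| * nr F := by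
  have hF' := hF.mono h2
  have k := n2_le (A := (|Λ| * nr F) ^ 2) hB.measurableSet (fun l => (hG.sm F hF' l).continuousOn)
    (sq_nonneg _) ((hG.bd F hF').trans_eq (by
      rw [n2_tst hF, ← ENNReal.ofReal_mul (sq_nonneg _), mul_pow, sq_abs, nr_sq]))
  rw [mul_assoc]
  exact h.hom hr (mul_nonneg (abs_nonneg _) (Real.sqrt_nonneg _)) h1
    (fun l => (hG.sm F hF' l).mono h1) (fun l => (k l).1) (fun l => (k l).2) (fun l z hz => by
      rw [← Op.ap_eq, hG.eq F hF' l z (h1 hz), tst_zero (hF l) (disjoint_left.1 h3 hz)]) l hi hz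

theorem LG.lip (hG : LG L B G Λ) (hB : IsOpen B) (h : IEs M 1 L.gc L.a L.c x r C) (hr : 0 < r)
    (h1 : ball x (3 * r) ⊆ B) (h2 : Y ⊆ B) (h3 : Disjoint (ball x (3 * r)) Y) (hF : TstF Y F)
    (l : ι) {z z' : V n} (hz : z ∈ ball x (r / 2)) (hz' : z' ∈ ball x (r / 2)) :
    ‖G F l z - G F l z'‖ ≤ C / √(r ^ n) * |Λ| / r * ‖z - z'‖ * nr F := by
  rw [mul_right_comm]
  refine (convex_ball x (r / 2)).norm_image_sub_le_of_norm_fderiv_le (𝕜 := ℝ) (fun w hw =>
    ((hG.sm F (hF.mono h2) l).contDiffAt (hB.mem_nhds (h1 (ball_subset_ball (by linarith)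
      hw)))).differentiableAt (by simp)) (fun w hw => ?_) hz' hz
  rw [div_mul_eq_mul_div, le_div_iff₀' hr]
  simpa using hG.pt hB h hr h1 h2 h3 hF l le_rfl hw

variable [DecidableEq ι]

theorem rep_op (hL : L.Sm) (hY : IsOpen Y) (T : Fam n ι → ℂ)
    (h1 : ∀ F F', TstF Y F → TstF Y F' → T (F + F') = T F + T F')
    (h2 : ∀ (t : ℂ) F, TstF Y F → T (t • F) = t * T F) (hC : 0 ≤ C)
    (h3 : ∀ F, TstF Y F → ‖T F‖ ≤ C * nr F) (h4 : ∀ φ, TstF Y φ → T (L.ap φ) = 0) :
    ∃ k, SolOn L.t Y k ∧ (∀ l, IntegrableOn (fun z => ‖k l z‖ ^ 2) Y) ∧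
      (∀ l, ∫ z in Y, ‖k l z‖ ^ 2 ≤ C ^ 2) ∧ ∀ F, TstF Y F → T F = ∫ z, ∑ l, k l z * F l z := by
  simp only [SolOn, Op.ap_eq, and_assoc] at h4 ⊢
  exact rep_sol hY (hL.sm Y) (hL.el Y) (hL.isT Y) T h1 h2 hC
    (fun F hF => (pow_le_pow_left₀ (norm_nonneg _) (h3 F hF) 2).trans_eq (by rw [mul_pow, nr_sq])) h4

theorem rep_bd (hL : L.Sm) {j : ℕ} (h : IEs M j L.t.gc L.t.a L.t.c y r C') (hr : 0 < r)
    {k : Fam n ι} (hk : ∀ l, ContinuousOn (k l) (ball y (3 * r))) (T : Fam n ι → ℂ)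
    (h0 : ∀ F, TstF (ball y (3 * r)) F → T F = ∫ z, ∑ l, k l z * F l z) (hC : 0 ≤ C)
    (h3 : ∀ F, TstF (ball y (3 * r)) F → ‖T F‖ ≤ C * nr F)
    (h4 : ∀ φ, TstF (ball y (3 * r)) φ → T (L.ap φ) = 0) (m : ι) {w : V n}
    (hw : w ∈ ball y (r / 2)) : ‖k m w‖ ≤ C' / √(r ^ n) * C := by
  have i := fun {F : Fam n ι} (hF : TstF (ball y (3 * r)) F) =>
    integrable_finsetSum Finset.univ fun l _ => int_cont (hk l) (hF l)
  obtain ⟨k', k1, k2, k3, k4⟩ := rep_op hL isOpen_ball T (fun F F' hF hF' => by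
      rw [h0 (F + F') fun l => tst_add (hF l) (hF' l), h0 F hF, h0 F' hF', ← integral_add (i hF) (i hF')]
      simp only [Pi.add_apply, mul_add, Finset.sum_add_distrib])
    (fun t F hF => by
      rw [h0 (t • F) fun l => tst_smul (hF l) t, h0 F hF, ← integral_const_mul]
      simp only [Pi.smul_apply, smul_eq_mul, Finset.mul_sum, mul_left_comm]) hC h3 h4
  rw [rep_uniq isOpen_ball hk (fun l => (k1.1 l).continuousOn)
    (fun F hF => (h0 F hF).symm.trans (k4 F hF)) m (ball_subset_ball (by linarith) hw)]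
  simpa using h.hom hr hC le_rfl k1.1 k2 k3 (by simpa only [Op.ap_eq] using k1.2) m
    (Nat.zero_le j) hw

theorem kd : KD n ι := by
  obtain ⟨K, hK⟩ := ies n 1 ι
  obtain ⟨T, -, hT⟩ := tb_bdd (n := n) (ι := ι) (K + 1)
  refine ⟨n, K + 3, fun M c R Λ hc => ?_⟩
  obtain ⟨δ, C, d0, d1, hC, h⟩ := hK M c hc
  obtain ⟨δ', C', d0', -, hC', h'⟩ := hK (T * M) c hc
  obtain ⟨η, e0, e1, e2⟩ : ∃ η : ℝ, 0 < η ∧ η ≤ 1 / 6 ∧ η * (2 * |R|) ≤ min δ δ' :=
    ⟨min (1 / 6) (min δ δ' / (2 * |R| + 1)), by positivity, min_le_left _ _,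
      (mul_le_mul (min_le_right _ _) (le_add_of_nonneg_right zero_le_one) (by positivity)
        (by positivity)).trans_eq (div_mul_cancel₀ _ (by positivity))⟩
  refine ⟨C' * C * |Λ| / η ^ n, by positivity, fun L G K hL hB hG hK hR ⟨x, y⟩ ⟨hx, hy, hxy⟩ l m => ?_⟩
  have p0 : 0 < ‖x - y‖ := norm_sub_pos_iff.2 hxy
  have hr : 0 < η * ‖x - y‖ := mul_pos e0 p0
  have hx' := mem_ball_zero_iff.1 hx
  have hy' := mem_ball_zero_iff.1 hy
  have r1 := (mul_le_mul_of_nonneg_left ((norm_sub_le x y).trans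
    (by linarith [le_abs_self R] : _ ≤ 2 * |R|)) e0.le).trans e2
  have s : ∀ z ∈ ball (0 : V n) R, ball z (3 * (η * ‖x - y‖)) ⊆ ball 0 (R + 1) := fun z hz =>
    ball_subset_ball' (by linarith [mem_ball.1 hz, min_le_left δ δ'])
  have dj : Disjoint (ball x (3 * (η * ‖x - y‖))) (ball y (3 * (η * ‖x - y‖))) :=
    ball_disjoint_ball (by rw [dist_eq_norm]; nlinarith)
  have x0 := mem_ball_self (x := x) (mul_pos three_pos hr)
  refine (rep_bd (C := C / √((η * ‖x - y‖) ^ n) * |Λ|) hL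
    (h' _ hL.t (hT L M c hL hB) y _ hr (r1.trans (min_le_right _ _))) hr (k := fun m => K l m x)
    (fun m => (hK.sol.sm l m).continuousOn.comp (Continuous.prodMk_right x).continuousOn
      fun w hw => ⟨s x hx x0, s y hy hw, fun e : x = w => disjoint_left.1 dj x0 (e ▸ hw)⟩)
    (fun F => G F l x) (fun F hF => hR F (hF.mono (s y hy)) x (s x hx x0) (mem_of_superset
      (isOpen_ball.mem_nhds x0) fun w hw m => tst_zero (hF m) (disjoint_left.1 dj hw)) l)
    (by positivity) (fun F hF => by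
      simpa using hG.pt isOpen_ball (h L hL ⟨fun j k => (hB.g j k).mono (by omega) le_rfl le_rfl,
        fun j l m => (hB.a j l m).mono (by omega) le_rfl le_rfl,
        fun l m => (hB.c l m).mono (by omega) le_rfl le_rfl, hB.ell⟩ x _ hr
          (r1.trans (min_le_left _ _))) hr (s x hx) (s y hy) dj hF l zero_le_one
            (mem_ball_self (half_pos hr)))
    (fun φ hφ => (hG.inv φ (hφ.mono (s y hy)) l x (s x hx x0)).trans
      (tst_zero (hφ l) (disjoint_left.1 dj x0))) m (mem_ball_self (half_pos hr))).trans_eq ?_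
  rw [← mul_assoc, div_mul_div_comm, Real.mul_self_sqrt (by positivity), mul_pow]
  ring

theorem ke_rep (hL : L.Sm) (hB : IsOpen B) (hG : LG L B G Λ) : ∃ K : Kr n ι, Rp G B K ∧
    ∀ x ∈ B, ∀ l, SolOn L.t (B \ {x}) fun m => K l m x := by
  have h : ∀ x ∈ B, ∀ ρ > 0, ∀ l, ∃ k, SolOn L.t (B \ closedBall x ρ) k ∧
      ∀ F, TstF (B \ closedBall x ρ) F → G F l x = ∫ z, ∑ l, k l z * F l z := fun x hx ρ hρ l => by
    obtain ⟨M, C, hC, h⟩ := est_loc hB (hL.sm B) (hL.el B) hx 1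
    obtain ⟨r, ⟨h1, h2⟩, h3⟩ := (h.and (Ioo_mem_nhdsGT (div_pos hρ three_pos))).exists
    obtain ⟨k, k1, -, -, k2⟩ := rep_op hL (hB.sdiff isClosed_closedBall) (fun F => G F l x)
      (fun F F' hF hF' => hG.add F F' (hF.mono diff_subset) (hF'.mono diff_subset) l x hx)
      (fun t F hF => hG.smul t F (hF.mono diff_subset) l x hx) (C := C / √(r ^ n) * |Λ|)
      (by positivity) (fun F hF => by
        simpa using hG.pt hB h2 h3.1 h1 diff_subset (disjoint_sdiff_right.mono_left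
          (ball_subset_closedBall.trans (closedBall_subset_closedBall (by linarith [h3.2])))) hF l
            zero_le_one (mem_ball_self (half_pos h3.1)))
      fun φ hφ => (hG.inv φ (hφ.mono diff_subset) l x hx).trans
        (tst_zero (hφ l) fun h => h.2 (mem_closedBall_self hρ.le))
    exact ⟨k, k1, k2⟩
  choose! k k1 k2 using h
  have e : ∀ x ∈ B, ∀ ρ > 0, ∀ l m, ∀ y ∈ B \ closedBall x ρ,
      k x (dist y x / 2) l m y = k x ρ l m y := fun x hx ρ hρ l m y hy => by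
    have h1 : ρ < dist y x := not_le.1 hy.2
    have h2 := half_pos (hρ.trans h1)
    have s1 : B \ closedBall x (max ρ (dist y x / 2)) ⊆ B \ closedBall x ρ :=
      diff_subset_diff_right (closedBall_subset_closedBall (le_max_left _ _))
    have s2 : B \ closedBall x (max ρ (dist y x / 2)) ⊆ B \ closedBall x (dist y x / 2) :=
      diff_subset_diff_right (closedBall_subset_closedBall (le_max_right _ _))
    exact rep_uniq (hB.sdiff isClosed_closedBall)
      (fun m => ((k1 x hx _ h2 l).1 m).continuousOn.mono s2)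
      (fun m => ((k1 x hx ρ hρ l).1 m).continuousOn.mono s1) (fun F hF =>
        (k2 x hx _ h2 l F (TstF.mono hF s2)).symm.trans (k2 x hx ρ hρ l F (TstF.mono hF s1))) m
      ⟨hy.1, not_le.2 (max_lt h1 (half_lt_self (hρ.trans h1)))⟩
  refine ⟨fun l m x y => k x (dist y x / 2) l m y, fun F hF x hx h0 l => ?_, fun x hx l => ?_⟩
  · obtain ⟨ρ, hρ, h1⟩ := nhds_basis_closedBall.mem_iff.1 h0.eventually_nhds
    have h2 : TstF (B \ closedBall x ρ) F := fun m => ⟨(hF m).1, (hF m).2.1, fun z hz =>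
      ⟨(hF m).2.2 hz, fun h => notMem_tsupport_iff_eventuallyEq.2 ((h1 h).mono fun _ h => h m) hz⟩⟩
    rw [k2 x hx ρ hρ l F h2]
    refine integral_congr_ae (.of_forall fun z => Finset.sum_congr rfl fun m _ => ?_)
    by_cases hz : z ∈ B \ closedBall x ρ
    · exact congrArg (· * _) (e x hx ρ hρ l m z hz).symm
    · rw [tst_zero (h2 m) hz, mul_zero, mul_zero]
  · have h1 : ∀ y ∈ B \ {x}, 0 < dist y x / 2 ∧ y ∈ B \ closedBall x (dist y x / 2) := fun y hy =>
      ⟨half_pos (dist_pos.2 hy.2), hy.1, not_le.2 (half_lt_self (dist_pos.2 hy.2))⟩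
    have h2 := fun y hy => (hB.sdiff isClosed_closedBall).mem_nhds (h1 y hy).2
    have h3 : ∀ y ∈ B \ {x}, ∀ m, (fun z => k x (dist z x / 2) l m z) =ᶠ[𝓝 y]
        k x (dist y x / 2) l m := fun y hy m => mem_of_superset (h2 y hy) (e x hx _ (h1 y hy).1 l m)
    exact ⟨fun m y hy => ((((k1 x hx _ (h1 y hy).1 l).1 m).contDiffAt
      (h2 y hy)).congr_of_eventuallyEq (h3 y hy m)).contDiffWithinAt, fun m y hy =>
        (L.t.ap_ev (h3 y hy) m).trans ((k1 x hx _ (h1 y hy).1 l).2 m y (h1 y hy).2)⟩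

theorem ke_cont (hL : L.Sm) (hB : IsOpen B) (hG : LG L B G Λ) {K : Kr n ι} (hR : Rp G B K)
    (hK : ∀ x ∈ B, ∀ l, SolOn L.t (B \ {x}) fun m => K l m x) (hx : x ∈ B) (hy : y ∈ B)
    (hxy : x ≠ y) : ∃ r > 0, ball x r ⊆ B ∧ ball y r ⊆ B ∧ Disjoint (ball x r) (ball y r) ∧
      ∀ l m, ContinuousOn (fun p : V n × V n => K l m p.1 p.2) (ball x r ×ˢ ball y r) := by
  obtain ⟨M, C, hC, h⟩ := est_loc hB (hL.sm B) (hL.el B) hx 1
  obtain ⟨M', C', hC', h'⟩ := est_loc hB (hL.t.sm B) (hL.t.el B) hy 1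
  obtain ⟨r, ⟨⟨h1, h2⟩, h3, h4⟩, hr, h5⟩ := ((h.and h').and
    (Ioo_mem_nhdsGT (div_pos (dist_pos.2 hxy) (by norm_num : (0 : ℝ) < 6)))).exists
  have dj : Disjoint (ball x (3 * r)) (ball y (3 * r)) := ball_disjoint_ball (by linarith)
  have s : ∀ z : V n, ball z (r / 2) ⊆ ball z (3 * r) := fun z => ball_subset_ball (by linarith)
  have c : ∀ z ∈ ball x (r / 2), ∀ l m, ContinuousOn (K l m z) (ball y (3 * r)) := fun z hz l m =>
    ((hK z (h1 (s x hz)) l).1 m).continuousOn.mono fun w hw =>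
      ⟨h3 hw, fun e => disjoint_left.1 dj (s x hz) (e ▸ hw)⟩
  have rp : ∀ z ∈ ball x (r / 2), ∀ l F, TstF (ball y (3 * r)) F →
      G F l z = ∫ w, ∑ m, K l m z w * F m w := fun z hz l F hF =>
    hR F (hF.mono h3) z (h1 (s x hz)) (mem_of_superset (isOpen_ball.mem_nhds (s x hz))
      fun w hw m => tst_zero (hF m) (disjoint_left.1 dj hw)) l
  have iv : ∀ z ∈ ball x (r / 2), ∀ l φ, TstF (ball y (3 * r)) φ → G (L.ap φ) l z = 0 :=
    fun z hz l φ hφ => (hG.inv φ (hφ.mono h3) l z (h1 (s x hz))).trans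
      (tst_zero (hφ l) (disjoint_left.1 dj (s x hz)))
  refine ⟨r / 2, half_pos hr, (s x).trans h1, (s y).trans h3, dj.mono (s x) (s y), fun l m => ?_⟩
  refine continuousOn_prod_of_continuousOn_lipschitzOnWith _
    (Real.toNNReal (C' / √(r ^ n) * (C / √(r ^ n) * |Λ| / r)))
    (fun z hz => (c z hz l m).mono (s y)) fun w hw => ?_
  refine LipschitzOnWith.of_dist_le' fun z hz z' hz' => ?_
  rw [dist_eq_norm, dist_eq_norm, mul_assoc]
  refine rep_bd hL h4 hr (k := fun m w => K l m z w - K l m z' w)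
    (fun m => (c z hz l m).sub (c z' hz' l m)) (fun F => G F l z - G F l z') (fun F hF => ?_)
    (by positivity) (fun F hF => hG.lip hB h2 hr h1 h3 dj hF l hz hz')
    (fun φ hφ => by rw [iv z hz l φ hφ, iv z' hz' l φ hφ, sub_self]) m hw
  rw [rp z hz l F hF, rp z' hz' l F hF, ← integral_sub
    (integrable_finsetSum _ fun m _ => int_cont (c z hz l m) (hF m))
    (integrable_finsetSum _ fun m _ => int_cont (c z' hz' l m) (hF m))]
  simp only [sub_mul, Finset.sum_sub_distrib]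

theorem ke_weak (hL : L.Sm) (hB : IsOpen B) (hG : LG L B G Λ) {K : Kr n ι} (hR : Rp G B K)
    {X : Set (V n)} (hX : IsOpen X) (hY : IsOpen Y) (h1 : X ⊆ B) (h2 : Y ⊆ B) (dj : Disjoint X Y)
    (hc : ∀ l m, ContinuousOn (fun p : V n × V n => K l m p.1 p.2) (X ×ˢ Y)) {φ : Fam n ι}
    (hφ : TstF X φ) (m : ι) : EqOn (fun y => ∫ x, ∑ l, K l m x y * L.t.ap φ l x) 0 Y := by
  have t := hL.t.tst hX hφ
  generalize hψ : L.t.ap φ = ψ at t
  have c : ∀ l m, ContinuousOn (fun p : V n × V n => K l m p.2 p.1 * ψ l p.2) (Y ×ˢ univ) :=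
    fun l m p hp => by
      by_cases h : p.2 ∈ X
      · exact ((((hc l m).continuousAt ((hX.prod hY).mem_nhds (show p.swap ∈ _ from ⟨h, hp.1⟩))).comp
          continuous_swap.continuousAt).mul
            ((t l).1.continuous.comp continuous_snd).continuousAt).continuousWithinAt
      · refine (continuousAt_const (y := 0).congr ?_).continuousWithinAt
        filter_upwards [continuous_snd.continuousAt
          (notMem_tsupport_iff_eventuallyEq.1 fun h' => h ((t l).2.2 h'))] with q hq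
        exact (mul_eq_zero_of_right _ hq).symm
  have kc : IsCompact (⋃ l, tsupport (ψ l)) := isCompact_iUnion fun l => (t l).2.1
  have z : ∀ x ∉ ⋃ l, tsupport (ψ l), ∀ l, ψ l x = 0 := fun x hx l =>
    image_eq_zero_of_notMem_tsupport fun h => hx (mem_iUnion.2 ⟨l, h⟩)
  refine rep_uniq (k := fun m y => ∫ x, ∑ l, K l m x y * ψ l x) (k' := fun _ => 0) hY
    (fun m => continuousOn_integral_of_compact_support kc (continuousOn_finsetSum _ fun l _ => c l m)
      fun y x _ hx => by simp only [z x hx, mul_zero, Finset.sum_const_zero])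
    (fun _ => continuousOn_const) (fun F (hF : TstF Y F) => ?_) m
  have i : ∀ m l, Integrable fun p : V n × V n => K l m p.2 p.1 * ψ l p.2 * F m p.1 := fun m l =>
    ((((c l m).mono (prod_mono (hF m).2.2 (subset_univ _))).mul ((hF m).1.continuous.comp
      continuous_fst).continuousOn).integrableOn_compact
        ((hF m).2.1.isCompact.prod (t l).2.1.isCompact)).integrable_of_forall_notMem_eq_zero
      fun p hp => by
        rcases not_and_or.1 hp with h | h <;>
          simp [image_eq_zero_of_notMem_tsupport h]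
  have i2 := integrable_finsetSum Finset.univ fun m _ =>
    integrable_finsetSum Finset.univ fun l _ => i m l
  have e1 := integral_integral_swap (f := fun y x => ∑ m, ∑ l, K l m x y * ψ l x * F m y) i2
  have e2 : ∫ x, ∑ l, G F l x * ψ l x = 0 := by
    rw [← hψ, hL.ibp hX (fun l => (hG.sm F (hF.mono h2) l).mono h1) hφ]
    refine integral_eq_zero_of_ae (.of_forall fun x => Finset.sum_eq_zero fun l _ => ?_)
    by_cases hx : x ∈ X
    · rw [hG.eq F (hF.mono h2) l x (h1 hx), tst_zero (hF l) (disjoint_left.1 dj hx), zero_mul]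
    · rw [tst_zero (hφ l) hx, mul_zero]
  simp only [Pi.zero_apply, zero_mul, Finset.sum_const_zero, integral_zero]
  refine (integral_congr_ae ?_).trans (e1.trans ((integral_congr_ae (.of_forall fun x => ?_)).trans e2))
  · filter_upwards [ae_all_iff.2 fun m => (integrable_finsetSum Finset.univ
      fun l _ => i m l).prod_right_ae] with y hy
    rw [integral_finsetSum _ fun m _ => hy m]
    simp only [← Finset.sum_mul, integral_mul_const]
  · by_cases hx : x ∈ X
    · simp only [hR F (hF.mono h2) x (h1 hx) (mem_of_superset (hX.mem_nhds hx) fun w hw m =>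
        tst_zero (hF m) (disjoint_left.1 dj hw)), ← integral_mul_const]
      have c' : ∀ l m, ContinuousOn (K l m x) Y := fun l m =>
        (hc l m).comp (Continuous.prodMk_right x).continuousOn fun w hw => ⟨hx, hw⟩
      rw [← integral_finsetSum _ fun l _ =>
        (integrable_finsetSum _ fun m _ => int_cont (c' l m) (hF m)).mul_const _]
      refine integral_congr_ae (.of_forall fun y => Finset.sum_comm.trans ?_)
      simp only [Finset.sum_mul, mul_right_comm]
    · simp only [tst_zero (t _) hx, mul_zero, zero_mul, Finset.sum_const_zero, integral_zero]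

theorem ke : KE n ι := fun L B G Λ hL hB hG => by
  obtain ⟨K, hR, hK⟩ := ke_rep hL hB hG
  have h : ∀ p ∈ offd B, ∀ l m, ContDiffAt ℝ ∞ (fun p : V n × V n => K l m p.1 p.2) p ∧
      apx L K l m p.1 p.2 = 0 := fun ⟨x, y⟩ ⟨hx, hy, hxy⟩ l m => by
    obtain ⟨r, hr, h1, h2, h3, h4⟩ := ke_cont hL hB hG hR hK hx hy hxy
    have w := fun φ hφ => ke_weak hL hB hG hR isOpen_ball isOpen_ball h1 h2 h3 h4 (φ := φ) hφ
    refine ⟨(sep_weak isOpen_ball isOpen_ball (hL.t.sm _) (hL.t.el _) (hL.sm _) (hL.el _) h4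
      (fun m y hy φ hφ => by simpa only [Op.ap_eq, Pi.zero_apply] using w φ hφ m hy) (fun l z hz φ hφ => ?_)
        l m).contDiffAt (prod_mem_nhds (ball_mem_nhds x hr) (ball_mem_nhds y hr)),
      (hL.sol isOpen_ball (fun l => (h4 l m).comp (Continuous.prodMk_left y).continuousOn
        fun z hz => ⟨hz, mem_ball_self hr⟩) fun φ hφ => w φ hφ m (mem_ball_self hr)).2 l x
          (mem_ball_self hr)⟩
    have t := hL.tst isOpen_ball hφ
    rw [← Op.ap_eq, ← hR _ (t.mono h2) z (h1 hz) (mem_of_superset (isOpen_ball.mem_nhds hz)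
      fun w hw m => tst_zero (t m) (disjoint_left.1 h3 hw)) l, hG.inv φ (TstF.mono hφ h2) l z (h1 hz),
      tst_zero (hφ l) (disjoint_left.1 h3 hz)]
  exact ⟨K, ⟨⟨fun l m p hp => (h p hp l m).1.contDiffWithinAt, fun p hp l m => (h p hp l m).2,
    fun p hp l m => (hK p.1 hp.1 l).2 m p.2 ⟨hp.2.1, hp.2.2.symm⟩⟩, fun x hx φ hφ h0 l =>
      (hG.inv φ hφ l x hx).symm.trans (hR _ (hL.tst hB hφ) x hx h0 l)⟩, hR⟩

end Vale.Agent.P088F
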