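import Vale.Agent.P088F.TFin
import Vale.Agent.P088F.BMain
import Vale.Agent.P088F.GX
import Vale.Agent.P088F.Geo2
import Vale.Agent.P088F.LR4
import Vale.Agent.P088F.AGu
import Vale.Agent.P088F.LFin
import Vale.Agent.P088F.PL0
import Vale.Agent.P088F.PA
import Vale.Agent.P088F.PC
import Vale.Agent.P088F.PD
import Vale.Agent.P088F.PF
import Vale.Agent.P088F.PH
import Vale.Agent.P088F.PR6

/-! P088: the global theorem from the two estimates on the product. -/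

open MeasureTheory Set
open scoped Manifold ContDiff

namespace Vale.Agent.P088

open P088F in
/-- The local theorem in normal form. -/
theorem lt0_of {n : ℕ} {ι : Type} [Fintype ι] [DecidableEq ι] [NeZero n] (hn : 3 ≤ n)
    (hq : PQ n ι) (hc : C7B n ι) : LT0 n ι :=
  lt0 ke kd tb (ltk (d1 hn Cr.slab' ucp tb) (stepW (stepE hq Cr.slab' ucp tb) hc sc ie tb)
    (stepS hn ie tb ucp))

/-- The global theorem. -/
theorem concl_of {n N : ℕ} [NeZero n] (hn : 3 ≤ n) (hN : 1 ≤ N) (hq : P088F.PQ n (Fin N))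
    (hc : P088F.C7B n (Fin N)) {M : Type} [TopologicalSpace M]
    [ChartedSpace (EuclideanHalfSpace n) M] [IsManifold (𝓡∂ n) ∞ M] [T2Space M] [CompactSpace M]
    [ConnectedSpace M] [MeasurableSpace M] [BorelSpace M] {Γ : Set M} {g₁ g₂ : Met (𝓡∂ n) M}
    {μ₁ μ₂ : Measure M} {A₁ A₂ : Conn (𝓡∂ n) M N} {S₁ S₂ : (M → Fb N) → M → Fb N}
    (hΓ : Gl.Patch (n := n) Γ) (d₁ : Gl.Dat Γ g₁ μ₁ A₁ S₁) (d₂ : Gl.Dat Γ g₂ μ₂ A₂ S₂)
    (hD : Gl.Eqd Γ g₁ μ₁ A₁ S₁ g₂ μ₂ A₂ S₂) : Concl Γ g₁ g₂ A₁ A₂ :=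
  Gl.final hn hN (B.bd hn hN) (Gl.gx2 n N)
    (Gl.lc hn ⟨0, hN⟩ (Gl.gu n N) (Gl.gf n N) (lt0_of hn hq hc)) Gl.gR (Gl.gu n N) Gl.gI
    (Gl.gs hn) hΓ d₁ d₂ hD

end Vale.Agent.P088
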