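import Vale.Agent.P088F.GXDefs
import Vale.Agent.P088F.TE1
import Vale.Agent.P088F.Geo1
import Vale.Agent.P088F.Dir
import Vale.Agent.P088F.Grn

/-! P088, part G, file GXb. Definitions. -/

open MeasureTheory Set Filter Bundle Metric Topology Matrix
open scoped Manifold ContDiff ENNReal NNReal ComplexConjugate

noncomputable section

namespace Vale.Agent.P088.Gl

section Euclid

variable {n N : ℕ}

/-- Uniform bounds for the metric on `C`. -/
def Geo.Un (γ : Geo n N) (C : Set (Ec n)) : Prop :=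
  ∃ κ : ℝ, 0 < κ ∧ ∀ z ∈ C, κ ≤ γ.vol z ∧ γ.vol z ≤ κ⁻¹ ∧ ∀ X : Fin n → Fb N,
    κ * ∑ i, ‖X i‖ ^ 2 ≤ (∑ i, ∑ j, (γ.g z)⁻¹ i j • inner ℂ (X i) (X j) : ℂ).re

/-- Regularity of very weak solutions with a smooth source. -/
def GR2 (n N : ℕ) : Prop :=
  ∀ (Ω : Set (Ec n)) (γ : Geo n N) (k f : Ec n → Fb N), IsOpen Ω → γ.Sm Ω →
    LocallyIntegrableOn k Ω → ContDiffOn ℝ ∞ f Ω →
    (∀ φ F, ET Ω φ → ET Ω F → EW Ω γ φ F → γ.pair k F = γ.pair f φ) →
    ∃ u, EW Ω γ u f ∧ ∀ᵐ z, z ∈ Ω → k z = u z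

/-- The volume of the lower half ball. -/
def lom [NeZero n] (γ : Geo n N) (r : ℝ) : Measure (Ec n) :=
  (volume.restrict (lo n r)).withDensity fun z => ENNReal.ofReal (γ.vol z)

end Euclid

variable {n N : ℕ} [NeZero n] {M : Type} [TopologicalSpace M]
  [ChartedSpace (EuclideanHalfSpace n) M]

/-- The point of `M` with coordinates `z`. -/
def xpt (p : M) (τ : Ec n → Ec n) (z : Ec n) : M := (extChartAt (𝓡∂ n) p).symm (τ z)

/-- Pull back to the half ball. -/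
def xpl (p : M) (τ : Ec n → Ec n) (W : Ec n → Op N) (u : M → Fb N) (z : Ec n) : Fb N :=
  star (W z) (u (xpt p τ z))

/-- Pull back, extended by zero. -/
def xup (p : M) (r : ℝ) (τ : Ec n → Ec n) (W : Ec n → Op N) (u : M → Fb N) : Ec n → Fb N :=
  (up n r).indicator (xpl p τ W u)

/-- Test sections of the extended manifold. -/
def XD (M : Type) [TopologicalSpace M] [ChartedSpace (EuclideanHalfSpace n) M] (N : ℕ) (r : ℝ) :
    Submodule ℂ ((M → Fb N) × (Ec n → Fb N)) where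
  carrier := {d | MT (𝓡∂ n) ((𝓡∂ n).interior M) d.1 ∧ ET (ball 0 r) d.2}
  add_mem' ha hb := ⟨⟨ha.1.1.add hb.1.1, (tsupport_add _ _).trans (union_subset ha.1.2 hb.1.2)⟩,
    ha.2.1.add hb.2.1, ha.2.2.1.add hb.2.2.1,
    (tsupport_add _ _).trans (union_subset ha.2.2.2 hb.2.2.2)⟩
  zero_mem' := ⟨⟨contMDiff_const, by simp⟩, contDiff_const, HasCompactSupport.zero, by simp⟩
  smul_mem' c d hd := ⟨⟨((c • ContinuousLinearMap.id ℂ (Fb N)).restrictScalars ℝ).contDiff.comp_contMDiff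
      hd.1.1, (tsupport_smul_subset_right (fun _ => c) d.1).trans hd.1.2⟩,
    hd.2.1.const_smul c, hd.2.2.1.smul_left (f := fun _ => c),
    (tsupport_smul_subset_right (fun _ => c) d.2).trans hd.2.2.2⟩

/-- The part of a test section on `M`. -/
def um (p : M) (r : ℝ) (τ θ : Ec n → Ec n) (W : Ec n → Op N)
    (d : (M → Fb N) × (Ec n → Fb N)) : M → Fb N := d.1 + xps p r τ θ W d.2

/-- The part of a test section on the ball. -/
def sb (p : M) (r : ℝ) (τ : Ec n → Ec n) (W : Ec n → Op N)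
    (d : (M → Fb N) × (Ec n → Fb N)) : Ec n → Fb N := d.2 + xup p r τ W d.1

variable [MeasurableSpace M]

/-- Square integrable sections of the extended manifold. -/
abbrev XH (μ : Measure M) (γ : Geo n N) (r : ℝ) : Type :=
  WithLp 2 (Lp (Fb N) 2 μ × Lp (Fb N) 2 (lom γ r))

/-- The part of a square integrable section on the ball. -/
def kb {μ : Measure M} {γ : Geo n N} (p : M) (r : ℝ) (τ : Ec n → Ec n) (W : Ec n → Op N)
    (a : XH μ γ r) : Ec n → Fb N :=
  (lo n r).indicator (a.snd : Ec n → Fb N) + xup p r τ W (a.fst : M → Fb N)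

/-- `j` is the embedding of test sections. -/
def IsJ {μ : Measure M} {γ : Geo n N} (p : M) (r : ℝ) (τ θ : Ec n → Ec n) (W : Ec n → Op N)
    (j : XD (n := n) M N r →ₗ[ℂ] XH μ γ r) : Prop :=
  ∀ d, ((j d).fst : M → Fb N) =ᵐ[μ] um p r τ θ W d.1 ∧ ((j d).snd : Ec n → Fb N) =ᵐ[lom γ r] d.1.2

variable [IsManifold (𝓡∂ n) ∞ M]

/-- The energy form of the extended manifold. -/
def XQ (g : Met (𝓡∂ n) M) (μ : Measure M) (A : Conn (𝓡∂ n) M N) (p : M) (r : ℝ)
    (τ θ : Ec n → Ec n) (W : Ec n → Op N) (γ : Geo n N) (d e : XD (n := n) M N r) : ℂ :=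
  form g μ A (um p r τ θ W d.1) (um p r τ θ W e.1) +
    ∫ z in lo n r, γ.vol z • γ.den d.1.2 e.1.2 z

end Vale.Agent.P088.Gl
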