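import Vale.Agent.P088F.GXb

/-! P088, part G, file GXd. Sections that vanish on the boundary are limits of test sections. Copy the proof of `IsSol.test` in
`P088/Calc.lean`: `ζ' = θ (k * ⟪ζ, ζ⟫) • ζ`; the energy density of `ζ - ζ' = (1 - θ (k ⟪ζ, ζ⟫)) • ζ` is bounded by a multiple of
the energy density of `ζ` and tends to zero almost everywhere (`IsVol.ae_dif`); `‖ζ - ζ'‖ ^ 2 ≤ 2 / k`. -/

open MeasureTheory Set Filter Bundle Metric Topology Matrix
open scoped Manifold ContDiff ENNReal NNReal ComplexConjugate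

noncomputable section

namespace Vale.Agent.P088.Gl

variable {n N : ℕ} {H : Type} [TopologicalSpace H] {I : ModelWithCorners ℝ (Ec n) H}
  {M : Type} [TopologicalSpace M] [ChartedSpace H M] [IsManifold I ∞ M] [T2Space M] [CompactSpace M]
  [MeasurableSpace M] [BorelSpace M] {g : Met I M} {μ : Measure M} {A : Conn I M N}


open scoped RealInnerProductSpace

theorem GXd_alg {a : Matrix (Fin n) (Fin n) ℝ} (ha : a.PosDef) (L : Fin n → Fb N) (s : Fb N)
    {w d D : ℝ} (hw : |w| ≤ 1) (hd : |d * ⟪s, s⟫| ≤ D) :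
    ipm a (fun i => w • L i - (d * ⟪L i, s⟫) • s) (fun i => w • L i - (d * ⟪L i, s⟫) • s) ≤
      (1 + D) ^ 2 * ipm a L L := by
  have n1 := ipm_nonneg ha L
  have n2 := ipm_nonneg ha fun i => ⟪L i, s⟫
  have h3 := ipm_nonneg ha fun i => ⟪s, s⟫ • L i - ⟪L i, s⟫ • s
  have h4 : ipm a (fun i => ⟪L i, s⟫) (fun i => ⟪L i, s⟫) ≤ ⟪s, s⟫ * ipm a L L := by
    rcases (real_inner_self_nonneg (x := s)).eq_or_lt with h1 | h1
    · rw [inner_self_eq_zero.1 h1.symm]
      simp [ipm]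
    · rw [ipm_pic ha, ipm_mul_right] at h3
      refine le_of_mul_le_mul_left ?_ h1
      linarith
  have h5 := real_inner_self_nonneg (x := s)
  rw [ipm_pic ha, ipm_mul_right, ipm_mul_right, ipm_comm ha (fun i => d * ⟪L i, s⟫), ipm_mul_right]
  generalize ipm a (fun i => ⟪L i, s⟫) (fun i => ⟪L i, s⟫) = b at n2 h4 ⊢
  generalize ipm a L L = c at n1 h4 ⊢
  generalize ⟪s, s⟫ = ρ at hd h4 h5 ⊢
  rw [abs_mul, abs_of_nonneg h5] at hd
  have h6 : w ^ 2 * c ≤ c := mul_le_of_le_one_left n1 ((sq_le_one_iff_abs_le_one w).2 hw)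
  have h7 : |d| * b ≤ D * c :=
    (mul_le_mul_of_nonneg_left h4 (abs_nonneg d)).trans
      (by rw [← mul_assoc]; exact mul_le_mul_of_nonneg_right hd n1)
  have h8 : -(w * d) ≤ |d| := (neg_le_abs _).trans
    (by rw [abs_mul]; exact mul_le_of_le_one_left (abs_nonneg d) hw)
  have h9 := mul_le_mul_of_nonneg_right h8 n2
  have h10 := mul_le_mul hd h7 (by positivity) ((by positivity : 0 ≤ |d| * ρ).trans hd)
  have h11 : |d| * ρ * (|d| * b) = ρ * (d * (d * b)) := by
    rw [show |d| * ρ * (|d| * b) = |d| * |d| * (ρ * b) by ring, abs_mul_abs_self]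
    ring
  linarith

theorem GXd_dens (hv : IsVol g μ) (A : Conn I M N) {ζ : M → Fb N} (hζ : ContMDiff I 𝓘(ℝ, Fb N) ∞ ζ)
    (h0 : ∀ x ∈ I.boundary M, ζ x = 0) {ε : ℝ} (hε : 0 < ε) :
    ∃ ζ', MT I (I.interior M) ζ' ∧ En g μ A (fun x => ζ x - ζ' x) ≤ ε ∧ ∀ x, ‖ζ x - ζ' x‖ ≤ ε := by
  have hρ := sm_inner hζ hζ
  have hθ : ContDiff ℝ ∞ fun t : ℝ => Real.smoothTransition (2 - t) :=
    Real.smoothTransition.contDiff.comp (contDiff_const.sub contDiff_id)
  obtain ⟨θ, eθ⟩ : ∃ θ : ℝ → ℝ, θ = fun t : ℝ => Real.smoothTransition (2 - t) := ⟨_, rfl⟩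
  rw [← eθ] at hθ
  have t0 : ∀ t ≤ 1, θ t = 1 := fun t ht => by
    rw [eθ]; exact Real.smoothTransition.one_of_one_le (by linarith)
  have t1 : ∀ t, 2 ≤ t → θ t = 0 := fun t ht => by
    rw [eθ]; exact Real.smoothTransition.zero_of_nonpos (sub_nonpos.2 ht)
  have t2 : ∀ t, |θ t| ≤ 1 := fun t => by
    rw [eθ, abs_of_nonneg (Real.smoothTransition.nonneg _)]; exact Real.smoothTransition.le_one _
  have t3 : ∀ t, 2 < t → deriv θ t = 0 := fun t ht =>
    (EventuallyEq.deriv_eq (mem_of_superset (lt_mem_nhds ht) fun s hs => t1 s (le_of_lt hs))).trans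
      (deriv_const t 0)
  obtain ⟨C, hC⟩ := (isCompact_Icc (a := (0 : ℝ)) (b := 2)).exists_bound_of_continuousOn
    (f := fun t => deriv θ t * t) ((hθ.continuous_deriv (by simp)).mul continuous_id).continuousOn
  have t4 : ∀ t, 0 ≤ t → |deriv θ t * t| ≤ |C| := fun t ht => by
    by_cases h2 : t ≤ 2
    · exact (hC t ⟨ht, h2⟩).trans (le_abs_self C)
    · rw [t3 t (not_le.1 h2), zero_mul, abs_zero]; exact abs_nonneg C
  have hχ : ∀ k : ℕ, ContMDiff I 𝓘(ℝ, ℝ) ∞ fun x => θ (k * ⟪ζ x, ζ x⟫) := fun k =>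
    (hθ.comp (contDiff_const.mul contDiff_id)).comp_contMDiff hρ
  have e : ∀ (k : ℕ) x, (fun i => cov A (fun x => θ (k * ⟪ζ x, ζ x⟫) • ζ x) x (bv i)) = fun i =>
      θ (k * ⟪ζ x, ζ x⟫) • cov A ζ x (bv i) -
        (-(2 * (deriv θ (k * ⟪ζ x, ζ x⟫) * k)) * ⟪cov A ζ x (bv i), ζ x⟫) • ζ x := by
    intro k x
    have d := (hθ.differentiable (by simp) (k * ⟪ζ x, ζ x⟫)).hasDerivAt.comp (⟪ζ x, ζ x⟫)
      ((hasDerivAt_id (⟪ζ x, ζ x⟫)).const_mul (k : ℝ))
    funext i
    rw [cov_smul (hχ k) hζ x (bv i), dif_comp (T := fun t => θ (k * t)) hρ (hχ k) d (bv i),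
      dif_inner_cov A hζ hζ x (bv i), real_inner_comm (cov A ζ x (bv i)), neg_mul, neg_smul,
      sub_neg_eq_add]
    congr 2
    ring
  have cζ := en_cont g (Fld.cov A hζ) (Fld.cov A hζ)
  have key := tendsto_integral_of_dominated_convergence (μ := μ)
    (F := fun (k : ℕ) x => en g (cov A fun x => θ (k * ⟪ζ x, ζ x⟫) • ζ x)
      (cov A fun x => θ (k * ⟪ζ x, ζ x⟫) • ζ x) x)
    (f := fun _ => 0) (fun x => (1 + 2 * |C|) ^ 2 * en g (cov A ζ) (cov A ζ) x)
    (fun k => (en_cont g (Fld.cov A (sm_smul (hχ k) hζ))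
      (Fld.cov A (sm_smul (hχ k) hζ))).aestronglyMeasurable)
    (hv.int (continuous_const.mul cζ)) (fun k => ae_of_all _ fun x => ?_) ?_
  · rw [integral_zero] at key
    obtain ⟨k, k1, k2⟩ := ((key.eventually_le_const hε).and
      ((tendsto_natCast_atTop_atTop.atTop_mul_const (pow_pos hε 2)).eventually_ge_atTop 2)).exists
    refine ⟨fun x => ζ x - θ (k * ⟪ζ x, ζ x⟫) • ζ x, ⟨sm_sub hζ (sm_smul (hχ k) hζ), ?_⟩, ?_,
      fun x => ?_⟩
    · refine (closure_minimal (t := {x | 1 ≤ k * ⟪ζ x, ζ x⟫}) (fun x hx => ?_)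
        (isClosed_le continuous_const (continuous_const.mul hρ.continuous))).trans fun x hx => ?_
      · by_contra h1
        exact hx (by simp only [t0 _ (not_le.1 h1).le, one_smul, sub_self])
      · rw [← I.compl_boundary]
        intro h1
        rw [mem_ofPred_eq, h0 x h1, inner_zero_left, mul_zero] at hx
        exact not_le.2 zero_lt_one hx
    · simp only [sub_sub_cancel]
      rwa [En_eq hv (sm_smul (hχ k) hζ)]
    · rw [sub_sub_cancel, norm_smul, Real.norm_eq_abs]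
      by_cases h1 : ‖ζ x‖ ≤ ε
      · exact (mul_le_of_le_one_left (norm_nonneg _) (t2 _)).trans h1
      · rw [t1, abs_zero, zero_mul]
        · exact hε.le
        · rw [real_inner_self_eq_norm_sq]
          exact k2.trans (mul_le_mul_of_nonneg_left
            (pow_le_pow_left₀ hε.le (not_le.1 h1).le 2) (Nat.cast_nonneg k))
  · rw [en, Real.norm_of_nonneg (ipm_nonneg (gi_pos g x) _), e]
    refine GXd_alg (gi_pos g x) _ _ (t2 _) ?_
    rw [neg_mul, abs_neg, mul_assoc, mul_assoc, abs_mul, abs_two]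
    exact mul_le_mul_of_nonneg_left
      (t4 _ (mul_nonneg (Nat.cast_nonneg k) real_inner_self_nonneg)) zero_le_two
  · filter_upwards [hv.ae_dif hζ] with x hx
    simp only [en, e]
    rcases (real_inner_self_nonneg (x := ζ x)).eq_or_lt with h1 | h1
    · have h2 := inner_self_eq_zero.1 h1.symm
      have h4 : ∀ v, cov A ζ x v = 0 := fun v => by rw [cov, hx h2, h2, map_zero, add_zero]
      have h3 : ∀ i, cov A ζ x (bv i) = 0 := fun i => h4 _
      simp only [ipm, h3, inner_zero_left, mul_zero, zero_smul, smul_zero, sub_zero,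
        Finset.sum_const_zero]
      exact tendsto_const_nhds
    · refine tendsto_const_nhds.congr' ?_
      filter_upwards [(tendsto_natCast_atTop_atTop.atTop_mul_const h1).eventually_gt_atTop 2]
        with k hk
      rw [t1 _ hk.le, t3 _ hk]
      simp [ipm]

end Vale.Agent.P088.Gl
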