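import Vale.Agent.P088F.GXb

/-! P088, part G, file GXf. Algebra of the energy forms (`ctr_cont`, `Fld.cov`, `IsVol.int` give integrability). -/

open MeasureTheory Set Filter Bundle Metric Topology Matrix
open scoped Manifold ContDiff ENNReal NNReal ComplexConjugate

noncomputable section

namespace Vale.Agent.P088.Gl

variable {n N : ℕ} {H : Type} [TopologicalSpace H] {I : ModelWithCorners ℝ (Ec n) H}
  {M : Type} [TopologicalSpace M] [ChartedSpace H M] [IsManifold I ∞ M] [T2Space M] [CompactSpace M]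
  [MeasurableSpace M] [BorelSpace M] {g : Met I M} {μ : Measure M} {A : Conn I M N}


theorem GXf_mat {a : Matrix (Fin n) (Fin n) ℝ} (ha : a.PosDef) (X Y : Fin n → Fb N) :
    conj (∑ i, ∑ j, a i j • inner ℂ (Y i) (X j) : ℂ) = ∑ i, ∑ j, a i j • inner ℂ (X i) (Y j) := by
  have h1 : ∀ i j, a j i = a i j := fun i j => ha.isHermitian.apply i j
  simp only [Complex.real_smul, map_mul, map_sum, Complex.conj_ofReal, inner_conj_symm]
  rw [Finset.sum_comm]
  exact Finset.sum_congr rfl fun i _ => Finset.sum_congr rfl fun j _ => by rw [h1 i j]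

theorem GXf_mat_add (a : Matrix (Fin n) (Fin n) ℝ) (X X' Y : Fin n → Fb N) :
    (∑ i, ∑ j, a i j • inner ℂ (X i + X' i) (Y j) : ℂ) =
      ∑ i, ∑ j, a i j • inner ℂ (X i) (Y j) + ∑ i, ∑ j, a i j • inner ℂ (X' i) (Y j) := by
  simp only [inner_add_left, smul_add, Finset.sum_add_distrib]

theorem GXf_mat_smul (a : Matrix (Fin n) (Fin n) ℝ) (c : ℂ) (X Y : Fin n → Fb N) :
    (∑ i, ∑ j, a i j • inner ℂ (c • X i) (Y j) : ℂ) =
      conj c * ∑ i, ∑ j, a i j • inner ℂ (X i) (Y j) := by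
  simp only [inner_smul_left, Finset.mul_sum, mul_smul_comm]

theorem GXf_cont {u w : M → Fb N} (hu : ContMDiff I 𝓘(ℝ, Fb N) ∞ u) (hw : ContMDiff I 𝓘(ℝ, Fb N) ∞ w) :
    Continuous (mden g A u w) :=
  ctr_cont g (Fld.cov A hu) (Fld.cov A hw)
    (LinearMap.mk₂ ℝ (fun a b : Fb N => inner ℂ a b) inner_add_left
      (fun c a b => inner_smul_real_left a b c) inner_add_right
      fun c a b => inner_smul_real_right a b c) continuous_inner

theorem GXf_conj (g : Met I M) (μ : Measure M) (A : Conn I M N) (u w : M → Fb N) :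
    conj (form g μ A w u) = form g μ A u w := by
  rw [form_eq, form_eq, ← integral_conj]
  exact integral_congr_ae (.of_forall fun x => GXf_mat (gi_pos g x) _ _)

theorem GXf_add (hv : IsVol g μ) {u v w : M → Fb N} (hu : ContMDiff I 𝓘(ℝ, Fb N) ∞ u)
    (hv' : ContMDiff I 𝓘(ℝ, Fb N) ∞ v) (hw : ContMDiff I 𝓘(ℝ, Fb N) ∞ w) :
    form g μ A (u + v) w = form g μ A u w + form g μ A v w := by
  have e0 : ∀ x t, cov A (u + v) x t = cov A u x t + cov A v x t := fun x t => by
    have h := HasFDerivWithinAt.add (HD.of hu x) (HD.of hv' x)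
    have h1 : dif I (u + v) x t = dif I u x t + dif I v x t := dif_eq (hu.add hv') h t
    rw [cov, cov, cov, h1, Pi.add_apply, map_add]
    abel
  have e : ∀ x i, cov A (u + v) x (bv i) = cov A u x (bv i) + cov A v x (bv i) :=
    fun x i => e0 x _
  rw [form_eq, form_eq, form_eq, ← integral_add (hv.int (GXf_cont hu hw)) (hv.int (GXf_cont hv' hw))]
  refine integral_congr_ae (.of_forall fun x => ?_)
  simp only [mden, e]
  exact GXf_mat_add _ _ _ _

theorem GXf_smul {u : M → Fb N} (hu : ContMDiff I 𝓘(ℝ, Fb N) ∞ u) (w : M → Fb N) (c : ℂ) :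
    form g μ A (c • u) w = conj c * form g μ A u w := by
  have e0 : ∀ x t, cov A (c • u) x t = c • cov A u x t := fun x t => by
    have h := HasFDerivWithinAt.const_smul (HD.of hu x) c
    have h0 : ContMDiff I 𝓘(ℝ, Fb N) ∞ (c • u) :=
      ((c • ContinuousLinearMap.id ℂ (Fb N)).restrictScalars ℝ).contDiff.comp_contMDiff hu
    have h1 : dif I (c • u) x t = c • dif I u x t := dif_eq h0 h t
    rw [cov, cov, h1, Pi.smul_apply, map_smul, smul_add]
  have e : ∀ x i, cov A (c • u) x (bv i) = c • cov A u x (bv i) := fun x i => e0 x _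
  rw [form_eq, form_eq, ← integral_const_mul]
  refine integral_congr_ae (.of_forall fun x => ?_)
  simp only [mden, e]
  exact GXf_mat_smul _ _ _ _

theorem GXf_congr {u u' w : M → Fb N} (h : ∀ x ∈ tsupport w, u =ᶠ[𝓝 x] u') :
    form g μ A u w = form g μ A u' w := by
  rw [form_eq, form_eq]
  refine integral_congr_ae (.of_forall fun x => ?_)
  by_cases hx : x ∈ tsupport w
  · have e0 : ∀ t, cov A u x t = cov A u' x t := fun t => by
      have h1 : dif I u x = dif I u' x := (h x hx).mfderiv_eq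
      rw [cov, cov, h1, (h x hx).eq_of_nhds]
    have e : ∀ i, cov A u x (bv i) = cov A u' x (bv i) := fun i => e0 _
    simp only [mden, e]
  · exact (mden_zero_right u hx).trans (mden_zero_right u' hx).symm

theorem GXf_cut {K : Set M} (hK : IsClosed K) (hs : K ⊆ I.interior M) : ∃ χ : M → ℝ,
    ContMDiff I 𝓘(ℝ, ℝ) ∞ χ ∧ tsupport χ ⊆ I.interior M ∧ ∀ x ∈ K, ∀ᶠ y in 𝓝 x, χ y = 1 := by
  obtain ⟨f, h0, h1, -⟩ := exists_contMDiffMap_zero_one_nhds_of_isClosed I (n := ⊤)
    (isOpen_interior' (I := I) (M := M)).isClosed_compl hK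
    (Set.disjoint_left.2 fun x hx hx' => hx (hs hx'))
  refine ⟨f, f.contMDiff, fun x hx => by_contra fun hx' => ?_,
    fun x hx => h1.filter_mono (nhds_le_nhdsSet hx)⟩
  exact notMem_tsupport_iff_eventuallyEq.2 (h0.filter_mono (nhds_le_nhdsSet hx')) hx

theorem GXf_mt {χ : M → ℝ} {u : M → Fb N} (hχ : ContMDiff I 𝓘(ℝ, ℝ) ∞ χ)
    (hs : tsupport χ ⊆ I.interior M) (hu : ContMDiffOn I 𝓘(ℝ, Fb N) ∞ u (I.interior M)) :
    MT I (I.interior M) fun x => χ x • u x := by
  have h : tsupport (fun x => χ x • u x) ⊆ I.interior M :=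
    (tsupport_smul_subset_left χ u).trans hs
  exact ⟨contMDiff_of_tsupport fun x hx =>
    hχ.contMDiffAt.smul (hu.contMDiffAt (isOpen_interior'.mem_nhds (h hx))), h⟩

/-- The weak equation of a test section holds against every section that is smooth in the interior. -/
theorem GXf_test {φ F u : M → Fb N} (hφ : MT I (I.interior M) φ) (hF : MT I (I.interior M) F)
    (h : MW g μ A (I.interior M) φ F) (hu : ContMDiffOn I 𝓘(ℝ, Fb N) ∞ u (I.interior M)) :
    form g μ A u φ = ∫ x, inner ℂ (u x) (F x) ∂μ := by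
  obtain ⟨χ, h1, h2, h3⟩ := GXf_cut ((isClosed_tsupport φ).union (isClosed_tsupport F))
    (union_subset hφ.2 hF.2)
  have e : ∀ x ∈ tsupport φ ∪ tsupport F, u =ᶠ[𝓝 x] fun y => χ y • u y := fun x hx =>
    (h3 x hx).mono fun y hy => by simp only [hy, one_smul]
  rw [GXf_congr fun x hx => e x (Or.inl hx), ← GXf_conj, h.2 _ (GXf_mt h1 h2 hu), ← integral_conj]
  refine integral_congr_ae (.of_forall fun x => ?_)
  simp only [inner_conj_symm]
  by_cases hx : x ∈ tsupport F
  · rw [← (e x (Or.inr hx)).eq_of_nhds]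
  · rw [image_eq_zero_of_notMem_tsupport hx, inner_zero_right, inner_zero_right]

theorem GXf_uniq (hv : IsVol g μ) {u w : M → Fb N} (hu : ContinuousOn u (I.interior M))
    (hw : ContinuousOn w (I.interior M)) (h : u =ᵐ[μ] w) : EqOn u w (I.interior M) :=
  haveI := hv.openPos
  Measure.eqOn_open_of_ae_eq (ae_restrict_of_ae h) isOpen_interior' hu hw

section Euclid

variable {γ : Geo n N} {Ω : Set (Ec n)} {z : Ec n}

theorem GXf_den_add {u v : Ec n → Fb N} (hu : DifferentiableAt ℝ u z) (hv : DifferentiableAt ℝ v z)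
    (w : Ec n → Fb N) : γ.den (u + v) w z = γ.den u w z + γ.den v w z := by
  have e : ∀ i, γ.D i (u + v) z = γ.D i u z + γ.D i v z := fun i => by
    rw [Geo.D, Geo.D, Geo.D, fderiv_add hu hv, _root_.add_apply, Pi.add_apply, map_add]
    abel
  simp only [Geo.den, e]
  exact GXf_mat_add _ _ _ _

theorem GXf_den_smul {u : Ec n → Fb N} (hu : DifferentiableAt ℝ u z) (w : Ec n → Fb N) (c : ℂ) :
    γ.den (c • u) w z = conj c * γ.den u w z := by
  have e : ∀ i, γ.D i (c • u) z = c • γ.D i u z := fun i => by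
    rw [Geo.D, Geo.D, fderiv_const_smul hu c, _root_.smul_apply, Pi.smul_apply,
      map_smul, smul_add]
  simp only [Geo.den, e]
  exact GXf_mat_smul _ _ _ _

theorem GXf_den_conj (hp : (γ.g z).PosDef) (u w : Ec n → Fb N) :
    conj (γ.den w u z) = γ.den u w z :=
  GXf_mat hp.inv _ _

theorem GXf_den_int (hΩ : IsOpen Ω) (hs : γ.Sm Ω) {u w : Ec n → Fb N} (hu : ContDiffOn ℝ ∞ u Ω)
    (hw : ET Ω w) : Integrable fun z => γ.vol z • γ.den u w z := by
  have e : ∀ z, γ.vol z • γ.den u w z =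
      ∑ i, ∑ j, γ.h i j z • inner ℂ (γ.D i u z) (γ.D j w z) := fun z => by
    simp only [Geo.den, Geo.h, Finset.smul_sum, mul_smul]
  have h1 : ContDiffOn ℝ ∞ (fun z => γ.vol z • γ.den u w z) Ω := by
    simp only [e]
    exact .sum fun i _ => .sum fun j _ =>
      (hs.h i j).smul ((hs.D hΩ hu i).inner ℂ (hs.D hΩ hw.1.contDiffOn j))
  exact P292E.sys_int (P088F.tst_of hΩ h1 hw.2.1 hw.2.2 fun z hz => by
    rw [γ.den_zero_right u hz, smul_zero])

theorem GXf_etest (hΩ : IsOpen Ω) (hs : γ.Sm Ω) {φ F u : Ec n → Fb N} (hφ : ET Ω φ) (hF : ET Ω F)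
    (h : EW Ω γ φ F) (hu : ContDiffOn ℝ ∞ u Ω) : γ.form u φ = γ.pair u F := by
  obtain ⟨χ, h1, h2, h3, h4, -⟩ := exists_cut (hφ.2.1.isCompact.union hF.2.1.isCompact) hΩ
    (union_subset hφ.2.2 hF.2.2)
  have e : ∀ x ∈ tsupport φ ∪ tsupport F, u =ᶠ[𝓝 x] fun y => χ y • u y := fun x hx =>
    (h4 x hx).mono fun y hy => by simp only [hy, one_smul]
  have hζ := et_cut hΩ h1 h2 h3 hu
  rw [γ.form_congr_left fun x hx => e x (Or.inl hx), hs.form_conj (Or.inl hζ), h.2 _ hζ,
    γ.pair_congr_left fun x hx => (e x (Or.inr hx)).eq_of_nhds, Geo.pair, Geo.pair,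
    ← integral_conj]
  refine integral_congr_ae (.of_forall fun x => ?_)
  simp only [Complex.real_smul, map_mul, Complex.conj_ofReal, inner_conj_symm]

theorem GXf_euniq (hΩ : IsOpen Ω) {u w : Ec n → Fb N} (hu : ContinuousOn u Ω) (hw : ContinuousOn w Ω)
    (h : ∀ᵐ z, z ∈ Ω → u z = w z) : EqOn u w Ω :=
  Measure.eqOn_open_of_ae_eq ((ae_restrict_iff' hΩ.measurableSet).2 h) hΩ hu hw

theorem GXf_scal (hΩ : IsOpen Ω) {f : Ec n → ℂ} (hf : ContinuousOn f Ω)
    (h : ∀ ψ, P292E.Tst Ω ψ → ∫ x, f x * ψ x = 0) : EqOn f (fun _ => 0) Ω :=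
  Measure.eqOn_open_of_ae_eq (μ := volume) ((ae_restrict_iff' hΩ.measurableSet).2
    (P088F.fund hΩ (hf.locallyIntegrableOn hΩ.measurableSet) h)) hΩ hf continuousOn_const

theorem GXf_fund (hΩ : IsOpen Ω) (hs : γ.Sm Ω) {u w : Ec n → Fb N} (hu : ContinuousOn u Ω)
    (hw : ContinuousOn w Ω) (h : ∀ F, ET Ω F → γ.pair u F = γ.pair w F) : EqOn u w Ω := by
  intro z hz
  refine ext_inner_right ℂ fun e => ?_
  have c3 : ∀ {p : Ec n → Fb N}, ContinuousOn p Ω →
      ContinuousOn (fun z => γ.vol z • inner ℂ (p z) e) Ω :=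
    fun hp => hs.vol.continuousOn.smul (hp.inner continuousOn_const)
  have k : EqOn (fun z => γ.vol z • inner ℂ (u z) e - γ.vol z • inner ℂ (w z) e)
      (fun _ => 0) Ω := by
    refine GXf_scal hΩ ((c3 hu).sub (c3 hw)) fun ψ hψ => ?_
    have hζ : ET Ω fun z => ψ z • e :=
      ⟨hψ.1.smul contDiff_const, hψ.2.1.smul_right, (tsupport_smul_subset_left _ _).trans hψ.2.2⟩
    have i : ∀ {g : Ec n → ℂ}, ContinuousOn g Ω → Integrable fun x => g x * ψ x := fun hg =>
      (((hg.mono hψ.2.2).mul hψ.1.continuous.continuousOn).integrableOn_compact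
        hψ.2.1).integrable_of_forall_notMem_eq_zero fun x hx => by
          rw [Pi.mul_apply, image_eq_zero_of_notMem_tsupport hx, mul_zero]
    have k1 := h _ hζ
    simp only [Geo.pair, inner_smul_right, mul_comm (ψ _)] at k1
    simp only [sub_mul]
    rw [integral_sub (i (c3 hu)) (i (c3 hw))]
    simp only [smul_mul_assoc]
    rw [k1, sub_self]
  exact smul_right_injective ℂ (hs.vol_pos hz).ne' (sub_eq_zero.1 (k hz))

end Euclid

end Vale.Agent.P088.Gl
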