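import Vale.Agent.P088F.GXp2

/-! P088, part G, file GXl1. Lower semicontinuity of the energy. Fix a cutoff `χ` (`exists_cut`) and `ρ = χ ^ 2`. For `v = w - u`,
`ρ • den u v = den u (ρ • v) - ∑ g⁻¹ i j • ∂ j ρ • ⟪D i u, v⟫`, and `form u (ρ • v) = -∫ ⟪P u, ρ • v⟫` (`Geo.Sm.ibp`), so
`|∫ vol ρ den u v| ≤ c √ε`. Pointwise `2 re den u w ≤ re den u u + re den w w`, hence
`∫ vol ρ re den u u ≤ ∫ vol ρ re den w w + 2 c √ε`. Let `ε → 0`, then exhaust `Ω` by compact sets
(`IsOpen.exists_iUnion_isCompact` style, `setLIntegral_iUnion_of_directed` or `lintegral_iSup`). -/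

open MeasureTheory Set Filter Bundle Metric Topology Matrix
open scoped Manifold ContDiff ENNReal NNReal ComplexConjugate

noncomputable section

namespace Vale.Agent.P088.Gl

variable {n N : ℕ} {γ : Geo n N} {Ω C : Set (Ec n)}


theorem GXl1_exh (hΩ : IsOpen Ω) {f : Ec n → ℝ≥0∞} {B : ℝ≥0∞}
    (h : ∀ K, IsCompact K → K ⊆ Ω → ∫⁻ z in K, f z ≤ B) : ∫⁻ z in Ω, f z ≤ B := by
  have H := (Measure.InnerRegularWRT.isCompact_isClosed
    ((volume : Measure (Ec n)).withDensity f)).trans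
    (Measure.InnerRegularWRT.of_pseudoMetrizableSpace _)
  rw [← withDensity_apply f hΩ.measurableSet, H.measure_eq_iSup hΩ]
  refine iSup_le fun K => iSup_le fun hK => iSup_le fun hc => ?_
  rw [withDensity_apply f hc.measurableSet]
  exact h K hc hK

theorem GXl1_real {K : Set (Ec n)} (hK : IsCompact K) (hs : K ⊆ Ω) {f g : Ec n → ℝ} {B : ℝ}
    (hf : ContinuousOn f K) (h0 : ∀ z ∈ K, 0 ≤ f z) (hg : ∀ z ∈ K, f z ≤ g z) (hB : 0 ≤ B)
    (h : ∫⁻ z in Ω, ENNReal.ofReal (g z) ≤ ENNReal.ofReal B) : ∫ z in K, f z ≤ B := by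
  rw [← ENNReal.ofReal_le_ofReal_iff hB, ofReal_integral_eq_lintegral_ofReal
    (hf.integrableOn_compact hK) (ae_restrict_of_forall_mem hK.measurableSet h0)]
  refine le_trans (setLIntegral_mono' hK.measurableSet fun z hz =>
    ENNReal.ofReal_le_ofReal (hg z hz)) (le_trans (lintegral_mono_set hs) h)

theorem GXl1_rsm (c : ℝ) (x y : Fb N) : inner ℂ x (c • y) = c • inner ℂ x y := by
  rw [← Complex.coe_smul, inner_smul_right, Complex.real_smul]

theorem GXl1_W (u w : Ec n → Fb N) (z : Ec n) : γ.vol z • γ.den u w z =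
    ∑ j, inner ℂ (∑ i, γ.h i j z • γ.D i u z) (γ.D j w z) := by
  simp only [Geo.den, Geo.h, Finset.smul_sum, sum_inner, geo1_rsm, mul_smul]
  exact Finset.sum_comm

theorem GXl1_cont (hΩ : IsOpen Ω) (hs : γ.Sm Ω) {u w : Ec n → Fb N} (hu : ContDiffOn ℝ ∞ u Ω)
    (hw : ContDiffOn ℝ ∞ w Ω) : ContinuousOn (fun z => γ.vol z • γ.den u w z) Ω := by
  simp only [GXl1_W]
  exact continuousOn_finsetSum _ fun j _ =>
    (geo1_Ws hs hΩ hu j).continuousOn.inner (hs.D hΩ hw j).continuousOn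

theorem GXl1_contr (hΩ : IsOpen Ω) (hs : γ.Sm Ω) {u w : Ec n → Fb N} (hu : ContDiffOn ℝ ∞ u Ω)
    (hw : ContDiffOn ℝ ∞ w Ω) : ContinuousOn (fun z => γ.vol z * (γ.den u w z).re) Ω := by
  refine (Complex.continuous_re.comp_continuousOn (GXl1_cont hΩ hs hu hw)).congr fun z _ => ?_
  simp

theorem GXl1_pt {z : Ec n} (hp : (γ.g z).PosDef) {u w : Ec n → Fb N}
    (hu : DifferentiableAt ℝ u z) (hw : DifferentiableAt ℝ w z) :
    (γ.den u u z).re + 2 * (γ.den u (fun y => w y - u y) z).re ≤ (γ.den w w z).re := by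
  have h0 := Geo.den_nonneg hp fun y => w y - u y
  have h1 : ∀ i j, (γ.g z)⁻¹ j i = (γ.g z)⁻¹ i j := fun i j => hp.inv.isHermitian.apply i j
  have h2 : ∀ i, γ.D i w z = γ.D i u z + γ.D i (fun y => w y - u y) z := fun i => by
    simp only [Geo.D, fderiv_fun_sub hw hu, _root_.sub_apply, map_sub]
    abel
  have h3 : (γ.den (fun y => w y - u y) u z).re = (γ.den u (fun y => w y - u y) z).re := by
    simp only [Geo.den, Complex.re_sum, Complex.smul_re]
    rw [Finset.sum_comm]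
    refine Finset.sum_congr rfl fun i _ => Finset.sum_congr rfl fun j _ => ?_
    rw [h1, ← inner_conj_symm, Complex.conj_re]
  have h4 : γ.den w w z = γ.den u u z + γ.den u (fun y => w y - u y) z +
      γ.den (fun y => w y - u y) u z + γ.den (fun y => w y - u y) (fun y => w y - u y) z := by
    simp only [Geo.den, h2, inner_add_left, inner_add_right, smul_add, Finset.sum_add_distrib]
    abel
  rw [h4]
  simp only [Complex.add_re, h3]
  linarith

theorem GXl1_ibp (hΩ : IsOpen Ω) (hs : γ.Sm Ω) {u : Ec n → Fb N} (hu : ContDiffOn ℝ ∞ u Ω)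
    {χ : Ec n → ℝ} (h1 : ContDiff ℝ ∞ χ) (h2 : HasCompactSupport χ) (h3 : tsupport χ ⊆ Ω) :
    ∃ q : Ec n → Fb N, ContinuousOn q Ω ∧ ∀ v : Ec n → Fb N, ContDiffOn ℝ ∞ v Ω →
      ∫ z in tsupport χ, χ z • γ.vol z • γ.den u v z =
        -∫ z in tsupport χ, inner ℂ (q z) (v z) := by
  have cP : ContinuousOn (fun z => χ z • γ.P u z) Ω :=
    h1.continuous.continuousOn.smul (hs.P hΩ hu).continuousOn
  have cT : ContinuousOn (fun z => ∑ j, fderiv ℝ χ z (bv j) • ∑ i, γ.h i j z • γ.D i u z) Ω :=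
    continuousOn_finsetSum _ fun j _ =>
      (geo1_d hΩ h1.contDiffOn _).continuousOn.smul (geo1_Ws hs hΩ hu j).continuousOn
  refine ⟨fun z => χ z • γ.P u z + ∑ j, fderiv ℝ χ z (bv j) • ∑ i, γ.h i j z • γ.D i u z,
    cP.add cT, fun v hv => ?_⟩
  have hK : IsCompact (tsupport χ) := h2
  have hζ := et_cut hΩ h1 h2 h3 hv
  have hsub : tsupport (fun z => χ z • v z) ⊆ tsupport χ := tsupport_smul_subset_left _ _
  have e := hs.ibp hΩ hu hζ.1.contDiffOn (.inr hζ)
  rw [Geo.form, ← setIntegral_eq_integral_of_forall_compl_eq_zero (s := tsupport χ)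
      (f := fun z => γ.vol z • γ.den u (fun z => χ z • v z) z) fun z hz => by
      rw [geo1_den (.inr fun h => hz (hsub h)), smul_zero],
    ← setIntegral_eq_integral_of_forall_compl_eq_zero (s := tsupport χ)
      (f := fun z => inner ℂ (γ.P u z) (χ z • v z)) fun z hz => by
      rw [image_eq_zero_of_notMem_tsupport hz, zero_smul, inner_zero_right]] at e
  have i1 : IntegrableOn (fun z => χ z • γ.vol z • γ.den u v z) (tsupport χ) :=
    ((h1.continuous.continuousOn.smul (GXl1_cont hΩ hs hu hv)).mono h3).integrableOn_compact hK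
  have i2 := ((cP.inner (𝕜 := ℂ) hv.continuousOn).mono h3).integrableOn_compact (μ := volume) hK
  have i3 := ((cT.inner (𝕜 := ℂ) hv.continuousOn).mono h3).integrableOn_compact (μ := volume) hK
  have e1 : ∫ z in tsupport χ, γ.vol z • γ.den u (fun z => χ z • v z) z =
      (∫ z in tsupport χ, χ z • γ.vol z • γ.den u v z) + ∫ z in tsupport χ,
        inner ℂ (∑ j, fderiv ℝ χ z (bv j) • ∑ i, γ.h i j z • γ.D i u z) (v z) := by
    rw [← integral_add i1 i3]
    refine setIntegral_congr_fun hK.measurableSet fun z hz => ?_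
    have dv := (hv.contDiffAt (hΩ.mem_nhds (h3 hz))).differentiableAt (by simp)
    have dχ : DifferentiableAt ℝ χ z := h1.contDiffAt.differentiableAt (by simp)
    have hD : ∀ j, γ.D j (fun z => χ z • v z) z = χ z • γ.D j v z + fderiv ℝ χ z (bv j) • v z :=
      fun j => by
        simp only [Geo.D, fderiv_fun_smul dχ dv, _root_.add_apply, _root_.smul_apply,
          ContinuousLinearMap.smulRight_apply, smul_add, ContinuousLinearMap.map_smul_of_tower]
        abel
    simp only [GXl1_W, hD]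
    rw [sum_inner, Finset.smul_sum, ← Finset.sum_add_distrib]
    refine Finset.sum_congr rfl fun j _ => ?_
    rw [inner_add_right, geo1_rsm, GXl1_rsm, GXl1_rsm]
  have e2 : ∫ z in tsupport χ, inner ℂ (γ.P u z) (χ z • v z) =
      ∫ z in tsupport χ, inner ℂ (χ z • γ.P u z) (v z) := by
    simp only [geo1_rsm, GXl1_rsm]
  simp only [inner_add_left]
  rw [integral_add i2 i3, ← e2]
  rw [e1] at e
  linear_combination e

theorem GXl1_cut (hΩ : IsOpen Ω) (hs : γ.Sm Ω) {u : Ec n → Fb N} (hu : ContDiffOn ℝ ∞ u Ω) {E : ℝ}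
    (hE : 0 ≤ E) (h : ∀ ε > 0, ∃ w : Ec n → Fb N, ContDiffOn ℝ ∞ w Ω ∧
      ∫⁻ z in Ω, ENNReal.ofReal (γ.vol z * ‖w z - u z‖ ^ 2) ≤ ENNReal.ofReal ε ∧
      ∫⁻ z in Ω, ENNReal.ofReal (γ.vol z * (γ.den w w z).re) ≤ ENNReal.ofReal (E + ε))
    {χ : Ec n → ℝ} (h1 : ContDiff ℝ ∞ χ) (h2 : HasCompactSupport χ) (h3 : tsupport χ ⊆ Ω)
    (h4 : ∀ z, χ z ∈ Icc (0 : ℝ) 1) :
    ∫ z in tsupport χ, χ z * (γ.vol z * (γ.den u u z).re) ≤ E := by
  obtain ⟨q, cq, hq⟩ := GXl1_ibp hΩ hs hu h1 h2 h3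
  have hK : IsCompact (tsupport χ) := h2
  have hm := hK.measurableSet
  have cv := hs.vol.continuousOn
  have cχ : ContinuousOn χ Ω := h1.continuous.continuousOn
  have ic : IntegrableOn (fun z => ‖q z‖ ^ 2 / γ.vol z) (tsupport χ) :=
    (((cq.norm.pow 2).div cv fun z hz => (hs.vol_pos hz).ne').mono h3).integrableOn_compact hK
  have ii : ∀ {a b : Ec n → Fb N}, ContDiffOn ℝ ∞ a Ω → ContDiffOn ℝ ∞ b Ω →
      IntegrableOn (fun z => χ z * (γ.vol z * (γ.den a b z).re)) (tsupport χ) := fun ha hb =>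
    ((cχ.mul (GXl1_contr hΩ hs ha hb)).mono h3).integrableOn_compact hK
  set c := ∫ z in tsupport χ, ‖q z‖ ^ 2 / γ.vol z with hc
  have c0 : 0 ≤ c := setIntegral_nonneg hm fun z hz =>
    div_nonneg (sq_nonneg _) (hs.vol_pos (h3 hz)).le
  have key : ∀ δ > 0, ∫ z in tsupport χ, χ z * (γ.vol z * (γ.den u u z).re) ≤
      E + δ ^ 2 + δ * (c + 1) := by
    intro δ hδ
    obtain ⟨w, hw, a1, a2⟩ := h (δ ^ 2) (by positivity)
    have hv : ContDiffOn ℝ ∞ (fun y => w y - u y) Ω := hw.sub hu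
    have cn : ContinuousOn (fun z => γ.vol z * ‖w z - u z‖ ^ 2) Ω :=
      cv.mul (hv.continuousOn.norm.pow 2)
    have b1 : ∫ z in tsupport χ, γ.vol z * ‖w z - u z‖ ^ 2 ≤ δ ^ 2 :=
      GXl1_real hK h3 (cn.mono h3) (fun z hz => mul_nonneg (hs.vol_pos (h3 hz)).le (sq_nonneg _))
        (fun _ _ => le_rfl) (by positivity) a1
    have n0 : ∀ z ∈ tsupport χ, 0 ≤ γ.vol z * (γ.den w w z).re := fun z hz =>
      mul_nonneg (hs.vol_pos (h3 hz)).le (Geo.den_nonneg (hs.pos z (h3 hz)) w)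
    have b2 : ∫ z in tsupport χ, χ z * (γ.vol z * (γ.den w w z).re) ≤ E + δ ^ 2 :=
      GXl1_real hK h3 ((cχ.mul (GXl1_contr hΩ hs hw hw)).mono h3)
        (fun z hz => mul_nonneg (h4 z).1 (n0 z hz))
        (fun z hz => mul_le_of_le_one_left (n0 z hz) (h4 z).2) (by positivity) a2
    have i1 := ii hu hu
    have i2 := ii hu hv
    have i3 := ii hw hw
    have i4 : IntegrableOn (fun z => χ z • γ.vol z • γ.den u (fun y => w y - u y) z)
        (tsupport χ) := ((cχ.smul (GXl1_cont hΩ hs hu hv)).mono h3).integrableOn_compact hK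
    have i5 := ((cq.inner (𝕜 := ℂ) hv.continuousOn).mono h3).integrableOn_compact (μ := volume) hK
    have i6 := (cn.mono h3).integrableOn_compact (μ := volume) hK
    have b3 : (∫ z in tsupport χ, χ z * (γ.vol z * (γ.den u u z).re)) +
        2 * ∫ z in tsupport χ, χ z * (γ.vol z * (γ.den u (fun y => w y - u y) z).re) ≤
        ∫ z in tsupport χ, χ z * (γ.vol z * (γ.den w w z).re) := by
      rw [← integral_const_mul, ← integral_add i1 (i2.const_mul 2)]
      refine setIntegral_mono_on (i1.add (i2.const_mul 2)) i3 hm fun z hz => ?_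
      have hz' := hΩ.mem_nhds (h3 hz)
      have k := mul_le_mul_of_nonneg_left (GXl1_pt (hs.pos z (h3 hz))
        ((hu.contDiffAt hz').differentiableAt (by simp))
        ((hw.contDiffAt hz').differentiableAt (by simp)))
        (mul_nonneg (h4 z).1 (hs.vol_pos (h3 hz)).le)
      linarith
    have b4 : ∫ z in tsupport χ, χ z * (γ.vol z * (γ.den u (fun y => w y - u y) z).re) =
        -∫ z in tsupport χ, (inner ℂ (q z) (w z - u z)).re := by
      have k := congrArg Complex.re (hq _ hv)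
      have k1 := integral_re i4
      have k2 := integral_re i5
      simp only [RCLike.re_to_complex] at k1 k2
      rw [Complex.neg_re, ← k1, ← k2] at k
      simpa only [Complex.smul_re, smul_eq_mul] using k
    have b5 : 2 * ∫ z in tsupport χ, (inner ℂ (q z) (w z - u z)).re ≤
        δ * c + δ⁻¹ * ∫ z in tsupport χ, γ.vol z * ‖w z - u z‖ ^ 2 := by
      rw [hc, ← integral_const_mul, ← integral_const_mul, ← integral_const_mul,
        ← integral_add (ic.const_mul δ) (i6.const_mul δ⁻¹)]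
      refine setIntegral_mono_on (i5.re.const_mul 2) ((ic.const_mul δ).add (i6.const_mul δ⁻¹)) hm
        fun z hz => ?_
      have p0 := hs.vol_pos (h3 hz)
      have k1 : (inner ℂ (q z) (w z - u z)).re ≤ ‖q z‖ * ‖w z - u z‖ :=
        (Complex.re_le_norm _).trans (norm_inner_le_norm _ _)
      have k2 : δ * (‖q z‖ ^ 2 / γ.vol z) + δ⁻¹ * (γ.vol z * ‖w z - u z‖ ^ 2) -
          2 * (‖q z‖ * ‖w z - u z‖) = (δ * ‖q z‖ - γ.vol z * ‖w z - u z‖) ^ 2 / (δ * γ.vol z) := by
        field_simp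
        ring
      have k3 : 0 ≤ (δ * ‖q z‖ - γ.vol z * ‖w z - u z‖) ^ 2 / (δ * γ.vol z) := by positivity
      linarith
    have b6 : δ⁻¹ * ∫ z in tsupport χ, γ.vol z * ‖w z - u z‖ ^ 2 ≤ δ := by
      refine (mul_le_mul_of_nonneg_left b1 (inv_pos.2 hδ).le).trans (le_of_eq ?_)
      field_simp
    linarith
  have lim : Tendsto (fun δ : ℝ => E + δ ^ 2 + δ * (c + 1)) (𝓝[>] 0) (𝓝 E) := by
    have k : Continuous fun δ : ℝ => E + δ ^ 2 + δ * (c + 1) := by fun_prop
    simpa using (k.tendsto 0).mono_left (nhdsWithin_le_nhds (s := Ioi 0))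
  exact ge_of_tendsto lim (eventually_nhdsWithin_of_forall key)

theorem GXl1_lsc (hΩ : IsOpen Ω) (hs : γ.Sm Ω) {u : Ec n → Fb N} (hu : ContDiffOn ℝ ∞ u Ω) {E : ℝ}
    (h : ∀ ε > 0, ∃ w : Ec n → Fb N, ContDiffOn ℝ ∞ w Ω ∧
      ∫⁻ z in Ω, ENNReal.ofReal (γ.vol z * ‖w z - u z‖ ^ 2) ≤ ENNReal.ofReal ε ∧
      ∫⁻ z in Ω, ENNReal.ofReal (γ.vol z * (γ.den w w z).re) ≤ ENNReal.ofReal (E + ε)) :
    ∫⁻ z in Ω, ENNReal.ofReal (γ.vol z * (γ.den u u z).re) ≤ ENNReal.ofReal E := by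
  have hE : ENNReal.ofReal E = ENNReal.ofReal (max E 0) := by simp
  rw [hE]
  refine GXl1_exh hΩ fun K hK hs' => ?_
  obtain ⟨χ, h1, h2, h3, h4, h5⟩ := exists_cut hK hΩ hs'
  have key := GXl1_cut hΩ hs hu (le_max_right E 0) (fun ε hε => by
    obtain ⟨w, a1, a2, a3⟩ := h ε hε
    exact ⟨w, a1, a2, a3.trans (ENNReal.ofReal_le_ofReal (by linarith [le_max_left E 0]))⟩)
    h1 h2 h3 h5
  have hK' : IsCompact (tsupport χ) := h2
  have hsub : K ⊆ tsupport χ := fun z hz => subset_tsupport _ (by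
    rw [Function.mem_support, (h4 z hz).self_of_nhds]
    exact one_ne_zero)
  refine le_trans ?_ (ENNReal.ofReal_le_ofReal key)
  have i1 : IntegrableOn (fun z => χ z * (γ.vol z * (γ.den u u z).re)) (tsupport χ) :=
    ((h1.continuous.continuousOn.mul (GXl1_contr hΩ hs hu hu)).mono h3).integrableOn_compact hK'
  rw [ofReal_integral_eq_lintegral_ofReal i1
    (ae_restrict_of_forall_mem hK'.measurableSet fun z hz => mul_nonneg (h5 z).1
      (mul_nonneg (hs.vol_pos (h3 hz)).le (Geo.den_nonneg (hs.pos z (h3 hz)) u)))]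
  refine le_trans (setLIntegral_mono' hK.measurableSet fun z hz => ?_) (lintegral_mono_set hsub)
  rw [(h4 z hz).self_of_nhds, one_mul]

end Vale.Agent.P088.Gl
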