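import Vale.Agent.P088F.GXp2

/-! P088, part G, file GXp3. The Poincare inequality on a connected compact manifold. Local step: for `q : M` let `U` be the open set
`source ∩ chart ⁻¹' ball` of `exists_ball`, `ball_nhds`, and `C = ball ∩ interior (range I)` (convex: `I.convex_range`); for every
nonempty open `U' ⊆ U` use `Geo.poin` for `cg g A q` with `C' = C ∩ (chart image of U')` (nonempty by `dense_interior`), `vol_lintegral`,
`vol_lintegral_le`, `mden_chart`, `IsVol.ae_interior`, `gm_smooth`, `gm_pos`. The set of points with a neighbourhood controlled by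
`O` and the energy is open, closed and nonempty; cover `M` by finitely many such neighbourhoods. -/

open MeasureTheory Set Filter Bundle Metric Topology Matrix
open scoped Manifold ContDiff ENNReal NNReal ComplexConjugate

noncomputable section

namespace Vale.Agent.P088.Gl

variable {n N : ℕ} {H : Type} [TopologicalSpace H] {I : ModelWithCorners ℝ (Ec n) H}
  {M : Type} [TopologicalSpace M] [ChartedSpace H M] [IsManifold I ∞ M] [T2Space M] [CompactSpace M]
  [MeasurableSpace M] [BorelSpace M] {g : Met I M} {μ : Measure M} {A : Conn I M N}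


theorem GXp3_en (hv : IsVol g μ) {u : M → Fb N} (hu : ContMDiff I 𝓘(ℝ, Fb N) ∞ u) :
    ∫⁻ x, ENNReal.ofReal (mden g A u u x).re ∂μ = ENNReal.ofReal (En g μ A u) := by
  rw [En_eq hv hu, ofReal_integral_eq_lintegral_ofReal
    (hv.int (en_cont g (Fld.cov A hu) (Fld.cov A hu)))
    (ae_of_all _ fun x => ipm_nonneg (gi_pos g x) _)]
  refine lintegral_congr fun x => congrArg _ ?_
  simp only [mden, en, ipm, Complex.re_sum, Complex.smul_re, re_inner, smul_eq_mul]

/-- The mass in `U` is controlled by the mass in `O` and the energy. -/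
def GXp3_C (g : Met I M) (μ : Measure M) (A : Conn I M N) (U O : Set M) : Prop :=
  ∃ K : ℝ≥0, ∀ u : M → Fb N, ContMDiff I 𝓘(ℝ, Fb N) ∞ u →
    ∫⁻ x in U, ENNReal.ofReal (‖u x‖ ^ 2) ∂μ ≤
      K * ((∫⁻ x in O, ENNReal.ofReal (‖u x‖ ^ 2) ∂μ) + ENNReal.ofReal (En g μ A u))

omit [T2Space M] [CompactSpace M] [BorelSpace M] in
theorem GXp3_sub {U O : Set M} (h : U ⊆ O) : GXp3_C g μ A U O :=
  ⟨1, fun u _ => by
    rw [ENNReal.coe_one, one_mul]
    exact (lintegral_mono_set h).trans le_self_add⟩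

omit [T2Space M] [CompactSpace M] [BorelSpace M] in
theorem GXp3_trans {U V O : Set M} (h : GXp3_C g μ A U V) (h' : GXp3_C g μ A V O) :
    GXp3_C g μ A U O := by
  obtain ⟨K, h⟩ := h
  obtain ⟨K', h'⟩ := h'
  refine ⟨K * (K' + 1), fun u hu => (h u hu).trans ?_⟩
  rw [ENNReal.coe_mul, mul_assoc, ENNReal.coe_add, add_mul, ENNReal.coe_one, one_mul]
  exact mul_le_mul_right (add_le_add (h' u hu) le_add_self) _

omit [T2Space M] [CompactSpace M] [BorelSpace M] in
theorem GXp3_union {U V O : Set M} (h : GXp3_C g μ A U O) (h' : GXp3_C g μ A V O) :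
    GXp3_C g μ A (U ∪ V) O := by
  obtain ⟨K, h⟩ := h
  obtain ⟨K', h'⟩ := h'
  refine ⟨K + K', fun u hu => (lintegral_union_le _ _ _).trans ?_⟩
  rw [ENNReal.coe_add, add_mul]
  exact add_le_add (h u hu) (h' u hu)

theorem GXp3_up (hv : IsVol g μ) (A : Conn I M N) (q : M) (F : M → ℝ≥0∞) {B : Set (Ec n)}
    (hB : IsOpen B) :
    ∫⁻ x in (extChartAt I q).source ∩ extChartAt I q ⁻¹' B, F x ∂μ ≤
      ∫⁻ z in B ∩ interior (range I),
        ENNReal.ofReal ((cg g A q).vol z) * F ((extChartAt I q).symm z) := by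
  have h1 := (isOpen_extChartAt_preimage' (I := I) q (hB.inter
    (isOpen_interior (s := range I)))).measurableSet
  have h2 : ((extChartAt I q).source ∩ extChartAt I q ⁻¹' B : Set M) =ᵐ[μ]
      ((extChartAt I q).source ∩ extChartAt I q ⁻¹' (B ∩ interior (range I)) : Set M) := by
    filter_upwards [hv.ae_interior] with x hx
    exact propext ⟨fun h => ⟨h.1, h.2, (interior_iff h.1).1 hx⟩, fun h => ⟨h.1, h.2.1⟩⟩
  rw [setLIntegral_congr h2, ← inter_eq_left.2 (inter_subset_left (s := (extChartAt I q).source)),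
    ← Measure.restrict_restrict h1, ← lintegral_indicator h1, vol_lintegral hv q,
    ← lintegral_indicator (hB.inter isOpen_interior).measurableSet]
  refine (setLIntegral_mono' (target_meas q) fun z hz => ?_).trans (setLIntegral_le_lintegral _ _)
  by_cases h : z ∈ B ∩ interior (range I)
  · rw [indicator_of_mem h]
    exact mul_le_mul_right (indicator_le_self _ _ _) _
  · rw [indicator_of_notMem fun h3 => h (by
      have h4 := h3.2
      rwa [mem_preimage, (extChartAt I q).right_inv hz] at h4), mul_zero]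
    exact zero_le

theorem GXp3_loc (hv : IsVol g μ) (A : Conn I M N) (q : M) : ∃ U, IsOpen U ∧ q ∈ U ∧
    ∀ V, IsOpen V → V.Nonempty → V ⊆ U → GXp3_C g μ A U V := by
  obtain ⟨r, r0, hr⟩ := exists_ball (I := I) q
  refine ⟨_, isOpen_extChartAt_preimage' q isOpen_ball, mem_of_mem_nhds (ball_nhds (I := I) q r0),
    fun V hV hn hs => ?_⟩
  obtain ⟨C, hC⟩ : ∃ C, C = ball (extChartAt I q q) r ∩ interior (range I) := ⟨_, rfl⟩
  have c0 : IsOpen C := hC ▸ isOpen_ball.inter isOpen_interior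
  have c1 : C ⊆ closedBall (extChartAt I q q) r ∩ range I :=
    hC ▸ inter_subset_inter ball_subset_closedBall interior_subset
  have c2 := c1.trans hr
  have c3 : C ⊆ cd I q := fun z hz => mem_cd.2 ⟨c2 hz, (hC ▸ hz).2⟩
  have c4 : IsOpen (C ∩ (extChartAt I q).symm ⁻¹' V) :=
    ((continuousOn_extChartAt_symm q).mono c2).isOpen_inter_preimage c0 hV
  have c5 : (C ∩ (extChartAt I q).symm ⁻¹' V).Nonempty := by
    obtain ⟨x, h1, h2⟩ := (dense_interior (I := I)).inter_open_nonempty V hV hn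
    refine ⟨extChartAt I q x, hC ▸ ⟨(hs h1).2, (interior_iff (hs h1).1).1 h2⟩, ?_⟩
    rwa [mem_preimage, (extChartAt I q).left_inv (hs h1).1]
  obtain ⟨K, hK⟩ := Geo.poin (γ := cg g A q) c0
    (hC ▸ (convex_ball _ _).inter I.convex_range.interior)
    (hC ▸ isBounded_ball.subset inter_subset_left) c4 c5 inter_subset_left ((cg_sm g A q).sub c3)
    ((Geo.un_of_compact ((isCompact_closedBall _ _).inter_right I.isClosed_range)
      (fun i j => (gm_smooth g q i j).continuousOn.mono hr) fun z hz => gm_pos g (hr hz)).mono c1)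
  refine ⟨K, fun u hu => ?_⟩
  have e : ∀ z (t : ℝ), ENNReal.ofReal ((cg g A q).vol z * t) =
      ENNReal.ofReal ((cg g A q).vol z) * ENNReal.ofReal t := fun z t =>
    ENNReal.ofReal_mul (Real.sqrt_nonneg _)
  have h1 := hK (pl I q u) ((chart_contDiff hu q).mono c2)
  simp only [e] at h1
  have h2 := vol_lintegral_le (A := A) hv q (fun x => ENNReal.ofReal (‖u x‖ ^ 2)) c0.measurableSet
    c2 MeasurableSet.univ (mapsTo_univ _ _)
  rw [Measure.restrict_univ] at h2
  have h3 := vol_lintegral_le (A := A) hv q (fun x => ENNReal.ofReal (mden g A u u x).re)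
    c0.measurableSet c2 MeasurableSet.univ (mapsTo_univ _ _)
  rw [Measure.restrict_univ, GXp3_en hv hu] at h3
  refine (GXp3_up hv A q _ isOpen_ball).trans (hC ▸ (h1 (h2.trans_lt
    (hv.int (hu.continuous.norm.pow 2)).lintegral_lt_top).ne).trans (mul_le_mul_right (add_le_add
      (vol_lintegral_le hv q (fun x => ENNReal.ofReal (‖u x‖ ^ 2)) c4.measurableSet
        (inter_subset_left.trans c2) hV.measurableSet fun z hz => hz.2)
      (le_trans (le_of_eq (setLIntegral_congr_fun c0.measurableSet fun z hz => ?_)) h3)) _))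
  have h4 := hu.mdifferentiableAt (x := (extChartAt I q).symm z) (by simp)
  simp only [mden_chart (c3 hz) h4 h4]

theorem GXp3_poin [ConnectedSpace M] (hv : IsVol g μ) (A : Conn I M N) {O : Set M} (hO : IsOpen O)
    (hn : O.Nonempty) : ∃ K : ℝ≥0, ∀ u : M → Fb N, ContMDiff I 𝓘(ℝ, Fb N) ∞ u →
      ∫⁻ x, ENNReal.ofReal (‖u x‖ ^ 2) ∂μ ≤
        K * ((∫⁻ x in O, ENNReal.ofReal (‖u x‖ ^ 2) ∂μ) + ENNReal.ofReal (En g μ A u)) := by
  have h1 : IsClopen {x | ∃ V, IsOpen V ∧ x ∈ V ∧ GXp3_C g μ A V O} := by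
    refine ⟨isClosed_of_closure_subset fun q hq => ?_, isOpen_iff_mem_nhds.2 fun x ⟨V, h1, h2, h3⟩ =>
      mem_of_superset (h1.mem_nhds h2) fun y hy => ⟨V, h1, hy, h3⟩⟩
    obtain ⟨U, h1, h2, h3⟩ := GXp3_loc hv A q
    obtain ⟨x, h4, V, h5, h6, h7⟩ := mem_closure_iff.1 hq U h1 h2
    exact ⟨U, h1, h2, GXp3_trans (h3 _ (h1.inter h5) ⟨x, h4, h6⟩ inter_subset_left)
      (GXp3_trans (GXp3_sub inter_subset_right) h7)⟩
  have h2 := h1.eq_univ (hn.mono fun x hx => ⟨O, hO, hx, GXp3_sub Subset.rfl⟩)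
  have h3 : GXp3_C g μ A univ O := isCompact_univ.induction_on (p := fun U => GXp3_C g μ A U O)
    (GXp3_sub (empty_subset _)) (fun _ _ h => GXp3_trans (GXp3_sub h)) (fun _ _ => GXp3_union)
    fun x hx => by
      obtain ⟨V, h4, h5, h6⟩ := h2.ge hx
      exact ⟨V, mem_nhdsWithin_of_mem_nhds (h4.mem_nhds h5), h6⟩
  simpa only [GXp3_C, Measure.restrict_univ] using h3

end Vale.Agent.P088.Gl
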