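import Vale.Agent.P088F.GXl1
import Vale.Agent.P088F.GXp3

/-! P088, part G, file GXl2. Lower semicontinuity on the manifold: cover `M` by finitely many chart domains, use `GXl1_lsc` on
`cd I q` for `cg g A q` (`vol_lintegral`, `vol_lintegral_le`, `mden_chart`, `pl_contDiffOn`, `GXp3_en`); `C` is the number of charts. -/

open MeasureTheory Set Filter Bundle Metric Topology Matrix
open scoped Manifold ContDiff ENNReal NNReal ComplexConjugate

noncomputable section

namespace Vale.Agent.P088.Gl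

variable {n N : ℕ} {H : Type} [TopologicalSpace H] {I : ModelWithCorners ℝ (Ec n) H}
  {M : Type} [TopologicalSpace M] [ChartedSpace H M] [IsManifold I ∞ M] [T2Space M] [CompactSpace M]
  [MeasurableSpace M] [BorelSpace M] {g : Met I M} {μ : Measure M} {A : Conn I M N}

omit [CompactSpace M] in
theorem GXl2_chart (hv : IsVol g μ) (A : Conn I M N) (q : M) (F : M → ℝ≥0∞) :
    ∫⁻ x in I.interior M ∩ (extChartAt I q).source, F x ∂μ =
      ∫⁻ z in cd I q, ENNReal.ofReal ((cg g A q).vol z) * F ((extChartAt I q).symm z) := by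
  rw [← setLIntegral_indicator isOpen_interior'.measurableSet, vol_lintegral hv q,
    ← inter_eq_left.2 (cd_sub I q), ← setLIntegral_indicator (isOpen_cd I q).measurableSet]
  refine setLIntegral_congr_fun (target_meas q) fun z hz => ?_
  by_cases h : z ∈ cd I q
  · rw [indicator_of_mem h, indicator_of_mem (symm_interior h)]
    rfl
  · rw [indicator_of_notMem h, indicator_of_notMem, mul_zero]
    intro h1
    have h2 := (cd_iff ((extChartAt I q).map_target hz)).2 h1
    rw [(extChartAt I q).right_inv hz] at h2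
    exact h h2

theorem GXl2_lsc (hv : IsVol g μ) (A : Conn I M N) : ∃ C : ℝ, 0 ≤ C ∧ ∀ (u : M → Fb N) (E : ℝ),
    0 ≤ E → ContMDiffOn I 𝓘(ℝ, Fb N) ∞ u (I.interior M) →
    (∀ ε > 0, ∃ w : M → Fb N, ContMDiff I 𝓘(ℝ, Fb N) ∞ w ∧
      ∫⁻ x in I.interior M, ENNReal.ofReal (‖w x - u x‖ ^ 2) ∂μ ≤ ENNReal.ofReal ε ∧
      En g μ A w ≤ E + ε) →
    ∫⁻ x in I.interior M, ENNReal.ofReal (mden g A u u x).re ∂μ ≤ ENNReal.ofReal (C * E) := by
  obtain ⟨t, -, ht⟩ := isCompact_univ.elim_nhds_subcover (fun q : M => (extChartAt I q).source)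
    fun q _ => extChartAt_source_mem_nhds q
  refine ⟨t.card, Nat.cast_nonneg _, fun u E _ hu h => ?_⟩
  have hvol : ∀ q z, 0 ≤ (cg g A q).vol z := fun q z => Real.sqrt_nonneg _
  have hden : ∀ (q : M) (w : M → Fb N), ContMDiffOn I 𝓘(ℝ, Fb N) ∞ w (I.interior M) →
      ∫⁻ x in I.interior M ∩ (extChartAt I q).source, ENNReal.ofReal (mden g A w w x).re ∂μ =
        ∫⁻ z in cd I q, ENNReal.ofReal ((cg g A q).vol z *
          ((cg g A q).den (pl I q w) (pl I q w) z).re) := fun q w hw => by
    rw [GXl2_chart hv A]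
    refine setLIntegral_congr_fun (isOpen_cd I q).measurableSet fun z hz => ?_
    have d := (hw.contMDiffAt (isOpen_interior'.mem_nhds (symm_interior hz))).mdifferentiableAt
      (by simp)
    rw [ENNReal.ofReal_mul (hvol q z), mden_chart hz d d]
  have key : ∀ q : M, ∫⁻ x in I.interior M ∩ (extChartAt I q).source,
      ENNReal.ofReal (mden g A u u x).re ∂μ ≤ ENNReal.ofReal E := fun q => by
    rw [hden q u hu]
    refine GXl1_lsc (isOpen_cd I q) (cg_sm g A q)
      (pl_contDiffOn hu (cd_sub I q) fun _ hz => symm_interior hz) fun ε hε => ?_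
    obtain ⟨w, hw, h1, h2⟩ := h ε hε
    refine ⟨pl I q w, pl_contDiffOn hw.contMDiffOn (cd_sub I q) (mapsTo_univ _ _), ?_, ?_⟩
    · refine le_trans (le_of_eq ?_) ((lintegral_mono_set
        (inter_subset_left (t := (extChartAt I q).source))).trans h1)
      rw [GXl2_chart hv A]
      refine lintegral_congr fun z => ?_
      rw [ENNReal.ofReal_mul (hvol q z)]
      rfl
    · rw [← hden q w hw.contMDiffOn]
      exact (setLIntegral_le_lintegral _ _).trans
        ((GXp3_en hv hw).trans_le (ENNReal.ofReal_le_ofReal h2))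
  have hs : I.interior M ⊆ ⋃ q : t, I.interior M ∩ (extChartAt I q.1).source := fun x hx => by
    obtain ⟨q, hq, h1⟩ := mem_iUnion₂.1 (ht (mem_univ x))
    exact mem_iUnion.2 ⟨⟨q, hq⟩, hx, h1⟩
  refine (lintegral_mono_set hs).trans ((lintegral_iUnion_le _ _).trans ?_)
  rw [tsum_fintype, ENNReal.ofReal_mul (Nat.cast_nonneg _), ENNReal.ofReal_natCast,
    ← nsmul_eq_mul, ← Fintype.card_coe, ← Finset.card_univ]
  exact Finset.sum_le_card_nsmul _ _ _ fun q _ => key q

end Vale.Agent.P088.Gl
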