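import Vale.Agent.P088F.GXf

/-! P088, part G, file GXm. Regularity on the manifold. `GXm_op`: cover the compact set `tsupport ζ` by finitely many sets `chart⁻¹ (cd I q)`, take a smooth
partition of unity (`SmoothPartitionOfUnity.exists_isSubordinate`) or argue by induction on compact sets with cutoffs; each piece is
`ps I q` of a test section, use `Geo.Sm.et`, `Geo.Sm.ew_iff`, `EW.mw`, `GXf_add`. `GXm_rep`: in each chart `hR` gives `u q` on `cd I q`
(`EW.mw`, `pair_ps_right`, local integrability from `vol_lintegral_le` or `vol_map`); put `u x = u x (chart x x)`; on overlaps the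
representatives agree (`GXf_euniq` or `IsVol.openPos`); the weak equation follows from `GXm_op` and `GXf_test`. -/

open MeasureTheory Set Filter Bundle Metric Topology Matrix
open scoped Manifold ContDiff ENNReal NNReal ComplexConjugate

noncomputable section

namespace Vale.Agent.P088.Gl

variable {n N : ℕ} {H : Type} [TopologicalSpace H] {I : ModelWithCorners ℝ (Ec n) H}
  {M : Type} [TopologicalSpace M] [ChartedSpace H M] [IsManifold I ∞ M] [T2Space M] [CompactSpace M]
  [MeasurableSpace M] [BorelSpace M] {g : Met I M} {μ : Measure M} {A : Conn I M N}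


omit [T2Space M] [MeasurableSpace M] [BorelSpace M] in
theorem GXm_piece {q : M} {ζ : M → Fb N}
    (hζ : MT I ((extChartAt I q).source ∩ I.interior M) ζ) :
    ∃ φ, ET (cd I q) φ ∧ ps I q φ = ζ := by
  have hs : tsupport ζ ⊆ (extChartAt I q).source := hζ.2.trans inter_subset_left
  have hK : IsCompact (extChartAt I q '' tsupport ζ) :=
    (isClosed_tsupport ζ).isCompact.image_of_continuousOn ((continuousOn_extChartAt q).mono hs)
  have hK' : extChartAt I q '' tsupport ζ ⊆ cd I q := by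
    rintro _ ⟨x, hx, rfl⟩
    exact (cd_iff (hs hx)).2 (hζ.2 hx).2
  obtain ⟨χ, h1, h2, h3, h4, -⟩ := exists_cut hK (isOpen_cd I q) hK'
  refine ⟨_, et_cut (isOpen_cd I q) h1 h2 h3
    (pl_contDiffOn (O := univ) hζ.1.contMDiffOn (cd_sub I q) (mapsTo_univ _ _)), funext fun x => ?_⟩
  by_cases hx : x ∈ (extChartAt I q).source
  · rw [ps_of_mem _ hx, pl, (extChartAt I q).left_inv hx]
    by_cases h5 : x ∈ tsupport ζ
    · rw [(h4 _ ⟨x, h5, rfl⟩).self_of_nhds, one_smul]
    · rw [image_eq_zero_of_notMem_tsupport h5, smul_zero]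
  · rw [ps_of_notMem _ hx, image_eq_zero_of_notMem_tsupport fun h5 => hx (hs h5)]

theorem GXm_one (hv : IsVol g μ) (A : Conn I M N) {q : M} {ζ : M → Fb N}
    (hζ : MT I ((extChartAt I q).source ∩ I.interior M) ζ) :
    ∃ F, MT I (I.interior M) F ∧ MW g μ A (I.interior M) ζ F := by
  obtain ⟨φ, hφ, rfl⟩ := GXm_piece hζ
  have hs := cg_sm g A q
  have hF := (hs.et (isOpen_cd I q) hφ).2.1
  refine ⟨_, hF.mti subset_rfl, EW.mw hv ?_ (isOpen_cd I q) subset_rfl hφ hF _⟩
  refine (hs.ew_iff (isOpen_cd I q) hF.1.continuous.continuousOn).2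
    ⟨hφ.1.contDiffOn, fun z hz => ?_⟩
  rw [smul_neg, neg_neg, smul_inv_smul₀ (hs.vol_pos hz).ne']

theorem GXm_sum (hv : IsVol g μ) (A : Conn I M N) {ι : Type} (s : Finset ι) {ζ : ι → M → Fb N}
    (h : ∀ i, ContMDiff I 𝓘(ℝ, Fb N) ∞ (ζ i) ∧
      ∃ F, MT I (I.interior M) F ∧ MW g μ A (I.interior M) (ζ i) F) :
    ContMDiff I 𝓘(ℝ, Fb N) ∞ (∑ i ∈ s, ζ i) ∧
      ∃ F, MT I (I.interior M) F ∧ MW g μ A (I.interior M) (∑ i ∈ s, ζ i) F := by
  refine Finset.sum_induction ζ (fun u => ContMDiff I 𝓘(ℝ, Fb N) ∞ u ∧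
    ∃ F, MT I (I.interior M) F ∧ MW g μ A (I.interior M) u F) ?_ ?_ fun i _ => h i
  · rintro u w ⟨hu, F, hF, h1⟩ ⟨hw, G, hG, h2⟩
    refine ⟨hu.add hw, F + G, ⟨hF.1.add hG.1,
      (tsupport_add _ _).trans (union_subset hF.2 hG.2)⟩, (hu.add hw).contMDiffOn, fun ξ hξ => ?_⟩
    rw [GXf_add hv hu hw hξ.1, h1.2 ξ hξ, h2.2 ξ hξ, ← integral_add
      (hv.int (hF.1.continuous.inner hξ.1.continuous))
      (hv.int (hG.1.continuous.inner hξ.1.continuous))]
    simp only [Pi.add_apply, inner_add_left]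
  · refine ⟨contMDiff_const, 0, ⟨contMDiff_const, by simp⟩, contMDiffOn_const, fun ξ _ => ?_⟩
    rw [form_eq]
    refine integral_congr_ae (ae_of_all _ fun x => ?_)
    simp only [Pi.zero_apply, inner_zero_left]
    exact mden_zero_left ξ (by simp)

theorem GXm_op (hv : IsVol g μ) (A : Conn I M N) {ζ : M → Fb N} (hζ : MT I (I.interior M) ζ) :
    ∃ F, MT I (I.interior M) F ∧ MW g μ A (I.interior M) ζ F := by
  have ho : ∀ q : M, IsOpen ((extChartAt I q).source ∩ I.interior M) := fun q =>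
    (isOpen_extChartAt_source q).inter isOpen_interior'
  obtain ⟨t, ht⟩ := (isClosed_tsupport ζ).isCompact.elim_finite_subcover _ ho
    fun x hx => mem_iUnion.2 ⟨x, mem_extChartAt_source x, hζ.2 hx⟩
  obtain ⟨f, hf⟩ := SmoothPartitionOfUnity.exists_isSubordinate I (isClosed_tsupport ζ)
    (fun q : t => (extChartAt I q.1).source ∩ I.interior M) (fun q => ho q.1)
    fun x hx => by
      obtain ⟨q, hq, h⟩ := mem_iUnion₂.1 (ht hx)
      exact mem_iUnion.2 ⟨⟨q, hq⟩, h⟩
  have e : ζ = ∑ q : t, fun x => f q x • ζ x := funext fun x => by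
    rw [Finset.sum_apply, ← Finset.sum_smul]
    by_cases hx : x ∈ tsupport ζ
    · rw [← finsum_eq_sum_of_fintype, f.sum_eq_one hx, one_smul]
    · rw [image_eq_zero_of_notMem_tsupport hx, smul_zero]
  rw [e]
  refine (GXm_sum hv A Finset.univ fun q => ?_).2
  have h1 : ContMDiff I 𝓘(ℝ, Fb N) ∞ fun x => f q x • ζ x := (f q).contMDiff.smul hζ.1
  exact ⟨h1, GXm_one hv A ⟨h1, (tsupport_smul_subset_left _ _).trans (hf q)⟩⟩

theorem GXm_loc (hv : IsVol g μ) {k : M → Fb N} (hk : Integrable k μ) (q : M) :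
    LocallyIntegrableOn (pl I q k) (cd I q) := by
  have h1 : Integrable k (μ.restrict (extChartAt I q).source) := hk.restrict
  rw [hv q] at h1
  have h2 := h1.comp_aemeasurable (symm_aem q _)
  have hc := dens_cont g q
  have h3 := (integrable_withDensity_iff_integrable_smul₀'
    (hc.aemeasurable (target_meas q)).ennreal_ofReal
    (ae_of_all _ fun _ => ENNReal.ofReal_lt_top)).1 h2
  refine (locallyIntegrableOn_iff (isOpen_cd I q).isLocallyClosed).2 fun K hK hK' => ?_
  have hp : ∀ z ∈ K, √(gm g q z).det ≠ 0 := fun z hz =>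
    (Real.sqrt_pos.2 (gm_pos g (cd_sub I q (hK hz))).det_pos).ne'
  have h4 := (IntegrableOn.mono_set h3 (hK.trans (cd_sub I q))).continuousOn_smul
    ((hc.mono (hK.trans (cd_sub I q))).inv₀ hp) hK'
  refine h4.congr_fun (fun z hz => ?_) hK'.measurableSet
  simp only [Pi.inv_apply]
  rw [ENNReal.toReal_ofReal (Real.sqrt_nonneg _), inv_smul_smul₀ (hp z hz)]
  rfl

theorem GXm_rep (hR : GR2 n N) (hv : IsVol g μ) (A : Conn I M N) {k f : M → Fb N}
    (hk : MemLp k 2 μ) (hf : ContMDiff I 𝓘(ℝ, Fb N) ∞ f)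
    (h : ∀ φ F, MT I (I.interior M) φ → MT I (I.interior M) F → MW g μ A (I.interior M) φ F →
      ∫ x, inner ℂ (k x) (F x) ∂μ = ∫ x, inner ℂ (f x) (φ x) ∂μ) :
    ∃ u, MW g μ A (I.interior M) u f ∧ k =ᵐ[μ] u := by
  have := hv.finite
  have := hv.openPos
  have := I.secondCountableTopology
  have := ChartedSpace.secondCountable_of_sigmaCompact H M
  obtain ⟨u, h1, h2⟩ := P088F.glue μ (isOpen_interior' (I := I)) (u := k)
    (fun x w => ContMDiffAt I 𝓘(ℝ, Fb N) ∞ w x) fun q hq => by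
      obtain ⟨w, a1, a2⟩ := hR (cd I q) (cg g A q) (pl I q k) (pl I q f) (isOpen_cd I q)
        (cg_sm g A q) (GXm_loc hv (hk.integrable one_le_two) q)
        (pl_contDiffOn (O := univ) hf.contMDiffOn (cd_sub I q) (mapsTo_univ _ _))
        fun φ F hφ hF hw => by
          rw [← pair_ps_right hv A k (hF.2.2.trans (cd_sub I q)),
            ← pair_ps_right hv A f (hφ.2.2.trans (cd_sub I q))]
          exact h _ _ (hφ.mti subset_rfl) (hF.mti subset_rfl)
            (EW.mw hv hw (isOpen_cd I q) subset_rfl hφ hF _)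
      have ho : IsOpen ((extChartAt I q).source ∩ I.interior M) :=
        (isOpen_extChartAt_source q).inter isOpen_interior'
      have hq' : q ∈ (extChartAt I q).source ∩ I.interior M := ⟨mem_extChartAt_source q, hq⟩
      have a3 : ContMDiffOn I 𝓘(ℝ, Fb N) ∞ (fun x => w (extChartAt I q x))
          ((extChartAt I q).source ∩ I.interior M) :=
        a1.1.contMDiffOn.comp ((contMDiffOn_extChartAt (x := q)).mono
          (inter_subset_left.trans (extChartAt_source I q).subset)) fun x hx => (cd_iff hx.1).2 hx.2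
      refine ⟨_, _, ho, hq', a3.continuousOn, a3.contMDiffAt (ho.mem_nhds hq'), ?_⟩
      have a4 := hv.ae_source (p := q) (P := fun x => x ∈ I.interior M → k x = w (extChartAt I q x))
        (by
          filter_upwards [ae_restrict_mem (target_meas q), ae_restrict_of_ae a2] with z b1 b2 b3
          have b4 := (cd_iff ((extChartAt I q).map_target b1)).2 b3
          rw [(extChartAt I q).right_inv b1] at b4 ⊢
          exact b2 b4)
      filter_upwards [(ae_restrict_iff' (isOpen_extChartAt_source q).measurableSet).1 a4]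
        with x b1 b2
      exact b1 b2.1 b2.2
  have h3 : ContMDiffOn I 𝓘(ℝ, Fb N) ∞ u (I.interior M) := fun x hx => by
    obtain ⟨w, a1, a2⟩ := h1 x hx
    exact (a1.congr_of_eventuallyEq a2).contMDiffWithinAt
  have h4 : k =ᵐ[μ] u := by
    filter_upwards [h2, hv.ae_interior] with x a1 a2
    exact a1 a2
  refine ⟨u, ⟨h3, fun ζ hζ => ?_⟩, h4⟩
  obtain ⟨F, hF, hw⟩ := GXm_op hv A hζ
  rw [GXf_test hζ hF hw h3, ← h ζ F hζ hF hw]
  refine integral_congr_ae ?_
  filter_upwards [h4] with x hx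
  rw [hx]

end Vale.Agent.P088.Gl
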