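import Vale.Agent.P088F.GXb

/-! P088, part G, file GXp1. A Poincare inequality in `L¹` on convex sets. For `x ∈ C`, `y ∈ C'`:
`f x ≤ f y + 2 R ∫ t in 0..1, ‖fderiv f (y + t • (x - y))‖`; integrate over `C × C'` (Tonelli, `fderiv` is continuous on `C`);
for `t ≥ 1 / 2` substitute in `x`, for `t ≤ 1 / 2` in `y` (homotheties with image in `C`, `Measure.addHaar_image_homothety`,
`lintegral_image_eq_lintegral_abs_det_fderiv_mul` or `Measure.map_addHaar_smul`). -/

open MeasureTheory Set Filter Bundle Metric Topology Matrix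
open scoped Manifold ContDiff ENNReal NNReal ComplexConjugate

noncomputable section

namespace Vale.Agent.P088.Gl

variable {n N : ℕ} {γ : Geo n N} {Ω C : Set (Ec n)}

theorem GXp1_scale {G : Ec n → ℝ≥0∞} (hG : Measurable G) {a : ℝ} (ha : 1 / 2 ≤ a) (b : Ec n) :
    ∫⁻ x, G (a • x + b) ≤ 2 ^ n * ∫⁻ x, G x := by
  have a0 : 0 < a := lt_of_lt_of_le (by norm_num) ha
  have h1 := lintegral_map (μ := volume) (f := fun x : Ec n => G (x + b))
    (hG.comp (measurable_add_const b)) (measurable_const_smul a)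
  rw [← h1, Measure.map_addHaar_smul _ a0.ne', lintegral_smul_measure, lintegral_add_right_eq_self,
    finrank_euclideanSpace_fin, smul_eq_mul]
  refine mul_le_mul_left ?_ _
  rw [← ENNReal.ofReal_ofNat, ← ENNReal.ofReal_pow (by norm_num)]
  refine ENNReal.ofReal_le_ofReal ?_
  rw [abs_of_pos (by positivity), ← inv_pow]
  exact pow_le_pow_left₀ (by positivity) (inv_le_of_inv_le₀ two_pos (by linarith)) n

theorem GXp1_seg (hC : IsOpen C) (hc : Convex ℝ C) {f : Ec n → ℝ} (hf : ContDiffOn ℝ 1 f C)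
    {x y : Ec n} (hx : x ∈ C) (hy : y ∈ C) : ENNReal.ofReal (f x) ≤ ENNReal.ofReal (f y) +
      ‖x - y‖ₑ * ∫⁻ t in Icc (0 : ℝ) 1,
        C.indicator (fun z => ‖fderiv ℝ f z‖ₑ) (t • x + (1 - t) • y) := by
  have hm : ∀ t ∈ Icc (0 : ℝ) 1, t • x + (1 - t) • y ∈ C := fun t ht =>
    hc hx hy ht.1 (sub_nonneg.2 ht.2) (add_sub_cancel t 1)
  have h1 := enorm_sub_le_lintegral_deriv_of_contDiffOn_Icc
    (f := fun t : ℝ => f (t • x + (1 - t) • y)) (hf.comp (by fun_prop) hm) zero_le_one
  simp only [one_smul, sub_self, zero_smul, add_zero, sub_zero, zero_add] at h1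
  calc ENNReal.ofReal (f x) = ENNReal.ofReal (f y + (f x - f y)) := by rw [add_sub_cancel]
    _ ≤ ENNReal.ofReal (f y) + ‖f x - f y‖ₑ :=
        ENNReal.ofReal_add_le.trans (add_le_add le_rfl (Real.ofReal_le_enorm _))
    _ ≤ _ := by
        refine add_le_add le_rfl (h1.trans ?_)
        rw [← lintegral_const_mul' _ _ enorm_ne_top]
        refine setLIntegral_mono' measurableSet_Icc fun t ht => ?_
        have h2 : HasDerivAt (fun t : ℝ => t • x + (1 - t) • y) (x - y) t := by
          have := ((hasDerivAt_id t).smul_const x).fun_add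
            (((hasDerivAt_id t).const_sub 1).smul_const y)
          simpa [sub_eq_add_neg] using this
        have h3 := ((hf.contDiffAt (hC.mem_nhds (hm t ht))).differentiableAt
          one_ne_zero).hasFDerivAt.comp_hasDerivAt t h2
        have h4 : deriv (fun t : ℝ => f (t • x + (1 - t) • y)) t = _ := h3.deriv
        rw [h4, indicator_of_mem (hm t ht), mul_comm]
        exact ContinuousLinearMap.le_opENorm _ _

theorem GXp1_dbl {G : Ec n → ℝ≥0∞} (hG : Measurable G) {C' : Set (Ec n)} (hs : C' ⊆ C) :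
    ∫⁻ x in C, ∫⁻ y in C', ∫⁻ t in Icc (0 : ℝ) 1, G (t • x + (1 - t) • y) ≤
      (2 ^ n * ∫⁻ x, G x) * volume C := by
  have hm : Measurable fun p : (Ec n × Ec n) × ℝ => G (p.2 • p.1.1 + (1 - p.2) • p.1.2) :=
    hG.comp (by fun_prop)
  rw [← lintegral_prod (μ := volume.restrict C) (ν := volume.restrict C')
    (fun p : Ec n × Ec n => ∫⁻ t in Icc (0 : ℝ) 1, G (t • p.1 + (1 - t) • p.2))
    hm.lintegral_prod_right'.aemeasurable, lintegral_lintegral_swap hm.aemeasurable]
  refine (setLIntegral_mono' measurableSet_Icc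
    (g := fun _ => (2 ^ n * ∫⁻ x, G x) * volume C) fun t _ => ?_).trans (by simp)
  have h1 : Measurable fun p : Ec n × Ec n => G (t • p.1 + (1 - t) • p.2) := hG.comp (by fun_prop)
  rcases le_total (1 / 2) t with h | h
  · rw [lintegral_prod_symm _ h1.aemeasurable]
    refine (lintegral_mono fun y => (setLIntegral_le_lintegral _ _).trans
      (GXp1_scale hG h _)).trans ?_
    rw [setLIntegral_const]
    exact mul_le_mul_right (measure_mono hs) _
  · rw [lintegral_prod _ h1.aemeasurable]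
    refine (lintegral_mono fun x => (setLIntegral_le_lintegral _ _).trans ?_).trans
      (setLIntegral_const _ _).le
    simp only [add_comm (t • x)]
    exact GXp1_scale hG (by linarith) _

theorem GXp1_poin (hC : IsOpen C) (hc : Convex ℝ C) (hb : Bornology.IsBounded C) {C' : Set (Ec n)}
    (ho : IsOpen C') (hn : C'.Nonempty) (hs : C' ⊆ C) : ∃ K : ℝ≥0, ∀ f : Ec n → ℝ,
      ContDiffOn ℝ 1 f C → ∫⁻ z in C, ENNReal.ofReal (f z) ≤
        K * ((∫⁻ z in C', ENNReal.ofReal (f z)) + ∫⁻ z in C, ‖fderiv ℝ f z‖ₑ) := by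
  have v1 : volume C ≠ ⊤ := hb.measure_lt_top.ne
  have v2 : volume C' ≠ ⊤ := ne_top_of_le_ne_top v1 (measure_mono hs)
  have v3 : volume C' ≠ 0 := (ho.measure_pos volume hn).ne'
  have d1 : ediam C ≠ ⊤ := hb.ediam_ne_top
  have k1 : (1 + ediam C * 2 ^ n) * volume C / volume C' ≠ ⊤ := by finiteness
  refine ⟨((1 + ediam C * 2 ^ n) * volume C / volume C').toNNReal, fun f hf => ?_⟩
  rw [ENNReal.coe_toNNReal k1]
  have hG : Measurable (C.indicator fun z => ‖fderiv ℝ f z‖ₑ) :=
    (measurable_fderiv ℝ f).enorm.indicator hC.measurableSet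
  have h1 := GXp1_dbl hG hs
  rw [lintegral_indicator hC.measurableSet] at h1
  have h2 := fun x (hx : x ∈ C) y (hy : y ∈ C') => GXp1_seg hC hc hf hx (hs hy)
  generalize C.indicator (fun z => ‖fderiv ℝ f z‖ₑ) = G at hG h1 h2
  have h3 : ∀ x ∈ C, ENNReal.ofReal (f x) * volume C' ≤ (∫⁻ z in C', ENNReal.ofReal (f z)) +
      ediam C * ∫⁻ y in C', ∫⁻ t in Icc (0 : ℝ) 1, G (t • x + (1 - t) • y) := by
    intro x hx
    have hm : Measurable fun p : Ec n × ℝ => G (p.2 • x + (1 - p.2) • p.1) := hG.comp (by fun_prop)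
    rw [← setLIntegral_const, ← lintegral_const_mul' _ _ d1,
      ← lintegral_add_right _ (hm.lintegral_prod_right'.const_mul _)]
    refine setLIntegral_mono' ho.measurableSet fun y hy => (h2 x hx y hy).trans
      (add_le_add le_rfl (mul_le_mul_left ?_ _))
    rw [← edist_eq_enorm_sub]
    exact edist_le_ediam_of_mem hx (hs hy)
  have h4 := setLIntegral_mono' (μ := volume) hC.measurableSet h3
  rw [lintegral_mul_const' _ _ v2, lintegral_add_left measurable_const, setLIntegral_const,
    lintegral_const_mul' _ _ d1] at h4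
  rw [← ENNReal.mul_div_right_comm, ENNReal.le_div_iff_mul_le (Or.inl v3) (Or.inl v2)]
  refine (h4.trans (add_le_add le_rfl (mul_le_mul_right h1 _))).trans ?_
  generalize ∫⁻ z in C', ENNReal.ofReal (f z) = A
  generalize ∫⁻ z in C, ‖fderiv ℝ f z‖ₑ = I
  calc _ ≤ A * volume C + ediam C * (2 ^ n * I * volume C) +
        (I * volume C + ediam C * 2 ^ n * volume C * A) := le_self_add
    _ = _ := by ring

end Vale.Agent.P088.Gl
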