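import Vale.Agent.P088F.GXp1
import Vale.Agent.P088F.FinA
import Vale.Agent.P088.Calc

/-! P088, part G, file GXp2. The Poincare inequality for a connection. With `f = ‖u‖ ^ 2` one has
`fderiv f z (bv i) = 2 re ⟪u, D i u⟫` (`a` is skew), so `‖fderiv f z‖ ≤ δ ‖u‖ ^ 2 + δ⁻¹ n ∑ ‖D i u‖ ^ 2`; absorb.
`Geo.un_of_compact`: continuity of the inverse matrix and of the determinant, minimum of the positive form on `K × sphere`
(or apply the real bound to each real coordinate, `ipm_basis`, `re_inner`). -/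

open MeasureTheory Set Filter Bundle Metric Topology Matrix
open scoped Manifold ContDiff ENNReal NNReal ComplexConjugate

noncomputable section

namespace Vale.Agent.P088.Gl

variable {n N : ℕ} {γ : Geo n N} {Ω C : Set (Ec n)}


theorem Geo.Un.mono (h : γ.Un C) (hs : Ω ⊆ C) : γ.Un Ω := by
  obtain ⟨κ, h0, h1⟩ := h
  exact ⟨κ, h0, fun z hz => h1 z (hs hz)⟩

theorem GXp2_re (a : Matrix (Fin n) (Fin n) ℝ) (X : Fin n → Fb N) :
    (∑ i, ∑ j, a i j • inner ℂ (X i) (X j) : ℂ).re = ipm a X X := by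
  simp only [ipm, Complex.re_sum, Complex.smul_re, re_inner, smul_eq_mul]

theorem GXp2_one (X : Fin n → Fb N) :
    ipm (1 : Matrix (Fin n) (Fin n) ℝ) X X = ∑ i, ‖X i‖ ^ 2 := by
  refine Finset.sum_congr rfl fun i _ => ?_
  rw [Finset.sum_eq_single i (fun j _ hj => by rw [Matrix.one_apply_ne' hj, zero_mul])
    (fun h => absurd (Finset.mem_univ i) h), Matrix.one_apply_eq, one_mul,
    real_inner_self_eq_norm_sq]

theorem Geo.un_of_compact (hK : IsCompact C) (hg : ∀ i j, ContinuousOn (fun z => γ.g z i j) C)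
    (hp : ∀ z ∈ C, (γ.g z).PosDef) : γ.Un C := by
  have hG : ContinuousOn γ.g C := continuousOn_pi.2 fun i => continuousOn_pi.2 fun j => hg i j
  have hd : ContinuousOn (fun z => (γ.g z).det) C :=
    continuous_id.matrix_det.comp_continuousOn hG
  have hadj : ContinuousOn (fun z => (γ.g z).adjugate) C :=
    continuous_id.matrix_adjugate.comp_continuousOn hG
  have hi : ∀ i j, ContinuousOn (fun z => (γ.g z)⁻¹ i j) C := fun i j => by
    simp only [Matrix.inv_def, Ring.inverse_eq_inv', Matrix.smul_apply, smul_eq_mul]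
    exact (hd.inv₀ fun z hz => (hp z hz).det_pos.ne').mul
      (continuousOn_pi.1 (continuousOn_pi.1 hadj i) j)
  have hv : ContinuousOn γ.vol C := hd.sqrt
  obtain ⟨c1, p1, b1⟩ := hK.exists_forall_le' hv (a := 0) fun z hz =>
    Real.sqrt_pos.2 (hp z hz).det_pos
  obtain ⟨c2, p2, b2⟩ := hK.exists_forall_le' (hv.inv₀ fun z hz =>
    (Real.sqrt_pos.2 (hp z hz).det_pos).ne') (a := 0) fun z hz =>
      inv_pos.2 (Real.sqrt_pos.2 (hp z hz).det_pos)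
  obtain ⟨c3, p3, b3⟩ := coercive_cpt hK hi fun z hz => (hp z hz).inv
  refine ⟨min c1 (min c2 c3), lt_min p1 (lt_min p2 p3), fun z hz => ⟨(min_le_left _ _).trans
    (b1 z hz), ?_, fun X => ?_⟩⟩
  · exact (le_inv_comm₀ (lt_min p1 (lt_min p2 p3)) (Real.sqrt_pos.2 (hp z hz).det_pos)).1
      (((min_le_right _ _).trans (min_le_left _ _)).trans (b2 z hz))
  · rw [GXp2_re]
    refine (mul_le_mul_of_nonneg_right ((min_le_right _ _).trans (min_le_right _ _))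
      (Finset.sum_nonneg fun i _ => sq_nonneg _)).trans ?_
    rw [← GXp2_one, ipm_basis, ipm_basis, Finset.mul_sum]
    refine Finset.sum_le_sum fun k _ => ?_
    rw [Matrix.one_mulVec]
    exact b3 z hz _

theorem Geo.den_nonneg {z : Ec n} (hp : (γ.g z).PosDef) (u : Ec n → Fb N) :
    0 ≤ (γ.den u u z).re := by
  rw [Geo.den, GXp2_re]
  exact ipm_nonneg hp.inv _

theorem GXp2_skew {a : Op N} (ha : star a = -a) (x : Fb N) : inner ℝ x (a x) = 0 := by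
  have h : inner ℝ x (a x) + inner ℝ (a x) x = 0 := by
    rw [← re_inner, ← re_inner, ← ContinuousLinearMap.adjoint_inner_right a x x,
      ← ContinuousLinearMap.star_eq_adjoint, ha, show (-a) x = -a x from rfl, inner_neg_right,
      Complex.neg_re, add_neg_cancel]
  rw [real_inner_comm x (a x)] at h
  linarith

theorem GXp2_op (L : Ec n →L[ℝ] ℝ) : ‖L‖ ≤ ∑ i, |L (bv i)| := by
  refine L.opNorm_le_bound (Finset.sum_nonneg fun i _ => abs_nonneg _) fun v => ?_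
  conv_lhs => rw [bv_sum v, map_sum]
  rw [Finset.sum_mul]
  refine (norm_sum_le _ _).trans (Finset.sum_le_sum fun i _ => ?_)
  rw [map_smul, norm_smul, mul_comm, Real.norm_eq_abs (L _)]
  exact mul_le_mul_of_nonneg_left (PiLp.norm_apply_le v i) (abs_nonneg _)

theorem GXp2_der {u : Ec n → Fb N} {z : Ec n} (hu : DifferentiableAt ℝ u z)
    (ha : ∀ i, star (γ.a i z) = -γ.a i z) {δ : ℝ} (hδ : 0 < δ) :
    ‖fderiv ℝ (fun y => ‖u y‖ ^ 2) z‖ ≤ n * δ * ‖u z‖ ^ 2 + δ⁻¹ * ∑ i, ‖γ.D i u z‖ ^ 2 := by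
  refine (GXp2_op _).trans ?_
  have e : (n : ℝ) * δ * ‖u z‖ ^ 2 = ∑ _i : Fin n, δ * ‖u z‖ ^ 2 := by
    simp [mul_assoc]
  rw [e, Finset.mul_sum, ← Finset.sum_add_distrib]
  refine Finset.sum_le_sum fun i _ => ?_
  have h1 : fderiv ℝ (fun y => ‖u y‖ ^ 2) z (bv i) = 2 * inner ℝ (u z) (γ.D i u z) := by
    rw [hu.hasFDerivAt.norm_sq.fderiv, Geo.D, inner_add_right, GXp2_skew (ha i), add_zero]
    simp
  rw [h1, abs_mul, abs_two]
  have h2 := abs_real_inner_le_norm (u z) (γ.D i u z)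
  have h3 : 2 * (‖u z‖ * ‖γ.D i u z‖) ≤ δ * ‖u z‖ ^ 2 + δ⁻¹ * ‖γ.D i u z‖ ^ 2 := by
    have h4 : δ * ‖u z‖ ^ 2 + δ⁻¹ * ‖γ.D i u z‖ ^ 2 - 2 * (‖u z‖ * ‖γ.D i u z‖) =
        δ⁻¹ * (δ * ‖u z‖ - ‖γ.D i u z‖) ^ 2 := by
      field_simp
      ring
    have h5 : 0 ≤ δ⁻¹ * (δ * ‖u z‖ - ‖γ.D i u z‖) ^ 2 := by positivity
    linarith
  linarith

theorem GXp2_abs {A A' J : ℝ≥0∞} {c p ε L : ℝ≥0} (hA : A ≠ ⊤) (hε : c * ε ≤ 2⁻¹)
    (h : A ≤ c * (p * A' + (ε * A + L * J))) : A ≤ (2 * (c * (p + L)) : ℝ≥0) * (A' + J) := by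
  have h1 : (c : ℝ≥0∞) * ε ≤ 2⁻¹ := by
    have := ENNReal.coe_le_coe.2 hε
    rwa [ENNReal.coe_mul, ENNReal.coe_inv two_ne_zero, ENNReal.coe_ofNat] at this
  have h2 : A / 2 + A / 2 ≤ c * (p + L) * (A' + J) + A / 2 := by
    rw [ENNReal.add_halves]
    calc A ≤ c * (p * A' + L * J) + c * ε * A := h.trans (le_of_eq (by ring))
      _ ≤ c * ((p + L) * A' + (p + L) * J) + 2⁻¹ * A := by
          gcongr
          · exact le_self_add
          · exact le_add_self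
      _ = _ := by rw [ENNReal.div_eq_inv_mul]; ring
  have h3 := (ENNReal.add_le_add_iff_right (ENNReal.div_ne_top hA two_ne_zero)).1 h2
  calc A = A / 2 + A / 2 := (ENNReal.add_halves A).symm
    _ ≤ c * (p + L) * (A' + J) + c * (p + L) * (A' + J) := add_le_add h3 h3
    _ = _ := by push_cast; ring

theorem GXp2_le {S : Set (Ec n)} (hS : MeasurableSet S) {f g : Ec n → ℝ} {k : ℝ≥0}
    (h : ∀ z ∈ S, f z ≤ k * g z) :
    ∫⁻ z in S, ENNReal.ofReal (f z) ≤ k * ∫⁻ z in S, ENNReal.ofReal (g z) := by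
  rw [← lintegral_const_mul' _ _ ENNReal.coe_ne_top]
  refine setLIntegral_mono' hS fun z hz => (ENNReal.ofReal_le_ofReal (h z hz)).trans ?_
  rw [ENNReal.ofReal_mul k.coe_nonneg, ENNReal.ofReal_coe_nnreal]

theorem Geo.poin (hC : IsOpen C) (hc : Convex ℝ C) (hb : Bornology.IsBounded C) {C' : Set (Ec n)}
    (ho : IsOpen C') (hn : C'.Nonempty) (hs : C' ⊆ C) (h1 : γ.Sm C) (h2 : γ.Un C) :
    ∃ K : ℝ≥0, ∀ u : Ec n → Fb N, ContDiffOn ℝ ∞ u C →
      ∫⁻ z in C, ENNReal.ofReal (γ.vol z * ‖u z‖ ^ 2) ≠ ⊤ →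
      ∫⁻ z in C, ENNReal.ofReal (γ.vol z * ‖u z‖ ^ 2) ≤
        K * ((∫⁻ z in C', ENNReal.ofReal (γ.vol z * ‖u z‖ ^ 2)) +
          ∫⁻ z in C, ENNReal.ofReal (γ.vol z * (γ.den u u z).re)) := by
  obtain ⟨K, hK⟩ := GXp1_poin hC hc hb ho hn hs
  obtain ⟨κ, hκ, hb⟩ := h2
  obtain ⟨k, hk⟩ : ∃ k : ℝ≥0, (k : ℝ) = κ⁻¹ := ⟨⟨κ⁻¹, by positivity⟩, rfl⟩
  obtain ⟨δ, hδ, hδ1⟩ : ∃ δ : ℝ≥0, 0 < δ ∧ k * K * (n * δ * k) ≤ 2⁻¹ := by
    refine ⟨(2 * (k * K * n * k + 1))⁻¹, by positivity, ?_⟩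
    rw [show k * K * (n * (2 * (k * K * n * k + 1))⁻¹ * k) =
      2⁻¹ * ((k * K * n * k) / (k * K * n * k + 1)) by field_simp]
    exact mul_le_of_le_one_right zero_le (div_le_one_of_le₀ le_self_add zero_le)
  refine ⟨2 * (k * K * (k + δ⁻¹ * k * k)), fun u hu hA => GXp2_abs hA hδ1 ?_⟩
  have hlow : ∀ z ∈ C, ‖u z‖ ^ 2 ≤ k * (γ.vol z * ‖u z‖ ^ 2) := fun z hz => by
    rw [hk, ← mul_assoc]
    exact le_mul_of_one_le_left (sq_nonneg _) ((one_le_inv_mul₀ hκ).2 (hb z hz).1)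
  have hm : AEMeasurable (fun z => ENNReal.ofReal (γ.vol z * ‖u z‖ ^ 2)) (volume.restrict C) :=
    ((h1.vol.continuousOn.mul (hu.continuousOn.norm.pow 2)).aemeasurable
      hC.measurableSet).ennreal_ofReal
  have e1 := GXp2_le (f := fun z => γ.vol z * ‖u z‖ ^ 2) (g := fun z => ‖u z‖ ^ 2) (k := k)
    hC.measurableSet fun z hz => by
      rw [hk]
      exact mul_le_mul_of_nonneg_right (hb z hz).2.1 (sq_nonneg _)
  have e2 := hK (fun z => ‖u z‖ ^ 2) ((hu.norm_sq ℝ).of_le (by simp))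
  have e3 := GXp2_le ho.measurableSet fun z hz => hlow z (hs hz)
  have e4 : ∫⁻ z in C, ‖fderiv ℝ (fun y => ‖u y‖ ^ 2) z‖ₑ ≤
      (n * δ * k : ℝ≥0) * (∫⁻ z in C, ENNReal.ofReal (γ.vol z * ‖u z‖ ^ 2)) +
        (δ⁻¹ * k * k : ℝ≥0) * ∫⁻ z in C, ENNReal.ofReal (γ.vol z * (γ.den u u z).re) := by
    rw [← lintegral_const_mul' _ _ ENNReal.coe_ne_top, ← lintegral_const_mul' _ _ ENNReal.coe_ne_top,
      ← lintegral_add_left' (hm.const_mul _)]
    refine setLIntegral_mono' hC.measurableSet fun z hz => ?_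
    have d0 : DifferentiableAt ℝ u z :=
      (hu.contDiffAt (hC.mem_nhds hz)).differentiableAt (by simp)
    have d1 := GXp2_der (γ := γ) d0 (fun i => h1.skew i z hz) (δ := δ) hδ
    have d2 : ∑ i, ‖γ.D i u z‖ ^ 2 ≤ k * (k * (γ.vol z * (γ.den u u z).re)) := by
      have d3 : κ * ∑ i, ‖γ.D i u z‖ ^ 2 ≤ (γ.den u u z).re := (hb z hz).2.2 _
      have d4 : (γ.den u u z).re ≤ κ⁻¹ * (γ.vol z * (γ.den u u z).re) := by
        rw [← mul_assoc]
        exact le_mul_of_one_le_left (Geo.den_nonneg (h1.pos z hz) u)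
          ((one_le_inv_mul₀ hκ).2 (hb z hz).1)
      rw [hk, le_inv_mul_iff₀ hκ]
      exact d3.trans d4
    have d5 := hlow z hz
    rw [← ofReal_norm, ← ENNReal.ofReal_coe_nnreal, ← ENNReal.ofReal_coe_nnreal,
      ← ENNReal.ofReal_mul (NNReal.coe_nonneg _), ← ENNReal.ofReal_mul (NNReal.coe_nonneg _)]
    refine (ENNReal.ofReal_le_ofReal (d1.trans ?_)).trans ENNReal.ofReal_add_le
    push_cast
    rw [mul_assoc _ (k : ℝ), mul_assoc _ (k : ℝ), mul_assoc _ (k : ℝ)]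
    gcongr
  calc _ ≤ _ := e1
    _ ≤ _ := mul_le_mul_right e2 _
    _ ≤ _ := by
      rw [ENNReal.coe_mul k K, mul_assoc]
      gcongr

end Vale.Agent.P088.Gl
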