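import Vale.Agent.P088F.GXt2
import Vale.Agent.P088F.GXf
import Vale.Agent.P088F.GXp2

/-! P088, part G, file GXq1. The form and the embedding. Test sections are bounded with compact support in the ball, where `vol` is continuous, so they
are in `MemLp _ 2 (lom γ r)`; `MemLp.toLp`, `MemLp.toLp_add`, `Lp.ext`. Inner products: `WithLp.prod_inner_apply`, `L2.inner_def`,
`integral_withDensity_eq_integral_toReal_smul₀` style lemmas. -/

open MeasureTheory Set Filter Bundle Metric Topology Matrix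
open scoped Manifold ContDiff ENNReal NNReal ComplexConjugate

noncomputable section

namespace Vale.Agent.P088.Gl

variable {n N : ℕ} [NeZero n] {M : Type} [TopologicalSpace M]
  [ChartedSpace (EuclideanHalfSpace n) M] [IsManifold (𝓡∂ n) ∞ M] [T2Space M] [CompactSpace M]
  {Γ : Set M} {g : Met (𝓡∂ n) M} {A : Conn (𝓡∂ n) M N} {p : M} {r : ℝ} {τ θ : Ec n → Ec n}
  {W : Ec n → Op N} {γ : Geo n N}
  [MeasurableSpace M] [BorelSpace M] {μ : Measure M}


omit [MeasurableSpace M] [BorelSpace M] in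
theorem XP.um_sm (h : XP Γ g A p r τ θ W γ) (d : XD (n := n) M N r) :
    ContMDiff (𝓡∂ n) 𝓘(ℝ, Fb N) ∞ (um p r τ θ W d.1) :=
  d.2.1.1.add (h.xps_sm d.2.2)

omit [MeasurableSpace M] [BorelSpace M] in
theorem XP.sb_sm (h : XP Γ g A p r τ θ W γ) (d : XD (n := n) M N r) :
    ContDiffOn ℝ ∞ (sb p r τ W d.1) (ball 0 r) :=
  d.2.2.1.contDiffOn.add (h.xup_sm d.2.1)

omit [MeasurableSpace M] [BorelSpace M] in
theorem XP.sb_up (h : XP Γ g A p r τ θ W γ) (d : (M → Fb N) × (Ec n → Fb N)) :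
    EqOn (sb p r τ W d) (xpl p τ W (um p r τ θ W d)) (up n r) := fun z hz => by
  have h1 := h.xpl_xps d.2 hz
  unfold xpl at h1
  simp only [sb, um, xup, xpl, Pi.add_apply, indicator_of_mem hz, map_add, h1]
  exact add_comm _ _

omit [IsManifold (𝓡∂ n) ∞ M] [T2Space M] [CompactSpace M] [MeasurableSpace M] [BorelSpace M] in
theorem GXq_sb_lo (d : (M → Fb N) × (Ec n → Fb N)) : EqOn (sb p r τ W d) d.2 (lo n r) :=
  fun z hz => by
  have h1 : z ∉ up n r := fun e => lt_asymm (show z 0 < 0 from hz.2) e.2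
  simp only [sb, xup, Pi.add_apply, indicator_of_notMem h1, add_zero]

theorem GXq1_aem (hs : γ.Sm (lo n r)) :
    AEMeasurable (fun z => ENNReal.ofReal (γ.vol z)) (volume.restrict (lo n r)) :=
  (hs.vol.continuousOn.aemeasurable (isOpen_lo n r).measurableSet).ennreal_ofReal

omit [NeZero n] in
theorem GXq1_toReal (γ : Geo n N) (z : Ec n) : (ENNReal.ofReal (γ.vol z)).toReal = γ.vol z :=
  ENNReal.toReal_ofReal (Real.sqrt_nonneg _)

theorem GXq1_mem (hs : γ.Sm (ball 0 r)) {φ : Ec n → Fb N} (hφ : ET (ball 0 r) φ) :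
    MemLp φ 2 (lom γ r) := by
  have h1 : Function.support (fun z => γ.vol z • ‖φ z‖ ^ 2) ⊆ Function.support φ :=
    fun z hz e => hz (by simp [e])
  have h2 : Continuous fun z => γ.vol z • ‖φ z‖ ^ 2 :=
    (hs.vol.continuousOn.smul (hφ.1.continuous.norm.pow 2).continuousOn).continuous_of_tsupport_subset
      isOpen_ball ((closure_mono h1).trans hφ.2.2)
  rw [memLp_two_iff_integrable_sq_norm hφ.1.continuous.aestronglyMeasurable, lom,
    integrable_withDensity_iff_integrable_smul₀' (GXq1_aem (hs.sub inter_subset_left))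
      (ae_of_all _ fun _ => ENNReal.ofReal_lt_top)]
  simp only [GXq1_toReal]
  exact (h2.integrable_of_hasCompactSupport (hφ.2.1.mono h1)).integrableOn

omit [MeasurableSpace M] [BorelSpace M] in
theorem GXq1_add (d e : XD (n := n) M N r) :
    um p r τ θ W (d + e).1 = um p r τ θ W d.1 + um p r τ θ W e.1 := by
  change d.1.1 + e.1.1 + xps p r τ θ W (d.1.2 + e.1.2) = _
  rw [GXt_add, add_add_add_comm]
  rfl

omit [MeasurableSpace M] [BorelSpace M] in
theorem GXq1_smul (c : ℂ) (d : XD (n := n) M N r) :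
    um p r τ θ W (c • d).1 = c • um p r τ θ W d.1 := by
  change c • d.1.1 + xps p r τ θ W (c • d.1.2) = _
  rw [GXt_smul, ← smul_add]
  rfl

theorem GXq1_sq {X : Type} [MeasurableSpace X] {ν : Measure X} (f : Lp (Fb N) 2 ν) :
    ENNReal.ofReal (‖f‖ ^ 2) = ∫⁻ x, ENNReal.ofReal (‖f x‖ ^ 2) ∂ν := by
  rw [← ofReal_integral_eq_lintegral_ofReal
    ((memLp_two_iff_integrable_sq_norm (Lp.aestronglyMeasurable f)).1 (Lp.memLp f))
    (ae_of_all _ fun _ => sq_nonneg _), ← real_inner_self_eq_norm_sq f, L2.inner_def]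
  simp only [real_inner_self_eq_norm_sq]

theorem XP.exists_j (h : XP Γ g A p r τ θ W γ) (hv : IsVol g μ) :
    ∃ j : XD (n := n) M N r →ₗ[ℂ] XH μ γ r, IsJ p r τ θ W j := by
  have := hv.finite
  have m1 : ∀ d : XD (n := n) M N r, MemLp (um p r τ θ W d.1) 2 μ := fun d =>
    (h.um_sm d).continuous.memLp_of_hasCompactSupport (HasCompactSupport.of_compactSpace _)
  have m2 : ∀ d : XD (n := n) M N r, MemLp d.1.2 2 (lom γ r) := fun d => GXq1_mem h.sm d.2.2
  let L₁ : XD (n := n) M N r →ₗ[ℂ] Lp (Fb N) 2 μ :=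
    { toFun := fun d => (m1 d).toLp _
      map_add' := fun d e => (MemLp.toLp_congr _ ((m1 d).add (m1 e))
        (EventuallyEq.of_eq (GXq1_add d e))).trans (MemLp.toLp_add _ _)
      map_smul' := fun c d => (MemLp.toLp_congr _ ((m1 d).const_smul c)
        (EventuallyEq.of_eq (GXq1_smul c d))).trans (MemLp.toLp_const_smul _ _) }
  let L₂ : XD (n := n) M N r →ₗ[ℂ] Lp (Fb N) 2 (lom γ r) :=
    { toFun := fun d => (m2 d).toLp _
      map_add' := fun d e => MemLp.toLp_add (m2 d) (m2 e)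
      map_smul' := fun c d => MemLp.toLp_const_smul c (m2 d) }
  exact ⟨(WithLp.linearEquiv 2 ℂ _).symm.toLinearMap ∘ₗ L₁.prod L₂,
    fun d => ⟨(m1 d).coeFn_toLp, (m2 d).coeFn_toLp⟩⟩

theorem GXq_lom (hs : γ.Sm (lo n r)) (f : Ec n → ℂ) :
    ∫ z, f z ∂lom γ r = ∫ z in lo n r, γ.vol z • f z := by
  rw [lom, integral_withDensity_eq_integral_toReal_smul₀ (GXq1_aem hs)
    (ae_of_all _ fun _ => ENNReal.ofReal_lt_top)]
  simp only [GXq1_toReal]

theorem GXq_llom (hs : γ.Sm (lo n r)) (f : Ec n → ℝ≥0∞) :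
    ∫⁻ z, f z ∂lom γ r = ∫⁻ z in lo n r, ENNReal.ofReal (γ.vol z) * f z :=
  lintegral_withDensity_eq_lintegral_mul_non_measurable₀ _ (GXq1_aem hs)
    (ae_of_all _ fun _ => ENNReal.ofReal_lt_top) f

theorem GXq_ae (hs : γ.Sm (lo n r)) {P : Ec n → Prop} (hP : ∀ᵐ z ∂lom γ r, P z) :
    ∀ᵐ z, z ∈ lo n r → P z := by
  rw [lom, ae_withDensity_iff' (GXq1_aem hs), ae_restrict_iff' (isOpen_lo n r).measurableSet] at hP
  exact hP.mono fun z hz h1 => hz h1 (ENNReal.ofReal_pos.2 (hs.vol_pos h1)).ne'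

theorem GXq_inner (hs : γ.Sm (lo n r)) (a b : XH μ γ r) : inner ℂ a b =
    (∫ x, inner ℂ ((a.fst : M → Fb N) x) ((b.fst : M → Fb N) x) ∂μ) +
      ∫ z in lo n r, γ.vol z • inner ℂ ((a.snd : Ec n → Fb N) z) ((b.snd : Ec n → Fb N) z) := by
  rw [WithLp.prod_inner_apply, L2.inner_def, L2.inner_def, GXq_lom hs]
  rfl

theorem GXq_norm (hs : γ.Sm (lo n r)) (a : XH μ γ r) : ENNReal.ofReal (‖a‖ ^ 2) =
    (∫⁻ x, ENNReal.ofReal (‖(a.fst : M → Fb N) x‖ ^ 2) ∂μ) +
      ∫⁻ z in lo n r, ENNReal.ofReal (γ.vol z * ‖(a.snd : Ec n → Fb N) z‖ ^ 2) := by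
  rw [WithLp.prod_norm_sq_eq_of_L2, ENNReal.ofReal_add (sq_nonneg _) (sq_nonneg _), GXq1_sq,
    GXq1_sq, GXq_llom hs]
  simp only [ENNReal.ofReal_mul (show 0 ≤ γ.vol _ from Real.sqrt_nonneg _)]

theorem XP.XQ_conj (h : XP Γ g A p r τ θ W γ) (d e : XD (n := n) M N r) :
    conj (XQ g μ A p r τ θ W γ e d) = XQ g μ A p r τ θ W γ d e := by
  rw [XQ, XQ, map_add, GXf_conj, ← integral_conj]
  congr 1
  refine setIntegral_congr_fun (isOpen_lo n r).measurableSet fun z hz => ?_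
  simp only [Complex.real_smul, map_mul, Complex.conj_ofReal, GXf_den_conj (h.sm.pos z hz.1)]

theorem XP.XQ_add (h : XP Γ g A p r τ θ W γ) (hv : IsVol g μ) (d e f : XD (n := n) M N r) :
    XQ g μ A p r τ θ W γ (d + e) f = XQ g μ A p r τ θ W γ d f + XQ g μ A p r τ θ W γ e f := by
  have h1 : ∀ z, γ.vol z • γ.den (d + e).1.2 f.1.2 z =
      γ.vol z • γ.den d.1.2 f.1.2 z + γ.vol z • γ.den e.1.2 f.1.2 z := fun z => by
    rw [← smul_add, ← GXf_den_add (d.2.2.1.differentiable (by simp) z)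
      (e.2.2.1.differentiable (by simp) z)]
    rfl
  rw [XQ, XQ, XQ, GXq1_add, GXf_add hv (h.um_sm d) (h.um_sm e) (h.um_sm f)]
  simp only [h1]
  rw [integral_add (GXf_den_int isOpen_ball h.sm d.2.2.1.contDiffOn f.2.2).integrableOn
    (GXf_den_int isOpen_ball h.sm e.2.2.1.contDiffOn f.2.2).integrableOn]
  exact add_add_add_comm _ _ _ _

theorem XP.XQ_smul (h : XP Γ g A p r τ θ W γ) (d e : XD (n := n) M N r) (c : ℂ) :
    XQ g μ A p r τ θ W γ (c • d) e = conj c * XQ g μ A p r τ θ W γ d e := by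
  have h1 : ∀ z, γ.vol z • γ.den (c • d).1.2 e.1.2 z =
      conj c * γ.vol z • γ.den d.1.2 e.1.2 z := fun z => by
    rw [mul_smul_comm, ← GXf_den_smul (d.2.2.1.differentiable (by simp) z)]
    rfl
  rw [XQ, XQ, GXq1_smul, GXf_smul (h.um_sm d), mul_add, ← integral_const_mul]
  simp only [h1]

theorem XP.XQ_lo (h : XP Γ g A p r τ θ W γ) {φ : Ec n → Fb N} (hφ : ET (ball 0 r) φ) :
    0 ≤ (∫ z in lo n r, γ.vol z • γ.den φ φ z).re ∧
      ENNReal.ofReal (∫ z in lo n r, γ.vol z • γ.den φ φ z).re =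
        ∫⁻ z in lo n r, ENNReal.ofReal (γ.vol z * (γ.den φ φ z).re) := by
  have h1 : IntegrableOn (fun z => γ.vol z • γ.den φ φ z) (lo n r) :=
    (GXf_den_int isOpen_ball h.sm hφ.1.contDiffOn hφ).integrableOn
  have h2 : (∫ z in lo n r, γ.vol z • γ.den φ φ z).re =
      ∫ z in lo n r, γ.vol z * (γ.den φ φ z).re := by
    have := integral_re h1
    simp only [RCLike.re_to_complex, Complex.smul_re, smul_eq_mul] at this
    exact this.symm
  have h3 : IntegrableOn (fun z => γ.vol z * (γ.den φ φ z).re) (lo n r) := by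
    have := h1.re
    simp only [RCLike.re_to_complex, Complex.smul_re, smul_eq_mul] at this
    exact this
  have h4 : 0 ≤ᵐ[volume.restrict (lo n r)] fun z => γ.vol z * (γ.den φ φ z).re :=
    ae_restrict_of_forall_mem (isOpen_lo n r).measurableSet fun z hz =>
      mul_nonneg (Real.sqrt_nonneg _) (Geo.den_nonneg (h.sm.pos z hz.1) φ)
  rw [h2]
  exact ⟨integral_nonneg_of_ae h4, ofReal_integral_eq_lintegral_ofReal h3 h4⟩

end Vale.Agent.P088.Gl
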