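import Vale.Agent.P088F.GXq1
import Vale.Agent.P088F.GXp3

/-! P088, part G, file GXq2. Bounds. `XP.poin`: `Geo.poin` on `lo n (3 r / 2)` with `C' = lo n (3 r / 2) ∩ (closedBall 0 r)ᶜ`, where `φ` vanishes, controls
`φ` on `lo n r`; `Geo.poin` on `ball 0 r` with `C' = lo n r` controls `sb d`, hence `um d` on `xpt '' up`; then `GXp3_poin`.
`Geo.un_of_compact` on `closedBall 0 (3 r / 2)`. -/

open MeasureTheory Set Filter Bundle Metric Topology Matrix
open scoped Manifold ContDiff ENNReal NNReal ComplexConjugate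

noncomputable section

namespace Vale.Agent.P088.Gl

variable {n N : ℕ} [NeZero n] {M : Type} [TopologicalSpace M]
  [ChartedSpace (EuclideanHalfSpace n) M] [IsManifold (𝓡∂ n) ∞ M] [T2Space M] [CompactSpace M]
  {Γ : Set M} {g : Met (𝓡∂ n) M} {A : Conn (𝓡∂ n) M N} {p : M} {r : ℝ} {τ θ : Ec n → Ec n}
  {W : Ec n → Op N} {γ : Geo n N}
  [MeasurableSpace M] [BorelSpace M] {μ : Measure M}

variable {j : XD (n := n) M N r →ₗ[ℂ] XH μ γ r}

theorem GXq2_null : ∀ᵐ z : Ec n, z 0 ≠ 0 := by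
  have h := Measure.addHaar_submodule (volume : Measure (Ec n))
    (LinearMap.ker (EuclideanSpace.proj (0 : Fin n) : Ec n →L[ℝ] ℝ).toLinearMap) fun e => by
      have h1 : bv 0 ∈ LinearMap.ker
        (EuclideanSpace.proj (0 : Fin n) : Ec n →L[ℝ] ℝ).toLinearMap := e ▸ Submodule.mem_top
      simp [bv] at h1
  rw [ae_iff]
  refine measure_mono_null (fun x hx => ?_) h
  simpa using hx

theorem GXq2_pt (n : ℕ) [NeZero n] (t : ℝ) : ∃ z : Ec n, ‖z‖ = |t| ∧ z 0 = t :=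
  ⟨t • bv 0, by simp [bv, norm_smul], by simp [bv]⟩

omit [NeZero n] in
theorem GXq2_den {u u' : Ec n → Fb N} {z : Ec n} (h : u =ᶠ[𝓝 z] u') :
    γ.den u u z = γ.den u' u' z := by
  simp only [Geo.den, Geo.D, h.fderiv_eq, h.eq_of_nhds]

omit [NeZero n] in
theorem GXq2_int {φ : Ec n → Fb N} (hs : γ.Sm (ball 0 r)) (hφ : ET (ball 0 r) φ) :
    Integrable fun z => γ.vol z * ‖φ z‖ ^ 2 := by
  refine (ContinuousOn.integrableOn_compact hφ.2.1.isCompact ((hs.vol.continuousOn.mono hφ.2.2).mul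
    (hφ.1.continuous.norm.pow 2).continuousOn)).integrable_of_forall_notMem_eq_zero fun z hz => ?_
  simp [image_eq_zero_of_notMem_tsupport hz]

omit [IsManifold (𝓡∂ n) ∞ M] [T2Space M] [CompactSpace M] [BorelSpace M] in
theorem GXq2_kup (a : XH μ γ r) {z : Ec n} (hz : z ∈ up n r) :
    kb p r τ W a z = xpl p τ W (a.fst : M → Fb N) z := by
  rw [kb, Pi.add_apply, indicator_of_notMem fun e : z ∈ lo n r => lt_asymm (b := z 0) hz.2 e.2,
    zero_add, xup,
    indicator_of_mem hz]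

omit [IsManifold (𝓡∂ n) ∞ M] [T2Space M] [CompactSpace M] [BorelSpace M] in
theorem GXq2_klo (a : XH μ γ r) {z : Ec n} (hz : z ∈ lo n r) :
    kb p r τ W a z = (a.snd : Ec n → Fb N) z := by
  rw [kb, Pi.add_apply, indicator_of_mem hz, xup,
    indicator_of_notMem fun e : z ∈ up n r => lt_asymm (a := z 0) hz.2 e.2, add_zero]

theorem GXq2_up (h : XP Γ g A p r τ θ W γ) (hv : IsVol g μ) (k : M → Fb N) :
    ∫⁻ z in up n r, ENNReal.ofReal (γ.vol z * ‖xpl p τ W k z‖ ^ 2) =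
      ∫⁻ x in xpt p τ '' up n r, ENNReal.ofReal (‖k x‖ ^ 2) ∂μ := by
  rw [h.lintegral hv]
  refine setLIntegral_congr_fun (isOpen_up n r).measurableSet fun z hz => ?_
  rw [ENNReal.ofReal_mul (h.sm.vol_pos hz.1).le, xpl, uni_norm (Unitary.star_mem (h.iso.uni z hz))]

theorem GXq2_Q (h : XP Γ g A p r τ θ W γ) (hv : IsVol g μ) (d : XD (n := n) M N r) :
    ENNReal.ofReal (XQ g μ A p r τ θ W γ d d).re = ENNReal.ofReal (En g μ A (um p r τ θ W d.1)) +
      ∫⁻ z in lo n r, ENNReal.ofReal (γ.vol z * (γ.den d.1.2 d.1.2 z).re) := by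
  rw [← (h.XQ_lo d.2.2).2, ← ENNReal.ofReal_add (En_nonneg hv (h.um_sm d)) (h.XQ_lo d.2.2).1]
  rfl

theorem XP.XQ_nonneg (h : XP Γ g A p r τ θ W γ) (hv : IsVol g μ) (d : XD (n := n) M N r) :
    0 ≤ (XQ g μ A p r τ θ W γ d d).re ∧
      En g μ A (um p r τ θ W d.1) ≤ (XQ g μ A p r τ θ W γ d d).re :=
  ⟨add_nonneg (En_nonneg hv (h.um_sm d)) (h.XQ_lo d.2.2).1,
    le_add_of_nonneg_right (h.XQ_lo d.2.2).1⟩

theorem XP.sb_en (h : XP Γ g A p r τ θ W γ) (hv : IsVol g μ) (d : XD (n := n) M N r) :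
    ∫⁻ z in ball 0 r, ENNReal.ofReal (γ.vol z * (γ.den (sb p r τ W d.1) (sb p r τ W d.1) z).re) ≤
      ENNReal.ofReal (XQ g μ A p r τ θ W γ d d).re := by
  have hu := (h.um_sm d).contMDiffOn (s := (𝓡∂ n).interior M)
  rw [GXq2_Q h hv, GXt_lsplit, ← GXp3_en hv (h.um_sm d)]
  refine add_le_add (le_trans (le_of_eq ?_)
    (setLIntegral_le_lintegral (xpt p τ '' up n r) _)) (le_of_eq ?_)
  · rw [h.lintegral hv]
    refine setLIntegral_congr_fun (isOpen_up n r).measurableSet fun z hz => ?_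
    rw [h.den hu hu hz, GXq2_den ((h.sb_up d.1).eventuallyEq_of_mem ((isOpen_up n r).mem_nhds hz)),
      ENNReal.ofReal_mul (h.sm.vol_pos hz.1).le]
  · refine setLIntegral_congr_fun (isOpen_lo n r).measurableSet fun z hz => ?_
    rw [GXq2_den ((GXq_sb_lo d.1).eventuallyEq_of_mem ((isOpen_lo n r).mem_nhds hz))]

theorem XP.kb_l2 (h : XP Γ g A p r τ θ W γ) (hv : IsVol g μ) (a : XH μ γ r) :
    ∫⁻ z in ball 0 r, ENNReal.ofReal (γ.vol z * ‖kb p r τ W a z‖ ^ 2) ≤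
      ENNReal.ofReal (‖a‖ ^ 2) := by
  rw [GXq_norm (h.sm.mono inter_subset_left), GXt_lsplit]
  refine add_le_add (le_trans (le_of_eq ?_)
    (setLIntegral_le_lintegral (xpt p τ '' up n r) _)) (le_of_eq ?_)
  · rw [← GXq2_up h hv]
    refine setLIntegral_congr_fun (isOpen_up n r).measurableSet fun z hz => ?_
    rw [GXq2_kup a hz]
  · refine setLIntegral_congr_fun (isOpen_lo n r).measurableSet fun z hz => ?_
    rw [GXq2_klo a hz]

theorem XP.kb_j (h : XP Γ g A p r τ θ W γ) (hv : IsVol g μ) (hj : IsJ p r τ θ W j)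
    (d : XD (n := n) M N r) : ∀ᵐ z, z ∈ ball (0 : Ec n) r → kb p r τ W (j d) z = sb p r τ W d.1 z := by
  filter_upwards [h.ae hv (hj d).1, GXq_ae (h.sm.mono inter_subset_left) (hj d).2, GXq2_null]
    with z h1 h2 h3 hz
  rcases lt_or_gt_of_ne h3 with h4 | h4
  · rw [GXq2_klo _ ⟨hz, h4⟩, h2 ⟨hz, h4⟩, GXq_sb_lo d.1 ⟨hz, h4⟩]
  · rw [GXq2_kup _ ⟨hz, h4⟩, h.sb_up d.1 ⟨hz, h4⟩, xpl, xpl, h1 ⟨hz, h4⟩]

theorem XP.kb_lin (h : XP Γ g A p r τ θ W γ) (hv : IsVol g μ) (c : ℂ) (a b : XH μ γ r) :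
    ∀ᵐ z, kb p r τ W (c • a + b) z = c • kb p r τ W a z + kb p r τ W b z := by
  have e1 : ∀ᵐ x ∂μ, ((c • a + b).fst : M → Fb N) x =
      c • (a.fst : M → Fb N) x + (b.fst : M → Fb N) x := by
    filter_upwards [Lp.coeFn_add (c • a.fst) b.fst, Lp.coeFn_smul c a.fst] with x h1 h2
    exact h1.trans (congrArg (· + _) h2)
  have e2 : ∀ᵐ x ∂lom γ r, ((c • a + b).snd : Ec n → Fb N) x =
      c • (a.snd : Ec n → Fb N) x + (b.snd : Ec n → Fb N) x := by
    filter_upwards [Lp.coeFn_add (c • a.snd) b.snd, Lp.coeFn_smul c a.snd] with x h1 h2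
    exact h1.trans (congrArg (· + _) h2)
  filter_upwards [h.ae hv e1, GXq_ae (h.sm.mono inter_subset_left) e2] with z h1 h2
  by_cases h3 : z ∈ up n r
  · simp only [GXq2_kup _ h3, xpl]
    rw [h1 h3, map_add, map_smul]
  · by_cases h4 : z ∈ lo n r
    · simp only [GXq2_klo _ h4]
      exact h2 h4
    · simp only [kb, xup, Pi.add_apply, indicator_of_notMem h3, indicator_of_notMem h4, add_zero,
        smul_zero]

theorem XP.j_norm (h : XP Γ g A p r τ θ W γ) (hv : IsVol g μ) (hj : IsJ p r τ θ W j)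
    (d : XD (n := n) M N r) (h0 : d.1.1 = 0) : ‖j d‖ ^ 2 = ∫ z, γ.vol z * ‖d.1.2 z‖ ^ 2 := by
  have hs : γ.Sm (lo n r) := h.sm.mono inter_subset_left
  have e0 : um p r τ θ W d.1 = xps p r τ θ W d.1.2 := by rw [um, h0, zero_add]
  have e1 : ∀ z, γ.vol z • inner ℂ (d.1.2 z) (d.1.2 z) = ((γ.vol z * ‖d.1.2 z‖ ^ 2 : ℝ) : ℂ) :=
    fun z => by
      rw [inner_self_eq_norm_sq_to_K, Complex.real_smul]
      push_cast
      rfl
  have e2 : ∫ x, inner ℂ (((j d).fst : M → Fb N) x) (((j d).fst : M → Fb N) x) ∂μ =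
      ∫ z in up n r, ((γ.vol z * ‖d.1.2 z‖ ^ 2 : ℝ) : ℂ) := by
    refine (integral_congr_ae (g := fun x => inner ℂ (xps p r τ θ W d.1.2 x) (xps p r τ θ W d.1.2 x))
      ((hj d).1.mono fun x hx => by simp only [hx, e0])).trans ?_
    rw [h.pair_xps hv]
    refine setIntegral_congr_fun (isOpen_up n r).measurableSet fun z hz => ?_
    rw [h.xpl_xps _ hz, e1]
  have e3 : ∫ z in lo n r, γ.vol z • inner ℂ (((j d).snd : Ec n → Fb N) z)
      (((j d).snd : Ec n → Fb N) z) = ∫ z in lo n r, ((γ.vol z * ‖d.1.2 z‖ ^ 2 : ℝ) : ℂ) :=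
    setIntegral_congr_ae (isOpen_lo n r).measurableSet
      ((GXq_ae hs (hj d).2).mono fun z hz hz' => by rw [hz hz', e1])
  have e4 := GXq_inner hs (j d) (j d)
  have e5 := GXt_split (r := r) (f := fun z => ((γ.vol z * ‖d.1.2 z‖ ^ 2 : ℝ) : ℂ))
    (GXq2_int h.sm d.2.2).ofReal fun z hz => by
      rw [image_eq_zero_of_notMem_tsupport fun e => hz (d.2.2.2.2 e), norm_zero,
        zero_pow two_ne_zero, mul_zero, Complex.ofReal_zero]
  rw [e2, e3, ← e5, integral_complex_ofReal, inner_self_eq_norm_sq_to_K] at e4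
  exact Complex.ofReal_injective ((Complex.ofReal_pow _ _).trans e4)

theorem XP.poin [ConnectedSpace M] (h : XP Γ g A p r τ θ W γ) (h2 : γ.Sm (ball 0 (2 * r)))
    (hv : IsVol g μ) (hj : IsJ p r τ θ W j) :
    ∃ Λ : ℝ, ∀ d, ‖j d‖ ^ 2 ≤ Λ ^ 2 * (XQ g μ A p r τ θ W γ d d).re := by
  have r0 := h.r0
  have hs : γ.Sm (lo n r) := h.sm.mono inter_subset_left
  have b1 : closedBall (0 : Ec n) (3 * r / 2) ⊆ ball 0 (2 * r) := closedBall_subset_ball (by linarith)
  have b2 : ball (0 : Ec n) r ⊆ ball 0 (3 * r / 2) := ball_subset_ball (by linarith)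
  have b3 : lo n (3 * r / 2) ⊆ closedBall 0 (3 * r / 2) :=
    inter_subset_left.trans ball_subset_closedBall
  have un := Geo.un_of_compact (γ := γ) (isCompact_closedBall (0 : Ec n) (3 * r / 2))
    (fun i k => (h2.g i k).continuousOn.mono b1) fun z hz => h2.pos z (b1 hz)
  have n1 : (lo n (3 * r / 2) ∩ (closedBall 0 r)ᶜ).Nonempty := by
    obtain ⟨z, h3, h4⟩ := GXq2_pt n (-(5 * r / 4))
    rw [abs_neg, abs_of_pos (by linarith)] at h3
    exact ⟨z, ⟨mem_ball_zero_iff.2 (by linarith), h4.trans_lt (by linarith)⟩,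
      fun e => by linarith [mem_closedBall_zero_iff.1 e]⟩
  have n2 : (lo n r).Nonempty := by
    obtain ⟨z, h3, h4⟩ := GXq2_pt n (-(r / 2))
    rw [abs_neg, abs_of_pos (by linarith)] at h3
    exact ⟨z, mem_ball_zero_iff.2 (by linarith), h4.trans_lt (by linarith)⟩
  have n3 : (up n r).Nonempty := by
    obtain ⟨z, h3, h4⟩ := GXq2_pt n (r / 2)
    rw [abs_of_pos (by linarith)] at h3
    exact ⟨z, mem_ball_zero_iff.2 (by linarith), lt_of_lt_of_eq (by linarith) h4.symm⟩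
  obtain ⟨K1, k1⟩ := Geo.poin (isOpen_lo n (3 * r / 2)) ((convex_ball _ _).inter
    (convex_halfSpace_lt (f := fun z : Ec n => z 0) ⟨fun _ _ => rfl, fun _ _ => rfl⟩ 0))
    (isBounded_closedBall.subset b3)
    ((isOpen_lo n (3 * r / 2)).inter isClosed_closedBall.isOpen_compl) n1 inter_subset_left
    (h2.mono (b3.trans b1)) (un.mono b3)
  obtain ⟨K2, k2⟩ := Geo.poin isOpen_ball (convex_ball _ _) isBounded_ball (isOpen_lo n r) n2
    inter_subset_left h.sm (un.mono (b2.trans ball_subset_closedBall))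
  obtain ⟨K3, k3⟩ := GXp3_poin hv A h.open_up (n3.image _)
  refine ⟨√(K3 * (K2 * (K1 + 1) + 1) + K1 : ℝ≥0), fun d => ?_⟩
  have hφ : ET (ball 0 r) d.1.2 := d.2.2
  have q0 := GXq2_Q h hv d
  have s1 : ∫⁻ z in lo n r, ENNReal.ofReal (γ.vol z * ‖d.1.2 z‖ ^ 2) ≤
      K1 * ENNReal.ofReal (XQ g μ A p r τ θ W γ d d).re := by
    refine (lintegral_mono_set (inter_subset_inter_left _ b2)).trans
      ((k1 _ hφ.1.contDiffOn (GXq2_int h.sm hφ).integrableOn.lintegral_lt_top.ne).trans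
      (mul_le_mul_right ?_ _))
    rw [setLIntegral_eq_zero ((isOpen_lo n _).inter isClosed_closedBall.isOpen_compl).measurableSet
      fun z hz => by
        simp [image_eq_zero_of_notMem_tsupport fun e => hz.2 (ball_subset_closedBall (hφ.2.2 e))],
      zero_add, q0, ← lintegral_indicator (isOpen_lo n _).measurableSet,
      ← lintegral_indicator (isOpen_lo n _).measurableSet]
    refine le_add_left (lintegral_mono fun z => indicator_apply_le' (fun hz => ?_) fun _ => zero_le)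
    by_cases h3 : z ∈ ball (0 : Ec n) r
    · rw [indicator_of_mem (show z ∈ lo n r from ⟨h3, hz.2⟩)]
    · rw [geo1_den (Or.inl fun e => h3 (hφ.2.2 e)), Complex.zero_re, mul_zero, ENNReal.ofReal_zero]
      exact zero_le
  have s2 : ∫⁻ z in ball 0 r, ENNReal.ofReal (γ.vol z * ‖sb p r τ W d.1 z‖ ^ 2) ≤
      K2 * (K1 * ENNReal.ofReal (XQ g μ A p r τ θ W γ d d).re +
        ENNReal.ofReal (XQ g μ A p r τ θ W γ d d).re) := by
    refine (k2 _ (h.sb_sm d) (ne_top_of_le_ne_top ENNReal.ofReal_ne_top (le_trans (le_of_eq ?_)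
      (h.kb_l2 hv (j d))))).trans (mul_le_mul_right (add_le_add (le_trans (le_of_eq ?_) s1)
      (h.sb_en hv d)) _)
    · exact setLIntegral_congr_fun_ae measurableSet_ball
        ((h.kb_j hv hj d).mono fun z hz hz' => by rw [hz hz'])
    · refine setLIntegral_congr_fun (isOpen_lo n r).measurableSet fun z hz => ?_
      rw [GXq_sb_lo d.1 hz]
  have s3 : ∫⁻ x in xpt p τ '' up n r, ENNReal.ofReal (‖um p r τ θ W d.1 x‖ ^ 2) ∂μ ≤
      ∫⁻ z in ball 0 r, ENNReal.ofReal (γ.vol z * ‖sb p r τ W d.1 z‖ ^ 2) := by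
    rw [← GXq2_up h hv]
    refine le_trans (le_of_eq ?_) (lintegral_mono_set (inter_subset_left : up n r ⊆ _))
    refine setLIntegral_congr_fun (isOpen_up n r).measurableSet fun z hz => ?_
    rw [h.sb_up d.1 hz]
  have s4 := (k3 _ (h.um_sm d)).trans (mul_le_mul_right (add_le_add (s3.trans s2)
    (ENNReal.ofReal_le_ofReal (h.XQ_nonneg hv d).2)) _)
  have e1 : ∫⁻ x, ENNReal.ofReal (‖((j d).fst : M → Fb N) x‖ ^ 2) ∂μ =
      ∫⁻ x, ENNReal.ofReal (‖um p r τ θ W d.1 x‖ ^ 2) ∂μ :=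
    lintegral_congr_ae ((hj d).1.mono fun x hx => by simp only [hx])
  have e2 : ∫⁻ z in lo n r, ENNReal.ofReal (γ.vol z * ‖((j d).snd : Ec n → Fb N) z‖ ^ 2) =
      ∫⁻ z in lo n r, ENNReal.ofReal (γ.vol z * ‖d.1.2 z‖ ^ 2) :=
    setLIntegral_congr_fun_ae (isOpen_lo n r).measurableSet
      ((GXq_ae hs (hj d).2).mono fun z hz hz' => by rw [hz hz'])
  rw [Real.sq_sqrt (NNReal.coe_nonneg _), ← ENNReal.ofReal_le_ofReal_iff
    (mul_nonneg (NNReal.coe_nonneg _) (h.XQ_nonneg hv d).1), GXq_norm hs, e1, e2,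
    ENNReal.ofReal_mul (NNReal.coe_nonneg _), ENNReal.ofReal_coe_nnreal]
  refine (add_le_add s4 s1).trans_eq ?_
  push_cast
  ring

end Vale.Agent.P088.Gl
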