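import Vale.Agent.P088F.GXq1

/-! P088, part G, file GXq3. Pairings and weak equations (`GXq_inner`, `XP.pair_xps`, `XP.form_xps`, `GXt_split`, `GXf_test`, `GXf_etest`,
`Geo.den_congr` on the open sets `up`, `lo`). `kb_loc`: `XP.locInt`, and square integrability for `lom` with `vol` bounded below on
compact subsets of the ball. -/

open MeasureTheory Set Filter Bundle Metric Topology Matrix
open scoped Manifold ContDiff ENNReal NNReal ComplexConjugate

noncomputable section

namespace Vale.Agent.P088.Gl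

variable {n N : ℕ} [NeZero n] {M : Type} [TopologicalSpace M]
  [ChartedSpace (EuclideanHalfSpace n) M] [IsManifold (𝓡∂ n) ∞ M] [T2Space M] [CompactSpace M]
  {Γ : Set M} {g : Met (𝓡∂ n) M} {A : Conn (𝓡∂ n) M N} {p : M} {r : ℝ} {τ θ : Ec n → Ec n}
  {W : Ec n → Op N} {γ : Geo n N}
  [MeasurableSpace M] [BorelSpace M] {μ : Measure M}

variable {j : XD (n := n) M N r →ₗ[ℂ] XH μ γ r}

omit [NeZero n] in
theorem GXq3_int {Ω : Set (Ec n)} (hs : γ.Sm Ω) {k F : Ec n → Fb N} (hk : LocallyIntegrableOn k Ω)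
    (hF : ET Ω F) : Integrable fun z => γ.vol z • inner ℂ (k z) (F z) := by
  have h1 := hk.integrableOn_compact_subset hF.2.2 hF.2.1
  obtain ⟨C, hC⟩ := hF.2.1.exists_bound_of_continuous hF.1.continuous
  have h2 : IntegrableOn (fun z => inner ℂ (k z) (F z)) (tsupport F) :=
    (h1.norm.mul_const C).mono' (h1.1.inner hF.1.continuous.aestronglyMeasurable)
      (Eventually.of_forall fun z => (norm_inner_le_norm _ _).trans
        (mul_le_mul_of_nonneg_left (hC z) (norm_nonneg _)))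
  refine (integrableOn_iff_integrable_of_support_subset fun z hz => ?_).1
    (h2.continuousOn_smul (hs.vol.continuousOn.mono hF.2.2) hF.2.1)
  by_contra h0
  exact hz (by simp only [image_eq_zero_of_notMem_tsupport h0, inner_zero_right, smul_zero])

theorem GXq3_split (hs : γ.Sm (ball 0 r)) {k k₁ k₂ F : Ec n → Fb N}
    (hk : LocallyIntegrableOn k (ball 0 r)) (hF : ET (ball 0 r) F) (h1 : EqOn k k₁ (up n r))
    (h2 : EqOn k k₂ (lo n r)) : γ.pair k F = (∫ z in up n r, γ.vol z • inner ℂ (k₁ z) (F z)) +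
      ∫ z in lo n r, γ.vol z • inner ℂ (k₂ z) (F z) := by
  rw [Geo.pair, GXt_split (r := r) (GXq3_int hs hk hF) fun z hz => by
    rw [image_eq_zero_of_notMem_tsupport fun h0 => hz (hF.2.2 h0), inner_zero_right, smul_zero]]
  congr 1
  · exact setIntegral_congr_fun (isOpen_up n r).measurableSet fun z hz => by simp only [h1 hz]
  · exact setIntegral_congr_fun (isOpen_lo n r).measurableSet fun z hz => by simp only [h2 hz]

theorem GXq3_in (h : XP Γ g A p r τ θ W γ) (hj : IsJ p r τ θ W j) (a : XH μ γ r)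
    (d : XD (n := n) M N r) : inner ℂ a (j d) =
      (∫ x, inner ℂ ((a.fst : M → Fb N) x) (um p r τ θ W d.1 x) ∂μ) +
        ∫ z in lo n r, γ.vol z • inner ℂ ((a.snd : Ec n → Fb N) z) (d.1.2 z) := by
  have hs := h.sm.mono (inter_subset_left : lo n r ⊆ ball 0 r)
  rw [GXq_inner hs]
  congr 1
  · exact integral_congr_ae ((hj d).1.mono fun x hx => by simp only [hx])
  · exact setIntegral_congr_ae (isOpen_lo n r).measurableSet
      ((GXq_ae hs (hj d).2).mono fun z hz h1 => by rw [hz h1])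

omit [MeasurableSpace M] [BorelSpace M] in
theorem GXq3_m {d : (M → Fb N) × (Ec n → Fb N)} (h0 : d.2 = 0) : um p r τ θ W d = d.1 := by
  rw [um, h0, GXt_zero, add_zero]

omit [IsManifold (𝓡∂ n) ∞ M] [T2Space M] [CompactSpace M] [MeasurableSpace M] [BorelSpace M] in
theorem GXq3_b {d : (M → Fb N) × (Ec n → Fb N)} (h0 : d.1 = 0) :
    um p r τ θ W d = xps p r τ θ W d.2 := by
  rw [um, h0, zero_add]


theorem XP.kb_loc (h : XP Γ g A p r τ θ W γ) (hv : IsVol g μ) (a : XH μ γ r) :
    LocallyIntegrableOn (kb p r τ W a) (ball 0 r) := by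
  refine LocallyIntegrableOn.add ?_ (h.locInt hv (Lp.memLp _))
  refine (locallyIntegrableOn_iff isOpen_ball.isLocallyClosed).2 fun K hK hc => ?_
  have m1 := (isOpen_lo n r).measurableSet
  have c1 := h.sm.vol.continuousOn.mono hK
  have i1 : IntegrableOn γ.vol (K ∩ lo n r) :=
    (c1.integrableOn_compact hc).mono_set inter_subset_left
  have e : (lom γ r).restrict K =
      (volume.restrict (K ∩ lo n r)).withDensity fun z => ENNReal.ofReal (γ.vol z) := by
    rw [lom, restrict_withDensity hc.measurableSet, Measure.restrict_restrict hc.measurableSet]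
  have := isFiniteMeasure_withDensity_ofReal i1.2
  have i2 := (Lp.memLp a.snd).restrict K
  rw [e] at i2
  have i3 := (integrable_withDensity_iff_integrable_smul₀' i1.1.aemeasurable.ennreal_ofReal
    (Eventually.of_forall fun _ => ENNReal.ofReal_lt_top)).1 (i2.integrable one_le_two)
  rw [integrableOn_indicator_iff m1, inter_comm]
  refine (IntegrableOn.continuousOn_smul_of_subset
    (c1.inv₀ fun z hz => (h.sm.vol_pos (hK hz)).ne') i3 hc (hc.measurableSet.inter m1)
    inter_subset_left).congr_fun (fun z hz => ?_) (hc.measurableSet.inter m1)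
  have h1 := h.sm.vol_pos (hK hz.1)
  simp only [ENNReal.toReal_ofReal h1.le, Pi.inv_apply, inv_smul_smul₀ h1.ne']

theorem XP.inner_m (h : XP Γ g A p r τ θ W γ) (hj : IsJ p r τ θ W j) (a : XH μ γ r)
    (d : XD (n := n) M N r) (h0 : d.1.2 = 0) :
    inner ℂ a (j d) = ∫ x, inner ℂ ((a.fst : M → Fb N) x) (d.1.1 x) ∂μ := by
  rw [GXq3_in h hj, GXq3_m h0, h0]
  simp

theorem XP.inner_b (h : XP Γ g A p r τ θ W γ) (hv : IsVol g μ) (hj : IsJ p r τ θ W j) (a : XH μ γ r)
    (d : XD (n := n) M N r) (h0 : d.1.1 = 0) : inner ℂ a (j d) = γ.pair (kb p r τ W a) d.1.2 := by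
  rw [GXq3_in h hj, GXq3_b h0, h.pair_xps hv]
  refine (GXq3_split h.sm (h.kb_loc hv a) d.2.2 (fun z hz => ?_) fun z hz => ?_).symm
  · have h1 : z ∉ lo n r := fun h1 => lt_asymm (show z 0 < 0 from h1.2) hz.2
    rw [kb, Pi.add_apply, indicator_of_notMem h1, xup, indicator_of_mem hz, zero_add]
  · have h1 : z ∉ up n r := fun h1 => lt_asymm (show z 0 < 0 from hz.2) h1.2
    rw [kb, Pi.add_apply, indicator_of_mem hz, xup, indicator_of_notMem h1, add_zero]

theorem XP.weak_m (h : XP Γ g A p r τ θ W γ) (hj : IsJ p r τ θ W j) (d e : XD (n := n) M N r)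
    (hd : d.1.2 = 0) (he : e.1.2 = 0) (hw : MW g μ A ((𝓡∂ n).interior M) d.1.1 e.1.1)
    (ψ : XD (n := n) M N r) : XQ g μ A p r τ θ W γ ψ d = inner ℂ (j ψ) (j e) := by
  have h1 : ∀ z, γ.den ψ.1.2 0 z = 0 := fun z => γ.den_zero_right _ (by simp)
  rw [XQ, GXq3_m hd, hd, GXf_test d.2.1 e.2.1 hw (h.um_sm ψ).contMDiffOn, h.inner_m hj _ e he]
  simp only [h1, smul_zero, integral_zero, add_zero]
  exact integral_congr_ae ((hj ψ).1.mono fun x hx => by simp only [hx])

theorem XP.weak_b (h : XP Γ g A p r τ θ W γ) (hv : IsVol g μ) (hj : IsJ p r τ θ W j)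
    (d e : XD (n := n) M N r) (hd : d.1.1 = 0) (he : e.1.1 = 0) (hw : EW (ball 0 r) γ d.1.2 e.1.2)
    (ψ : XD (n := n) M N r) : XQ g μ A p r τ θ W γ ψ d = inner ℂ (j ψ) (j e) := by
  have hs := h.sm.mono (inter_subset_left : lo n r ⊆ ball 0 r)
  have h1 : XQ g μ A p r τ θ W γ ψ d = γ.form (sb p r τ W ψ.1) d.1.2 := by
    rw [XQ, GXq3_b hd, h.form_xps hv (h.um_sm ψ) d.2.2, Geo.form,
      GXt_split (r := r) (GXf_den_int isOpen_ball h.sm (h.sb_sm ψ) d.2.2) fun z hz => by
        rw [γ.den_zero_right _ fun h0 => hz (d.2.2.2.2 h0), smul_zero]]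
    congr 1
    · exact setIntegral_congr_fun (isOpen_up n r).measurableSet fun z hz => by
        simp only [γ.den_congr (eventually_of_mem ((isOpen_up n r).mem_nhds hz) (h.sb_up ψ.1))
          (EventuallyEq.refl _ d.1.2)]
    · exact setIntegral_congr_fun (isOpen_lo n r).measurableSet fun z hz => by
        simp only [γ.den_congr (eventually_of_mem ((isOpen_lo n r).mem_nhds hz)
          (GXq_sb_lo (p := p) (τ := τ) (W := W) ψ.1)) (EventuallyEq.refl _ d.1.2)]
  rw [h1, GXf_etest isOpen_ball h.sm d.2.2 e.2.2 hw (h.sb_sm ψ), GXq3_split h.sm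
    ((h.sb_sm ψ).continuousOn.locallyIntegrableOn measurableSet_ball) e.2.2 (h.sb_up ψ.1)
    (GXq_sb_lo ψ.1), ← h.pair_xps hv, GXq3_in h hj, GXq3_b he]
  congr 1
  · exact integral_congr_ae ((hj ψ).1.mono fun x hx => by simp only [hx])
  · exact setIntegral_congr_ae (isOpen_lo n r).measurableSet
      ((GXq_ae hs (hj ψ).2).mono fun z hz h2 => by rw [hz h2])

end Vale.Agent.P088.Gl
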