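import Vale.Agent.P088F.GXb
import Vale.Agent.P088F.Geo2

/-! P088, part G, file GXr. Regularity in coordinates. -/

namespace Vale.Agent.P088.Gl

theorem gr2 (n N : ℕ) : GR2 n N := fun _ _ _ _ hΩ h hk hf hw => gR' hΩ h hk hf hw

end Vale.Agent.P088.Gl
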