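import Vale.Agent.P088F.GXq2
import Vale.Agent.P088F.GXq3
import Vale.Agent.P088F.GXa
import Vale.Agent.P088F.GXd
import Vale.Agent.P088F.GXl2
import Vale.Agent.P088F.GXm
import Vale.Agent.P088F.GXr

/-! P088, part G, file GXs. The operators of one structure. -/

open MeasureTheory Set Filter Bundle Metric Topology Matrix
open scoped Manifold ContDiff ENNReal NNReal ComplexConjugate

noncomputable section

namespace Vale.Agent.P088.Gl

open Vale.Agent.P088F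

variable {n N : ℕ} [NeZero n] {M : Type} [TopologicalSpace M]
  [ChartedSpace (EuclideanHalfSpace n) M] {p : M} {r : ℝ} {τ θ : Ec n → Ec n}
  {W : Ec n → Op N} {γ : Geo n N}

open Classical in
/-- A test section of the interior. -/
def tm (n : ℕ) [NeZero n] {M : Type} [TopologicalSpace M] [ChartedSpace (EuclideanHalfSpace n) M]
    (r : ℝ) (F : M → Fb N) : XD (n := n) M N r :=
  if h : MT (𝓡∂ n) ((𝓡∂ n).interior M) F then ⟨(F, 0), h, (XD (n := n) M N r).zero_mem.2⟩ else 0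

open Classical in
/-- A test section of the ball. -/
def tb (M : Type) [TopologicalSpace M] [ChartedSpace (EuclideanHalfSpace n) M]
    (r : ℝ) (F : Ec n → Fb N) : XD (n := n) M N r :=
  if h : ET (ball 0 r) F then ⟨(0, F), (XD (n := n) M N r).zero_mem.1, h⟩ else 0

theorem tm_val {F : M → Fb N} (h : MT (𝓡∂ n) ((𝓡∂ n).interior M) F) : (tm n r F).1 = (F, 0) := by
  rw [tm, dif_pos h]

theorem tb_val {F : Ec n → Fb N} (h : ET (ball 0 r) F) : (tb M r F).1 = (0, F) := by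
  rw [tb, dif_pos h]

theorem tm_add {F F' : M → Fb N} (h : MT (𝓡∂ n) ((𝓡∂ n).interior M) F)
    (h' : MT (𝓡∂ n) ((𝓡∂ n).interior M) F') : tm n r (F + F') = tm n r F + tm n r F' := by
  have h1 := (tm n r F + tm n r F').2.1
  rw [Submodule.coe_add, tm_val h, tm_val h'] at h1
  refine Subtype.ext ?_
  rw [Submodule.coe_add, tm_val h, tm_val h', tm_val (F := F + F') h1, Prod.mk_add_mk, add_zero]

theorem tm_smul (c : ℂ) {F : M → Fb N} (h : MT (𝓡∂ n) ((𝓡∂ n).interior M) F) :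
    tm n r (c • F) = c • tm n r F := by
  have h1 := (c • tm n r F).2.1
  rw [Submodule.coe_smul, tm_val h] at h1
  refine Subtype.ext ?_
  rw [Submodule.coe_smul, tm_val h, tm_val (F := c • F) h1, Prod.smul_mk, smul_zero]

theorem tb_add {F F' : Ec n → Fb N} (h : ET (ball 0 r) F) (h' : ET (ball 0 r) F') :
    tb M r (F + F') = tb M r F + tb M r F' := by
  have h1 := (tb M r F + tb M r F').2.2
  rw [Submodule.coe_add, tb_val h, tb_val h'] at h1
  refine Subtype.ext ?_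
  rw [Submodule.coe_add, tb_val h, tb_val h', tb_val (F := F + F') h1, Prod.mk_add_mk, add_zero]

theorem tb_smul (c : ℂ) {F : Ec n → Fb N} (h : ET (ball 0 r) F) :
    tb M r (c • F) = c • tb M r F := by
  have h1 := (c • tb M r F).2.2
  rw [Submodule.coe_smul, tb_val h] at h1
  refine Subtype.ext ?_
  rw [Submodule.coe_smul, tb_val h, tb_val (F := c • F) h1, Prod.smul_mk, smul_zero]

theorem sb_tb {F : Ec n → Fb N} (h : ET (ball 0 r) F) : sb p r τ W (tb M r F).1 = F := by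
  rw [tb_val h, sb]
  funext z
  simp [xup, xpl, Set.indicator_apply]

theorem GXs_pair_conj (γ : Geo n N) (u w : Ec n → Fb N) : conj (γ.pair w u) = γ.pair u w := by
  rw [Geo.pair, Geo.pair, ← integral_conj]
  refine integral_congr_ae (ae_of_all _ fun z => ?_)
  simp only [Complex.real_smul, map_mul, Complex.conj_ofReal, inner_conj_symm]

theorem GXs_pair_ae (γ : Geo n N) {Ω : Set (Ec n)} {u u' w : Ec n → Fb N} (hw : tsupport w ⊆ Ω)
    (h : ∀ᵐ z, z ∈ Ω → u z = u' z) : γ.pair u w = γ.pair u' w := by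
  refine integral_congr_ae (h.mono fun z hz => ?_)
  by_cases h1 : z ∈ Ω
  · simp only [hz h1]
  · simp only [image_eq_zero_of_notMem_tsupport fun h2 => h1 (hw h2), inner_zero_right]

theorem GXs_sq (a b : Fb N) : ‖a + b‖ ^ 2 ≤ 2 * ‖a‖ ^ 2 + 2 * ‖b‖ ^ 2 := by
  nlinarith [norm_add_le a b, norm_nonneg (a + b), norm_nonneg a, norm_nonneg b,
    sq_nonneg (‖a‖ - ‖b‖)]

variable [IsManifold (𝓡∂ n) ∞ M] [T2Space M] [CompactSpace M]
  {Γ : Set M} {g : Met (𝓡∂ n) M} {A : Conn (𝓡∂ n) M N}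

theorem um_tm {F : M → Fb N} (h : MT (𝓡∂ n) ((𝓡∂ n).interior M) F) :
    um p r τ θ W (tm n r F).1 = F := by
  rw [tm_val h, um, GXt_zero, add_zero]

theorem um_tb {F : Ec n → Fb N} (h : ET (ball 0 r) F) :
    um p r τ θ W (tb M r F).1 = xps p r τ θ W F := by
  rw [tb_val h, um, zero_add]

variable [MeasurableSpace M] [BorelSpace M] {μ : Measure M}
  {j : XD (n := n) M N r →ₗ[ℂ] XH μ γ r} {T : XH μ γ r →L[ℂ] XH μ γ r}

theorem XP.sm_lo (h : XP Γ g A p r τ θ W γ) : γ.Sm (lo n r) := h.sm.sub inter_subset_left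

theorem XP.inner_tm (h : XP Γ g A p r τ θ W γ) (hj : IsJ p r τ θ W j) (a : XH μ γ r)
    {F : M → Fb N} (hF : MT (𝓡∂ n) ((𝓡∂ n).interior M) F) :
    inner ℂ a (j (tm n r F)) = ∫ x, inner ℂ ((a.fst : M → Fb N) x) (F x) ∂μ := by
  rw [h.inner_m hj a _ (by rw [tm_val hF]), tm_val hF]

theorem XP.inner_tb (h : XP Γ g A p r τ θ W γ) (hv : IsVol g μ) (hj : IsJ p r τ θ W j)
    (a : XH μ γ r) {F : Ec n → Fb N} (hF : ET (ball 0 r) F) :
    inner ℂ a (j (tb M r F)) = γ.pair (kb p r τ W a) F := by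
  rw [h.inner_b hv hj a _ (by rw [tb_val hF]), tb_val hF]

theorem XP.inv_tm (h : XP Γ g A p r τ θ W γ) (hj : IsJ p r τ θ W j)
    (hT : IsG (XQ g μ A p r τ θ W γ) j T) {φ F : M → Fb N}
    (hφ : MT (𝓡∂ n) ((𝓡∂ n).interior M) φ) (hF : MT (𝓡∂ n) ((𝓡∂ n).interior M) F)
    (hw : MW g μ A ((𝓡∂ n).interior M) φ F) : T (j (tm n r F)) = j (tm n r φ) :=
  hT.inv _ _ (h.weak_m hj _ _ (by rw [tm_val hφ]) (by rw [tm_val hF])
    (by rw [tm_val hφ, tm_val hF]; exact hw))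

theorem XP.inv_tb (h : XP Γ g A p r τ θ W γ) (hv : IsVol g μ) (hj : IsJ p r τ θ W j)
    (hT : IsG (XQ g μ A p r τ θ W γ) j T) {φ F : Ec n → Fb N} (hφ : ET (ball 0 r) φ)
    (hF : ET (ball 0 r) F) (hw : EW (ball 0 r) γ φ F) : T (j (tb M r F)) = j (tb M r φ) :=
  hT.inv _ _ (h.weak_b hv hj _ _ (by rw [tb_val hφ]) (by rw [tb_val hF])
    (by rw [tb_val hφ, tb_val hF]; exact hw))

theorem XP.rep_m (h : XP Γ g A p r τ θ W γ) (hv : IsVol g μ) (hj : IsJ p r τ θ W j)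
    (hT : IsG (XQ g μ A p r τ θ W γ) j T) (d : XD (n := n) M N r) :
    ∃ u, MW g μ A ((𝓡∂ n).interior M) u (um p r τ θ W d.1) ∧
      ((T (j d)).fst : M → Fb N) =ᵐ[μ] u := by
  refine GXm_rep (gr2 n N) hv A (Lp.memLp _) (h.um_sm d) fun φ F hφ hF hw => ?_
  rw [← h.inner_tm hj _ hF, hT.sym, h.inv_tm hj hT hφ hF hw, h.inner_tm hj _ hφ]
  exact integral_congr_ae ((hj d).1.mono fun x hx => by simp only [hx])

theorem XP.rep_b (h : XP Γ g A p r τ θ W γ) (hv : IsVol g μ) (hj : IsJ p r τ θ W j)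
    (hT : IsG (XQ g μ A p r τ θ W γ) j T) (d : XD (n := n) M N r) :
    ∃ u, EW (ball 0 r) γ u (sb p r τ W d.1) ∧
      ∀ᵐ z, z ∈ ball (0 : Ec n) r → kb p r τ W (T (j d)) z = u z := by
  refine gr2 n N _ _ _ _ isOpen_ball h.sm (h.kb_loc hv _) (h.sb_sm d) fun φ F hφ hF hw => ?_
  rw [← h.inner_tb hv hj _ hF, hT.sym, h.inv_tb hv hj hT hφ hF hw, h.inner_tb hv hj _ hφ]
  exact GXs_pair_ae γ hφ.2.2 (h.kb_j hv hj d)

theorem XP.fst_le (h : XP Γ g A p r τ θ W γ) (a : XH μ γ r) {u : M → Fb N}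
    (hu : (a.fst : M → Fb N) =ᵐ[μ] u) (O : Set M) :
    ∫⁻ x in O, ENNReal.ofReal (‖u x‖ ^ 2) ∂μ ≤ ENNReal.ofReal (‖a‖ ^ 2) := by
  rw [GXq_norm h.sm_lo]
  refine (setLIntegral_le_lintegral _ _).trans (le_trans (le_of_eq ?_) le_self_add)
  exact lintegral_congr_ae (hu.mono fun x hx => by simp only [hx])

theorem XP.sub_le (h : XP Γ g A p r τ θ W γ) (hj : IsJ p r τ θ W j) (d : XD (n := n) M N r)
    (a : XH μ γ r) {u : M → Fb N} (hu : (a.fst : M → Fb N) =ᵐ[μ] u) (O : Set M) :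
    ∫⁻ x in O, ENNReal.ofReal (‖um p r τ θ W d.1 x - u x‖ ^ 2) ∂μ ≤
      ENNReal.ofReal (‖j d - a‖ ^ 2) := by
  refine h.fst_le (j d - a) (u := fun x => um p r τ θ W d.1 x - u x) ?_ O
  filter_upwards [Lp.coeFn_sub (j d).fst a.fst, (hj d).1, hu] with x h1 h2 h3
  rw [← h2, ← h3]
  exact h1

theorem XP.inner_lo (h : XP Γ g A p r τ θ W γ) (hv : IsVol g μ) (hj : IsJ p r τ θ W j)
    (d : XD (n := n) M N r) {F : Ec n → Fb N} (hF : ET (lo n r) F) :
    inner ℂ (j d) (j (tb M r F)) = γ.pair d.1.2 F := by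
  rw [h.inner_tb hv hj _ (hF.mono inter_subset_left),
    GXs_pair_ae γ (hF.2.2.trans inter_subset_left) (h.kb_j hv hj d)]
  exact γ.pair_congr_left fun z hz => GXq_sb_lo d.1 (hF.2.2 hz)

variable {S : (M → Fb N) → M → Fb N}

omit [T2Space M] [CompactSpace M] [MeasurableSpace M] [BorelSpace M] [IsManifold (𝓡∂ n) ∞ M] in
theorem GXs_bd (d : XD (n := n) M N r) :
    EqOn (um p r τ θ W d.1) (xps p r τ θ W d.1.2) ((𝓡∂ n).boundary M) := fun x hx => by
  have h1 : d.1.1 x = 0 := image_eq_zero_of_notMem_tsupport fun h2 => by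
    have h3 := d.2.1.2 h2
    rw [← (𝓡∂ n).compl_boundary] at h3
    exact h3 hx
  simp only [um, Pi.add_apply, h1, zero_add]

theorem XP.en_le (h : XP Γ g A p r τ θ W γ) (hD : Dat Γ g μ A S) (d : XD (n := n) M N r) :
    En g μ A (S (xps p r τ θ W d.1.2)) + (∫ z in lo n r, γ.vol z • γ.den d.1.2 d.1.2 z).re ≤
      (XQ g μ A p r τ θ W γ d d).re := by
  rw [XQ, Complex.add_re]
  exact add_le_add ((hD.sol _ (h.xps_tst d.2.2)).en_le hD.vol (h.um_sm d) (GXs_bd d)) le_rfl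

theorem XP.en_ge (h : XP Γ g A p r τ θ W γ) (hD : Dat Γ g μ A S) {φ : Ec n → Fb N}
    (hφ : ET (ball 0 r) φ) {ε : ℝ} (hε : 0 < ε) : ∃ d : XD (n := n) M N r, d.1.2 = φ ∧
      (XQ g μ A p r τ θ W γ d d).re ≤
        En g μ A (S (xps p r τ θ W φ)) + (∫ z in lo n r, γ.vol z • γ.den φ φ z).re + ε ∧
      ∀ x, ‖S (xps p r τ θ W φ) x - um p r τ θ W d.1 x‖ ≤ ε := by
  have hs := hD.sol _ (h.xps_tst hφ)
  obtain ⟨ζ, h1, h2, h3⟩ := GXd_dens hD.vol A (sm_sub hs.smooth (h.xps_sm hφ))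
    (fun x hx => sub_eq_zero.2 (hs.bd hx)) hε
  have e : ∀ x, S (xps p r τ θ W φ) x - um p r τ θ W (ζ, φ) x =
      S (xps p r τ θ W φ) x - xps p r τ θ W φ x - ζ x := fun x => by
    simp only [um, Pi.add_apply]; abel
  refine ⟨⟨(ζ, φ), h1, hφ⟩, rfl, ?_, fun x => (e x).symm ▸ h3 x⟩
  have h4 := hs.pyth hD.vol (h.um_sm ⟨(ζ, φ), h1, hφ⟩) (GXs_bd ⟨(ζ, φ), h1, hφ⟩)
  simp only [e] at h4
  rw [XQ, Complex.add_re]
  change En g μ A (um p r τ θ W (ζ, φ)) + (∫ z in lo n r, γ.vol z • γ.den φ φ z).re ≤ _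
  linarith

end Vale.Agent.P088.Gl
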