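import Vale.Agent.P088F.Mono
import Vale.Agent.P088F.Ker1

/-! P088F, part H: the quasi-local intertwiner (calculus). -/

open scoped ContDiff Topology ENNReal
open Set Filter MeasureTheory Metric

noncomputable section

namespace Vale.Agent.P088F

open Vale.Agent.P292E

variable {n : ℕ} {ι : Type} [Fintype ι] [DecidableEq ι]

theorem hj_pd_add {s : Set (V n)} (hs : IsOpen s) {f g : V n → ℂ} (hf : ContDiffOn ℝ ∞ f s)
    (hg : ContDiffOn ℝ ∞ g s) (p : Fin n) {x : V n} (hx : x ∈ s) :
    pd p (fun y => f y + g y) x = pd p f x + pd p g x :=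
  pd_add ((hf.contDiffAt (hs.mem_nhds hx)).differentiableAt (by simp))
    ((hg.contDiffAt (hs.mem_nhds hx)).differentiableAt (by simp)) p

theorem hj_pd_smul (z : ℂ) (f : V n → ℂ) (p : Fin n) :
    pd p (fun y => z * f y) = fun y => z * pd p f y := by
  funext y
  have h := congrFun (fderiv_const_smul_field (𝕜 := ℝ) (f := f) z) y
  rw [pd, show (fun y => z * f y) = z • f from rfl, h]
  rfl

theorem hj_pd_ev {f g : V n → ℂ} {x : V n} (h : f =ᶠ[𝓝 x] g) (p : Fin n) :
    pd p f =ᶠ[𝓝 x] pd p g := h.fderiv.mono fun y hy => by rw [pd, pd, hy]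

omit [DecidableEq ι] in
theorem hj_ap_ev (L : Op n ι) {u v : Fam n ι} {x : V n} (h : ∀ l, u l =ᶠ[𝓝 x] v l) (l : ι) :
    L.ap u l x = L.ap v l x := by
  simp only [Op.ap, fun l j k => (hj_pd_ev (hj_pd_ev (h l) k) j).eq_of_nhds,
    fun l j => (hj_pd_ev (h l) j).eq_of_nhds, fun l => (h l).eq_of_nhds]

omit [DecidableEq ι] in
theorem hj_ap_add (L : Op n ι) {s : Set (V n)} (hs : IsOpen s) {u v : Fam n ι}
    (hu : ∀ l, ContDiffOn ℝ ∞ (u l) s) (hv : ∀ l, ContDiffOn ℝ ∞ (v l) s) (l : ι) {x : V n}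
    (hx : x ∈ s) : L.ap (u + v) l x = L.ap u l x + L.ap v l x := by
  have e1 : ∀ m j, ∀ y ∈ s, pd j ((u + v) m) y = pd j (u m) y + pd j (v m) y :=
    fun m j y hy => hj_pd_add hs (hu m) (hv m) j hy
  have e2 : ∀ m j k, pd j (pd k ((u + v) m)) x = pd j (pd k (u m)) x + pd j (pd k (v m)) x :=
    fun m j k => by
      rw [(hj_pd_ev (mem_of_superset (hs.mem_nhds hx) (e1 m k)) j).eq_of_nhds]
      exact hj_pd_add hs (contDiffOn_pd hs (hu m) k) (contDiffOn_pd hs (hv m) k) j hx
  simp only [Op.ap, e2, fun m j => e1 m j x hx]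
  simp only [Pi.add_apply, mul_add, Finset.sum_add_distrib]
  ring

omit [DecidableEq ι] in
theorem hj_ap_smul (L : Op n ι) (z : ℂ) (u : Fam n ι) (l : ι) (x : V n) :
    L.ap (z • u) l x = z * L.ap u l x := by
  have e1 : ∀ m j, pd j ((z • u) m) = fun y => z * pd j (u m) y := fun m j => hj_pd_smul z (u m) j
  simp only [Op.ap, e1, hj_pd_smul]
  simp only [Pi.smul_apply, smul_eq_mul, mul_add, Finset.mul_sum]
  congr 1
  · exact Finset.sum_congr rfl fun _ _ => Finset.sum_congr rfl fun _ _ => by ring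
  · refine Finset.sum_congr rfl fun _ _ => ?_
    congr 1
    · exact Finset.sum_congr rfl fun _ _ => by ring
    · ring

omit [DecidableEq ι] in
theorem hj_ap_sy (L : Op n ι) (u : Fam n ι) : L.ap u = Sy L.gc L.a L.c u := by
  funext l x
  simp only [Op.ap, Sy, Finset.sum_add_distrib, add_assoc]
  rw [Finset.sum_comm (f := fun m j => L.a j l m x * _)]

omit [Fintype ι] [DecidableEq ι] in
theorem hj_sm {L : Op n ι} (h : L.Sm) (s : Set (V n)) : Sm s L.gc L.a L.c :=
  ⟨fun p q => (Complex.ofRealCLM.contDiff.comp (h.g p q)).contDiffOn,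
    fun p I J => (h.a p I J).contDiffOn, fun I J => (h.c I J).contDiffOn⟩

omit [DecidableEq ι] in
theorem hj_ap_tst {L : Op n ι} (h : L.Sm) {s : Set (V n)} (hs : IsOpen s) {φ : Fam n ι}
    (hφ : TstF s φ) : TstF s (L.ap φ) := fun l => by
  rw [hj_ap_sy]
  exact (hj_sm h s).tst hs hφ l

omit [DecidableEq ι] in
theorem hj_ap_sm {L : Op n ι} (h : L.Sm) {s : Set (V n)} (hs : IsOpen s) {u : Fam n ι}
    (hu : ∀ l, ContDiffOn ℝ ∞ (u l) s) (l : ι) : ContDiffOn ℝ ∞ (L.ap u l) s := by
  rw [hj_ap_sy]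
  exact (hj_sm h s).sy hs hu l

omit [DecidableEq ι] in
theorem hj_sol_congr {L : Op n ι} {s : Set (V n)} (hs : IsOpen s) {u v : Fam n ι}
    (h : SolOn L s u) (e : ∀ l, ∀ x ∈ s, v l x = u l x) : SolOn L s v :=
  ⟨fun l => (h.1 l).congr (e l), fun l x hx =>
    (hj_ap_ev L (fun l => mem_of_superset (hs.mem_nhds hx) (e l)) l).trans (h.2 l x hx)⟩

/-- Kernels applied to a fixed source give solutions. -/
theorem hj_par (hRG : RG n ι) (hTB : TB n ι) {P Q : Op n ι} (hP : P.Sm) {Ω : Set (V n × V n)}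
    (hΩ : IsOpen Ω) {W : Kr n ι} (hW : Sol P Q Ω W) {D K : Set (V n)} (hD : IsOpen D)
    (hK : IsCompact K) (hs : D ×ˢ K ⊆ Ω) {F : Fam n ι} (hF : ∀ m, Continuous (F m))
    (h0 : ∀ m y, y ∉ K → F m y = 0) : SolOn P D fun l x => ∫ y, ∑ m, W l m x y * F m y := by
  have c1 : ∀ l, ContinuousOn (fun p : V n × V n => ∑ m, W l m p.1 p.2 * F m p.2) (D ×ˢ univ) :=
    fun l => continuousOn_finsetSum _ fun m _ p hp => ContinuousAt.continuousWithinAt (by
      by_cases h : p.2 ∈ K
      · exact ((hW.sm l m).continuousOn.continuousAt (hΩ.mem_nhds (hs ⟨hp.1, h⟩))).mul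
          ((hF m).comp continuous_snd).continuousAt
      · refine (continuousAt_const (y := (0 : ℂ))).congr ?_
        filter_upwards [continuous_snd.continuousAt.preimage_mem_nhds
          (hK.isClosed.isOpen_compl.mem_nhds h)] with q hq
        rw [h0 m _ hq, mul_zero])
  have z1 : ∀ l x y, y ∉ K → ∑ m, W l m x y * F m y = 0 := fun l x y hy =>
    Finset.sum_eq_zero fun m _ => by rw [h0 m y hy, mul_zero]
  have c2 : ∀ l, ContinuousOn (fun x => ∫ y, ∑ m, W l m x y * F m y) D := fun l =>
    continuousOn_integral_of_compact_support (f := fun x y => ∑ m, W l m x y * F m y) hK (c1 l)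
      fun x y _ hy => z1 l x y hy
  obtain ⟨w, h1, h2, h3⟩ := hRG P D (fun l x => ∫ y, ∑ m, W l m x y * F m y) (fun _ _ => 0) hP hD
    (fun l => (c2 l).locallyIntegrableOn hD.measurableSet) (fun _ => contDiffOn_const)
    fun φ hφ => by
      have hT := hj_ap_tst (hTB.1 P hP) hD hφ
      generalize hE : P.t.ap φ = T at hT
      let H : ι → V n × V n → ℂ := fun l p => (∑ m, W l m p.1 p.2 * F m p.2) * T l p.1
      have c3 : ∀ l, Continuous (H l) := fun l => continuous_iff_continuousAt.2 fun p => by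
        by_cases h : p.1 ∈ D
        · exact ((c1 l).continuousAt ((hD.prod isOpen_univ).mem_nhds ⟨h, trivial⟩)).mul
            ((hT l).1.continuous.comp continuous_fst).continuousAt
        · refine (continuousAt_const (y := (0 : ℂ))).congr ?_
          filter_upwards [continuous_fst.continuousAt.preimage_mem_nhds
            ((isClosed_tsupport (T l)).isOpen_compl.mem_nhds fun h' => h ((hT l).2.2 h'))] with q hq
          simp only [H, image_eq_zero_of_notMem_tsupport hq, mul_zero]
      have s3 : ∀ l, HasCompactSupport (H l) := fun l =>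
        HasCompactSupport.intro ((hT l).2.1.isCompact.prod hK) fun p hp => by
          by_cases h : p.2 ∈ K
          · simp only [H, image_eq_zero_of_notMem_tsupport fun h' => hp ⟨h', h⟩, mul_zero]
          · simp only [H, z1 l _ _ h, zero_mul]
      have i3 : ∀ l x, Integrable fun y => H l (x, y) := fun l x =>
        ((c3 l).comp (Continuous.prodMk_right x)).integrable_of_hasCompactSupport
          (HasCompactSupport.intro hK fun y hy => mul_eq_zero_of_left (z1 l x y hy) _)
      have i4 : Integrable (Function.uncurry fun x y => ∑ l, H l (x, y)) (volume.prod volume) :=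
        integrable_finsetSum _ fun l _ => (c3 l).integrable_of_hasCompactSupport (s3 l)
      have e1 : ∀ x, ∑ l, (∫ y, ∑ m, W l m x y * F m y) * T l x = ∫ y, ∑ l, H l (x, y) :=
        fun x => by
          rw [integral_finsetSum _ fun l _ => i3 l x]
          exact Finset.sum_congr rfl fun l _ => (integral_mul_const _ _).symm
      simp only [e1, zero_mul, Finset.sum_const_zero, integral_zero]
      rw [integral_integral_swap i4]
      refine (integral_congr_ae (.of_forall fun y => ?_)).trans (integral_zero _ _)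
      by_cases hy : y ∈ K
      · have sm : ∀ l m, ContDiffOn ℝ ∞ (fun x => W l m x y) D := fun l m =>
          (hW.sm l m).comp (f := fun x => (x, y)) (by fun_prop) fun x hx => hs ⟨hx, hy⟩
        have e2 : ∀ x, ∑ l, H l (x, y) = ∑ m, F m y * ∑ l, W l m x y * T l x := fun x => by
          simp only [H, Finset.sum_mul, Finset.mul_sum]
          rw [Finset.sum_comm]
          exact Finset.sum_congr rfl fun _ _ => Finset.sum_congr rfl fun _ _ => by ring
        simp only [e2]
        rw [integral_finsetSum _ fun m _ => (integrable_finsetSum _ fun l _ =>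
          int_cont (sm l m).continuousOn (hT l)).const_mul _]
        refine Finset.sum_eq_zero fun m _ => ?_
        rw [integral_const_mul, ← hE, hTB.2.2.2.2.2 P D _ φ hP hD (fun l => sm l m) hφ]
        refine mul_eq_zero_of_right _
          ((integral_congr_ae (.of_forall fun x => ?_)).trans (integral_zero _ _))
        refine Finset.sum_eq_zero fun l _ => ?_
        by_cases hx : x ∈ D
        · exact mul_eq_zero_of_left (hW.ex (x, y) (hs ⟨hx, hy⟩) l m) _
        · rw [tst_zero (hφ l) hx, mul_zero]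
      · simp only [H, z1 _ _ _ hy, zero_mul, Finset.sum_const_zero, integral_zero]
  exact hj_sol_congr hD ⟨h1, h2⟩ fun l => Measure.eqOn_open_of_ae_eq (μ := volume)
    ((ae_restrict_iff' hD.measurableSet).2 (h3 l)) hD (c2 l) (h1 l).continuousOn

/-- The weak equation in the second variable. -/
theorem hj_wk (hTB : TB n ι) {P Q : Op n ι} (hQ : Q.Sm) {Ω : Set (V n × V n)} {W : Kr n ι}
    (hW : Sol P Q.t Ω W) {x : V n} {s : Set (V n)} (hs : IsOpen s) (h : ∀ y ∈ s, (x, y) ∈ Ω)
    {φ : Fam n ι} (hφ : TstF s φ) (l : ι) : ∫ y, ∑ m, W l m x y * Q.ap φ m y = 0 := by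
  have k := hTB.2.2.2.2.2 Q.t s (fun m y => W l m x y) φ (hTB.1 Q hQ) hs
    (fun m => (hW.sm l m).comp (f := fun y => (x, y)) (by fun_prop) h) hφ
  rw [hTB.2.1 Q hQ] at k
  refine k.trans ((integral_congr_ae (.of_forall fun y => ?_)).trans (integral_zero _ _))
  refine Finset.sum_eq_zero fun m _ => ?_
  by_cases hy : y ∈ s
  · exact mul_eq_zero_of_left (hW.ey (x, y) (h y hy) l m) _
  · rw [tst_zero (hφ m) hy, mul_zero]

end Vale.Agent.P088F
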