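import Vale.Agent.P088F.LCE
import Vale.Agent.P088F.LCB1
import Vale.Agent.P088F.LCB2

/-! P088, part L: local continuation from the Runge property and the matched case. -/

open Set Filter Metric Topology Matrix
open scoped ContDiff

noncomputable section

namespace Vale.Agent.P088.Gl

open Lc

variable {n N : ℕ} [NeZero n]

theorem lc_of (l₀ : Fin N) (hR : RJ n N) (hM : LM n N) : LC n N := by
  intro B₁ B₂ D γ₁ γ₂ G₁ G₂ c x₀ y₀ r Ψ V V₀ b₁ b₂ h₁ h₂ g₁ g₂ r0 hc hD hr hx hy h hm tΨ tV hrel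
  by_cases hxD : x₀ ∈ D
  · obtain ⟨ε, e0, e1⟩ := Metric.isOpen_iff.1 h.op x₀ hxD
    exact ⟨ε, e0, Ψ, V, e1.trans hD, h.mono isOpen_ball e1, hm.mono_left e1, fun _ _ => ⟨rfl, rfl⟩⟩
  have hcl : x₀ ∈ closure D := closure_mono hc (by
    rw [closure_ball c r0.ne']
    exact hr.le)
  have := mem_closure_iff_nhdsWithin_neBot.1 hcl
  have hD₂ := h₂.mono hD
  have hν : x₀ - c ≠ 0 := fun e => by
    rw [dist_eq_norm, e, norm_zero] at hr
    exact r0.ne hr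
  obtain ⟨M, t, t0, hMg, hMt⟩ := coframe (h₂.pos x₀ hx) hν
  have R := hR B₂ γ₂ G₂ D x₀ b₂ h₂ g₂ h.op hD hx hcl hxD
  choose F F1 F2 _ using fun l : Fin N => R (EuclideanSpace.single l 1) 0
  choose H H1 H2 H3 using fun j : Fin n => R 0 (eta l₀ M j)
  have hE₂ : frm (fun l => G₂ (F l)) x₀ = 1 := frm_one F2
  obtain ⟨O₂, x2, o₂, p₂⟩ := exists_pre b₂ g₂ (fun l => (F1 l).mono hD) (fun j => (H1 j).mono hD) hx
    (fun l a => hxD ((F1 l).2.2 a)) (fun l a => hxD ((H1 l).2.2 a)) (hE₂ ▸ isUnit_one)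
  have hy' := notMem_image h hD₂ tΨ hcl hxD
  have rel : ∀ u, ET D u → ∀ z ∈ D, G₁ (pf D Ψ V u) (Ψ z) = V z (G₂ u z) := fun u hu =>
    hrel _ _ (h.et_pf hD₂ hu) hu (h.pf_rel u)
  have lim : ∀ u, ET D u → G₁ (pf D Ψ V u) y₀ = V₀ (G₂ u x₀) := fun u hu =>
    tendsto_nhds_unique_of_eventuallyEq (((g₁.sol _ ((h.et_pf hD₂ hu).mono
      hm.image_subset)).1.continuousOn.continuousAt (b₁.mem_nhds hy)).tendsto.comp tΨ)
      (((isBoundedBilinearMap_apply (𝕜 := ℂ)).continuous.tendsto (V₀, _)).comp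
        (tV.prodMk_nhds (((g₂.sol _ (hu.mono hD)).1.continuousOn.continuousAt
          (b₂.mem_nhds hx)).tendsto.mono_left nhdsWithin_le_nhds)))
      (mem_of_superset self_mem_nhdsWithin (rel u hu))
  have tS := ((starL' ℝ : Op N ≃L[ℝ] Op N).continuous.tendsto V₀).comp tV
  have hV₀ : V₀ ∈ unitary (Op N) :=
    ⟨tendsto_nhds_unique_of_eventuallyEq (tS.mul tV) tendsto_const_nhds
      (mem_of_superset self_mem_nhdsWithin fun z hz => (h.uni z hz).1),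
    tendsto_nhds_unique_of_eventuallyEq (tV.mul tS) tendsto_const_nhds
      (mem_of_superset self_mem_nhdsWithin fun z hz => (h.uni z hz).2)⟩
  have hE₁ : frm (fun l => G₁ (pf D Ψ V (F l))) y₀ = V₀ * frm (fun l => G₂ (F l)) x₀ :=
    frm_mul fun l => lim _ (F1 l)
  obtain ⟨O₁, y1, o₁, p₁⟩ := exists_pre b₁ g₁ (fun l => (h.et_pf hD₂ (F1 l)).mono hm.image_subset)
    (fun j => (h.et_pf hD₂ (H1 j)).mono hm.image_subset) hy
    (fun l a => hy' ((h.et_pf hD₂ (F1 l)).2.2 a)) (fun l a => hy' ((h.et_pf hD₂ (H1 l)).2.2 a))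
    (by rw [hE₁, hE₂, mul_one]; exact uni_unit hV₀)
  have eE : ∀ z ∈ D, frm (fun l => G₁ (pf D Ψ V (F l))) (Ψ z) = V z * frm (fun l => G₂ (F l)) z :=
    fun z hz => frm_mul fun l => rel _ (F1 l) z hz
  have eσ := fun j => rel _ (H1 j)
  have s₁ := crd_smooth l₀ p₁.sec_smooth
  have s₂ := crd_smooth l₀ p₂.sec_smooth
  have d₂ : (jac (crd l₀ (sec (frm fun l => G₂ (F l)) fun j => G₂ (H j))) x₀).det ≠ 0 := by
    rw [p₂.jac_eq x2 hE₂ H2 H3]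
    intro e
    have := (h₂.pos x₀ hx).det_pos
    rw [← hMg, Matrix.det_mul, e, mul_zero] at this
    exact lt_irrefl _ this
  have d₁ := det_ne p₁.op p₂.op s₁ s₂ (h₁.mono o₁) (h₂.mono o₂) y1 x2 h tΨ hcl
    (fun z a b => crd_eq p₂ h eE eσ a b) d₂
  obtain ⟨Y₁, ρ₁, c₁⟩ := exists_cht p₁.op s₁ y1
    (crd_zero fun j => by rw [lim _ (H1 j), H2, map_zero]) d₁
  obtain ⟨Y₂, ρ₂, c₂⟩ := exists_cht p₂.op s₂ x2 (crd_zero H2) d₂
  obtain ⟨C, ρ₃, k0, k1⟩ := cap_ball (Y := Y₂) (c := c) (r := r) (t := t)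
    ((c₂.sY.contDiffAt (ball_mem_nhds _ c₂.r0)).of_le (WithTop.coe_le_coe.2 (le_top : (2 : ℕ∞) ≤ ⊤)))
    (c₂.y0 ▸ hr) t0 fun v => by
      rw [← p₂.key x2 hE₂ H2 H3 c₂ v 0, Finset.mul_sum, c₂.y0]
      simp only [hMt, mul_assoc]
  exact matched hM p₁ p₂ o₁ o₂ h₁ h₂ g₁ g₂ h hrel tΨ eE eσ c₁ c₂ k0 (k1.mono_right hc)
    (p₂.g_one x2 hE₂ H2 H3 c₂ hMg) (p₂.s_one x2 hE₂ H2 H3 c₂)

end Vale.Agent.P088.Gl
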