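import Vale.Agent.P088F.LCB3
import Vale.Agent.P088F.TC2
import Vale.Agent.P088F.LR5

/-! P088, part L: frames of solutions. -/

open Set Filter Metric Topology Matrix
open scoped ContDiff

noncomputable section

namespace Vale.Agent.P088.Gl.Lc

variable {n N : ℕ} {B O : Set (Ec n)} {γ : Geo n N} {G : (Ec n → Fb N) → Ec n → Fb N}

/-- The frame with given columns. -/
def frm (u : Fin N → Ec n → Fb N) (z : Ec n) : Op N :=
  ∑ l, ContinuousLinearMap.smulRightL ℂ (Fb N) (Fb N) (EuclideanSpace.proj l) (u l z)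

theorem frm_apply (u : Fin N → Ec n → Fb N) (z : Ec n) (ξ : Fb N) :
    frm u z ξ = ∑ l, ξ l • u l z := by
  simp [frm]

theorem frm_smooth {u : Fin N → Ec n → Fb N} (hu : ∀ l, ContDiffOn ℝ ∞ (u l) B) :
    ContDiffOn ℝ ∞ (frm u) B :=
  ContDiffOn.sum fun l _ => ((ContinuousLinearMap.smulRightL ℂ (Fb N) (Fb N)
    (EuclideanSpace.proj l)).restrictScalars ℝ).contDiff.comp_contDiffOn (hu l)

theorem frm_one {u : Fin N → Ec n → Fb N} {z : Ec n}
    (h : ∀ l, u l z = EuclideanSpace.single l 1) : frm u z = 1 := by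
  ext ξ k
  simp [frm_apply, h, Pi.single_apply]

theorem frm_mul {u u' : Fin N → Ec n → Fb N} {z z' : Ec n} {V : Op N}
    (h : ∀ l, u l z = V (u' l z')) : frm u z = V * frm u' z' := by
  ext1 ξ
  simp [frm_apply, h]

theorem et_zero : ET B (0 : Ec n → Fb N) :=
  ⟨contDiff_const, HasCompactSupport.zero, by simp⟩

theorem et_add {F F' : Ec n → Fb N} (h : ET B F) (h' : ET B F') : ET B (F + F') :=
  ⟨h.1.add h'.1, h.2.1.add h'.2.1, (tsupport_add F F').trans (union_subset h.2.2 h'.2.2)⟩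

theorem et_smul (c : ℂ) {F : Ec n → Fb N} (h : ET B F) : ET B (c • F) :=
  ⟨h.1.const_smul c, h.2.1.smul_left (f := fun _ => c),
    (tsupport_smul_subset_right (fun _ => c) F).trans h.2.2⟩

theorem eg_sum (hG : EG B γ G) {F : Fin N → Ec n → Fb N} (hF : ∀ l, ET B (F l)) (c : Fin N → ℂ)
    (s : Finset (Fin N)) : ET B (∑ l ∈ s, c l • F l) ∧
      ∀ z ∈ B, G (∑ l ∈ s, c l • F l) z = ∑ l ∈ s, c l • G (F l) z := by
  induction s using Finset.induction_on with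
  | empty =>
    refine ⟨et_zero, fun z hz => ?_⟩
    simpa using hG.smul 0 0 et_zero hz
  | insert a s ha ih =>
    rw [Finset.sum_insert ha]
    refine ⟨et_add (et_smul _ (hF a)) ih.1, fun z hz => ?_⟩
    rw [Finset.sum_insert ha, hG.add _ _ (et_smul _ (hF a)) ih.1 hz, Pi.add_apply,
      hG.smul _ _ (hF a) hz, ih.2 z hz, Pi.smul_apply]

/-- The sections in the frame. -/
def sec (E : Ec n → Op N) (σ : Fin n → Ec n → Fb N) (j : Fin n) (z : Ec n) : Fb N :=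
  Ring.inverse (E z) (σ j z)

/-- The coordinates. -/
def crd (l₀ : Fin N) (s : Fin n → Ec n → Fb N) (z : Ec n) : Ec n :=
  WithLp.toLp 2 fun j => (s j z l₀).re

/-- A frame of solutions and further solutions. -/
structure Pre (O : Set (Ec n)) (γ : Geo n N) (E : Ec n → Op N) (σ : Fin n → Ec n → Fb N) :
    Prop where
  op : IsOpen O
  sE : ContDiffOn ℝ ∞ E O
  un : ∀ z ∈ O, IsUnit (E z)
  wE : ∀ ξ, EW O γ (fun z => E z ξ) 0
  ws : ∀ j, EW O γ (σ j) 0

variable {E : Ec n → Op N} {σ : Fin n → Ec n → Fb N}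

theorem op_apply {u : Ec n → Fb N} (hE : ContDiffOn ℝ ∞ E O) (hu : ContDiffOn ℝ ∞ u O) :
    ContDiffOn ℝ ∞ (fun z => E z (u z)) O :=
  ((ContinuousLinearMap.restrictScalarsL ℂ (Fb N) (Fb N) ℝ ℝ).contDiff.comp_contDiffOn
    hE).clm_apply hu

theorem inv_smooth (hE : ContDiffOn ℝ ∞ E O) (hu : ∀ z ∈ O, IsUnit (E z)) :
    ContDiffOn ℝ ∞ (fun z => Ring.inverse (E z)) O := fun z hz => by
  obtain ⟨u, h⟩ := hu z hz
  exact (h ▸ contDiffAt_ringInverse ℝ u).comp_contDiffWithinAt z (hE z hz)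

theorem Pre.sec_smooth (h : Pre O γ E σ) (j : Fin n) : ContDiffOn ℝ ∞ (sec E σ j) O :=
  op_apply (inv_smooth h.sE h.un) (h.ws j).1

/-- The real part of a component. -/
def rc (l₀ : Fin N) : Fb N →L[ℝ] ℝ :=
  Complex.reCLM.comp ((EuclideanSpace.proj l₀ : Fb N →L[ℂ] ℂ).restrictScalars ℝ)

theorem rc_apply (l₀ : Fin N) (ξ : Fb N) : rc l₀ ξ = (ξ l₀).re := rfl

theorem crd_smooth (l₀ : Fin N) {s : Fin n → Ec n → Fb N} (h : ∀ j, ContDiffOn ℝ ∞ (s j) O) :
    ContDiffOn ℝ ∞ (crd l₀ s) O :=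
  contDiffOn_euclidean.2 fun j => (rc l₀).contDiff.comp_contDiffOn (h j)

theorem mul_sec {z : Ec n} (h : IsUnit (E z)) (j : Fin n) : E z (sec E σ j z) = σ j z := by
  change (E z * Ring.inverse (E z)) (σ j z) = _
  rw [Ring.mul_inverse_cancel _ h]
  rfl

theorem sec_eq {E' : Ec n → Op N} {σ' : Fin n → Ec n → Fb N} {z z' : Ec n} {V : Op N}
    (hV : IsUnit V) (h : IsUnit (E' z')) (hE : E z = V * E' z') {j : Fin n}
    (hs : σ j z = V (σ' j z')) : sec E σ j z = sec E' σ' j z' := by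
  have h1 : IsUnit (E z) := hE ▸ hV.mul h
  rw [sec, hs, ← mul_sec (σ := σ') h j]
  change (Ring.inverse (E z) * (V * E' z')) _ = _
  rw [← hE, Ring.inverse_mul_cancel _ h1]
  rfl

theorem exists_pre (hB : IsOpen B) (hG : EG B γ G) {F : Fin N → Ec n → Fb N}
    {H : Fin n → Ec n → Fb N} (hF : ∀ l, ET B (F l)) (hH : ∀ j, ET B (H j)) {p : Ec n}
    (hp : p ∈ B) (h1 : ∀ l, p ∉ tsupport (F l)) (h2 : ∀ j, p ∉ tsupport (H j))
    (hu : IsUnit (frm (fun l => G (F l)) p)) :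
    ∃ O, p ∈ O ∧ O ⊆ B ∧ Pre O γ (frm fun l => G (F l)) fun j => G (H j) := by
  have hs := frm_smooth (B := B) fun l => (hG.sol _ (hF l)).1
  have e1 : ∀ᶠ z in 𝓝 p, IsUnit (frm (fun l => G (F l)) z) :=
    (hs.continuousOn.continuousAt (hB.mem_nhds hp)).eventually (Units.isOpen.mem_nhds hu)
  have e2 : ∀ᶠ z in 𝓝 p, ∀ l, F l z = 0 :=
    eventually_all.2 fun l => notMem_tsupport_iff_eventuallyEq.1 (h1 l)
  have e3 : ∀ᶠ z in 𝓝 p, ∀ j, H j z = 0 :=
    eventually_all.2 fun l => notMem_tsupport_iff_eventuallyEq.1 (h2 l)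
  obtain ⟨O, o1, o2, o3⟩ := _root_.eventually_nhds_iff.1 ((e1.and (e2.and e3)).and (hB.mem_nhds hp))
  have hO : O ⊆ B := fun z hz => (o1 z hz).2
  refine ⟨O, o3, hO, o2, hs.mono hO, fun z hz => (o1 z hz).1.1, fun ξ => ?_, fun j => ?_⟩
  · obtain ⟨s1, s2⟩ := eg_sum hG hF (fun l => ξ l) Finset.univ
    refine ((hG.sol _ s1).mono' hO).congr o2 (fun z hz => ?_) fun z hz => ?_
    · rw [s2 z (hO hz), frm_apply]
    · simp [(o1 z hz).1.2.1]
  · exact ((hG.sol _ (hH j)).mono' hO).congr o2 (fun _ _ => rfl) fun z hz =>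
      ((o1 z hz).1.2.2 j).symm

end Vale.Agent.P088.Gl.Lc
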