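import Vale.Agent.P088F.LCA
import Vale.Agent.P088F.TE2

/-! P088, part L: pull back along a chart. -/

open Set Filter Metric Topology Matrix
open scoped ContDiff

noncomputable section

namespace Vale.Agent.P088.Gl.Lc

variable {n N : ℕ} {B O Ω : Set (Ec n)} {γ γ' γ₁ γ₂ : Geo n N} {X Y Ψ : Ec n → Ec n}
  {V : Ec n → Op N} {p : Ec n} {ρ : ℝ} {G : (Ec n → Fb N) → Ec n → Fb N}

/-- The pull back. -/
def pbk (γ : Geo n N) (Y : Ec n → Ec n) : Geo n N where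
  g w := (jac Y w)ᵀ * γ.g (Y w) * jac Y w
  a i w := ∑ k, jac Y w k i • γ.a k (Y w)

theorem jac_smooth (hO : IsOpen O) (hX : ContDiffOn ℝ ∞ X O) (k i : Fin n) :
    ContDiffOn ℝ ∞ (fun z => jac X z k i) O :=
  (EuclideanSpace.proj k : Ec n →L[ℝ] ℝ).contDiff.comp_contDiffOn (geo1_d hO hX (bv i))

theorem Cht.dY (h : Cht O X Y p ρ) {w : Ec n} (hw : w ∈ ball (0 : Ec n) ρ) :
    DifferentiableAt ℝ Y w := (h.sY.contDiffAt (isOpen_ball.mem_nhds hw)).differentiableAt (by simp)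

theorem Cht.dX (h : Cht O X Y p ρ) {z : Ec n} (hz : z ∈ O) : DifferentiableAt ℝ X z :=
  (h.sX.contDiffAt (h.oO.mem_nhds hz)).differentiableAt (by simp)

theorem Cht.jac_mul (h : Cht O X Y p ρ) {w : Ec n} (hw : w ∈ ball (0 : Ec n) ρ) :
    jac X (Y w) * jac Y w = 1 := by
  rw [← jac_comp (h.dX (h.mp hw)) (h.dY hw), ← jac_id w]
  exact jac_congr (mem_of_superset (isOpen_ball.mem_nhds hw) h.xy)

theorem Cht.inj (h : Cht O X Y p ρ) : InjOn Y (ball 0 ρ) := fun a ha b hb e => by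
  rw [← h.xy a ha, e, h.xy b hb]

theorem Cht.nhds (h : Cht O X Y p ρ) : Y '' ball 0 ρ ∈ 𝓝 p :=
  h.op.mem_nhds ⟨0, mem_ball_self h.r0, h.y0⟩

theorem Cht.sm (h : Cht O X Y p ρ) (hγ : γ.Sm O) : (pbk γ Y).Sm (ball 0 ρ) := by
  have hj := jac_smooth isOpen_ball h.sY
  refine ⟨fun i j => ?_, fun w hw => ?_, fun i => ?_, fun i w hw => ?_⟩
  · simp only [pbk, Matrix.mul_apply, Matrix.transpose_apply]
    exact .sum fun l _ => (ContDiffOn.sum fun k _ =>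
      (hj k i).mul ((hγ.g k l).comp h.sY h.mp)).mul (hj l j)
  · have h1 : IsUnit (jac Y w) := (Matrix.isUnit_iff_isUnit_det _).2
      (Matrix.isUnit_det_of_left_inverse (h.jac_mul hw))
    exact (Matrix.IsUnit.posDef_star_left_conjugate_iff h1).2 (hγ.pos _ (h.mp hw))
  · exact ContDiffOn.sum (s := Finset.univ) (f := fun k w => jac Y w k i • γ.a k (Y w)) fun k _ =>
      (hj k i).smul ((hγ.a k).comp h.sY h.mp)
  · change (starL' ℝ : Op N ≃L[ℝ] Op N) (∑ k, jac Y w k i • γ.a k (Y w)) =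
      -∑ k, jac Y w k i • γ.a k (Y w)
    rw [map_sum, ← Finset.sum_neg_distrib]
    refine Finset.sum_congr rfl fun k _ => ?_
    rw [map_smul]
    exact (congrArg (jac Y w k i • ·) (hγ.skew k _ (h.mp hw))).trans (smul_neg _ _)

theorem Cht.iso (h : Cht O X Y p ρ) (γ : Geo n N) :
    EIso (ball 0 ρ) γ (pbk γ Y) Y fun _ => 1 :=
  ⟨isOpen_ball, h.sY, h.inj, contDiffOn_const, fun _ _ => one_mem _, fun _ _ => rfl,
    fun _ _ i => by simp [pbk]⟩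

theorem iso_unpb (h : EIso Ω γ γ' Y V) : EIso Ω (pbk γ Y) γ' id V := by
  refine ⟨h.op, contDiffOn_id, injOn_id _, h.sV, h.uni, fun z hz => ?_, fun z hz i => ?_⟩
  · simp [jac_id, pbk, h.met z hz]
  · rw [h.con z hz i]
    simp [jac_id, Matrix.one_apply, op_zero_smul, pbk]

variable {E : Ec n → Op N} {σ : Fin n → Ec n → Fb N} {l₀ : Fin N}

theorem Pre.frm (h : Pre O γ E σ) (hc : Cht O (crd l₀ (sec E σ)) Y p ρ) (hO : O ⊆ B)
    (hγ : γ.Sm B) (hG : EG B γ G) :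
    ∃ G', Frm ρ (pbk γ Y) G' (fun w => E (Y w)) (fun j w => sec E σ j (Y w)) l₀ ∧
      ERel (ball 0 ρ) G G' Y fun _ => 1 := by
  have h2 := hc.sm (hγ.mono hO)
  refine ⟨_, ⟨h2, (hc.iso γ).eg_pb h2 hG (hc.mp.mono_right hO), h.sE.comp hc.sY hc.mp,
    fun w hw => h.un _ (hc.mp hw), fun ξ => (hc.iso γ).ew_pb h2 (h.wE ξ) hc.mp (fun _ _ => rfl)
    fun _ _ => rfl, fun j => (h.sec_smooth j).comp hc.sY hc.mp, fun j => (hc.iso γ).ew_pb h2
    (h.ws j) hc.mp (fun w hw => (mul_sec (h.un _ (hc.mp hw)) j).symm) fun _ _ => rfl,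
    fun j w hw => ?_⟩, (hc.iso γ).erel_pb G⟩
  exact congrArg (· j) (hc.xy w hw)

end Vale.Agent.P088.Gl.Lc
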