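import Vale.Agent.P088F.LCC

/-! P088, part L: continuation from matched charts. -/

open Set Filter Metric Topology Matrix
open scoped ContDiff

noncomputable section

namespace Vale.Agent.P088.Gl.Lc

variable {n N : ℕ} {B₁ B₂ O₁ O₂ D : Set (Ec n)} {γ₁ γ₂ : Geo n N} {X₁ X₂ Y₁ Y₂ Ψ : Ec n → Ec n}
  {V E₁ E₂ : Ec n → Op N} {x₀ y₀ : Ec n} {ρ : ℝ}
  {G₁ G₂ G₁' G₂' : (Ec n → Fb N) → Ec n → Fb N} {σ₁ σ₂ : Fin n → Ec n → Fb N} {l₀ : Fin N}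

theorem uni_unit {W : Op N} (h : W ∈ unitary (Op N)) : IsUnit W := ⟨⟨W, star W, h.2, h.1⟩, rfl⟩

theorem rel_chart (c₁ : Cht O₁ X₁ Y₁ y₀ ρ) (c₂ : Cht O₂ X₂ Y₂ x₀ ρ) (h₁ : γ₁.Sm O₁)
    (h₂ : γ₂.Sm O₂) (hi : InjOn Ψ D) (hr : ERel D G₁ G₂ Ψ V)
    (r₁ : ERel (ball 0 ρ) G₁ G₁' Y₁ fun _ => 1) (r₂ : ERel (ball 0 ρ) G₂ G₂' Y₂ fun _ => 1)
    (e : ∀ w ∈ ball 0 ρ ∩ Y₂ ⁻¹' D, Ψ (Y₂ w) = Y₁ w) :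
    ERel (ball 0 ρ ∩ Y₂ ⁻¹' D) G₁' G₂' id fun w => V (Y₂ w) := by
  intro F₁ F₂ a b f w hw
  rw [image_id] at a
  have a' := a.mono inter_subset_left
  have b' := b.mono inter_subset_left
  obtain ⟨p1, p2⟩ := (c₁.iso γ₁).et_pf' (c₁.sm h₁) a'
  obtain ⟨q1, q2⟩ := (c₂.iso γ₂).et_pf' (c₂.sm h₂) b'
  have p3 := (c₁.iso γ₁).pf_rel F₁
  have q3 := (c₂.iso γ₂).pf_rel F₂
  have s : MapsTo Y₂ (ball 0 ρ ∩ Y₂ ⁻¹' D) D := fun y hy => hy.2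
  have k := hr.mono hi s.image_subset _ _ ⟨p1.1, p1.2.1, p2.trans ?_⟩
    ⟨q1.1, q1.2.1, q2.trans (image_mono b.2.2)⟩ ?_ _ (mem_image_of_mem Y₂ hw)
  · rw [e w hw, r₁ _ _ p1 a' p3 w hw.1, r₂ _ _ q1 b' q3 w hw.1] at k
    exact k
  · rintro _ ⟨y, hy, rfl⟩
    exact ⟨_, mem_image_of_mem Y₂ (a.2.2 hy), e y (a.2.2 hy)⟩
  · rintro _ ⟨y, hy, rfl⟩
    rw [e y hy, p3 y hy.1, q3 y hy.1]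
    exact f y hy

theorem iso_chart (c₂ : Cht O₂ X₂ Y₂ x₀ ρ) (h : EIso D γ₁ γ₂ Ψ V)
    (e : ∀ w ∈ ball 0 ρ ∩ Y₂ ⁻¹' D, Ψ (Y₂ w) = Y₁ w) :
    EIso (ball 0 ρ ∩ Y₂ ⁻¹' D) (pbk γ₁ Y₁) (pbk γ₂ Y₂) id fun w => V (Y₂ w) :=
  iso_unpb ((h.trans ((c₂.iso γ₂).mono
    (c₂.sY.continuousOn.isOpen_inter_preimage isOpen_ball h.op) inter_subset_left)
    fun _ hy => hy.2).congr (fun w hw => (e w hw).symm) fun _ _ => (mul_one _).symm)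

theorem iso_back (c₁ : Cht O₁ X₁ Y₁ y₀ ρ) (c₂ : Cht O₂ X₂ Y₂ x₀ ρ) (h₂ : γ₂.Sm O₂)
    {W : Ec n → Op N} (h : EIso (ball 0 ρ) (pbk γ₁ Y₁) (pbk γ₂ Y₂) id W) :
    EIso (Y₂ '' ball 0 ρ) γ₁ γ₂ (fun z => Y₁ (X₂ z)) fun z => W (X₂ z) :=
  (((c₁.iso γ₁).trans h fun _ hy => hy).trans ((c₂.iso γ₂).symm (c₂.sm h₂) c₂.xy)
    (forall_mem_image.2 fun w hw => (c₂.xy w hw).symm ▸ hw)).congr (fun _ _ => rfl)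
    fun _ _ => by simp

theorem crd_eq (p₂ : Pre O₂ γ₂ E₂ σ₂) (h : EIso D γ₁ γ₂ Ψ V)
    (eE : ∀ z ∈ D, E₁ (Ψ z) = V z * E₂ z) (eσ : ∀ j, ∀ z ∈ D, σ₁ j (Ψ z) = V z (σ₂ j z))
    {z : Ec n} (hz : z ∈ D) (hz' : z ∈ O₂) :
    crd l₀ (sec E₁ σ₁) (Ψ z) = crd l₀ (sec E₂ σ₂) z := by
  simp only [crd, fun j => sec_eq (uni_unit (h.uni z hz)) (p₂.un z hz') (eE z hz) (eσ j z hz)]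

variable [NeZero n]

theorem matched (hM : LM n N) (p₁ : Pre O₁ γ₁ E₁ σ₁) (p₂ : Pre O₂ γ₂ E₂ σ₂) (o₁ : O₁ ⊆ B₁)
    (o₂ : O₂ ⊆ B₂) (h₁ : γ₁.Sm B₁) (h₂ : γ₂.Sm B₂) (g₁ : EG B₁ γ₁ G₁) (g₂ : EG B₂ γ₂ G₂)
    (h : EIso D γ₁ γ₂ Ψ V) (hr : ERel D G₁ G₂ Ψ V) (ht : Tendsto Ψ (𝓝[D] x₀) (𝓝 y₀))
    (eE : ∀ z ∈ D, E₁ (Ψ z) = V z * E₂ z) (eσ : ∀ j, ∀ z ∈ D, σ₁ j (Ψ z) = V z (σ₂ j z))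
    {ρ₁ ρ₂ ρ₃ C : ℝ} (c₁ : Cht O₁ (crd l₀ (sec E₁ σ₁)) Y₁ y₀ ρ₁)
    (c₂ : Cht O₂ (crd l₀ (sec E₂ σ₂)) Y₂ x₀ ρ₂) (h₃ : 0 < ρ₃) (hc : MapsTo Y₂ (cap n ρ₃ C) D)
    (hg : (pbk γ₂ Y₂).g 0 = 1) (hs : ∀ j i, dd i (fun w => sec E₂ σ₂ j (Y₂ w)) 0 = ms l₀ j (bv i)) :
    ∃ ε > 0, ∃ (Ψ' : Ec n → Ec n) (V' : Ec n → Op N), ball x₀ ε ⊆ B₂ ∧
      EIso (ball x₀ ε) γ₁ γ₂ Ψ' V' ∧ MapsTo Ψ' (ball x₀ ε) B₁ ∧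
      ∀ z ∈ D ∩ ball x₀ ε, Ψ' z = Ψ z ∧ V' z = V z := by
  have t1 : ∀ᶠ z in 𝓝 x₀, z ∈ D → Ψ z ∈ Y₁ '' ball 0 ρ₁ :=
    eventually_nhdsWithin_iff.1 (ht.eventually c₁.nhds)
  have t2 : Tendsto Y₂ (𝓝 0) (𝓝 x₀) :=
    c₂.y0 ▸ (c₂.dY (mem_ball_self c₂.r0)).continuousAt.tendsto
  obtain ⟨ρ₄, h₄, t3⟩ := Metric.eventually_nhds_iff_ball.1 (t2.eventually t1)
  obtain ⟨ρ, r0, r1, r2, r3, r4⟩ : ∃ ρ, 0 < ρ ∧ ρ ≤ ρ₁ ∧ ρ ≤ ρ₂ ∧ ρ ≤ ρ₃ ∧ ρ ≤ ρ₄ :=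
    ⟨min (min ρ₁ ρ₂) (min ρ₃ ρ₄), lt_min (lt_min c₁.r0 c₂.r0) (lt_min h₃ h₄),
      (min_le_left _ _).trans (min_le_left _ _), (min_le_left _ _).trans (min_le_right _ _),
      (min_le_right _ _).trans (min_le_left _ _), (min_le_right _ _).trans (min_le_right _ _)⟩
  have d₁ := c₁.mono r0 r1
  have d₂ := c₂.mono r0 r2
  have e : ∀ w ∈ ball 0 ρ ∩ Y₂ ⁻¹' D, Ψ (Y₂ w) = Y₁ w := fun w hw => by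
    obtain ⟨v, hv, e⟩ := t3 w (ball_subset_ball r4 hw.1) hw.2
    rw [← e, ← c₁.xy v hv, e, crd_eq p₂ h eE eσ hw.2 (d₂.mp hw.1), d₂.xy w hw.1]
  obtain ⟨G₁', f₁, s₁⟩ := p₁.frm d₁ o₁ h₁ g₁
  obtain ⟨G₂', f₂, s₂⟩ := p₂.frm d₂ o₂ h₂ g₂
  obtain ⟨ε, e0, e1, k⟩ := hM ρ C l₀ _ _ _ _ _ _ _ _ _ _ r0 f₁ f₂ hg hs inter_subset_left
    (fun w hw => ⟨hw.1, hc ⟨ball_subset_ball r3 hw.1, hw.2⟩⟩) (iso_chart d₂ h e)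
    (rel_chart d₁ d₂ (h₁.mono o₁) (h₂.mono o₂) h.inj hr s₁ s₂ e)
    (fun w hw => by rw [← e w hw, eE _ hw.2]) fun j w hw => by
      rw [← e w hw]
      exact sec_eq (uni_unit (h.uni _ hw.2)) (p₂.un _ (d₂.mp hw.1)) (eE _ hw.2) (eσ j _ hw.2)
  have b₁ := d₁.mono e0 e1
  have b₂ := d₂.mono e0 e1
  obtain ⟨δ, δ0, hδ⟩ := Metric.mem_nhds_iff.1 b₂.nhds
  refine ⟨δ, δ0, _, _, hδ.trans (b₂.mp.image_subset.trans o₂),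
    (iso_back b₁ b₂ (h₂.mono o₂) k).mono isOpen_ball hδ, fun z hz => ?_, fun z hz => ?_⟩
  · obtain ⟨w, hw, rfl⟩ := hδ hz
    change Y₁ _ ∈ B₁
    rw [b₂.xy w hw]
    exact o₁ (b₁.mp hw)
  · obtain ⟨w, hw, rfl⟩ := hδ hz.2
    have e' := e w ⟨ball_subset_ball e1 hw, hz.1⟩
    simp only [b₂.xy w hw]
    refine ⟨e'.symm, ?_⟩
    rw [← e', eE _ hz.1, mul_assoc, Ring.mul_inverse_cancel _ (p₂.un _ (b₂.mp hw)), mul_one]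

end Vale.Agent.P088.Gl.Lc
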