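import Vale.Agent.P088F.LCD

/-! P088, part L: jets and limits. -/

open Set Filter Metric Topology Matrix
open scoped ContDiff

noncomputable section

namespace Vale.Agent.P088.Gl.Lc

variable {n N : ℕ} {O O₁ O₂ D : Set (Ec n)} {γ γ₁ γ₂ : Geo n N} {X Y X₁ X₂ Ψ : Ec n → Ec n}
  {V E : Ec n → Op N} {x₀ y₀ p : Ec n} {ρ : ℝ} {σ : Fin n → Ec n → Fb N} {l₀ : Fin N}
  {M : Matrix (Fin n) (Fin n) ℝ}

theorem notMem_image (h : EIso D γ₁ γ₂ Ψ V) (h₂ : γ₂.Sm D) (ht : Tendsto Ψ (𝓝[D] x₀) (𝓝 y₀))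
    (hx : x₀ ∈ closure D) (hx' : x₀ ∉ D) : y₀ ∉ Ψ '' D := by
  rintro ⟨z, hz, rfl⟩
  have := mem_closure_iff_nhdsWithin_neBot.1 hx
  obtain ⟨A, A', a, a', d⟩ := t2_separation_nhds (fun e => hx' (e ▸ hz) : z ≠ x₀)
  have h1 : Ψ '' (A ∩ D) ∈ 𝓝 (Ψ z) :=
    h.map_nhds h₂ hz ▸ image_mem_map (inter_mem a (h.op.mem_nhds hz))
  obtain ⟨y, ⟨w, hw, e⟩, y1, y2⟩ := ((ht.eventually h1).and (Eventually.and self_mem_nhdsWithin
    (mem_nhdsWithin_of_mem_nhds a'))).exists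
  exact Set.disjoint_left.1 d hw.1 (h.inj hw.2 y1 e ▸ y2)

theorem det_ne (hO₁ : IsOpen O₁) (hO₂ : IsOpen O₂) (hX₁ : ContDiffOn ℝ ∞ X₁ O₁)
    (hX₂ : ContDiffOn ℝ ∞ X₂ O₂) (h₁ : γ₁.Sm O₁) (h₂ : γ₂.Sm O₂) (hy : y₀ ∈ O₁) (hx : x₀ ∈ O₂)
    (h : EIso D γ₁ γ₂ Ψ V) (ht : Tendsto Ψ (𝓝[D] x₀) (𝓝 y₀)) (hc : x₀ ∈ closure D)
    (e : ∀ z ∈ D, z ∈ O₂ → X₁ (Ψ z) = X₂ z) (hd : (jac X₂ x₀).det ≠ 0) : (jac X₁ y₀).det ≠ 0 := by
  have := mem_closure_iff_nhdsWithin_neBot.1 hc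
  have k : ∀ {O : Set (Ec n)} {f : Ec n → Matrix (Fin n) (Fin n) ℝ} {p : Ec n}, IsOpen O → p ∈ O →
      (∀ i j, ContDiffOn ℝ ∞ (fun z => f z i j) O) →
      Tendsto (fun z => (f z).det) (𝓝 p) (𝓝 (f p).det) := fun a b c =>
    (contDiffOn_det c).continuousOn.continuousAt (a.mem_nhds b)
  have t1 := (((k hO₂ hx (jac_smooth hO₂ hX₂)).mono_left (nhdsWithin_le_nhds (s := D))).pow 2).mul
    ((k hO₁ hy h₁.g).comp ht)
  have t2 := (((k hO₁ hy (jac_smooth hO₁ hX₁)).comp ht).pow 2).mul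
    ((k hO₂ hx h₂.g).mono_left (nhdsWithin_le_nhds (s := D)))
  have t3 := tendsto_nhds_unique_of_eventuallyEq t1 t2 ?_
  · intro e0
    rw [e0, sq (0 : ℝ), zero_mul, zero_mul] at t3
    exact mul_ne_zero (pow_ne_zero 2 hd) (h₁.pos _ hy).det_pos.ne' t3
  · filter_upwards [self_mem_nhdsWithin, mem_nhdsWithin_of_mem_nhds (hO₂.mem_nhds hx),
      ht.eventually (hO₁.mem_nhds hy)] with z z1 z2 z3
    have e1 : jac X₂ z = jac X₁ (Ψ z) * jac Ψ z := by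
      rw [← jac_comp ((hX₁.contDiffAt (hO₁.mem_nhds z3)).differentiableAt (by simp)) (h.dΨ z1)]
      refine jac_congr ?_
      filter_upwards [h.op.mem_nhds z1, hO₂.mem_nhds z2] with y y1 y2 using (e y y1 y2).symm
    simp only [Function.comp_apply, e1, h.met z z1, Matrix.det_mul, Matrix.det_transpose]
    ring

/-- The prescribed derivatives. -/
def eta (l₀ : Fin N) (M : Matrix (Fin n) (Fin n) ℝ) (j : Fin n) : Ec n →L[ℝ] Fb N :=
  (∑ i, M j i • (EuclideanSpace.proj i : Ec n →L[ℝ] ℝ)).smulRight (EuclideanSpace.single l₀ 1)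

theorem eta_apply (j : Fin n) (v : Ec n) :
    eta l₀ M j v = EuclideanSpace.single l₀ ((∑ i, M j i * v i : ℝ) : ℂ) := by
  ext k
  simp [eta]

theorem Pre.dsec (h : Pre O γ E σ) (hp : p ∈ O) (j : Fin n) : DifferentiableAt ℝ (sec E σ j) p :=
  ((h.sec_smooth j).contDiffAt (h.op.mem_nhds hp)).differentiableAt (by simp)

theorem Pre.jet (h : Pre O γ E σ) (hp : p ∈ O) (hE : E p = 1) {j : Fin n} (h0 : σ j p = 0)
    (v : Ec n) : fderiv ℝ (sec E σ j) p v = fderiv ℝ (σ j) p v := by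
  have := fderiv_op (((inv_smooth h.sE h.un).contDiffAt (h.op.mem_nhds hp)).differentiableAt
    (by simp)) (((h.ws j).1.contDiffAt (h.op.mem_nhds hp)).differentiableAt (by simp)) v
  rw [h0, map_zero, zero_add, hE, Ring.inverse_one] at this
  exact this

theorem crd_fderiv {s : Fin n → Ec n → Fb N} (hs : ∀ j, DifferentiableAt ℝ (s j) p) (v : Ec n)
    (j : Fin n) : fderiv ℝ (crd l₀ s) p v j = (fderiv ℝ (s j) p v l₀).re := by
  have h1 : DifferentiableAt ℝ (crd l₀ s) p :=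
    differentiableAt_euclidean.2 fun j => (rc l₀).differentiableAt.comp p (hs j)
  have h2 := ((EuclideanSpace.proj j : Ec n →L[ℝ] ℝ).hasFDerivAt.comp p h1.hasFDerivAt).unique
    ((rc l₀).hasFDerivAt.comp p (hs j).hasFDerivAt)
  exact congrArg (· v) h2

theorem Cht.fd (h : Cht O X Y p ρ) (v : Ec n) : fderiv ℝ X p (fderiv ℝ Y 0 v) = v := by
  have h0 := mem_ball_self (x := (0 : Ec n)) h.r0
  have h1 : X ∘ Y =ᶠ[𝓝 0] id := mem_of_superset (isOpen_ball.mem_nhds h0) h.xy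
  have h2 := congrArg (· v) (h1.fderiv_eq (𝕜 := ℝ))
  rw [fderiv_comp _ (h.dX (h.mp h0)) (h.dY h0), h.y0, fderiv_id] at h2
  exact h2

theorem crd_zero (h0 : ∀ j, σ j p = 0) : crd l₀ (sec E σ) p = 0 := by
  ext j
  simp [crd, sec, h0]

section
variable (h : Pre O γ E σ) (hp : p ∈ O) (hE : E p = 1) (h0 : ∀ j, σ j p = 0)
  (h1 : ∀ j, fderiv ℝ (σ j) p = eta l₀ M j)
include h hp hE h0 h1

theorem Pre.fd (v : Ec n) (j : Fin n) :
    fderiv ℝ (crd l₀ (sec E σ)) p v j = ∑ i, M j i * v i := by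
  rw [crd_fderiv (h.dsec hp), h.jet hp hE (h0 j), h1, eta_apply, PiLp.single_apply,
    if_pos rfl, Complex.ofReal_re]

theorem Pre.jac_eq : jac (crd l₀ (sec E σ)) p = M := by
  ext k i
  rw [jac, Matrix.of_apply, h.fd hp hE h0 h1]
  simp [bv]

theorem Pre.key (c : Cht O (crd l₀ (sec E σ)) Y p ρ) (v : Ec n) (j : Fin n) :
    ∑ i, M j i * fderiv ℝ Y 0 v i = v j := by
  rw [← h.fd hp hE h0 h1, c.fd]

theorem Pre.g_one (c : Cht O (crd l₀ (sec E σ)) Y p ρ) (hM : Mᵀ * M = γ.g p) :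
    (pbk γ Y).g 0 = 1 := by
  have := c.jac_mul (mem_ball_self c.r0)
  rw [c.y0, h.jac_eq hp hE h0 h1] at this
  rw [pbk]
  simp only [c.y0, ← hM]
  rw [← Matrix.mul_assoc, ← Matrix.transpose_mul, Matrix.mul_assoc, this, Matrix.transpose_one,
    mul_one]

theorem Pre.s_one (c : Cht O (crd l₀ (sec E σ)) Y p ρ) (j i : Fin n) :
    dd i (fun w => sec E σ j (Y w)) 0 = ms l₀ j (bv i) := by
  have h2 := congrArg (· (bv i))
    (fderiv_comp 0 (c.y0 ▸ h.dsec hp j) (c.dY (mem_ball_self c.r0)))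
  refine h2.trans ?_
  change fderiv ℝ (sec E σ j) (Y 0) (fderiv ℝ Y 0 (bv i)) = _
  rw [c.y0, h.jet hp hE (h0 j), h1, eta_apply, h.key hp hE h0 h1 c, ms]

end

end Vale.Agent.P088.Gl.Lc
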