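import Vale.Agent.P088F.LNf

/-! P088, part L: the conformal factor is harmonic. -/

open MeasureTheory Set Filter Metric Topology Matrix
open scoped ContDiff ENNReal

noncomputable section

namespace Vale.Agent.P088.Gl

variable {n N : ℕ} {Ω : Set (Ec n)} {γ₁ γ₂ : Geo n N} {z : Ec n} {m : Ec n → ℝ}
  {U : Ec n → Op N}

theorem len2_rs (A : Op N) (c : ℝ) (v : Fb N) : A (c • v) = c • A v :=
  ContinuousLinearMap.map_smul_of_tower A c v

theorem len2_Dsmul (γ : Geo n N) {c : Ec n → ℝ} {w : Ec n → Fb N} (hc : DifferentiableAt ℝ c z)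
    (hw : DifferentiableAt ℝ w z) (i : Fin n) :
    γ.D i (fun y => c y • w y) z = c z • γ.D i w z + dd i c z • w z := by
  rw [D_eq, D_eq, dd_smul hc hw, len2_rs, smul_add]
  abel

theorem len2_Dsub (γ : Geo n N) {u w : Ec n → Fb N} (hu : DifferentiableAt ℝ u z)
    (hw : DifferentiableAt ℝ w z) (i : Fin n) :
    γ.D i (fun y => u y - w y) z = γ.D i u z - γ.D i w z := by
  rw [D_eq, D_eq, D_eq, dd_sub hu hw, map_sub]
  abel

theorem len2_tau (hΩ : IsOpen Ω) (h₂ : γ₂.Sm Ω) (hm : ContDiffOn ℝ ∞ m Ω) (i : Fin n) :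
    ContDiffOn ℝ ∞ (fun y => ∑ j, γ₂.cn y i j * dd j m y) Ω :=
  ContDiffOn.sum fun j _ => (lsm_cn h₂ i j).mul (dd_sm hΩ hm j)

theorem len2_fl (hΩ : IsOpen Ω) (h₂ : γ₂.Sm Ω) {e : Ec n → Fb N} (s₂ : ContDiffOn ℝ ∞ e Ω)
    (i : Fin n) : ContDiffOn ℝ ∞ (γ₂.fl e i) Ω :=
  ContDiffOn.sum fun j _ => (lsm_cn h₂ i j).smul (h₂.D hΩ s₂ j)

/-- `D₁ (U w) = U (D₂ w)` (`dd_app`). -/
theorem D_inter (hU : DifferentiableAt ℝ U z) {w : Ec n → Fb N} (hw : DifferentiableAt ℝ w z)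
    {i : Fin n} (h : U z * γ₂.a i z = γ₁.a i z * U z + dd i U z) :
    γ₁.D i (fun y => U y (w y)) z = U z (γ₂.D i w z) := by
  have h' := congrArg (fun A : Op N => A (w z)) h
  simp only [mul_apply_eq_comp, _root_.add_apply] at h'
  rw [D_eq, D_eq, dd_app hU hw, map_add, h']
  abel

/-- Put `τ i = ∑ j, cn₂ i j * dd j m`. Differentiating `m • e₁ = U e` gives
`m • D₁ j e₁ + dd j m • e₁ = U (D₂ j e)` on `Ω`, so `fl₁ e₁ i = U (m • fl₂ e i - τ i • e)` on `Ω`, so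
`0 = Dv₁ e₁ = U (∑ i, m • D₂ i (fl₂ e i) + dd i m • fl₂ e i - τ i • D₂ i e - dd i (τ i) • e)`, and
`∑ i, τ i • D₂ i e = ∑ j, dd j m • fl₂ e j` by symmetry of `cn₂` (`lsm_symm`). -/
theorem harm (hΩ : IsOpen Ω) (h₁ : γ₁.Sm Ω) (h₂ : γ₂.Sm Ω) (hm : ContDiffOn ℝ ∞ m Ω)
    (hU : ContDiffOn ℝ ∞ U Ω)
    (h : ∀ z ∈ Ω, ∀ i, U z * γ₂.a i z = γ₁.a i z * U z + dd i U z)
    (hc : ∀ z ∈ Ω, γ₁.cn z = m z ^ 2 • γ₂.cn z) {e₁ e : Ec n → Fb N} (s₁ : ContDiffOn ℝ ∞ e₁ Ω)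
    (s₂ : ContDiffOn ℝ ∞ e Ω) (he : ∀ z ∈ Ω, m z • e₁ z = U z (e z))
    (d₁ : ∀ z ∈ Ω, γ₁.Dv e₁ z = 0) (d₂ : ∀ z ∈ Ω, γ₂.Dv e z = 0) (hz : z ∈ Ω) :
    (∑ i, dd i (fun y => ∑ j, γ₂.cn y i j * dd j m y) z) • U z (e z) = 0 := by
  have dU := fun {y} (hy : y ∈ Ω) => sm_dif hΩ hU hy
  have dm := fun {y} (hy : y ∈ Ω) => sm_dif hΩ hm hy
  have de := fun {y} (hy : y ∈ Ω) => sm_dif hΩ s₂ hy
  have de₁ := fun {y} (hy : y ∈ Ω) => sm_dif hΩ s₁ hy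
  have A : ∀ y ∈ Ω, ∀ j, m y • γ₁.D j e₁ y = U y (γ₂.D j e y) - dd j m y • e₁ y := by
    intro y hy j
    have ev : (fun x => m x • e₁ x) =ᶠ[𝓝 y] fun x => U x (e x) := by
      filter_upwards [hΩ.mem_nhds hy] with x hx using he x hx
    have h1 := D_congr γ₁ j ev
    rw [len2_Dsmul γ₁ (dm hy) (de₁ hy), D_inter (dU hy) (de hy) (h y hy j)] at h1
    exact eq_sub_of_add_eq h1
  have B : ∀ i, ∀ y ∈ Ω, γ₁.fl e₁ i y =
      U y (m y • γ₂.fl e i y - (∑ j, γ₂.cn y i j * dd j m y) • e y) := by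
    intro i y hy
    rw [map_sub, len2_rs, len2_rs, ← he y hy, Geo.fl, Geo.fl, map_sum, Finset.smul_sum,
      Finset.sum_smul, ← Finset.sum_sub_distrib]
    refine Finset.sum_congr rfl fun j _ => ?_
    rw [hc y hy, Matrix.smul_apply, smul_eq_mul, len2_rs,
      show (m y ^ 2 * γ₂.cn y i j) = (m y * γ₂.cn y i j) * m y by ring, mul_smul, A y hy j,
      smul_sub, smul_smul, smul_smul, smul_smul]
    congr 2
    ring
  have C : ∀ i, γ₁.D i (γ₁.fl e₁ i) z =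
      U z (m z • γ₂.D i (γ₂.fl e i) z + dd i m z • γ₂.fl e i z -
        ((∑ j, γ₂.cn z i j * dd j m z) • γ₂.D i e z +
          dd i (fun y => ∑ j, γ₂.cn y i j * dd j m y) z • e z)) := by
    intro i
    have ev : γ₁.fl e₁ i =ᶠ[𝓝 z] fun y =>
        U y (m y • γ₂.fl e i y - (∑ j, γ₂.cn y i j * dd j m y) • e y) := by
      filter_upwards [hΩ.mem_nhds hz] with x hx using B i x hx
    have df := sm_dif hΩ (len2_fl hΩ h₂ s₂ i) hz
    have dt := sm_dif hΩ (len2_tau hΩ h₂ hm i) hz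
    have d1 : DifferentiableAt ℝ (fun y => m y • γ₂.fl e i y) z := (dm hz).smul df
    have d2 : DifferentiableAt ℝ (fun y => (∑ j, γ₂.cn y i j * dd j m y) • e y) z :=
      dt.smul (de hz)
    rw [D_congr γ₁ i ev, D_inter (dU hz) (d1.fun_sub d2) (h z hz i), len2_Dsub γ₂ d1 d2,
      len2_Dsmul γ₂ (dm hz) df, len2_Dsmul γ₂ dt (de hz)]
  have S : ∑ i, dd i m z • γ₂.fl e i z = ∑ i, (∑ j, γ₂.cn z i j * dd j m z) • γ₂.D i e z := by
    simp only [Geo.fl, Finset.smul_sum, Finset.sum_smul, smul_smul]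
    rw [Finset.sum_comm]
    refine Finset.sum_congr rfl fun i _ => Finset.sum_congr rfl fun j _ => ?_
    rw [lsm_symm h₂ hz i j, mul_comm]
  have h0 := d₁ z hz
  have h2 := d₂ z hz
  rw [Geo.Dv] at h0 h2
  rw [Finset.sum_congr rfl fun i _ => C i, ← map_sum, Finset.sum_sub_distrib,
    Finset.sum_add_distrib, Finset.sum_add_distrib, ← Finset.smul_sum, h2, smul_zero, zero_add, S,
    ← Finset.sum_smul, sub_add_cancel_left, map_neg, neg_eq_zero, len2_rs] at h0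
  exact h0

/-- With the zero connection `D = dd`, and `cn` only depends on `g`. -/
theorem dv_scalar (hΩ : IsOpen Ω) (h₂ : γ₂.Sm Ω) (hm : ContDiffOn ℝ ∞ m Ω) (ξ : Fb N) (hz : z ∈ Ω) :
    (⟨γ₂.g, 0⟩ : Geo n N).Dv (fun y => (m y - 1) • ξ) z =
      (∑ i, dd i (fun y => ∑ j, γ₂.cn y i j * dd j m y) z) • ξ := by
  have hD : ∀ (i : Fin n) (u : Ec n → Fb N) (y : Ec n),
      (⟨γ₂.g, 0⟩ : Geo n N).D i u y = dd i u y := by
    intro i u y
    rw [D_eq]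
    simp
  have hcn : ∀ y, (⟨γ₂.g, 0⟩ : Geo n N).cn y = γ₂.cn y := fun y => rfl
  rw [Geo.Dv, Finset.sum_smul]
  refine Finset.sum_congr rfl fun i _ => ?_
  have ev : (⟨γ₂.g, 0⟩ : Geo n N).fl (fun y => (m y - 1) • ξ) i =ᶠ[𝓝 z] fun y =>
      (∑ j, γ₂.cn y i j * dd j m y) • ξ := by
    filter_upwards [hΩ.mem_nhds hz] with y hy
    have dm := sm_dif hΩ hm hy
    rw [Geo.fl, Finset.sum_smul]
    refine Finset.sum_congr rfl fun j _ => ?_
    rw [hD, hcn, dd_smul (dm.fun_sub (differentiableAt_const _)) (differentiableAt_const _), dd_const,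
      smul_zero, zero_add, dd_sub dm (differentiableAt_const _), dd_const, sub_zero, smul_smul]
  rw [hD, dd_congr ev, dd_smul (sm_dif hΩ (len2_tau hΩ h₂ hm i) hz) (differentiableAt_const _),
    dd_const, smul_zero, zero_add]

end Vale.Agent.P088.Gl
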