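import Vale.Agent.P088F.LNf

/-! P088, part L: the gauge between two frames with the same normalised operator. -/

open MeasureTheory Set Filter Metric Topology Matrix
open scoped ContDiff ENNReal

noncomputable section

namespace Vale.Agent.P088.Gl

variable {n N : ℕ} [NeZero n] {Ω : Set (Ec n)} {γ₁ γ₂ : Geo n N} {E₁ E₂ : Ec n → Op N}

omit [NeZero n] in
theorem len3_inj {C : Matrix (Fin n) (Fin n) ℝ} (hC : C.PosDef) {X : Fin n → Fb N}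
    (h : ∀ j, ∑ i, C i j • X i = 0) (k : Fin n) : X k = 0 := by
  have h1 : C * C⁻¹ = 1 := Matrix.mul_nonsing_inv C hC.det_pos.ne'.isUnit
  calc X k = ∑ i, (C * C⁻¹) i k • X i := by simp [h1, Matrix.one_apply]
    _ = ∑ j, C⁻¹ j k • ∑ i, C i j • X i := by
      simp only [Matrix.mul_apply, Finset.sum_smul, Finset.smul_sum, smul_smul, mul_comm]
      exact Finset.sum_comm
    _ = 0 := by simp [h]

theorem len3_alg {A₁ A₂ V a₁ a₂ f₁ f₂ d₁ d₂ dV : Op N} {m dm : ℝ} (u₂ : IsUnit A₂)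
    (hV : V * A₂ = A₁) (e1 : A₁ * f₁ = d₁ + a₁ * A₁) (e2 : A₂ * f₂ = d₂ + a₂ * A₂)
    (e3 : d₁ = V * d₂ + dV * A₂) (e4 : ∀ ξ, dm • ξ + m • f₁ ξ - m • f₂ ξ = 0) :
    (m • V) * a₂ = a₁ * (m • V) + (m • dV + dm • V) := by
  ext1 η
  obtain ⟨ξ, rfl⟩ : ∃ ξ, η = A₂ ξ := ⟨_, (mul_inv_app u₂ η).symm⟩
  have f0 : ∀ x, V (A₂ x) = A₁ x := fun x => congrArg (fun B : Op N => B x) hV
  have f1 : A₁ (f₁ ξ) = d₁ ξ + a₁ (A₁ ξ) := congrArg (fun B : Op N => B ξ) e1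
  have f2 : A₂ (f₂ ξ) = d₂ ξ + a₂ (A₂ ξ) := congrArg (fun B : Op N => B ξ) e2
  have f3 : d₁ ξ = V (d₂ ξ) + dV (A₂ ξ) := congrArg (fun B : Op N => B ξ) e3
  have f4 := congrArg A₁ (e4 ξ)
  rw [map_sub, map_add, map_zero, A₁.map_smul_of_tower, A₁.map_smul_of_tower,
    A₁.map_smul_of_tower, f1, f3] at f4
  have f5 := congrArg V f2
  rw [f0, map_add] at f5
  change m • V (a₂ (A₂ ξ)) = a₁ (m • V (A₂ ξ)) + (m • dV (A₂ ξ) + dm • V (A₂ ξ))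
  rw [a₁.map_smul_of_tower, f0]
  rw [f5] at f4
  linear_combination (norm := module) (-1 : ℝ) • f4

/-- `m = √(κ₁ / κ₂)`, `κ = cn 0 0 > 0`. Equality of the `g` parts gives `cn₁ = m ^ 2 • cn₂` on `Ω`.
Then `dd i cn₁ = m ^ 2 * dd i cn₂ + 2 * m * dd i m * cn₂`, and equality of the `b` parts gives
`∑ i, cn₂ i j • (dd i m • 1 + m • fa₁ i - m • fa₂ i) = 0` for all `j`, so each bracket vanishes
(`cn₂` is invertible). With `V = E₁ * E₂⁻¹`, differentiate `V * E₂ = E₁`: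
`(dd V + a₁ V - V a₂) * E₂ = E₁ * (fa₁ - fa₂)` (`mul_fa`), and cancel the unit `E₂`. -/
theorem gauge (hΩ : IsOpen Ω) (h₁ : γ₁.Sm Ω) (h₂ : γ₂.Sm Ω) (s₁ : ContDiffOn ℝ ∞ E₁ Ω)
    (s₂ : ContDiffOn ℝ ∞ E₂ Ω) (u₁ : ∀ z ∈ Ω, IsUnit (E₁ z)) (u₂ : ∀ z ∈ Ω, IsUnit (E₂ z))
    (h : (γ₁.nf E₁).Eq (γ₂.nf E₂) Ω) :
    ∃ m : Ec n → ℝ, ContDiffOn ℝ ∞ m Ω ∧ (∀ z ∈ Ω, 0 < m z) ∧
      (∀ z ∈ Ω, γ₁.cn z = m z ^ 2 • γ₂.cn z) ∧ ∀ z ∈ Ω, ∀ i,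
        (m z • (E₁ z * Ring.inverse (E₂ z))) * γ₂.a i z =
          γ₁.a i z * (m z • (E₁ z * Ring.inverse (E₂ z))) +
            dd i (fun y => m y • (E₁ y * Ring.inverse (E₂ y))) z := by
  have k₁ : ∀ z ∈ Ω, 0 < γ₁.cn z 0 0 := fun z hz => lsm_diag h₁ hz 0
  have k₂ : ∀ z ∈ Ω, 0 < γ₂.cn z 0 0 := fun z hz => lsm_diag h₂ hz 0
  obtain ⟨m, hm⟩ : ∃ m : Ec n → ℝ, m = fun z => √(γ₁.cn z 0 0 / γ₂.cn z 0 0) := ⟨_, rfl⟩
  have m0 : ∀ z ∈ Ω, 0 < m z := fun z hz => by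
    rw [hm]
    exact Real.sqrt_pos.2 (div_pos (k₁ z hz) (k₂ z hz))
  have m1 : ContDiffOn ℝ ∞ m Ω := by
    rw [hm]
    exact ((lsm_cn h₁ 0 0).div (lsm_cn h₂ 0 0) fun z hz => (k₂ z hz).ne').sqrt
      fun z hz => (div_pos (k₁ z hz) (k₂ z hz)).ne'
  have m2 : ∀ z ∈ Ω, m z * m z = γ₁.cn z 0 0 * (γ₂.cn z 0 0)⁻¹ := fun z hz => by
    rw [hm]
    exact Real.mul_self_sqrt (div_pos (k₁ z hz) (k₂ z hz)).le
  have m3 : ∀ z ∈ Ω, γ₁.cn z = (m z * m z) • γ₂.cn z := fun z hz => by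
    have e : (γ₁.cn z 0 0)⁻¹ • γ₁.cn z = (γ₂.cn z 0 0)⁻¹ • γ₂.cn z := (h z hz).1
    rw [m2 z hz, mul_smul, ← e, smul_inv_smul₀ (k₁ z hz).ne']
  refine ⟨m, m1, m0, fun z hz => by rw [sq, m3 z hz], fun z hz i => ?_⟩
  have dm := sm_dif hΩ m1 hz
  have sV : ContDiffOn ℝ ∞ (fun y => E₁ y * Ring.inverse (E₂ y)) Ω := s₁.mul (sm_inv s₂ u₂)
  have dV := sm_dif hΩ sV hz
  have hV : ∀ y ∈ Ω, E₁ y * Ring.inverse (E₂ y) * E₂ y = E₁ y := fun y hy =>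
    Ring.inverse_mul_cancel_right _ _ (u₂ y hy)
  rw [dd_smul dm dV]
  refine len3_alg (u₂ z hz) (hV z hz) (mul_fa γ₁ (u₁ z hz) i) (mul_fa γ₂ (u₂ z hz) i) ?_
    fun ξ => ?_
  · rw [← dd_mul dV (sm_dif hΩ s₂ hz)]
    exact dd_eqOn hΩ (fun y hy => (hV y hy).symm) hz
  have c1 : ∀ i j, γ₁.cn z i j = m z * m z * γ₂.cn z i j := fun i j => by
    rw [m3 z hz]
    rfl
  have c2 : ∀ i j, dd i (fun w => γ₁.cn w i j) z = m z * m z * dd i (fun w => γ₂.cn w i j) z +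
      (m z * dd i m z + dd i m z * m z) * γ₂.cn z i j := fun i j => by
    rw [← dd_mul dm dm, ← dd_mul (A := fun y => m y * m y) (dm.mul dm)
      (sm_dif hΩ (lsm_cn h₂ i j) hz)]
    refine dd_eqOn hΩ (fun y hy => ?_) hz
    change γ₁.cn y i j = _
    rw [m3 y hy]
    rfl
  refine len3_inj (lsm_pos h₂ hz)
    (X := fun i => dd i m z • ξ + m z • γ₁.fa E₁ i z ξ - m z • γ₂.fa E₂ i z ξ) (fun j => ?_) i
  have b1 := congrArg (fun B : Op N => γ₁.cn z 0 0 • B ξ) ((h z hz).2 j)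
  simp only [Geo.nf, ContinuousLinearMap.smul_apply, ContinuousLinearMap.sum_apply,
    ContinuousLinearMap.add_apply, ContinuousLinearMap.one_apply] at b1
  rw [smul_inv_smul₀ (k₁ z hz).ne', smul_smul, ← m2 z hz, Finset.smul_sum, ← sub_eq_zero,
    ← Finset.sum_sub_distrib] at b1
  have b2 : (2 * m z) • ∑ i, γ₂.cn z i j •
      (dd i m z • ξ + m z • γ₁.fa E₁ i z ξ - m z • γ₂.fa E₂ i z ξ) = 0 := by
    rw [Finset.smul_sum, ← b1]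
    refine Finset.sum_congr rfl fun i _ => ?_
    rw [c1, c2]
    module
  exact (smul_eq_zero.1 b2).resolve_left (by have := m0 z hz; positivity)

end Vale.Agent.P088.Gl
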