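import Vale.Agent.P088F.LEn1
import Vale.Agent.P088F.LEn2
import Vale.Agent.P088F.LEn3

/-! P088, part L: equal normalised operators give an isometry. -/

open MeasureTheory Set Filter Metric Topology Matrix
open scoped ContDiff ENNReal

noncomputable section

namespace Vale.Agent.P088.Gl

theorem endgame {n N : ℕ} [NeZero n] (hn : 3 ≤ n) (hU : GU n N) (l₀ : Fin N) {ε : ℝ}
    {O : Set (Ec n)} {γ₁ γ₂ : Geo n N} {E₁ E₂ : Ec n → Op N} (h₁ : γ₁.Sm (ball 0 ε))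
    (h₂ : γ₂.Sm (ball 0 ε)) (s₁ : ContDiffOn ℝ ∞ E₁ (ball 0 ε))
    (s₂ : ContDiffOn ℝ ∞ E₂ (ball 0 ε)) (u₁ : ∀ z ∈ ball (0 : Ec n) ε, IsUnit (E₁ z))
    (u₂ : ∀ z ∈ ball (0 : Ec n) ε, IsUnit (E₂ z))
    (w₁ : ∀ ξ, EW (ball 0 ε) γ₁ (fun z => E₁ z ξ) 0) (w₂ : ∀ ξ, EW (ball 0 ε) γ₂ (fun z => E₂ z ξ) 0)
    (h : (γ₁.nf E₁).Eq (γ₂.nf E₂) (ball 0 ε)) (hO : IsOpen O) (ne : O.Nonempty)
    (hs : O ⊆ ball 0 ε) (hg : ∀ z ∈ O, γ₁.g z = γ₂.g z)
    (hu : ∀ z ∈ O, E₁ z * Ring.inverse (E₂ z) ∈ unitary (Op N)) :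
    EIso (ball 0 ε) γ₁ γ₂ id fun z => E₁ z * Ring.inverse (E₂ z) := by
  have ob : IsOpen (ball (0 : Ec n) ε) := isOpen_ball
  obtain ⟨m, sm, m0, hc, hp⟩ := gauge ob h₁ h₂ s₁ s₂ u₁ u₂ h
  have sV : ContDiffOn ℝ ∞ (fun z => E₁ z * Ring.inverse (E₂ z)) (ball 0 ε) :=
    s₁.mul (sm_inv s₂ u₂)
  have mO : ∀ z ∈ O, m z = 1 := fun z hz => by
    have e := congrFun (congrFun (hc z (hs hz)) 0) 0
    rw [cn_congr (hg z hz), Matrix.smul_apply, smul_eq_mul] at e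
    have k := lsm_diag h₂ (hs hz) 0
    have : m z ^ 2 = 1 := mul_right_cancel₀ k.ne' (by rw [one_mul]; exact e.symm)
    exact (pow_eq_one_iff_of_nonneg (m0 z (hs hz)).le two_ne_zero).1 this
  set ξ : Fb N := EuclideanSpace.single l₀ 1 with hξ
  have ξ0 : ξ ≠ 0 := fun e => by simpa [hξ] using congrArg (fun v : Fb N => v l₀) e
  have he : ∀ z ∈ ball (0 : Ec n) ε,
      m z • E₁ z ξ = (m z • (E₁ z * Ring.inverse (E₂ z))) (E₂ z ξ) := fun z hz => by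
    show _ = m z • E₁ z (Ring.inverse (E₂ z) (E₂ z ξ))
    rw [inv_mul_app (u₂ z hz)]
  have hh : ∀ z ∈ ball (0 : Ec n) ε,
      ∑ i, dd i (fun y => ∑ j, γ₂.cn y i j * dd j m y) z = 0 := fun z hz => by
    have := harm (U := fun z => m z • (E₁ z * Ring.inverse (E₂ z))) ob h₁ h₂ sm (sm.smul sV) hp hc
      (w₁ ξ).1 (w₂ ξ).1 he ((ew_dv0 ob h₁).1 (w₁ ξ)).2 ((ew_dv0 ob h₂).1 (w₂ ξ)).2 hz
    rw [← he z hz, smul_eq_zero, smul_eq_zero] at this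
    exact this.resolve_right fun e => e.elim (m0 z hz).ne' fun e =>
      ξ0 (app_inj (u₁ z hz) (e.trans (map_zero _).symm))
  have s₀ : (⟨γ₂.g, 0⟩ : Geo n N).Sm (ball 0 ε) :=
    ⟨h₂.g, h₂.pos, fun _ => contDiffOn_const, fun _ _ _ =>
      ((starL' ℝ (A := Op N)).map_zero).trans neg_zero.symm⟩
  have m1 : ∀ z ∈ ball (0 : Ec n) ε, m z = 1 := fun z hz => by
    have := hU _ O _ (fun y => (m y - 1) • ξ) ob (convex_ball _ _).isPreconnected s₀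
      ((ew_dv0 ob s₀).2 ⟨(sm.sub contDiffOn_const).smul contDiffOn_const, fun y hy => by
        rw [dv_scalar ob h₂ sm ξ hy, hh y hy, zero_smul]⟩) hO ne hs
      (fun y hy => by simp [mO y hy]) hz
    exact sub_eq_zero.1 ((smul_eq_zero.1 this).resolve_right ξ0)
  have hp' : ∀ z ∈ ball (0 : Ec n) ε, ∀ i, E₁ z * Ring.inverse (E₂ z) * γ₂.a i z =
      γ₁.a i z * (E₁ z * Ring.inverse (E₂ z)) +
        dd i (fun y => E₁ y * Ring.inverse (E₂ y)) z := fun z hz i => by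
    have := hp z hz i
    rwa [dd_eqOn ob (w := fun y => E₁ y * Ring.inverse (E₂ y))
      (fun y hy => by simp only [m1 y hy, one_smul]) hz, m1 z hz, one_smul] at this
  obtain ⟨y, hy⟩ := ne
  refine ⟨ob, contDiffOn_id, injOn_id _, sV, fun z hz => ?_, fun z hz => ?_, fun z hz i => ?_⟩
  · have e := par_uni h₁ h₂ sV hp' (hs hy) (hu y hy).1 hz
    have u : IsUnit (E₁ z * Ring.inverse (E₂ z)) := (u₁ z hz).mul (u₂ z hz).ringInverse
    refine ⟨e, u.mul_right_cancel ?_⟩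
    rw [mul_assoc, e, mul_one, one_mul]
  · simpa [jac_id] using (g_of_cn hn (h₁.pos z hz) (h₂.pos z hz) (by
      rw [hc z hz, m1 z hz, one_pow, one_smul])).symm
  · simp only [jac_id, Matrix.one_apply, ite_smul, one_smul, ops_zero, Finset.sum_ite_eq',
      Finset.mem_univ, if_true, id]
    exact hp' z hz i

end Vale.Agent.P088.Gl
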