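import Vale.Agent.P088F.LSt

/-! P088, part L: the operator in a frame of solutions. -/

open MeasureTheory Set Filter Metric Topology Matrix
open scoped ContDiff ENNReal

noncomputable section

namespace Vale.Agent.P088.Gl

variable {n N : ℕ} {Ω D : Set (Ec n)} {γ γ₁ γ₂ : Geo n N} {z : Ec n} {u : Ec n → Fb N}
  {E E₁ E₂ V : Ec n → Op N}

theorem inv_mul_app {A : Op N} (h : IsUnit A) (ξ : Fb N) : Ring.inverse A (A ξ) = ξ :=
  congrArg (fun B : Op N => B ξ) (Ring.inverse_mul_cancel A h)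

theorem mul_inv_app {A : Op N} (h : IsUnit A) (ξ : Fb N) : A (Ring.inverse A ξ) = ξ :=
  congrArg (fun B : Op N => B ξ) (Ring.mul_inverse_cancel A h)

theorem app_inj {A : Op N} (h : IsUnit A) {ξ η : Fb N} (e : A ξ = A η) : ξ = η := by
  rw [← inv_mul_app h ξ, e, inv_mul_app h]

theorem mul_fa (γ : Geo n N) (hu : IsUnit (E z)) (i : Fin n) :
    E z * γ.fa E i z = dd i E z + γ.a i z * E z := by
  rw [Geo.fa, ← mul_assoc, Ring.mul_inverse_cancel _ hu, one_mul]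

theorem fa_sm (hΩ : IsOpen Ω) (h : γ.Sm Ω) (hE : ContDiffOn ℝ ∞ E Ω) (hu : ∀ z ∈ Ω, IsUnit (E z))
    (i : Fin n) : ContDiffOn ℝ ∞ (γ.fa E i) Ω :=
  (sm_inv hE hu).mul ((dd_sm hΩ hE i).add ((h.a i).mul hE))

theorem EIso.met_id (h : EIso D γ₁ γ₂ id V) (hz : z ∈ D) : γ₁.g z = γ₂.g z := by
  simpa [jac_id] using (h.met z hz).symm

theorem EIso.con_id (h : EIso D γ₁ γ₂ id V) (hz : z ∈ D) (i : Fin n) :
    V z * γ₂.a i z = γ₁.a i z * V z + dd i V z := by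
  have := h.con z hz i
  simp only [jac_id, Matrix.one_apply, ite_smul, one_smul, ops_zero, Finset.sum_ite_eq',
    Finset.mem_univ, if_true, id] at this
  exact this

theorem cn_congr (h : γ₁.g z = γ₂.g z) : γ₁.cn z = γ₂.cn z := by
  simp only [Geo.cn, Geo.vol, h]

/-- The covariant derivative of the frame. -/
def Geo.pe (γ : Geo n N) (E : Ec n → Op N) (j : Fin n) (y : Ec n) : Op N :=
  dd j E y + γ.a j y * E y

theorem pe_sm (hΩ : IsOpen Ω) (h : γ.Sm Ω) (hE : ContDiffOn ℝ ∞ E Ω) (j : Fin n) :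
    ContDiffOn ℝ ∞ (γ.pe E j) Ω := (dd_sm hΩ hE j).add ((h.a j).mul hE)

theorem D_frame (γ : Geo n N) (hE : DifferentiableAt ℝ E z) (hs : DifferentiableAt ℝ u z)
    (j : Fin n) : γ.D j (fun y => E y (u y)) z = E z (dd j u z) + γ.pe E j z (u z) := by
  rw [D_eq, dd_app hE hs, add_assoc]; rfl

theorem dv_exp (hΩ : IsOpen Ω) (h : γ.Sm Ω) (hE : ContDiffOn ℝ ∞ E Ω) (hs : ContDiffOn ℝ ∞ u Ω)
    (hz : z ∈ Ω) : γ.Dv (fun y => E y (u y)) z =
      ∑ i, ∑ j, (γ.cn z i j • E z (dd i (dd j u) z) + γ.cn z i j • γ.pe E i z (dd j u z) +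
        γ.cn z i j • γ.pe E j z (dd i u z) + dd i (fun y => γ.cn y i j) z • E z (dd j u z)) +
      ∑ i, ∑ j, (γ.cn z i j • dd i (γ.pe E j) z (u z) +
        dd i (fun y => γ.cn y i j) z • γ.pe E j z (u z) + γ.cn z i j • γ.a i z (γ.pe E j z (u z))) := by
  rw [← Finset.sum_add_distrib]
  refine Finset.sum_congr rfl fun i _ => ?_
  have e : γ.fl (fun y => E y (u y)) i =ᶠ[𝓝 z]
      fun y => ∑ j, γ.cn y i j • (E y (dd j u y) + γ.pe E j y (u y)) := by
    filter_upwards [hΩ.mem_nhds hz] with y hy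
    exact Finset.sum_congr rfl fun j _ => by rw [D_frame γ (sm_dif hΩ hE hy) (sm_dif hΩ hs hy)]
  have dE := sm_dif hΩ hE hz
  have du := sm_dif hΩ hs hz
  have d1 := fun j => sm_dif hΩ (dd_sm hΩ hs j) hz
  have dP := fun j => sm_dif hΩ (pe_sm hΩ h hE j) hz
  have dc := fun j => sm_dif hΩ (lsm_cn h i j) hz
  have d2 := fun j => (dif_app dE (d1 j)).fun_add (dif_app (dP j) du)
  rw [D_congr γ i e, D_eq, dd_sum fun j _ => (dc j).fun_smul (d2 j), map_sum,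
    ← Finset.sum_add_distrib, ← Finset.sum_add_distrib]
  refine Finset.sum_congr rfl fun j _ => ?_
  rw [dd_smul (dc j) (d2 j), dd_add (dif_app dE (d1 j)) (dif_app (dP j) du), dd_app dE (d1 j),
    dd_app (dP j) du, ContinuousLinearMap.map_smul_of_tower, map_add]
  have : γ.pe E i z (dd j u z) = dd i E z (dd j u z) + γ.a i z (E z (dd j u z)) := rfl
  rw [this]
  module

variable [NeZero n]

theorem dv_frame (hΩ : IsOpen Ω) (h : γ.Sm Ω) (hE : ContDiffOn ℝ ∞ E Ω)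
    (hu : ∀ z ∈ Ω, IsUnit (E z)) (h0 : ∀ ξ, ∀ z ∈ Ω, γ.Dv (fun y => E y ξ) z = 0)
    (hs : ContDiffOn ℝ ∞ u Ω) (hz : z ∈ Ω) :
    γ.Dv (fun y => E y (u y)) z = γ.cn z 0 0 • E z ((γ.nf E).ap u z) := by
  have z0 := h0 (u z) z hz
  have c1 : ∀ j, dd j (fun _ : Ec n => u z) = fun _ => 0 := fun j => funext fun _ => dd_const _
  rw [dv_exp (u := fun _ => u z) hΩ h hE contDiffOn_const hz] at z0
  simp only [c1, dd_const, map_zero, smul_zero, add_zero, Finset.sum_const_zero, zero_add] at z0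
  have hk := (lsm_diag h hz 0).ne'
  have f : ∀ i ξ, E z (γ.fa E i z ξ) = γ.pe E i z ξ := fun i ξ =>
    congrArg (fun B : Op N => B ξ) (mul_fa γ (hu z hz) i)
  have sy : ∑ i, ∑ j, γ.cn z i j • γ.pe E j z (dd i u z) =
      ∑ i, ∑ j, γ.cn z i j • γ.pe E i z (dd j u z) := by
    rw [Finset.sum_comm]
    exact Finset.sum_congr rfl fun i _ => Finset.sum_congr rfl fun j _ => by rw [lsm_symm h hz]
  rw [dv_exp hΩ h hE hs hz, z0, add_zero]
  simp only [Nf.ap, Geo.nf, Matrix.smul_apply, smul_eq_mul, map_add, map_sum, smul_add,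
    Finset.smul_sum, ContinuousLinearMap.map_smul_of_tower, ContinuousLinearMap.sum_apply,
    ContinuousLinearMap.add_apply, ContinuousLinearMap.smul_apply, ContinuousLinearMap.one_apply,
    smul_smul, mul_inv_cancel_left₀ hk, f, Finset.sum_add_distrib, sy]
  rw [Finset.sum_comm (f := fun k i => dd i (fun y => γ.cn y i k) z • E z (dd k u z)),
    Finset.sum_comm (f := fun k i => (2 * γ.cn z i k) • γ.pe E i z (dd k u z))]
  simp only [two_mul, add_smul, Finset.sum_add_distrib]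
  abel

theorem nf_sm (hΩ : IsOpen Ω) (h : γ.Sm Ω) (hE : ContDiffOn ℝ ∞ E Ω)
    (hu : ∀ z ∈ Ω, IsUnit (E z)) : (γ.nf E).Sm Ω := by
  have k := (lsm_cn h 0 0).inv fun z hz => (lsm_diag h hz 0).ne'
  refine ⟨fun i j => k.mul (lsm_cn h i j), fun j => k.smul (ContDiffOn.sum fun i _ =>
    ((dd_sm hΩ (lsm_cn h i j) i).smul contDiffOn_const).add
      ((contDiffOn_const.mul (lsm_cn h i j)).smul (fa_sm hΩ h hE hu i))), fun z hz i j => ?_,
    fun z hz => inv_mul_cancel₀ (lsm_diag h hz 0).ne'⟩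
  exact congrArg ((γ.cn z 0 0)⁻¹ * ·) (lsm_symm h hz i j)

theorem nf_eq (h : EIso D γ₁ γ₂ id V) (hE : ContDiffOn ℝ ∞ E₂ D) (hu : ∀ z ∈ D, IsUnit (E₂ z))
    (hV : ∀ z ∈ D, E₁ z = V z * E₂ z) : (γ₁.nf E₁).Eq (γ₂.nf E₂) D := fun z hz => by
  have c : ∀ z ∈ D, γ₁.cn z = γ₂.cn z := fun z hz => cn_congr (h.met_id hz)
  have c' : ∀ i j, dd i (fun y => γ₁.cn y i j) z = dd i (fun y => γ₂.cn y i j) z := fun i j =>
    dd_eqOn h.op (fun y hy => by simp only [c y hy]) hz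
  have u₁ : IsUnit (E₁ z) := by
    rw [hV z hz]; exact (Unitary.isUnit_coe (U := ⟨_, h.uni z hz⟩)).mul (hu z hz)
  have f : ∀ i, γ₁.fa E₁ i z = γ₂.fa E₂ i z := fun i => by
    refine u₁.mul_left_cancel ?_
    rw [mul_fa γ₁ u₁, dd_eqOn h.op hV hz, dd_mul (h.dV hz) (sm_dif h.op hE hz), hV z hz, mul_assoc,
      mul_fa γ₂ (hu z hz), mul_add, ← mul_assoc (V z), h.con_id hz, add_mul, mul_assoc]
    abel
  simp only [Geo.nf, c z hz, c', f, implies_true, and_self]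

end Vale.Agent.P088.Gl
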