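import Vale.Agent.P088F.LSm
import Vale.Agent.P088F.Geo1

/-! P088, part L: the strong form of the equation. -/

open MeasureTheory Set Filter Metric Topology Matrix
open scoped ContDiff ENNReal

noncomputable section

namespace Vale.Agent.P088.Gl

variable {n N : ℕ} {Ω : Set (Ec n)} {γ : Geo n N} {z : Ec n} {u w F : Ec n → Fb N}

theorem D_congr (γ : Geo n N) (i : Fin n) (h : u =ᶠ[𝓝 z] w) : γ.D i u z = γ.D i w z := by
  rw [D_eq, D_eq, dd_congr h, h.eq_of_nhds]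

theorem dv_congr (γ : Geo n N) (h : u =ᶠ[𝓝 z] w) : γ.Dv u z = γ.Dv w z :=
  Finset.sum_congr rfl fun i _ => D_congr γ i (h.eventuallyEq_nhds.mono fun y hy =>
    Finset.sum_congr rfl fun j _ => by rw [D_congr γ j hy])

theorem dv_eq_P (hΩ : IsOpen Ω) (h : γ.Sm Ω) (hz : z ∈ Ω) : γ.Dv u z = γ.P u z :=
  Finset.sum_congr rfl fun i _ => D_congr γ i (by
    filter_upwards [hΩ.mem_nhds hz] with y hy
    exact Finset.sum_congr rfl fun j _ => by rw [lsm_symm h hy]; rfl)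

theorem ew_dv (hΩ : IsOpen Ω) (h : γ.Sm Ω) (hF : ContinuousOn F Ω) :
    EW Ω γ u F ↔ ContDiffOn ℝ ∞ u Ω ∧ ∀ z ∈ Ω, γ.Dv u z = -(γ.vol z • F z) := by
  rw [h.ew_iff hΩ hF]
  exact and_congr_right fun _ => forall₂_congr fun z hz => by rw [dv_eq_P hΩ h hz]

theorem ew_dv0 (hΩ : IsOpen Ω) (h : γ.Sm Ω) :
    EW Ω γ u 0 ↔ ContDiffOn ℝ ∞ u Ω ∧ ∀ z ∈ Ω, γ.Dv u z = 0 := by
  rw [ew_dv (F := 0) hΩ h continuousOn_const]
  simp

end Vale.Agent.P088.Gl
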