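import Vale.Agent.P088F.PR3

/-! Part R: the joint interior estimate. -/

open MeasureTheory Set Filter Topology Metric
open scoped ContDiff ENNReal

noncomputable section

namespace Vale.Agent.P088F

open Vale.Agent.P292E

variable {n : ℕ} {ι : Type} [Fintype ι] [DecidableEq ι]

/-- The sum of the two operators on the product. -/
def Op.sum (P Q : Op n ι) : Op (n + n) (ι × ι) where
  g := Fin.addCases (fun p => Fin.addCases (fun q z => P.g p q (sp n n z).1) fun _ _ => 0)
    fun p => Fin.addCases (fun _ _ => 0) fun q z => Q.g p q (sp n n z).2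
  a := Fin.addCases (fun p I J z => if I.2 = J.2 then P.a p I.1 J.1 (sp n n z).1 else 0)
    fun p I J z => if I.1 = J.1 then Q.a p I.2 J.2 (sp n n z).2 else 0
  c := fun I J z => (if I.2 = J.2 then P.c I.1 J.1 (sp n n z).1 else 0) +
    if I.1 = J.1 then Q.c I.2 J.2 (sp n n z).2 else 0

/-- The second group of variables. -/
def pr4s (n : ℕ) : V (n + n) →L[ℝ] V n :=
  (ContinuousLinearMap.snd ℝ (V n) (V n)).comp (sp n n).toContinuousLinearMap

theorem pr4_le (z : V (n + n)) : ‖pr4s n z‖ ≤ ‖z‖ :=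
  le_of_sq_le_sq ((le_add_of_nonneg_left (sq_nonneg _)).trans_eq (sp_norm z).symm) (norm_nonneg _)

theorem pr4_bd {F : Type} [NormedAddCommGroup F] [NormedSpace ℝ F] {K : ℕ} {M : ℝ}
    (L : V (n + n) →L[ℝ] V n) (hL : ∀ z, ‖L z‖ ≤ ‖z‖) {f : V n → F} (hf : ContDiff ℝ ∞ f)
    (h : Bd K f univ M) : Bd K (fun z => f (L z)) univ |M| := fun i hi z _ => by
  refine (congrArg norm (L.iteratedFDeriv_comp_right hf z (BdC_le i))).trans_le
    ((ContinuousMultilinearMap.norm_compContinuousLinearMap_le _ _).trans ?_)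
  rw [Finset.prod_const, Finset.card_fin]
  exact (mul_le_of_le_one_right (norm_nonneg _) (pow_le_one₀ (norm_nonneg _)
    (L.opNorm_le_bound zero_le_one fun z => (hL z).trans_eq (one_mul _).symm))).trans
    ((h i hi _ trivial).trans (le_abs_self M))

theorem pr4_zero {F : Type} [NormedAddCommGroup F] [NormedSpace ℝ F] (K : ℕ) (M : ℝ) :
    Bd K (fun _ : V (n + n) => (0 : F)) univ |M| :=
  (Bd_const K 0 univ).mono le_rfl le_rfl (by simp)

theorem pr4_ite {c : Prop} [Decidable c] {f : V (n + n) → ℂ} (hf : ContDiff ℝ ∞ f) :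
    ContDiff ℝ ∞ fun z => if c then f z else 0 := by
  split_ifs
  exacts [hf, contDiff_const]

theorem pr4_ite' {c : Prop} [Decidable c] {f : V (n + n) → ℂ} {K : ℕ} {M : ℝ}
    (hf : Bd K f univ |M|) : Bd K (fun z => if c then f z else 0) univ |M| := by
  split_ifs
  exacts [hf, pr4_zero K M]

omit [Fintype ι] in
theorem pr4_ip (P Q : Op n ι) (z ξ : V (n + n)) : ip (P.sum Q).g z ξ ξ =
    ip P.g (sp n n z).1 (sp n n ξ).1 (sp n n ξ).1 + ip Q.g (sp n n z).2 (sp n n ξ).2 (sp n n ξ).2 := by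
  simp only [ip, Op.sum, Fin.sum_univ_add, Fin.addCases_left, Fin.addCases_right, zero_mul,
    Finset.sum_const_zero, add_zero, zero_add]
  rfl

omit [Fintype ι] [DecidableEq ι] in
theorem pr4_nonneg {P : Op n ι} (hP : P.Sm) (x ξ : V n) : 0 ≤ ip P.g x ξ ξ := by
  by_cases h : ξ = 0
  · simp [ip, h]
  · exact (hP.pos x ξ h).le

omit [Fintype ι] in
/-- `sp`, `sp_norm`, `prj`, `pr_L`, `pr_R`, `bd_aff` are in `Est2`. -/
theorem Op.Sm.sum {P Q : Op n ι} (hP : P.Sm) (hQ : Q.Sm) : (P.sum Q).Sm := by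
  have h1 : ContDiff ℝ ∞ fun z => (sp n n z).1 := (prj n n).contDiff
  have h2 : ContDiff ℝ ∞ fun z => (sp n n z).2 := (pr4s n).contDiff
  refine ⟨fun p q => ?_, fun p I J => ?_, fun I J => (pr4_ite ((hP.c _ _).comp h1)).add
    (pr4_ite ((hQ.c _ _).comp h2)), fun p q z => ?_, fun z ξ hξ => ?_⟩
  · induction p using Fin.addCases <;> induction q using Fin.addCases <;>
      simp only [Op.sum, Fin.addCases_left, Fin.addCases_right]
    exacts [(hP.g _ _).comp h1, contDiff_const, contDiff_const, (hQ.g _ _).comp h2]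
  · induction p using Fin.addCases <;> simp only [Op.sum, Fin.addCases_left, Fin.addCases_right]
    exacts [pr4_ite ((hP.a _ _ _).comp h1), pr4_ite ((hQ.a _ _ _).comp h2)]
  · induction p using Fin.addCases <;> induction q using Fin.addCases <;>
      simp only [Op.sum, Fin.addCases_left, Fin.addCases_right]
    exacts [hP.symm _ _ _, hQ.symm _ _ _]
  · rw [pr4_ip]
    by_cases h : (sp n n ξ).1 = 0
    · exact add_pos_of_nonneg_of_pos (pr4_nonneg hP _ _) (hQ.pos _ _ fun h' =>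
        hξ ((sp n n).map_eq_zero_iff.1 (Prod.ext h h')))
    · exact add_pos_of_pos_of_nonneg (hP.pos _ _ h) (pr4_nonneg hQ _ _)

omit [Fintype ι] in
theorem Op.Bdd.sum {P Q : Op n ι} {K : ℕ} {M c : ℝ} (hP : P.Sm) (hQ : Q.Sm) (h : P.Bdd K M c)
    (h' : Q.Bdd K M c) : (P.sum Q).Bdd K (2 * |M|) c := by
  have hM : |M| ≤ 2 * |M| := by linarith [abs_nonneg M]
  refine ⟨fun p q => Bd.mono (B := |M|) ?_ le_rfl le_rfl hM,
    fun p I J => Bd.mono (B := |M|) ?_ le_rfl le_rfl hM, fun I J => ?_, fun z ξ => ?_⟩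
  · induction p using Fin.addCases <;> induction q using Fin.addCases <;>
      simp only [Op.sum, Fin.addCases_left, Fin.addCases_right]
    exacts [pr4_bd (prj n n) pr_le (hP.g _ _) (h.g _ _), pr4_zero K M, pr4_zero K M,
      pr4_bd (pr4s n) pr4_le (hQ.g _ _) (h'.g _ _)]
  · induction p using Fin.addCases <;> simp only [Op.sum, Fin.addCases_left, Fin.addCases_right]
    exacts [pr4_ite' (pr4_bd (prj n n) pr_le (hP.a _ _ _) (h.a _ _ _)),
      pr4_ite' (pr4_bd (pr4s n) pr4_le (hQ.a _ _ _) (h'.a _ _ _))]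
  · rw [two_mul]
    exact Bd.add isOpen_univ (pr4_ite ((hP.c _ _).comp (prj n n).contDiff)).contDiffOn
      (pr4_ite ((hQ.c _ _).comp (pr4s n).contDiff)).contDiffOn
      (pr4_ite' (pr4_bd (prj n n) pr_le (hP.c _ _) (h.c _ _)))
      (pr4_ite' (pr4_bd (pr4s n) pr4_le (hQ.c _ _) (h'.c _ _)))
  · rw [pr4_ip, sp_norm, mul_add]
    exact add_le_add (h.ell _ _) (h'.ell _ _)

section chain

variable {m : ℕ} {φ : V m → V n × V n} {L : V m →L[ℝ] V n × V n} {w : V n × V n → ℂ} {z : V m}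

theorem pr4_pd (hφ : ∀ z, HasFDerivAt φ L z) (h : DifferentiableAt ℝ w (φ z)) (j : Fin m) :
    pd j (fun z => w (φ z)) z = fderiv ℝ w (φ z) (L (ee j)) :=
  DFunLike.congr_fun (h.hasFDerivAt.comp z (hφ z)).fderiv _

theorem pr4_pd2 (hφ : ∀ z, HasFDerivAt φ L z) (h : ContDiffAt ℝ ∞ w (φ z)) (i j : Fin m) :
    pd i (pd j fun z => w (φ z)) z =
      fderiv ℝ (fun p => fderiv ℝ w p (L (ee j))) (φ z) (L (ee i)) := by
  have h1 : ∀ᶠ y in 𝓝 z, ContDiffAt ℝ 1 w (φ y) :=
    (hφ z).continuousAt.eventually ((h.of_le (BdC_le 1)).eventually (by simp))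
  have h2 : pd j (fun z => w (φ z)) =ᶠ[𝓝 z] fun y => fderiv ℝ w (φ y) (L (ee j)) :=
    h1.mono fun y hy => pr4_pd hφ (hy.differentiableAt one_ne_zero) j
  rw [pd, h2.fderiv_eq]
  exact pr4_pd (w := fun p => fderiv ℝ w p (L (ee j))) hφ
    (((h.fderiv_right (m := ∞) le_rfl).clm_apply contDiffAt_const).differentiableAt (by simp)) i

end chain

theorem pr4_L (p : Fin n) : sp n n (ee (Fin.castAdd n p)) = (ee p, 0) := by
  refine Prod.ext (pr_L p) ?_
  ext q
  change ee (Fin.castAdd n p) (Fin.natAdd n q) = _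
  have := p.2
  simp [ee, Fin.ext_iff]
  omega

theorem pr4_R (p : Fin n) : sp n n (ee (Fin.natAdd n p)) = (0, ee p) := by
  refine Prod.ext (pr_R p) ?_
  ext q
  change ee (Fin.natAdd n p) (Fin.natAdd n q) = _
  simp [ee, Fin.ext_iff]

theorem Op.sum_ap (P Q : Op n ι) {W : Kr n ι} {z : V (n + n)}
    (h : ∀ l m, ContDiffAt ℝ ∞ (fun p : V n × V n => W l m p.1 p.2) (sp n n z)) (I : ι × ι) :
    (P.sum Q).ap (fun I z => W I.1 I.2 (sp n n z).1 (sp n n z).2) I z =
      apx P W I.1 I.2 (sp n n z).1 (sp n n z).2 + apy Q W I.1 I.2 (sp n n z).1 (sp n n z).2 := by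
  have s0 : ∀ z, HasFDerivAt (sp n n) (sp n n).toContinuousLinearMap z := fun z =>
    (sp n n).hasFDerivAt
  have s1 := fun x : V n => hasFDerivAt_prodMk_left (𝕜 := ℝ) x (sp n n z).2
  have s2 := fun y : V n => hasFDerivAt_prodMk_right (𝕜 := ℝ) (sp n n z).1 y
  have hd := fun l m => (h l m).differentiableAt (by simp)
  have a0 := fun l m => pr4_pd s0 (hd l m)
  have a1 := fun l m => pr4_pd (z := (sp n n z).1) s1 (hd l m)
  have a2 := fun l m => pr4_pd (z := (sp n n z).2) s2 (hd l m)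
  have b0 := fun l m => pr4_pd2 s0 (h l m)
  have b1 := fun l m => pr4_pd2 (z := (sp n n z).1) s1 (h l m)
  have b2 := fun l m => pr4_pd2 (z := (sp n n z).2) s2 (h l m)
  simp only [ContinuousLinearMap.inl_apply, ContinuousLinearMap.inr_apply,
    ContinuousLinearEquiv.coe_coe] at a0 a1 a2 b0 b1 b2
  simp only [Op.ap, apx, apy, Op.gc, Op.sum, a0, a1, a2, b0, b1, b2, Fin.sum_univ_add,
    Fin.addCases_left, Fin.addCases_right, pr4_L, pr4_R, Complex.ofReal_zero, zero_mul,
    Finset.sum_const_zero, add_zero, zero_add, Fintype.sum_prod_type, add_mul, ite_mul,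
    Finset.sum_add_distrib, Finset.sum_ite_irrel, Finset.sum_ite_eq, Finset.mem_univ, if_true,
    Prod.mk.eta]
  ring

/-- Apply `ie` to `P.sum Q` on `ball ((sp n n).symm p) r`, which `sp` maps into `ball p r`. -/
theorem ie2 : IE2 n ι := fun j => by
  obtain ⟨K, hK⟩ := ie (n := n + n) (ι := ι × ι) j
  refine ⟨K, fun M c hc => ?_⟩
  obtain ⟨C, hC⟩ := hK (2 * |M|) c hc
  obtain ⟨v, hv0, hv⟩ : ∃ v : ℝ, 0 ≤ v ∧ volume (ball (0 : V (n + n)) 1) = ENNReal.ofReal v :=
    ⟨_, ENNReal.toReal_nonneg, (ENNReal.ofReal_toReal measure_ball_lt_top.ne).symm⟩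
  refine ⟨|C| * √(Fintype.card (ι × ι) * v) * (‖(sp n n).symm.toContinuousLinearMap‖ + 1) ^ j,
    fun P Q hP hQ bP bQ p r hr hr1 W hW A hA l m i hi => ?_⟩
  have A0 : 0 ≤ A := (norm_nonneg _).trans (hA p (mem_ball_self hr) l m)
  have hm : ∀ z ∈ ball ((sp n n).symm p) r, sp n n z ∈ ball p r := fun z hz => by
    rw [mem_ball_iff_norm] at hz ⊢
    rw [← (sp n n).apply_symm_apply p, ← map_sub]
    exact (max_le (pr_le _) (pr4_le _)).trans_lt hz
  have k := hC (P.sum Q) (hP.sum hQ) (bP.sum hP hQ bQ) ((sp n n).symm p) r hr hr1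
    (fun I z => W I.1 I.2 (sp n n z).1 (sp n n z).2)
    ⟨fun I => (hW.sm I.1 I.2).comp (sp n n).contDiff.contDiffOn hm, fun I z hz => by
      rw [Op.sum_ap P Q fun l m => (hW.sm l m).contDiffAt (isOpen_ball.mem_nhds (hm z hz)),
        hW.ex _ (hm z hz), hW.ey _ (hm z hz), add_zero]⟩
    (A * √(Fintype.card (ι × ι) * v)) (by positivity) (by
      refine (Finset.sum_le_card_nsmul _ _ (ENNReal.ofReal (A ^ 2 * (r ^ (n + n) * v)))
        fun I _ => ?_).trans_eq ?_
      · refine (setLIntegral_mono' measurableSet_ball (g := fun _ => ENNReal.ofReal (A ^ 2))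
          fun z hz => ?_).trans_eq ?_
        · rw [← ofReal_norm, ← ENNReal.ofReal_pow (norm_nonneg _)]
          exact ENNReal.ofReal_le_ofReal (pow_le_pow_left₀ (norm_nonneg _) (hA _ (hm z hz) _ _) 2)
        · rw [setLIntegral_const, Measure.addHaar_ball_of_pos _ _ hr, hv, finrank_euclideanSpace_fin,
            ENNReal.ofReal_mul (sq_nonneg A), ENNReal.ofReal_mul (by positivity)]
      · rw [nsmul_eq_mul, ← ENNReal.ofReal_natCast, ← ENNReal.ofReal_mul (Nat.cast_nonneg _), mul_pow,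
          Real.sq_sqrt (by positivity), Finset.card_univ]
        congr 1
        ring) (l, m) i hi
  have e := (sp n n).symm.iteratedFDerivWithin_comp_right
    (fun z => W l m (sp n n z).1 (sp n n z).2) uniqueDiffOn_univ (x := p) (mem_univ _) i
  simp only [preimage_univ, iteratedFDerivWithin_univ, Function.comp_def,
    ContinuousLinearEquiv.apply_symm_apply] at e
  rw [e]
  refine (ContinuousMultilinearMap.norm_compContinuousLinearMap_le _ _).trans ?_
  rw [Finset.prod_const, Finset.card_fin]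
  have h1 : ‖(sp n n).symm.toContinuousLinearMap‖ ^ i ≤
      (‖(sp n n).symm.toContinuousLinearMap‖ + 1) ^ j :=
    (pow_le_pow_left₀ (norm_nonneg _) (le_add_of_nonneg_right zero_le_one) i).trans
      (pow_le_pow_right₀ (le_add_of_nonneg_left (norm_nonneg _)) hi)
  refine (mul_le_mul (k.trans (div_le_div_of_nonneg_right (mul_le_mul_of_nonneg_right
    (le_abs_self C) (by positivity)) (by positivity))) h1 (by positivity) (by positivity)).trans_eq ?_
  ring

end Vale.Agent.P088F
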