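import Vale.Agent.P088F.PR1
import Vale.Agent.P088F.Reg2

/-! Part R: joint regularity. -/

open MeasureTheory Set Filter Topology Metric
open scoped ContDiff ENNReal

noncomputable section

namespace Vale.Agent.P088F

open Vale.Agent.P292E

variable {n : ℕ} {ι : Type} [Fintype ι] [DecidableEq ι]

section

variable {U : Set (V n × V n)} {t t' g : V n × V n → ℂ} {X Y : Set (V n)} {L : Op n ι}

theorem pr5_add (h : Reg2T U t) (h' : Reg2T U t') : Reg2T U fun z => t z + t' z :=
  ⟨h.1.add h'.1, h.2.1.add h'.2.1, (tsupport_add t t').trans (union_subset h.2.2 h'.2.2)⟩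

theorem pr5_sum {κ : Type} (s : Finset κ) {f : κ → V n × V n → ℂ} (h : ∀ i, Reg2T U (f i)) :
    Reg2T U fun z => ∑ i ∈ s, f i z := by
  classical
  induction s using Finset.induction_on with
  | empty => exact ⟨contDiff_const, HasCompactSupport.zero, by simp⟩
  | insert i s hi ih =>
    simp only [Finset.sum_insert hi]
    exact pr5_add (h i) ih

theorem pr5_mul (hg : ContDiff ℝ ∞ g) (h : Reg2T U t) : Reg2T U fun z => g z * t z :=
  ⟨hg.mul h.1, h.2.1.mul_left, tsupport_mul_subset_right.trans h.2.2⟩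

theorem pr5_int (h : Reg2T U t) (hg : LocallyIntegrableOn g U) : Integrable fun z => g z * t z :=
  ((hg.integrableOn_compact_subset h.2.2 h.2.1).mul_continuousOn h.1.continuous.continuousOn
    h.2.1).integrable_of_forall_notMem_eq_zero fun x hx => by
      rw [image_eq_zero_of_notMem_tsupport hx, mul_zero]

omit [DecidableEq ι] in
theorem pr5_x (hL : L.Sm) {t : ι → V n × V n → ℂ} (ht : ∀ l, Reg2T U (t l)) (l : ι) :
    Reg2T U fun z => L.ap (fun l x => t l (x, z.2)) l z.1 := by
  classical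
  simp only [Op.ap, reg2_l (ht _).1, reg2_l ((ht _).d _).1]
  exact pr5_add (pr5_sum _ fun p => pr5_sum _ fun q =>
    pr5_mul ((hL.gc p q).comp contDiff_fst) (((ht l).d _).d _)) (pr5_sum _ fun m => pr5_add
      (pr5_sum _ fun p => pr5_mul ((hL.a p l m).comp contDiff_fst) ((ht m).d _))
      (pr5_mul ((hL.c l m).comp contDiff_fst) (ht m)))

omit [DecidableEq ι] in
theorem pr5_y (hL : L.Sm) {t : ι → V n × V n → ℂ} (ht : ∀ l, Reg2T U (t l)) (l : ι) :
    Reg2T U fun z => L.ap (fun l y => t l (z.1, y)) l z.2 := by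
  classical
  simp only [Op.ap, reg2_r (ht _).1, reg2_r ((ht _).d _).1]
  exact pr5_add (pr5_sum _ fun p => pr5_sum _ fun q =>
    pr5_mul ((hL.gc p q).comp contDiff_snd) (((ht l).d _).d _)) (pr5_sum _ fun m => pr5_add
      (pr5_sum _ fun p => pr5_mul ((hL.a p l m).comp contDiff_snd) ((ht m).d _))
      (pr5_mul ((hL.c l m).comp contDiff_snd) (ht m)))

theorem pr5_prod {A ψ : V n → ℂ} (hA : Tst X A) (hψ : Tst Y ψ) :
    Reg2T (X ×ˢ Y) fun z => ψ z.2 * A z.1 := by
  have k : tsupport (fun z : V n × V n => ψ z.2 * A z.1) ⊆ tsupport A ×ˢ tsupport ψ :=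
    closure_minimal (fun z hz => ⟨subset_tsupport _ (right_ne_zero_of_mul hz),
      subset_tsupport _ (left_ne_zero_of_mul hz)⟩) ((isClosed_tsupport _).prod (isClosed_tsupport _))
  exact ⟨(hψ.1.comp contDiff_snd).mul (hA.1.comp contDiff_fst),
    (hA.2.1.isCompact.prod hψ.2.1.isCompact).of_isClosed_subset (isClosed_tsupport _) k,
    k.trans (prod_mono hA.2.2 hψ.2.2)⟩

theorem pr5_pd (k : ℂ) (f : V n → ℂ) (p : Fin n) :
    pd p (fun y => k * f y) = fun y => k * pd p f y := by
  simpa using pd_sc f 0 1 k p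

omit [DecidableEq ι] in
theorem pr5_ap (L : Op n ι) (k : ℂ) (φ : Fam n ι) (l : ι) (x : V n) :
    L.ap (fun l x => k * φ l x) l x = k * L.ap φ l x := by
  simp only [Op.ap, pr5_pd, mul_add, Finset.mul_sum, mul_left_comm k]

theorem pr5_half (hL : L.Sm) (hX : IsOpen X) (hY : IsOpen Y) {W : ι → V n × V n → ℂ}
    (hW : ∀ l, ContinuousOn (W l) (X ×ˢ Y)) (hw : ∀ φ ψ, TstF X φ → Tst Y ψ →
      ∫ z : V n × V n, ∑ l, W l z * (ψ z.2 * L.t.ap φ l z.1) = 0) {y : V n} (hy : y ∈ Y) :
    SolOn L X fun l x => W l (x, y) := by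
  refine hL.sol hX (fun l => (hW l).comp (by fun_prop) fun x hx => ⟨hx, hy⟩) fun φ hφ => ?_
  have hA := hL.t.tst hX hφ
  have c1 : ∀ l, ContinuousOn (fun y => ∫ x, W l (x, y) * L.t.ap φ l x) Y := fun l => by
    refine continuousOn_integral_of_compact_support (hA l).2.1.isCompact (fun z hz => ?_)
      fun y x _ hx => by rw [image_eq_zero_of_notMem_tsupport hx, mul_zero]
    refine ContinuousAt.continuousWithinAt ?_
    by_cases hx : z.2 ∈ X
    · exact (((hW l).continuousAt ((hX.prod hY).mem_nhds (mk_mem_prod hx hz.1))).comp_of_eq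
        continuous_swap.continuousAt rfl).mul ((hA l).1.continuous.comp continuous_snd).continuousAt
    · refine (continuousAt_const (y := (0 : ℂ))).congr ?_
      filter_upwards [continuousAt_snd.eventually
        (notMem_tsupport_iff_eventuallyEq.1 fun h => hx ((hA l).2.2 h))] with w hw
      exact (mul_eq_zero_of_right _ hw).symm
  have i1 : ∀ y ∈ Y, ∀ l, Integrable fun x => W l (x, y) * L.t.ap φ l x := fun y hy l =>
    (((((hW l).comp (by fun_prop) fun x hx => mk_mem_prod hx hy).mono (hA l).2.2).mul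
      (hA l).1.continuous.continuousOn).integrableOn_compact
      (hA l).2.1).integrable_of_forall_notMem_eq_zero fun x hx => by
        rw [Pi.mul_apply, image_eq_zero_of_notMem_tsupport hx, mul_zero]
  have c2 : ContinuousOn (fun y => ∫ x, ∑ l, W l (x, y) * L.t.ap φ l x) Y :=
    (continuousOn_finsetSum Finset.univ fun l _ => c1 l).congr fun y hy =>
      integral_finsetSum _ fun l _ => i1 y hy l
  have h0 := fund hY (c2.locallyIntegrableOn hY.measurableSet) fun ψ hψ => by
    refine Eq.trans ?_ ((integral_prod_symm _ (integrable_finsetSum Finset.univ fun l _ =>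
      (pr5_prod (hA l) hψ).int (hW l))).symm.trans (hw φ ψ hφ hψ))
    refine integral_congr_ae (.of_forall fun y => ?_)
    beta_reduce
    rw [← integral_mul_const]
    refine integral_congr_ae (.of_forall fun x => ?_)
    beta_reduce
    rw [Finset.sum_mul]
    exact Finset.sum_congr rfl fun l _ => by ring
  exact Measure.eqOn_open_of_ae_eq (μ := volume) ((ae_restrict_iff' hY.measurableSet).2 h0) hY c2
    continuousOn_const hy

theorem pr5_loc {P Q : Op n ι} (hP : P.Sm) (hQ : Q.Sm) (hU : IsOpen U)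
    {W : ι → ι → V n × V n → ℂ} (hW : ∀ l m, LocallyIntegrableOn (W l m) U)
    (hw : ∀ t : ι × ι → V n × V n → ℂ, (∀ I, Reg2T U (t I)) →
      ∫ z : V n × V n, ∑ l, ∑ m, W l m z * P.ap (fun l x => t (l, m) (x, z.2)) l z.1 = 0 ∧
      ∫ z : V n × V n, ∑ l, ∑ m, W l m z * Q.ap (fun m y => t (l, m) (z.1, y)) m z.2 = 0)
    {z : V n × V n} (hz : z ∈ U) : ∃ O, IsOpen O ∧ z ∈ O ∧ ∃ g : ι × ι → V n × V n → ℂ,
      (∀ I, ContDiffOn ℝ ∞ (g I) O) ∧ ∀ᵐ x, x ∈ O → ∀ I : ι × ι, W I.1 I.2 x = g I x := by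
  have : (volume : Measure (V n × V n)).IsAddHaarMeasure := Measure.prod.instIsAddHaarMeasure _ _
  have c1 : ∀ {g : V n → ℂ}, ContDiff ℝ ∞ g → ∀ (P : Prop) [Decidable P],
      ContDiffOn ℝ ∞ (fun z : V n × V n => if P then g z.1 else 0) U := fun hg P _ => by
    split_ifs
    exacts [(hg.comp contDiff_fst).contDiffOn, contDiffOn_const]
  have c2 : ∀ {g : V n → ℂ}, ContDiff ℝ ∞ g → ∀ (P : Prop) [Decidable P],
      ContDiffOn ℝ ∞ (fun z : V n × V n => if P then g z.2 else 0) U := fun hg P _ => by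
    split_ifs
    exacts [(hg.comp contDiff_snd).contDiffOn, contDiffOn_const]
  refine P299.m2_sys (F := V n × V n) volume
    (ι := Fin n × Fin n ⊕ Fin n × Fin n) (ι' := Fin n ⊕ Fin n) (κ := ι × ι)
    (Sum.elim (fun i => (ee i.1, 0)) fun i => (0, ee i.1))
    (Sum.elim (fun i => (ee i.2, 0)) fun i => (0, ee i.2))
    (Sum.elim (fun p => (ee p, 0)) fun p => (0, ee p))
    (Sum.elim (fun i z => P.gc i.1 i.2 z.1) fun i z => Q.gc i.1 i.2 z.2)
    (Sum.elim (fun p z => .of fun I J => if I.2 = J.2 then P.a p I.1 J.1 z.1 else 0)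
      fun p z => .of fun I J => if I.1 = J.1 then Q.a p I.2 J.2 z.2 else 0)
    (fun z => .of fun I J => (if I.2 = J.2 then P.c I.1 J.1 z.1 else 0) +
      if I.1 = J.1 then Q.c I.2 J.2 z.2 else 0) (fun z I => W I.1 I.2 z) (fun _ _ => 0) hU
    (by rintro (i | i)
        exacts [((hP.gc _ _).comp contDiff_fst).contDiffOn,
          ((hQ.gc _ _).comp contDiff_snd).contDiffOn])
    (by rintro (i | i) I J
        exacts [c1 (hP.a _ _ _) _, c2 (hQ.a _ _ _) _])
    (fun I J => (c1 (hP.c _ _) _).add (c2 (hQ.c _ _) _)) (fun _ => contDiffOn_const)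
    (fun I => hW _ _) (fun t ht => ?_) hz fun ξ hξ => ?_
  · have ht' : ∀ I, Reg2T U (t I) := ht
    have a5 := integral_add
      (integrable_finsetSum Finset.univ fun l _ => integrable_finsetSum Finset.univ fun m _ =>
        pr5_int (pr5_x hP (fun l => ht' (l, m)) l) (hW l m))
      (integrable_finsetSum Finset.univ fun l _ => integrable_finsetSum Finset.univ fun m _ =>
        pr5_int (pr5_y hQ (fun m => ht' (l, m)) m) (hW l m))
    rw [(hw t ht').1, (hw t ht').2] at a5
    simp only [zero_mul, Finset.sum_const_zero, integral_zero]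
    refine (integral_congr_ae (.of_forall fun z => ?_)).trans (a5.trans (add_zero _))
    beta_reduce
    rw [Fintype.sum_prod_type]
    simp only [← Finset.sum_add_distrib, ← mul_add]
    refine Finset.sum_congr rfl fun l _ => Finset.sum_congr rfl fun m _ => congrArg _ ?_
    simp only [Op.ap, reg2_l (ht' _).1, reg2_l ((ht' _).d _).1, reg2_r (ht' _).1,
      reg2_r ((ht' _).d _).1, Fintype.sum_sum_type, Fintype.sum_prod_type, Sum.elim_inl,
      Sum.elim_inr, Matrix.of_apply, add_mul, ite_mul, zero_mul, Finset.sum_add_distrib,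
      Finset.sum_ite_eq, Finset.mem_univ, if_true, Finset.sum_ite_irrel, Finset.sum_const_zero]
    rw [Finset.sum_comm (f := fun m' j => P.a j l m' z.1 * _),
      Finset.sum_comm (f := fun m' j => Q.a j m m' z.2 * _)]
    ring
  · have b1 := reg2_el (hP.el univ) (mem_univ z.1) (ξ.comp (ContinuousLinearMap.inl ℝ _ _))
    have b2 := reg2_el (hQ.el univ) (mem_univ z.2) (ξ.comp (ContinuousLinearMap.inr ℝ _ _))
    simp only [Fintype.sum_sum_type, Fintype.sum_prod_type, Sum.elim_inl, Sum.elim_inr,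
      Complex.add_re]
    by_cases h : ξ.comp (ContinuousLinearMap.inl ℝ _ _) = 0
    · exact add_pos_of_nonneg_of_pos b1.1 (b2.2 fun h' => hξ
        (ContinuousLinearMap.prod_ext (h.trans (by simp)) (h'.trans (by simp))))
    · exact add_pos_of_pos_of_nonneg (b1.2 h) b2.1

omit [Fintype ι] in
theorem pr5_one [Fintype ι] (w : ι → ℂ) (m : ι) (ψ : V n → ℂ) (y : V n) (a : ℂ) :
    ∑ m', w m' * ((Pi.single m ψ : ι → V n → ℂ) m' y * a) = w m * (ψ y * a) := by
  rw [Finset.sum_eq_single m (fun m' _ h => by rw [Pi.single_eq_of_ne h]; simp)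
    fun h => absurd (Finset.mem_univ m) h, Pi.single_eq_same]

end

/-- `P299.m2_sys` for the sum of the two transposed operators on `V n × V n` as in `sep_weak` (`Reg2`), `glue` (`Reg1`)
for a global smooth representative `W'`; then for product tests `φ l m x y = φ₁ l x * ψ y * δ` and Fubini the slices are weak
solutions for almost every, hence (continuity, `fund`) every value of the other variable, and `Op.Sm.sol` applies. -/
theorem rg2 : RG2 n ι := by
  intro P Q Ω W hP hQ hΩ hW hw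
  have : (volume : Measure (V n × V n)).IsAddHaarMeasure := Measure.prod.instIsAddHaarMeasure _ _
  obtain ⟨w, h1, h2⟩ := glue (volume : Measure (V n × V n)) hΩ
    (u := fun z (I : ι × ι) => W I.1 I.2 z.1 z.2)
    (fun z g => ∀ I, ContDiffAt ℝ ∞ (fun y => g y I) z) fun z hz => by
      obtain ⟨O, k1, k2, g, k3, k4⟩ := pr5_loc hP.t hQ.t hΩ (W := fun l m z => W l m z.1 z.2) hW
        (fun t ht => hw (fun l m x y => t (l, m) (x, y)) fun l m => ht (l, m)) hz
      exact ⟨O, fun y I => g I y, k1, k2, continuousOn_pi.2 fun I => (k3 I).continuousOn,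
        fun I => (k3 I).contDiffAt (k1.mem_nhds k2), k4.mono fun x hx hx' => funext (hx hx')⟩
  have sm : ∀ I, ContDiffOn ℝ ∞ (fun z => w z I) Ω := fun I z hz => by
    obtain ⟨g, k1, k2⟩ := h1 z hz
    exact ((k1 I).congr_of_eventuallyEq (k2.mono fun y hy => congrFun hy I)).contDiffWithinAt
  have cg : ∀ T : ι → ι → V n × V n → ℂ, (∀ l m, Reg2T Ω (T l m)) →
      ∫ z : V n × V n, ∑ l, ∑ m, w z (l, m) * T l m z =
        ∫ z : V n × V n, ∑ l, ∑ m, W l m z.1 z.2 * T l m z := fun T hT =>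
    integral_congr_ae (h2.mono fun z hz => Finset.sum_congr rfl fun l _ =>
      Finset.sum_congr rfl fun m _ => by
        by_cases c : z ∈ Ω
        · rw [← hz c]
        · rw [image_eq_zero_of_notMem_tsupport fun h => c ((hT l m).2.2 h), mul_zero, mul_zero])
  have mo : ∀ {U : Set (V n × V n)} {t}, U ⊆ Ω → Reg2T U t → Reg2T Ω t := fun h k =>
    ⟨k.1, k.2.1, k.2.2.trans h⟩
  refine ⟨fun l m x y => w (x, y) (l, m), ⟨fun l m => sm (l, m), fun z hz l m => ?_,
    fun z hz l m => ?_⟩, fun l m => h2.mono fun z hz hz' => congrFun (hz hz') (l, m)⟩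
  · obtain ⟨X, Y, hX, hY, z1, z2, hs⟩ := isOpen_prod_iff.1 hΩ z.1 z.2 hz
    refine (pr5_half hP hX hY (W := fun l z => w z (l, m))
      (fun l => (sm _).continuousOn.mono hs) (fun φ ψ hφ hψ => ?_) z2).2 l z.1 z1
    have ht : ∀ l m', Reg2T Ω fun z => (Pi.single m ψ : ι → V n → ℂ) m' z.2 * φ l z.1 :=
      fun l m' => mo hs (pr5_prod (hφ l) (tst_single hψ m m'))
    have k := (cg _ fun l m' => pr5_x hP.t (fun l => ht l m') l).trans
      (hw (fun l m' x y => (Pi.single m ψ : ι → V n → ℂ) m' y * φ l x) ht).1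
    simpa only [pr5_ap, pr5_one] using k
  · obtain ⟨X, Y, hX, hY, z1, z2, hs⟩ := isOpen_prod_iff.1 hΩ z.1 z.2 hz
    refine (pr5_half hQ hY hX (W := fun m z => w z.swap (l, m))
      (fun m => ((sm _).continuousOn.mono hs).comp continuous_swap.continuousOn
        fun z hz => ⟨hz.2, hz.1⟩) (fun φ ψ hφ hψ => ?_) z1).2 m z.2 z2
    have ht : ∀ l' m, Reg2T Ω fun z => (Pi.single l ψ : ι → V n → ℂ) l' z.1 * φ m z.2 :=
      fun l' m => mo hs (pr5_prod (hφ m) (tst_single hψ l l')).swap
    have k := (cg _ fun l' m => pr5_y hQ.t (fun m => ht l' m) m).trans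
      (hw (fun l' m x y => (Pi.single l ψ : ι → V n → ℂ) l' x * φ m y) ht).2
    refine Eq.trans ?_ ((integral_prod_swap _).trans k)
    refine integral_congr_ae (.of_forall fun z => ?_)
    beta_reduce
    rw [Finset.sum_comm]
    simp only [pr5_ap, pr5_one, Prod.fst_swap, Prod.snd_swap]

end Vale.Agent.P088F
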