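import Vale.Agent.P088F.Est3
import Vale.Agent.P299.M2c

/-! Integration by parts and regularity for systems. -/

open MeasureTheory Set Filter Topology Metric
open scoped ContDiff

noncomputable section

namespace Vale.Agent.P088F

open Vale.Agent.P292E

theorem glue {X F : Type} [TopologicalSpace X] [SecondCountableTopology X] [MeasurableSpace X]
    [OpensMeasurableSpace X] (μ : Measure X) [μ.IsOpenPosMeasure] [TopologicalSpace F] [T2Space F]
    [Inhabited F] {U : Set X} (hU : IsOpen U) {u : X → F} (P : X → (X → F) → Prop)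
    (h : ∀ x ∈ U, ∃ O g, IsOpen O ∧ x ∈ O ∧ ContinuousOn g O ∧ P x g ∧
      ∀ᵐ y ∂μ, y ∈ O → u y = g y) :
    ∃ w : X → F, (∀ x ∈ U, ∃ g, P x g ∧ w =ᶠ[𝓝 x] g) ∧ ∀ᵐ y ∂μ, y ∈ U → u y = w y := by
  choose! O g h1 h2 h3 h4 h5 using h
  have key : ∀ x ∈ U, ∀ y ∈ O x ∩ U, g y y = g x y := fun x hx y hy => by
    have ho := (h1 y hy.2).inter (h1 x hx)
    refine Measure.eqOn_open_of_ae_eq (μ := μ) ?_ ho ((h3 y hy.2).mono inter_subset_left)
      ((h3 x hx).mono inter_subset_right) ⟨h2 y hy.2, hy.1⟩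
    rw [EventuallyEq, ae_restrict_iff' ho.measurableSet]
    filter_upwards [h5 y hy.2, h5 x hx] with z k1 k2 hz
    rw [← k1 hz.1, k2 hz.2]
  have nb := fun x hx => ((h1 x hx).inter hU).mem_nhds ⟨h2 x hx, hx⟩
  refine ⟨fun x => g x x, fun x hx => ⟨g x, h4 x hx, mem_of_superset (nb x hx) (key x hx)⟩, ?_⟩
  rw [ae_iff]
  refine measure_null_of_locally_null _ fun x hx => ?_
  have hxU : x ∈ U := (Classical.not_imp.1 hx).1
  refine ⟨_, inter_mem_nhdsWithin _ (nb x hxU), measure_mono_null ?_ (ae_iff.1 (h5 x hxU))⟩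
  exact fun y hy hy' => hy.1 fun _ => (hy' hy.2.1).trans (key x hxU y hy.2).symm

variable {N : ℕ} {ι : Type} {U : Set (V N)} {a a' : Fin N → Fin N → V N → ℂ}
  {b b' : Fin N → ι → ι → V N → ℂ} {c c' : ι → ι → V N → ℂ} {u f φ : ι → V N → ℂ}

/-- Smooth coefficients. -/
structure Sm (U : Set (V N)) (a : Fin N → Fin N → V N → ℂ) (b : Fin N → ι → ι → V N → ℂ)
    (c : ι → ι → V N → ℂ) : Prop where
  ha : ∀ p q, ContDiffOn ℝ ∞ (a p q) U
  hb : ∀ p I J, ContDiffOn ℝ ∞ (b p I J) U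
  hc : ∀ I J, ContDiffOn ℝ ∞ (c I J) U

theorem Sm.mono (h : Sm U a b c) {U' : Set (V N)} (h' : U' ⊆ U) : Sm U' a b c :=
  ⟨fun p q => (h.ha p q).mono h', fun p I J => (h.hb p I J).mono h', fun I J => (h.hc I J).mono h'⟩

/-- Ellipticity. -/
def El (U : Set (V N)) (a : Fin N → Fin N → V N → ℂ) : Prop :=
  ∀ x ∈ U, ∀ ξ : V N, ξ ≠ 0 → 0 < symb (fun p q => a p q x) ξ

variable [Fintype ι]

theorem Sm.sy (h : Sm U a b c) (hU : IsOpen U) (hu : ∀ I, ContDiffOn ℝ ∞ (u I) U) (I : ι) :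
    ContDiffOn ℝ ∞ (Sy a b c u I) U :=
  ((ContDiffOn.sum fun p _ => .sum fun q _ =>
    (h.ha p q).mul (contDiffOn_pd hU (contDiffOn_pd hU (hu I) q) p)).add
    (.sum fun p _ => .sum fun J _ => (h.hb p I J).mul (contDiffOn_pd hU (hu J) p))).add
    (.sum fun J _ => (h.hc I J).mul (hu J))

theorem sy_ev {v : ι → V N → ℂ} {x : V N} (h : ∀ I, u I =ᶠ[𝓝 x] v I) (I : ι) :
    Sy a b c u I x = Sy a b c v I x := by
  have h1 : ∀ J p, pd p (u J) =ᶠ[𝓝 x] pd p (v J) := fun J p =>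
    (h J).fderiv.mono fun y hy => by rw [pd, pd, hy]
  have h2 : ∀ J p q, pd p (pd q (u J)) x = pd p (pd q (v J)) x := fun J p q => by
    rw [pd, pd, (h1 J q).fderiv_eq]
  simp only [Sy, h2, fun J p => (h1 J p).eq_of_nhds, fun J => (h J).eq_of_nhds]

theorem tst_of {g : V N → ℂ} (hU : IsOpen U) (hg : ContDiffOn ℝ ∞ g U) {K : Set (V N)}
    (hK : IsCompact K) (hKU : K ⊆ U) (h : ∀ x ∉ K, g x = 0) : Tst U g := by
  have h1 : tsupport g ⊆ K := closure_minimal (fun x hx => by_contra fun h' => hx (h x h'))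
    hK.isClosed
  refine ⟨contDiff_iff_contDiffAt.2 fun x => ?_, hK.of_isClosed_subset (isClosed_tsupport _) h1,
    h1.trans hKU⟩
  by_cases hx : x ∈ U
  · exact hg.contDiffAt (hU.mem_nhds hx)
  · exact (contDiffAt_const (c := 0)).congr_of_eventuallyEq
      (notMem_tsupport_iff_eventuallyEq.1 fun h' => hx (hKU (h1 h')))

theorem sy_zero {x : V N} (h : ∀ I, x ∉ tsupport (φ I)) (I : ι) : Sy a b c φ I x = 0 := by
  rw [sy_ev (v := fun _ _ => 0) fun I => notMem_tsupport_iff_eventuallyEq.1 (h I)]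
  simp [Sy, show ∀ p : Fin N, pd p (fun _ : V N => (0 : ℂ)) = fun _ => 0 from fun p => by
    funext y
    simp [pd]]

theorem Sm.tst (h : Sm U a b c) (hU : IsOpen U) (hφ : ∀ I, Tst U (φ I)) (I : ι) :
    Tst U (Sy a b c φ I) :=
  tst_of hU (h.sy hU (fun I => (hφ I).1.contDiffOn) I) (isCompact_iUnion fun I => (hφ I).2.1)
    (iUnion_subset fun I => (hφ I).2.2) fun _ hx =>
      sy_zero (fun J hJ => hx (mem_iUnion.2 ⟨J, hJ⟩)) I

variable [DecidableEq ι]

/-- The coefficients of the transposed operator. -/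
structure IsT (U : Set (V N)) (a : Fin N → Fin N → V N → ℂ) (b : Fin N → ι → ι → V N → ℂ)
    (c : ι → ι → V N → ℂ) (a' : Fin N → Fin N → V N → ℂ) (b' : Fin N → ι → ι → V N → ℂ)
    (c' : ι → ι → V N → ℂ) : Prop where
  ha : ∀ p q, ∀ x ∈ U, a' p q x = a q p x
  hb : ∀ p I J, ∀ x ∈ U, b' p I J x =
    (if I = J then ∑ q, (pd q (a p q) x + pd q (a q p) x) else 0) - b p J I x
  hc : ∀ I J, ∀ x ∈ U, c' I J x =
    (if I = J then ∑ p, ∑ q, pd q (pd p (a p q)) x else 0) - ∑ p, pd p (b p J I) x + c J I x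

omit [Fintype ι] in
theorem IsT.mono (h : IsT U a b c a' b' c') {U' : Set (V N)} (h' : U' ⊆ U) :
    IsT U' a b c a' b' c' :=
  ⟨fun p q x hx => h.ha p q x (h' hx), fun p I J x hx => h.hb p I J x (h' hx),
    fun I J x hx => h.hc I J x (h' hx)⟩

omit [Fintype ι] in
theorem IsT.sm (h : IsT U a b c a' b' c') (hU : IsOpen U) (hs : Sm U a b c) : Sm U a' b' c' := by
  have d := fun {g} (hg : ContDiffOn ℝ ∞ g U) => contDiffOn_pd hU hg
  refine ⟨fun p q => (hs.ha q p).congr (h.ha p q), fun p I J => .congr ?_ (h.hb p I J),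
    fun I J => .congr ?_ (h.hc I J)⟩
  · refine .sub ?_ (hs.hb p J I)
    split_ifs
    exacts [.sum fun q _ => (d (hs.ha p q) q).add (d (hs.ha q p) q), contDiffOn_const]
  · refine .add (.sub ?_ (.sum fun p _ => d (hs.hb p J I) p)) (hs.hc J I)
    split_ifs
    exacts [.sum fun p _ => .sum fun q _ => d (d (hs.ha p q) p) q, contDiffOn_const]

omit [Fintype ι] in
theorem IsT.el (h : IsT U a b c a' b' c') (he : El U a) : El U a' := fun x hx ξ hξ =>
  (he x hx ξ hξ).trans_eq (by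
    simp only [symb, h.ha _ _ x hx]
    rw [Finset.sum_comm]
    simp only [mul_right_comm])

theorem ibp_sys (hU : IsOpen U) (hs : Sm U a b c) (ht : IsT U a b c a' b' c')
    (hu : ∀ I, ContDiffOn ℝ ∞ (u I) U) (hφ : ∀ I, Tst U (φ I)) :
    ∫ x, ∑ J, u J x * Sy a' b' c' φ J x = ∫ x, ∑ I, Sy a b c u I x * φ I x := by
  have hs' := ht.sm hU hs
  let Q := fun I J => Qop (if I = J then a else fun _ _ _ => 0) (fun p => b p I J) (c I J) (u J)
  let Q' := fun J I => Qop (if J = I then a' else fun _ _ _ => 0) (fun p => b' p J I) (c' J I) (φ I)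
  have e : ∀ I x, Sy a b c u I x = ∑ J, Q I J x := fun I x => by
    simp only [Sy, Q, Qop, Finset.sum_add_distrib, ite_apply, ite_mul, zero_mul,
      Finset.sum_ite_irrel, Finset.sum_const_zero, Finset.sum_ite_eq, Finset.mem_univ, if_true]
    rw [Finset.sum_comm (f := fun p J => b p I J x * _)]
  have e' : ∀ J x, Sy a' b' c' φ J x = ∑ I, Q' J I x := fun I x => by
    simp only [Sy, Q', Qop, Finset.sum_add_distrib, ite_apply, ite_mul, zero_mul,
      Finset.sum_ite_irrel, Finset.sum_const_zero, Finset.sum_ite_eq, Finset.mem_univ, if_true]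
    rw [Finset.sum_comm (f := fun p J => b' p I J x * _)]
  have sa : ∀ {a : Fin N → Fin N → V N → ℂ}, (∀ p q, ContDiffOn ℝ ∞ (a p q) U) → ∀ (I J : ι) p q,
      ContDiffOn ℝ ∞ ((if I = J then a else fun _ _ _ => 0) p q) U := fun h I J p q => by
    split_ifs
    exacts [h p q, contDiffOn_const]
  have sQ : ∀ {a : Fin N → Fin N → V N → ℂ} {b : Fin N → V N → ℂ} {c u : V N → ℂ},
      (∀ p q, ContDiffOn ℝ ∞ (a p q) U) → (∀ p, ContDiffOn ℝ ∞ (b p) U) → ContDiffOn ℝ ∞ c U →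
      ContDiffOn ℝ ∞ u U → ContDiffOn ℝ ∞ (Qop a b c u) U := fun ha hb hc hu =>
    ((ContDiffOn.sum fun p _ => .sum fun q _ =>
      (ha p q).mul (contDiffOn_pd hU (contDiffOn_pd hU hu q) p)).add
      (.sum fun p _ => (hb p).mul (contDiffOn_pd hU hu p))).add (hc.mul hu)
  have z : ∀ J I, ∀ x ∉ tsupport (φ I), Q' J I x = 0 := fun J I x hx => by
    have h1 := fun p => ((hφ I).pd p).2
    have h2 := fun p q => (((hφ I).pd p).1.pd q).2
    simp only [Q', Qop, image_eq_zero_of_notMem_tsupport hx,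
      fun p => image_eq_zero_of_notMem_tsupport fun h => hx (h1 p h),
      fun p q => image_eq_zero_of_notMem_tsupport fun h => hx (h1 p (h2 p q h)), mul_zero,
      Finset.sum_const_zero, add_zero]
  have t' : ∀ J I, Tst U (Q' J I) := fun J I =>
    tst_of hU (sQ (sa hs'.ha J I) (fun p => hs'.hb p J I) (hs'.hc J I) (hφ I).1.contDiffOn)
      (hφ I).2.1 (hφ I).2.2 (z J I)
  have i' : ∀ J I, Integrable fun x => u J x * Q' J I x := fun J I => by
    simpa only [mul_comm] using sys_int (cut_contDiff hU (t' J I) (hu J))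
  have i : ∀ I J, Integrable fun x => Q I J x * φ I x := fun I J => by
    simpa only [mul_comm] using sys_int (cut_contDiff hU (hφ I)
      (sQ (sa hs.ha I J) (fun p => hs.hb p I J) (hs.hc I J) (hu J)))
  simp only [e, e', Finset.mul_sum, Finset.sum_mul]
  rw [integral_finsetSum _ fun J _ => integrable_finsetSum _ fun I _ => i' J I,
    integral_finsetSum _ fun I _ => integrable_finsetSum _ fun J _ => i I J]
  simp only [integral_finsetSum _ fun I _ => i' _ I, integral_finsetSum _ fun J _ => i _ J]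
  refine Finset.sum_comm.trans (Finset.sum_congr rfl fun I _ => Finset.sum_congr rfl fun J _ => ?_)
  have k := weak_cl hU (sa hs.ha I J) (fun p => hs.hb p I J) (hs.hc I J) (hu J) (f := Q I J)
    (fun _ _ => rfl) (φ I) (hφ I)
  simp only [Pi.zero_apply, zero_mul, Finset.sum_const_zero, add_zero] at k
  refine (integral_congr_ae (.of_forall fun x => ?_)).trans k
  by_cases hx : x ∈ U
  · have p0 : ∀ p : Fin N, pd p (fun _ : V N => (0 : ℂ)) = fun _ => 0 := fun p => by
      funext y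
      simp [pd]
    by_cases hI : I = J
    · subst hI
      simp only [Q', Qop, if_true, ht.ha _ _ x hx, ht.hb _ _ _ x hx, ht.hc _ _ x hx, sub_eq_add_neg]
    · simp only [Q', Qop, if_neg hI, if_neg (Ne.symm hI), ht.hb _ _ _ x hx, ht.hc _ _ x hx,
        sub_eq_add_neg, p0, add_zero, Finset.sum_const_zero]
  · simp only [tst_zero (t' J I) hx, Qop, tst_zero (hφ I) hx, tst_zero ((hφ I).pd _).1 hx,
      tst_zero (((hφ I).pd _).1.pd _).1 hx, mul_zero, Finset.sum_const_zero, add_zero]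

omit [Fintype ι] [DecidableEq ι] in
theorem fund {g : V N → ℂ} (hU : IsOpen U) (hg : LocallyIntegrableOn g U)
    (h : ∀ ψ, Tst U ψ → ∫ x, g x * ψ x = 0) : ∀ᵐ x, x ∈ U → g x = 0 :=
  hU.ae_eq_zero_of_integral_contDiff_smul_eq_zero hg fun ψ h1 h2 h3 => by
    simpa only [Complex.real_smul, mul_comm] using h (fun x => ψ x)
      ⟨Complex.ofRealCLM.contDiff.comp h1, h2.comp_left Complex.ofReal_zero,
        (tsupport_comp_subset Complex.ofReal_zero ψ).trans h3⟩

omit [Fintype ι] in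
theorem tst_single {ψ : V N → ℂ} (h : Tst U ψ) (I J : ι) :
    Tst U ((Pi.single I ψ : ι → V N → ℂ) J) := by
  rw [Pi.single_apply]
  split_ifs
  exacts [h, ⟨contDiff_const, .zero, by simp⟩]

/-- Smooth weak solutions are classical solutions. -/
theorem cl_of_weak (hU : IsOpen U) (hs : Sm U a b c) (ht : IsT U a b c a' b' c')
    (hu : ∀ I, ContDiffOn ℝ ∞ (u I) U) (hf : ∀ I, ContinuousOn (f I) U)
    (hw : ∀ φ : ι → V N → ℂ, (∀ I, Tst U (φ I)) →
      ∫ x, ∑ J, u J x * Sy a' b' c' φ J x = ∫ x, ∑ I, f I x * φ I x) (I : ι) :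
    EqOn (Sy a b c u I) (f I) U := by
  have h1 := (hs.sy hU hu I).continuousOn
  refine Measure.eqOn_open_of_ae_eq (μ := volume) ?_ hU h1 (hf I)
  rw [EventuallyEq, ae_restrict_iff' hU.measurableSet]
  refine (fund hU ((h1.sub (hf I)).locallyIntegrableOn hU.measurableSet) fun ψ hψ => ?_).mono
    fun x hx hx' => sub_eq_zero.1 (hx hx')
  have k := (ibp_sys hU hs ht hu (tst_single hψ I)).symm.trans (hw _ (tst_single hψ I))
  simp only [Pi.single_apply, ite_apply, mul_ite, Pi.zero_apply, mul_zero, Finset.sum_ite_eq',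
    Finset.mem_univ, if_true] at k
  have i : ∀ {g : V N → ℂ}, ContinuousOn g U → Integrable fun x => g x * ψ x := fun hg =>
    (((hg.mono hψ.2.2).mul hψ.1.continuous.continuousOn).integrableOn_compact
      hψ.2.1).integrable_of_forall_notMem_eq_zero fun x hx => by
        rw [Pi.mul_apply, image_eq_zero_of_notMem_tsupport hx, mul_zero]
  simp only [Pi.sub_apply, sub_mul]
  rw [integral_sub (i h1) (i (hf I)), k, sub_self]

/-- Weak solutions have smooth representatives. -/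
theorem reg_sm (hU : IsOpen U) (hs : Sm U a b c) (he : El U a)
    (hu : ∀ I, LocallyIntegrableOn (u I) U) (hf : ∀ I, ContDiffOn ℝ ∞ (f I) U)
    (hw : ∀ φ : ι → V N → ℂ, (∀ I, Tst U (φ I)) →
      ∫ x, ∑ J, u J x * Sy a b c φ J x = ∫ x, ∑ I, f I x * φ I x) :
    ∃ w : ι → V N → ℂ, (∀ I, ContDiffOn ℝ ∞ (w I) U) ∧ ∀ᵐ x, x ∈ U → ∀ I, u I x = w I x := by
  obtain ⟨w, h1, h2⟩ := glue volume hU (u := fun x I => u I x)
    (fun x g => ∀ I, ContDiffAt ℝ ∞ (fun y => g y I) x) fun x hx => by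
      obtain ⟨O, k1, k2, g, k3, k4⟩ := P299.m2_sys volume (ι := Fin N × Fin N) (fun i => ee i.1)
        (fun i => ee i.2) ee (fun i => a i.1 i.2) (fun p x => .of fun I J => b p I J x)
        (fun x => .of fun I J => c I J x) (fun x I => u I x) (fun x I => f I x) hU
        (fun i => hs.ha _ _) hs.hb hs.hc hf hu (fun t ht => by
          simp only [Fintype.sum_prod_type]
          exact hw t ht) hx fun ξ hξ => by
          simp only [Fintype.sum_prod_type]
          refine he x hx (WithLp.toLp 2 fun p => ξ (ee p)) fun h => hξ ?_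
          refine ContinuousLinearMap.coe_injective
            ((EuclideanSpace.basisFun (Fin N) ℝ).toBasis.ext fun p => ?_)
          simpa [ee] using congrArg (fun v : V N => v p) h
      exact ⟨O, fun y I => g I y, k1, k2, continuousOn_pi.2 fun I => (k3 I).continuousOn,
        fun I => (k3 I).contDiffAt (k1.mem_nhds k2), k4.mono fun y hy hy' => funext (hy hy')⟩
  refine ⟨fun I x => w x I, fun I x hx => ?_, h2.mono fun x hx hx' => congrFun (hx hx')⟩
  obtain ⟨g, k1, k2⟩ := h1 x hx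
  exact ((k1 I).congr_of_eventuallyEq (k2.mono fun y hy => congrFun hy I)).contDiffWithinAt

omit [DecidableEq ι] in
theorem weak_congr (hU : IsOpen U) (hs : Sm U a b c) {w : ι → V N → ℂ}
    (h : ∀ᵐ x, x ∈ U → ∀ I, u I x = w I x) (hφ : ∀ I, Tst U (φ I)) :
    ∫ x, ∑ J, u J x * Sy a b c φ J x = ∫ x, ∑ J, w J x * Sy a b c φ J x :=
  integral_congr_ae (h.mono fun x hx => by
    by_cases h' : x ∈ U
    · simp only [hx h']
    · simp only [tst_zero (hs.tst hU hφ _) h', mul_zero])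

/-- Weak solutions are classical solutions. -/
theorem reg_sys (hU : IsOpen U) (hs : Sm U a b c) (he : El U a) (ht : IsT U a b c a' b' c')
    (hu : ∀ I, LocallyIntegrableOn (u I) U) (hf : ∀ I, ContDiffOn ℝ ∞ (f I) U)
    (hw : ∀ φ : ι → V N → ℂ, (∀ I, Tst U (φ I)) →
      ∫ x, ∑ J, u J x * Sy a' b' c' φ J x = ∫ x, ∑ I, f I x * φ I x) :
    ∃ w : ι → V N → ℂ, (∀ I, ContDiffOn ℝ ∞ (w I) U) ∧ (∀ᵐ x, x ∈ U → ∀ I, u I x = w I x) ∧
      ∀ I, EqOn (Sy a b c w I) (f I) U := by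
  obtain ⟨w, h1, h2⟩ := reg_sm hU (ht.sm hU hs) (ht.el he) hu hf hw
  exact ⟨w, h1, h2, cl_of_weak hU hs ht h1 (fun I => (hf I).continuousOn) fun φ hφ =>
    (weak_congr hU (ht.sm hU hs) h2 hφ).symm.trans (hw φ hφ)⟩

/-- Continuous weak solutions are smooth classical solutions. -/
theorem reg_cont (hU : IsOpen U) (hs : Sm U a b c) (he : El U a) (ht : IsT U a b c a' b' c')
    (hu : ∀ I, ContinuousOn (u I) U) (hf : ∀ I, ContDiffOn ℝ ∞ (f I) U)
    (hw : ∀ φ : ι → V N → ℂ, (∀ I, Tst U (φ I)) →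
      ∫ x, ∑ J, u J x * Sy a' b' c' φ J x = ∫ x, ∑ I, f I x * φ I x) :
    (∀ I, ContDiffOn ℝ ∞ (u I) U) ∧ ∀ I, EqOn (Sy a b c u I) (f I) U := by
  obtain ⟨w, h1, h2⟩ := reg_sm hU (ht.sm hU hs) (ht.el he)
    (fun I => (hu I).locallyIntegrableOn hU.measurableSet) hf hw
  have h3 : ∀ I, ContDiffOn ℝ ∞ (u I) U := fun I => (h1 I).congr
    (Measure.eqOn_open_of_ae_eq (μ := volume) ((ae_restrict_iff' hU.measurableSet).2
      (h2.mono fun x hx hx' => hx hx' I)) hU (hu I) (h1 I).continuousOn)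
  exact ⟨h3, cl_of_weak hU hs ht h3 (fun I => (hf I).continuousOn) hw⟩

end Vale.Agent.P088F
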