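import Vale.Agent.P088F.Geo1
import Vale.Agent.P088F.TC2

/-! P088 T: elementary facts on the weak equation.
Hints: the integrands are continuous with compact support (Geo.Sm.vol, Geo.Sm.D, Geo.Sm.h,
Geo.den_zero_right); t_pair_zero: test with bump • u (et_cut needs smoothness, so use bump • u z₀ and
continuity, or IsOpen.ae_eq_zero_of_integral_contDiff_smul_eq_zero); t_of_test: replace ζ by χ ζ
(exists_cut, et_cut, Geo.form_congr_right, Geo.pair_congr_right). -/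

open MeasureTheory Set Filter Bundle Metric Topology Matrix
open scoped Manifold ContDiff ENNReal

noncomputable section

namespace Vale.Agent.P088.Gl

variable {n N : ℕ} {Ω Ω' B₁ B₂ : Set (Ec n)} {γ γ₁ γ₂ γ₃ : Geo n N} {Ψ Ψ' : Ec n → Ec n}
  {V V' : Ec n → Op N} {u u' w F F' φ u₁ u₂ w₁ w₂ F₁ F₂ : Ec n → Fb N} {z : Ec n}
  {G G₁ G₂ : (Ec n → Fb N) → Ec n → Fb N}

theorem et_mono (h : ET Ω F) (h1 : Ω ⊆ Ω') : ET Ω' F := ⟨h.1, h.2.1, h.2.2.trans h1⟩

theorem et_zero (h : ET Ω F) (hz : z ∉ Ω) : F z = 0 :=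
  image_eq_zero_of_notMem_tsupport fun h1 => hz (h.2.2 h1)

theorem ew_mono (h : EW Ω γ u F) (h1 : Ω' ⊆ Ω) : EW Ω' γ u F :=
  ⟨h.1.mono h1, fun ζ hζ => h.2 ζ (et_mono hζ h1)⟩

theorem et_add (h : ET Ω F) (h' : ET Ω F') : ET Ω (F + F') :=
  ⟨h.1.add h'.1, h.2.1.add h'.2.1,
    (tsupport_add _ _).trans (union_subset h.2.2 h'.2.2)⟩

theorem et_smul (c : ℂ) (h : ET Ω F) : ET Ω (c • F) :=
  ⟨h.1.const_smul c, h.2.1.smul_left (f := fun _ => c),
    (tsupport_smul_subset_right (fun _ => c) F).trans h.2.2⟩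

theorem t_den_nonneg (hz : (γ.g z).PosDef) : 0 ≤ (γ.den u u z).re := by
  have h1 : ∀ x : Fin n → ℝ, 0 ≤ ∑ i, ∑ j, (γ.g z)⁻¹ i j * (x i * x j) := fun x => by
    refine (hz.inv.posSemidef.dotProduct_mulVec_nonneg x).trans_eq ?_
    simp only [dotProduct, Matrix.mulVec, star_trivial, Finset.mul_sum]
    exact Finset.sum_congr rfl fun p _ => Finset.sum_congr rfl fun q _ => by ring
  have h2 : (γ.den u u z).re = ∑ I, (∑ i, ∑ j, (γ.g z)⁻¹ i j *
      ((γ.D i u z I).re * (γ.D j u z I).re) +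
      ∑ i, ∑ j, (γ.g z)⁻¹ i j * ((γ.D i u z I).im * (γ.D j u z I).im)) := by
    simp only [Geo.den, Complex.re_sum, Complex.smul_re, PiLp.inner_apply, smul_eq_mul,
      Finset.mul_sum, ← Finset.sum_add_distrib]
    rw [Finset.sum_comm (γ := Fin N)]
    refine Finset.sum_congr rfl fun i _ => ?_
    rw [Finset.sum_comm (γ := Fin N)]
    refine Finset.sum_congr rfl fun j _ => Finset.sum_congr rfl fun I _ => ?_
    simp only [RCLike.inner_apply, Complex.mul_re, Complex.conj_re, Complex.conj_im]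
    ring
  rw [h2]
  exact Finset.sum_nonneg fun I _ => add_nonneg (h1 _) (h1 _)

theorem t_den_sub (hu : DifferentiableAt ℝ u z) (hu' : DifferentiableAt ℝ u' z) :
    γ.den (u - u') w z = γ.den u w z - γ.den u' w z := by
  have e : ∀ i, γ.D i (u - u') z = γ.D i u z - γ.D i u' z := fun i => by
    simp only [Geo.D, fderiv_sub hu hu', Pi.sub_apply, map_sub, _root_.sub_apply]
    abel
  simp only [Geo.den, e, inner_sub_left, smul_sub, Finset.sum_sub_distrib]

theorem t_den_cont (hΩ : IsOpen Ω) (hs : γ.Sm Ω) (hu : ContDiffOn ℝ ∞ u Ω)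
    (hw : ContDiffOn ℝ ∞ w Ω) : ContinuousOn (fun z => γ.vol z • γ.den u w z) Ω := by
  have e : (fun z => γ.vol z • γ.den u w z) =
      fun z => ∑ i, ∑ j, γ.h i j z • inner ℂ (γ.D i u z) (γ.D j w z) := by
    funext z
    simp only [Geo.den, Geo.h, Finset.smul_sum, mul_smul]
  rw [e]
  exact continuousOn_finsetSum _ fun i _ => continuousOn_finsetSum _ fun j _ =>
    (hs.h i j).continuousOn.smul
      ((hs.D hΩ hu i).continuousOn.inner (hs.D hΩ hw j).continuousOn)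

theorem t_form_int (hΩ : IsOpen Ω) (hs : γ.Sm Ω) (hu : ContDiffOn ℝ ∞ u Ω) (hw : ET Ω w) :
    Integrable fun z => γ.vol z • γ.den u w z :=
  (((t_den_cont hΩ hs hu hw.1.contDiffOn).mono hw.2.2).integrableOn_compact
    hw.2.1).integrable_of_forall_notMem_eq_zero fun z hz => by
      rw [γ.den_zero_right u hz, smul_zero]

theorem t_pair_int (hΩ : IsOpen Ω) (hs : γ.Sm Ω) (hu : ContinuousOn u Ω) (hw : ET Ω w) :
    Integrable fun z => γ.vol z • inner ℂ (u z) (w z) := by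
  have _ := hΩ
  exact (((hs.vol.continuousOn.smul (hu.inner hw.1.continuous.continuousOn)).mono
    hw.2.2).integrableOn_compact hw.2.1).integrable_of_forall_notMem_eq_zero fun z hz => by
      rw [image_eq_zero_of_notMem_tsupport hz, inner_zero_right, smul_zero]

theorem t_pair_conj : (starRingEnd ℂ) (γ.pair u w) = γ.pair w u := by
  rw [Geo.pair, Geo.pair, ← integral_conj]
  simp only [Complex.real_smul, map_mul, Complex.conj_ofReal, inner_conj_symm]

theorem t_pair_zero (hΩ : IsOpen Ω) (hs : γ.Sm Ω) (hu : ContinuousOn u Ω) (hu' : ContinuousOn u' Ω)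
    (h : ∀ ζ, ET Ω ζ → γ.pair u ζ = γ.pair u' ζ) : EqOn u u' Ω := by
  have h0 : tsupport (0 : Ec n → Fb N) = ∅ := tsupport_eq_empty_iff.2 rfl
  have h1 : EW Ω γ 0 (u - u') := by
    refine ⟨contDiffOn_const, fun ζ hζ => ?_⟩
    have e1 : γ.form 0 ζ = 0 := by
      simp only [Geo.form, γ.den_zero_left ζ (h0 ▸ notMem_empty _), smul_zero, integral_zero]
    have e2 : γ.pair (u - u') ζ = γ.pair u ζ - γ.pair u' ζ := by
      simp only [Geo.pair, Pi.sub_apply, inner_sub_left, smul_sub]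
      exact integral_sub (t_pair_int hΩ hs hu hζ) (t_pair_int hΩ hs hu' hζ)
    rw [e1, e2, h ζ hζ, sub_self]
  intro z hz
  have h2 := ((hs.ew_iff hΩ (hu.sub hu')).1 h1).2 z hz
  rw [geo1_P (h0 ▸ notMem_empty _), eq_comm, neg_eq_zero,
    smul_eq_zero_iff_right (hs.vol_pos hz).ne'] at h2
  exact sub_eq_zero.1 h2

theorem ew_sub (hΩ : IsOpen Ω) (hs : γ.Sm Ω) (h : EW Ω γ u F) (h' : EW Ω γ u' F) :
    EW Ω γ (u - u') 0 := by
  refine ⟨h.1.sub h'.1, fun ζ hζ => ?_⟩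
  have e1 : γ.form (u - u') ζ = γ.form u ζ - γ.form u' ζ := by
    rw [Geo.form, Geo.form, Geo.form,
      ← integral_sub (t_form_int hΩ hs h.1 hζ) (t_form_int hΩ hs h'.1 hζ)]
    refine integral_congr_ae (ae_of_all _ fun z => ?_)
    by_cases hz : z ∈ tsupport ζ
    · have h1 := hΩ.mem_nhds (hζ.2.2 hz)
      simp only [t_den_sub ((h.1.contDiffAt h1).differentiableAt (by simp))
        ((h'.1.contDiffAt h1).differentiableAt (by simp)), smul_sub]
    · simp only [γ.den_zero_right _ hz, smul_zero, sub_self]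
  rw [e1, h.2 ζ hζ, h'.2 ζ hζ, sub_self]
  simp [Geo.pair]

theorem ew_of_test (hΩ : IsOpen Ω) (h : EW Ω γ φ F) (h1 : ET Ω φ) (h2 : ET Ω F) (Ω' : Set (Ec n)) :
    EW Ω' γ φ F := by
  refine ⟨h1.1.contDiffOn, fun ζ hζ => ?_⟩
  obtain ⟨χ, c1, c2, c3, c4, -⟩ := exists_cut (h1.2.1.isCompact.union h2.2.1.isCompact) hΩ
    (union_subset h1.2.2 h2.2.2)
  have e : ∀ z ∈ tsupport φ ∪ tsupport F, ζ =ᶠ[𝓝 z] fun z => χ z • ζ z := fun z hz =>
    (c4 z hz).mono fun y hy => by simp only [hy, one_smul]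
  rw [γ.form_congr_right fun z hz => e z (Or.inl hz),
    γ.pair_congr_right fun z hz => (e z (Or.inr hz)).eq_of_nhds]
  exact h.2 _ (et_cut hΩ c1 c2 c3 hζ.1.contDiffOn)

theorem eg_mono (h : EG Ω γ G) (hΩ : IsOpen Ω') (h1 : Ω' ⊆ Ω) : EG Ω' γ G := by
  obtain ⟨C, hC⟩ := h.bound
  exact ⟨fun F F' a b => (h.add F F' (et_mono a h1) (et_mono b h1)).mono h1,
    fun c F a => (h.smul c F (et_mono a h1)).mono h1,
    fun F a => ew_mono (h.sol F (et_mono a h1)) h1,
    fun φ F a b c => (h.inv φ F (et_mono a h1) (et_mono b h1) (ew_of_test hΩ c a b Ω)).mono h1,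
    fun F F' a b => h.symm F F' (et_mono a h1) (et_mono b h1),
    C, fun F a => (lintegral_mono_set h1).trans (hC F (et_mono a h1))⟩

theorem t_L_test (hΩ : IsOpen Ω) (hs : γ.Sm Ω) (h : ET Ω φ) :
    ∃ F, ET Ω F ∧ tsupport F ⊆ tsupport φ ∧ EW Ω γ φ F := by
  have h1 := (hs.et hΩ h).2.1
  refine ⟨_, h1, (geo1_et hΩ h1.1.contDiffOn h fun x hx => ?_).2,
    (hs.ew_iff hΩ h1.1.continuous.continuousOn).2 ⟨h.1.contDiffOn, fun z hz => ?_⟩⟩
  · rw [geo1_P hx, smul_zero, neg_zero]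
  · rw [smul_neg, neg_neg, smul_smul, mul_inv_cancel₀ (hs.vol_pos hz).ne', one_smul]

end Vale.Agent.P088.Gl
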