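import Vale.Agent.P088F.TB0

/-! P088 T: uniqueness from Cauchy data on a hyperplane.
Hints: half_ibp: the function equal to w on the half space and zero elsewhere is Lipschitz with
compact support (bounded fderivWithin on the compact convex set closedBall 0 r' inter half space),
use LipschitzWith.integral_lineDeriv_mul_eq with a smooth function equal to one on the support, or
Fubini (compare int_pd_half in BIbp). cucp: k = indicator (up n r) w; Geo.Sm.ew_iff, the pointwise
identity behind Geo.Sm.ibp (Geo1) and half_ibp give pair k F = 0; GR, GU. -/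

open MeasureTheory Set Filter Bundle Metric Topology Matrix
open scoped Manifold ContDiff ENNReal

noncomputable section

namespace Vale.Agent.P088.Gl

variable {n N : ℕ} [NeZero n] {r : ℝ}

theorem TCU_up : IsOpen (up n r) := isOpen_ball.inter (isOpen_lt continuous_const (by fun_prop))

theorem TCU_lo : IsOpen (lo n r) := isOpen_ball.inter (isOpen_lt (by fun_prop) continuous_const)

theorem TCU_sub : up n r ⊆ hp n r := fun z h => ⟨h.1, le_of_lt (show 0 < z 0 from h.2)⟩

theorem TCU_null : ∀ᵐ z : Ec n, z 0 ≠ 0 := by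
  refine measure_eq_zero_iff_ae_notMem.1 (Measure.addHaar_submodule volume (LinearMap.ker
    (EuclideanSpace.proj (0 : Fin n) : Ec n →L[ℝ] ℝ).toLinearMap) fun h => ?_)
  have : bv (0 : Fin n) ∈
      LinearMap.ker (EuclideanSpace.proj (0 : Fin n) : Ec n →L[ℝ] ℝ).toLinearMap :=
    h ▸ Submodule.mem_top
  simp [bv] at this

theorem TCU_lip {w : Ec n → ℂ} (hw : ContDiffOn ℝ 1 w (hp n r))
    (h0 : ∀ z ∈ hp n r, z 0 = 0 → w z = 0) {K : Set (Ec n)} (hK : IsCompact K) (h1 : K ⊆ ball 0 r)
    (hz : ∀ z ∉ K, (hp n r).indicator w z = 0) : ∃ L, LipschitzWith L ((hp n r).indicator w) := by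
  obtain ⟨H, hH⟩ : ∃ H : Set (Ec n), H = {z | 0 ≤ z 0} := ⟨_, rfl⟩
  have c1 : IsClosed H := hH ▸ isClosed_le continuous_const (by fun_prop)
  have c2 : Convex ℝ H :=
    hH ▸ convex_halfSpace_ge (EuclideanSpace.proj (𝕜 := ℝ) (0 : Fin n)).toLinearMap.isLinear 0
  have c3 : UniqueDiffOn ℝ H := uniqueDiffOn_convex c2 ⟨bv 0, mem_interior.2 ⟨{z | 0 < z 0},
    fun z h => hH ▸ le_of_lt (show 0 < z 0 from h), isOpen_lt continuous_const (by fun_prop), by
      simp [bv]⟩⟩
  have e0 : ∀ z ∉ K, (hp n r).indicator w =ᶠ[𝓝 z] fun _ => 0 := fun z h =>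
    eventually_of_mem (hK.isClosed.isOpen_compl.mem_nhds h) hz
  have s1 : ContDiffOn ℝ 1 ((hp n r).indicator w) H := fun z h => by
    by_cases k : z ∈ K
    · have m : hp n r ∈ 𝓝[H] z := by
        rw [hH]
        exact inter_mem (mem_nhdsWithin_of_mem_nhds (isOpen_ball.mem_nhds (h1 k)))
          self_mem_nhdsWithin
      have m' : z ∈ hp n r := ⟨h1 k, hH ▸ h⟩
      exact ((hw z m').congr (fun y hy => indicator_of_mem hy _)
        (indicator_of_mem m' _)).mono_of_mem_nhdsWithin m
    · exact (contDiffAt_const.congr_of_eventuallyEq (e0 z k)).contDiffWithinAt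
  obtain ⟨C, hC⟩ := (hK.inter_right c1).exists_bound_of_continuousOn
    ((s1.continuousOn_fderivWithin c3 le_rfl).mono inter_subset_right)
  have l1 : LipschitzOnWith C.toNNReal ((hp n r).indicator w) H :=
    c2.lipschitzOnWith_of_nnnorm_fderivWithin_le (s1.differentiableOn one_ne_zero) fun z h => by
      by_cases k : z ∈ K
      · exact NNReal.coe_le_coe.1 ((hC z ⟨k, h⟩).trans (Real.le_coe_toNNReal _))
      · rw [(e0 z k).fderivWithin_eq_of_nhds]
        simp
  have l2 : LipschitzWith _ fun z : Ec n => z + max (-z 0) 0 • bv (0 : Fin n) :=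
    LipschitzWith.id.add ((ContinuousLinearMap.toSpanSingleton ℝ (bv (0 : Fin n))).lipschitz.comp
      ((EuclideanSpace.proj (𝕜 := ℝ) (0 : Fin n)).lipschitz.neg.max_const 0))
  have l3 : ∀ z : Ec n, (z + max (-z 0) 0 • bv (0 : Fin n)) 0 = max 0 (z 0) := fun z => by
    simp only [bv, PiLp.add_apply, PiLp.smul_apply, PiLp.single_apply, if_true,
      smul_eq_mul, mul_one]
    rcases le_total 0 (z 0) with h | h <;> simp [h]
  have l4 := lipschitzOnWith_univ.1 (l1.comp l2.lipschitzOnWith fun z _ => by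
    rw [hH, mem_ofPred_eq, l3]
    exact le_max_left _ _)
  have l5 : ((hp n r).indicator w ∘ fun z : Ec n => z + max (-z 0) 0 • bv (0 : Fin n)) =
      (hp n r).indicator w := funext fun z => by
    rcases le_or_gt 0 (z 0) with h | h
    · simp [h]
    · rw [indicator_of_notMem fun k => not_le.2 h k.2]
      exact indicator_apply_eq_zero.2 fun k => h0 _ k (by rw [l3, max_eq_left h.le])
  exact ⟨_, l5 ▸ l4⟩

theorem half_ibp {w : Ec n → ℂ} (hw : ContDiffOn ℝ 1 w (hp n r))
    (h0 : ∀ z ∈ hp n r, z 0 = 0 → w z = 0) {K : Set (Ec n)} (hK : IsCompact K) (h1 : K ⊆ ball 0 r)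
    (h2 : ∀ z ∈ hp n r, z ∉ K → w z = 0) (i : Fin n) :
    IntegrableOn (fun z => fderiv ℝ w z (bv i)) (up n r) ∧
      ∫ z in up n r, fderiv ℝ w z (bv i) = 0 := by
  have hz : ∀ z ∉ K, (hp n r).indicator w z = 0 := fun z h =>
    indicator_apply_eq_zero.2 fun k => h2 z k h
  obtain ⟨L, hL⟩ := TCU_lip hw h0 hK h1 hz
  have e1 : ∀ z ∈ up n r, (hp n r).indicator w =ᶠ[𝓝 z] w := fun z h =>
    eventually_of_mem (TCU_up.mem_nhds h) fun y hy => indicator_of_mem (TCU_sub hy) _
  have i1 : IntegrableOn (fun z => fderiv ℝ w z (bv i)) (up n r) := by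
    refine Measure.integrableOn_of_bounded (M := L * ‖(bv i : Ec n)‖)
      ((measure_mono inter_subset_left).trans_lt measure_ball_lt_top).ne
      (measurable_fderiv_apply_const ℝ w _).aestronglyMeasurable
      (ae_restrict_of_forall_mem TCU_up.measurableSet fun z h => ?_)
    rw [← (e1 z h).fderiv_eq]
    exact (fderiv ℝ _ z).le_of_opNorm_le (norm_fderiv_le_of_lipschitz ℝ hL) _
  have k : ∀ T : ℂ →L[ℝ] ℝ, T (∫ z in up n r, fderiv ℝ w z (bv i)) = 0 := fun T => by
    have h3 := (LipschitzWith.const (1 : ℝ)).integral_lineDeriv_mul_eq (μ := volume)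
      (T.lipschitz.comp hL) (HasCompactSupport.intro hK fun z h => by
        rw [Function.comp, hz z h, map_zero]) (-bv i)
    simp only [lineDeriv, deriv_const, zero_mul, integral_zero, neg_neg, mul_one] at h3
    rw [← T.integral_comp_comm i1, ← integral_indicator TCU_up.measurableSet, h3]
    refine integral_congr_ae ?_
    filter_upwards [TCU_null] with z h
    by_cases m : z ∈ up n r
    · rw [indicator_of_mem m]
      exact (T.hasFDerivAt.comp z (((hw.mono TCU_sub).contDiffAt (TCU_up.mem_nhds m)).differentiableAt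
        one_ne_zero |>.hasFDerivAt.congr_of_eventuallyEq (e1 z m))).hasLineDerivAt
          (bv i) |>.lineDeriv.symm
    · have e2 : (hp n r).indicator w =ᶠ[𝓝 z] fun _ => 0 := by
        rcases h.lt_or_gt with h | h
        · filter_upwards [(isOpen_lt (f := fun y : Ec n => y 0) (by fun_prop)
            continuous_const).mem_nhds h] with y hy
          exact indicator_of_notMem (fun k => not_le.2 hy k.2) _
        · exact eventually_of_mem (hK.isClosed.isOpen_compl.mem_nhds fun k => m ⟨h1 k, h⟩) hz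
      rw [indicator_of_notMem m]
      exact ((T.hasFDerivAt.comp z ((hasFDerivAt_const (0 : ℂ) z).congr_of_eventuallyEq
        e2)).hasLineDerivAt (bv i)).lineDeriv.trans (by simp) |>.symm
  exact ⟨i1, Complex.ext (k Complex.reCLM) (k Complex.imCLM)⟩

omit [NeZero n] in
theorem TCU_pt {Ω : Set (Ec n)} {γ : Geo n N} (h : γ.Sm Ω) (hΩ : IsOpen Ω) {u w : Ec n → Fb N}
    (hu : ContDiffOn ℝ ∞ u Ω) {z : Ec n} (hz : z ∈ Ω) (hw : DifferentiableAt ℝ w z) :
    inner ℂ (γ.P u z) (w z) =
      ∑ j, fderiv ℝ (fun z => inner ℂ (∑ i, γ.h i j z • γ.D i u z) (w z)) z (bv j) -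
        starRingEnd ℂ (γ.vol z • γ.den w u z) := by
  have h1 : ∀ i j, (γ.g z)⁻¹ j i = (γ.g z)⁻¹ i j := fun i j =>
    (h.pos z hz).inv.isHermitian.apply i j
  have e1 : starRingEnd ℂ (γ.vol z • γ.den w u z) =
      ∑ j, inner ℂ (∑ i, γ.h i j z • γ.D i u z) (γ.D j w z) := by
    simp only [Geo.den, Geo.h, sum_inner, geo1_rsm, Complex.real_smul, map_mul, map_sum,
      Complex.conj_ofReal, inner_conj_symm, Finset.mul_sum, Complex.ofReal_mul, mul_assoc]
    exact Finset.sum_congr rfl fun j _ => Finset.sum_congr rfl fun i _ => by rw [h1]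
  rw [e1, Geo.P, sum_inner, ← Finset.sum_sub_distrib]
  refine Finset.sum_congr rfl fun j _ => ?_
  have e2 : ∀ x y : Fb N, inner ℂ (γ.a j z x) y = -inner ℂ x (γ.a j z y) := fun x y => by
    rw [← ContinuousLinearMap.adjoint_inner_right, ← ContinuousLinearMap.star_eq_adjoint,
      h.skew j z hz, _root_.neg_apply, inner_neg_right]
  rw [fderiv_inner_apply ℂ
    (((geo1_Ws h hΩ hu j).contDiffAt (hΩ.mem_nhds hz)).differentiableAt (by simp)) hw, Geo.D, Geo.D,
    inner_add_left, inner_add_right, e2]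
  exact (by intros; ring : ∀ a b c : ℂ, c + -b = a + c - (a + b)) _ _ _

theorem cucp (hR : GR n N) (hU : GU n N) {γ : Geo n N} (hs : γ.Sm (ball 0 r)) {w : Ec n → Fb N}
    (hw : ContDiffOn ℝ ∞ w (hp n r)) (h0 : ∀ z ∈ hp n r, z 0 = 0 → w z = 0)
    (he : ∀ ζ, ET (ball 0 r) ζ → ∫ z in up n r, γ.vol z • γ.den w ζ z = 0) :
    EqOn w 0 (up n r) := by
  rcases le_or_gt r 0 with hr | hr
  · exact fun z hz => absurd (mem_ball_zero_iff.1 hz.1) (not_lt.2 (hr.trans (norm_nonneg _)))
  have c1 : IsClosed {z : Ec n | 0 ≤ z 0} := isClosed_le continuous_const (by fun_prop)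
  have i0 : ∀ {f : Ec n → ℂ} {K : Set (Ec n)}, IsCompact K → K ⊆ ball 0 r →
      ContinuousOn f (hp n r) → (∀ z ∉ K, f z = 0) → IntegrableOn f (up n r) :=
    fun {f K} hK h1 hf h2 => ((hf.mono (inter_subset_inter_left _ h1)).integrableOn_compact
      (hK.inter_right c1)).of_forall_sdiff_eq_zero TCU_up.measurableSet fun z hz =>
        h2 z fun k => hz.2 ⟨k, (TCU_sub hz.1).2⟩
  obtain ⟨u, hu, ha⟩ := hR (ball 0 r) γ ((up n r).indicator w) isOpen_ball hs
    ((locallyIntegrableOn_iff isOpen_ball.isLocallyClosed).2 fun K h1 hK => by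
      rw [IntegrableOn, integrable_indicator_iff TCU_up.measurableSet, IntegrableOn,
        Measure.restrict_restrict TCU_up.measurableSet]
      exact ((hw.continuousOn.mono (inter_subset_inter_left _ h1)).integrableOn_compact
        (hK.inter_right c1)).mono_set fun z hz => ⟨hz.2, (TCU_sub hz.1).2⟩)
    fun φ F hφ hF hE => by
      have hP := ((hs.ew_iff isOpen_ball hF.1.continuous.continuousOn).1 hE).2
      have hb := fun j => half_ibp (w := fun z => inner ℂ (∑ i, γ.h i j z • γ.D i φ z) (w z))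
        ((((geo1_Ws hs isOpen_ball hφ.1.contDiffOn j).mono inter_subset_left).inner ℂ hw).of_le
          (by simp)) (fun z hz h => by rw [h0 z hz h, inner_zero_right]) hφ.2.1 hφ.2.2
        (fun z _ h => by
          rw [(geo1_W (notMem_tsupport_iff_eventuallyEq.1 h) j).eq_of_nhds]
          exact inner_zero_left _) j
      have i1 := i0 (f := fun z => inner ℂ (γ.P φ z) (w z)) hφ.2.1 hφ.2.2
        (((hs.P isOpen_ball hφ.1.contDiffOn).mono inter_subset_left).inner ℂ hw).continuousOn
        fun z h => by rw [geo1_P h, inner_zero_left]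
      have e1 : ∫ z in up n r, starRingEnd ℂ (γ.vol z • γ.den w φ z) =
          ∫ z in up n r, (∑ j, fderiv ℝ (fun z => inner ℂ (∑ i, γ.h i j z • γ.D i φ z) (w z)) z
            (bv j) - inner ℂ (γ.P φ z) (w z)) :=
        setIntegral_congr_fun TCU_up.measurableSet fun z hz => by
          simp only [TCU_pt hs isOpen_ball hφ.1.contDiffOn hz.1 (((hw.mono TCU_sub).contDiffAt
            (TCU_up.mem_nhds hz)).differentiableAt (by simp)), sub_sub_cancel]
      rw [integral_conj, he φ hφ, map_zero, integral_sub (integrable_finsetSum _ fun j _ =>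
        (hb j).1) i1, integral_finsetSum _ fun j _ => (hb j).1,
        Finset.sum_eq_zero fun j _ => (hb j).2, zero_sub, zero_eq_neg] at e1
      have e2 : γ.pair ((up n r).indicator w) F =
          -starRingEnd ℂ (∫ z in up n r, inner ℂ (γ.P φ z) (w z)) := by
        rw [← integral_conj, ← integral_neg, ← integral_indicator TCU_up.measurableSet, Geo.pair]
        refine integral_congr_ae (.of_forall fun z => ?_)
        by_cases hz : z ∈ up n r
        · simp only [indicator_of_mem hz, inner_conj_symm, hP z hz.1, inner_neg_right, neg_neg]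
          exact (inner_smul_right_eq_smul _ _ _).symm
        · simp only [indicator_of_notMem hz, inner_zero_left, smul_zero]
      rw [e2, e1, map_zero, neg_zero]
  have z1 : EqOn u 0 (lo n r) :=
    Measure.eqOn_open_of_ae_eq (μ := volume) ((ae_restrict_iff' TCU_lo.measurableSet).2 (by
      filter_upwards [ha] with z h hz
      rw [← h hz.1]
      exact indicator_of_notMem (fun k => lt_asymm (show z 0 < 0 from hz.2) k.2) _)) TCU_lo
      (hu.1.continuousOn.mono inter_subset_left) continuousOn_const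
  have z2 := hU _ _ γ u isOpen_ball (convex_ball _ _).isPreconnected hs hu TCU_lo
    ⟨(-(r / 2)) • bv 0, by
      rw [mem_ball_zero_iff, norm_smul, norm_neg, Real.norm_of_nonneg (by positivity)]
      simp [bv, hr], by simp [bv, hr]⟩ inter_subset_left z1
  exact Measure.eqOn_open_of_ae_eq (μ := volume) ((ae_restrict_iff' TCU_up.measurableSet).2 (by
    filter_upwards [ha] with z h hz
    rw [← z2 hz.1, ← h hz.1, indicator_of_mem hz])) TCU_up
    (hw.continuousOn.mono TCU_sub) continuousOn_const

end Vale.Agent.P088.Gl
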