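import Vale.Agent.P088F.TM1

/-! P088 T: connectedness and localisation.
Hints: conv_diff: two points of an open convex set in dimension at least two are joined by two
segments through a point of a small transversal segment, avoiding finitely many points (compare
Set.Countable.isPathConnected_compl_of_one_lt_rank). conn_int: a dense subset D of a connected space
such that every point has a neighbourhood W with W ∩ D preconnected is preconnected; W = chart ball
(exists_ball, interior_iff, convexity of range I). mt_local: IsCompact.induction_on with smooth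
cutoffs (exists_contMDiff_zero_iff_one_iff_of_isClosed or exists_smooth_zero_one_of_isClosed type). -/

open MeasureTheory Set Filter Bundle Metric Topology Matrix
open scoped Manifold ContDiff ENNReal

noncomputable section

namespace Vale.Agent.P088.Gl

variable {n N : ℕ} {H : Type} [TopologicalSpace H] {I : ModelWithCorners ℝ (Ec n) H}
  {M : Type} [TopologicalSpace M] [ChartedSpace H M] [IsManifold I ∞ M] [T2Space M] [CompactSpace M]
  {g g₁ g₂ : Met I M} {A A₁ A₂ : Conn I M N} {p q x : M} {O O' Γ : Set M} {Φ Φ' : M → M}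
  {U U' : M → Op N} {u w F : M → Fb N} {G G₁ G₂ S S₁ S₂ : (M → Fb N) → M → Fb N}
  {Ω : Set (Ec n)} {z : Ec n}

theorem conv_diff (hn : 2 ≤ n) {C s : Set (Ec n)} (hC : Convex ℝ C) (ho : IsOpen C)
    (hs : s.Finite) : IsPreconnected (C \ s) := by
  have h : 1 < Module.rank ℝ (Ec n) := Module.one_lt_rank_of_one_lt_finrank (by simp; omega)
  refine isPreconnected_of_forall_pair fun a ha b hb => ?_
  rcases eq_or_ne a b with rfl | hab
  · exact ⟨{a}, singleton_subset_iff.2 ha, rfl, rfl, isPreconnected_singleton⟩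
  let c := (2 : ℝ)⁻¹ • (a + b)
  let x := (2 : ℝ)⁻¹ • (b - a)
  have Ia : c - x = a := by
    simp only [c, x]
    module
  have Ib : c + x = b := by
    simp only [c, x]
    module
  have hc : c ∈ C := by
    have e : c = (2 : ℝ)⁻¹ • a + (2 : ℝ)⁻¹ • b := smul_add _ _ _
    rw [e]
    exact hC ha.1 hb.1 (by norm_num) (by norm_num) (by norm_num)
  have x0 : x ≠ 0 := by simpa [x] using sub_ne_zero.2 hab.symm
  obtain ⟨y, hy⟩ : ∃ y, LinearIndependent ℝ ![x, y] :=
    exists_linearIndependent_pair_of_one_lt_rank h x0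
  have A : Set.Countable {t : ℝ | (segment ℝ (c + x) (c + t • y) ∩ s).Nonempty} := by
    apply countable_ofPred_nonempty_of_disjoint _ (fun t => inter_subset_right) hs.countable
    intro t t' htt'
    apply disjoint_iff_inter_eq_empty.2
    have N : {c + x} ∩ s = ∅ := by
      simpa only [singleton_inter_eq_empty, Ib] using hb.2
    rw [inter_assoc, inter_comm s, inter_assoc, inter_self, ← inter_assoc, ← subset_empty_iff, ← N]
    apply inter_subset_inter_left
    apply Eq.subset
    apply segment_inter_eq_endpoint_of_linearIndependent_of_ne hy htt'.symm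
  have B : Set.Countable {t : ℝ | (segment ℝ (c - x) (c + t • y) ∩ s).Nonempty} := by
    apply countable_ofPred_nonempty_of_disjoint _ (fun t => inter_subset_right) hs.countable
    intro t t' htt'
    apply disjoint_iff_inter_eq_empty.2
    have N : {c - x} ∩ s = ∅ := by
      simpa only [singleton_inter_eq_empty, Ia] using ha.2
    rw [inter_assoc, inter_comm s, inter_assoc, inter_self, ← inter_assoc, ← subset_empty_iff, ← N]
    apply inter_subset_inter_left
    rw [sub_eq_add_neg _ x]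
    apply Eq.subset
    apply segment_inter_eq_endpoint_of_linearIndependent_of_ne _ htt'.symm
    convert! hy.units_smul ![-1, 1]
    simp [← List.ofFn_inj]
  have hV : IsOpen {t : ℝ | c + t • y ∈ C} := ho.preimage (by fun_prop)
  obtain ⟨t, hz, ht⟩ := ((A.union B).dense_compl ℝ).inter_open_nonempty _ hV ⟨0, by simpa using hc⟩
  simp only [compl_union, mem_inter_iff, mem_compl_iff, mem_ofPred_eq, not_nonempty_iff_eq_empty,
    Ia, Ib] at ht
  have sub : ∀ w ∈ C, segment ℝ w (c + t • y) ∩ s = ∅ → segment ℝ w (c + t • y) ⊆ C \ s :=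
    fun w hw e v hv => ⟨hC.segment_subset hw hz hv, fun hvs => (e.subset ⟨hv, hvs⟩ : v ∈ (∅ : Set _))⟩
  exact ⟨_, union_subset (sub a ha.1 ht.2) (sub b hb.1 ht.1), Or.inl (left_mem_segment _ _ _),
    Or.inr (left_mem_segment _ _ _), (convex_segment _ _).isPreconnected.union (c + t • y)
      (right_mem_segment _ _ _) (right_mem_segment _ _ _) (convex_segment _ _).isPreconnected⟩

theorem TM4_dense {X : Type} [TopologicalSpace X] [PreconnectedSpace X] {D : Set X} (hD : Dense D)
    (h : ∀ x, ∃ W ∈ 𝓝 x, IsPreconnected (W ∩ D)) : IsPreconnected D := by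
  intro u v hu hv hc ⟨a, ha⟩ ⟨b, hb⟩
  have h1 : univ ⊆ closure (D ∩ u) ∪ closure (D ∩ v) := by
    rw [← closure_union, ← inter_union_distrib_left, inter_eq_left.2 hc, hD.closure_eq]
  obtain ⟨x, -, x1, x2⟩ := isPreconnected_closed_iff.1 isPreconnected_univ _ _ isClosed_closure
    isClosed_closure h1 ⟨a, trivial, subset_closure ha⟩ ⟨b, trivial, subset_closure hb⟩
  obtain ⟨W, hW, hp⟩ := h x
  obtain ⟨c, c1, c2⟩ := mem_closure_iff_nhds.1 x1 W hW
  obtain ⟨d, d1, d2⟩ := mem_closure_iff_nhds.1 x2 W hW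
  obtain ⟨e, e1, e2⟩ := hp u v hu hv (inter_subset_right.trans hc) ⟨c, ⟨c1, c2.1⟩, c2.2⟩
    ⟨d, ⟨d1, d2.1⟩, d2.2⟩
  exact ⟨e, e1.2, e2⟩

omit [T2Space M] [CompactSpace M] in
theorem TM4_ne (hn : 1 ≤ n) (hO : IsOpen O) (hne : O.Nonempty) {s : Set M} (hs : s.Finite) :
    ∃ y ∈ O, y ∈ I.interior M ∧ y ∉ s := by
  obtain ⟨x, hx⟩ := hne
  have : Nontrivial (Ec n) := Module.nontrivial_of_finrank_pos (R := ℝ) (by simp; omega)
  have h1 : (extChartAt I x).target ∩ (extChartAt I x).symm ⁻¹' O ∈ 𝓝[range I] extChartAt I x x :=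
    inter_mem (extChartAt_target_mem_nhdsWithin x)
      (mem_nhdsWithin_of_mem_nhds (extChartAt_preimage_mem_nhds (hO.mem_nhds hx)))
  obtain ⟨V, hV, hxV, hsub⟩ := mem_nhdsWithin.1 h1
  have h2 : extChartAt I x x ∈ closure (interior (range I)) :=
    I.range_subset_closure_interior (extChartAt_target_subset_range x (mem_extChartAt_target x))
  obtain ⟨z, hz, hzs⟩ := ((hs.image (extChartAt I x)).countable.dense_compl ℝ).inter_open_nonempty
    _ (hV.inter isOpen_interior) (mem_closure_iff.1 h2 V hV hxV)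
  have h3 := hsub ⟨hz.1, interior_subset hz.2⟩
  have h4 := (extChartAt I x).right_inv h3.1
  refine ⟨_, h3.2, (interior_iff ((extChartAt I x).map_target h3.1)).2 (by rw [h4]; exact hz.2),
    fun h5 => hzs ⟨_, h5, h4⟩⟩

theorem conn_int [ConnectedSpace M] (hn : 2 ≤ n) {s : Set M} (hs : s.Finite) :
    IsPreconnected (I.interior M \ s) := by
  refine TM4_dense (dense_iff_inter_open.2 fun O hO hne => ?_) fun x => ?_
  · obtain ⟨y, y1, y2, y3⟩ := TM4_ne (I := I) (by omega) hO hne hs
    exact ⟨y, y1, y2, y3⟩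
  obtain ⟨r, hr, hsub⟩ := exists_ball (I := I) x
  refine ⟨_, ball_nhds (I := I) x hr, ?_⟩
  have ht : ball (extChartAt I x x) r ∩ interior (range I) ⊆ (extChartAt I x).target :=
    fun z hz => hsub ⟨ball_subset_closedBall hz.1, interior_subset hz.2⟩
  have hp := (conv_diff hn ((convex_ball (extChartAt I x x) r).inter I.convex_range.interior)
    (isOpen_ball.inter isOpen_interior)
    ((hs.inter_of_left (extChartAt I x).source).image (extChartAt I x))).image _
    ((continuousOn_extChartAt_symm x).mono (sdiff_subset.trans ht))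
  convert hp using 1
  ext y
  constructor
  · rintro ⟨⟨y1, y2⟩, y3, y4⟩
    refine ⟨extChartAt I x y, ⟨⟨y2, (interior_iff y1).1 y3⟩, ?_⟩, (extChartAt I x).left_inv y1⟩
    rintro ⟨w, ⟨w1, w2⟩, w3⟩
    exact y4 ((extChartAt I x).injOn w2 y1 w3 ▸ w1)
  · rintro ⟨z, ⟨z1, z2⟩, rfl⟩
    have h3 := (extChartAt I x).map_target (ht z1)
    have h4 := (extChartAt I x).right_inv (ht z1)
    refine ⟨⟨h3, ?_⟩, (interior_iff h3).2 (by rw [h4]; exact z1.2), fun h5 => z2 ⟨_, ⟨h5, h3⟩, h4⟩⟩
    rw [mem_preimage, h4]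
    exact z1.1

theorem exists_int_ne (hn : 1 ≤ n) (hO : IsOpen O) (hne : O.Nonempty) {s : Set M} (hs : s.Finite) :
    ∃ y ∈ O, y ∈ I.interior M ∧ y ∉ s :=
  TM4_ne hn hO hne hs

omit [IsManifold I ∞ M] [T2Space M] [CompactSpace M] in
theorem TM4_cut {χ : M → ℝ} (hχ : ContMDiff I 𝓘(ℝ, ℝ) ∞ χ) (hF : MT I O F) {V : Set M}
    (h0 : ∀ᶠ x in 𝓝ˢ (tsupport F \ V), χ x = 0) :
    MT I O (fun x => χ x • F x) ∧ tsupport (fun x => χ x • F x) ⊆ V := by
  refine ⟨⟨hχ.smul hF.1, (tsupport_smul_subset_right _ _).trans hF.2⟩, fun x hx => by_contra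
    fun hV => ?_⟩
  have h1 : ∀ᶠ y in 𝓝 x, χ y = 0 :=
    h0.filter_mono (nhds_le_nhdsSet
      (show x ∈ tsupport F \ V from ⟨tsupport_smul_subset_right _ _ hx, hV⟩))
  exact notMem_tsupport_iff_eventuallyEq.2 h1 (tsupport_smul_subset_left _ _ hx)

theorem mt_local {T : (M → Fb N) → ℂ}
    (h1 : ∀ F F', MT I O F → MT I O F' → T (F + F') = T F + T F')
    (h2 : ∀ x ∈ O, ∃ O', IsOpen O' ∧ x ∈ O' ∧ ∀ F, MT I O' F → T F = 0) :
    ∀ F, MT I O F → T F = 0 := by
  intro F₀ hF₀
  have hK : IsCompact (tsupport F₀) := (isClosed_tsupport F₀).isCompact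
  suffices h : ∃ V, IsOpen V ∧ tsupport F₀ ⊆ V ∧ ∀ F, MT I O F → tsupport F ⊆ V → T F = 0 by
    obtain ⟨V, -, a, b⟩ := h
    exact b F₀ hF₀ a
  refine hK.induction_on
    (p := fun s => ∃ V, IsOpen V ∧ s ⊆ V ∧ ∀ F, MT I O F → tsupport F ⊆ V → T F = 0) ?_ ?_ ?_ ?_
  · refine ⟨∅, isOpen_empty, Subset.rfl, fun F hF h => ?_⟩
    have e : F = 0 := tsupport_eq_empty_iff.1 (subset_empty_iff.1 h)
    have := h1 F F hF hF
    rw [show F + F = F by rw [e, add_zero]] at this
    simpa using this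
  · rintro s t hst ⟨V, a, b, c⟩
    exact ⟨V, a, hst.trans b, c⟩
  · rintro s t ⟨V, a, b, c⟩ ⟨V', a', b', c'⟩
    refine ⟨V ∪ V', a.union a', union_subset_union b b', fun F hF h => ?_⟩
    obtain ⟨χ, χ0, χ1, -⟩ := exists_contMDiffMap_zero_one_nhds_of_isClosed (n := (⊤ : ℕ∞)) I
      ((isClosed_tsupport F).sdiff a) ((isClosed_tsupport F).sdiff a')
      (disjoint_left.2 fun x hx hx' => (h hx.1).elim hx.2 hx'.2)
    have k1 := TM4_cut χ.contMDiff hF χ0
    have k2 := TM4_cut (χ := fun x => 1 - χ x) (contMDiff_const.sub χ.contMDiff) hF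
      (χ1.mono fun x hx => by rw [hx, sub_self])
    have e : F = (fun x => χ x • F x) + fun x => (1 - χ x) • F x := by
      funext x
      simp only [Pi.add_apply, ← add_smul, add_sub_cancel, one_smul]
    rw [e, h1 _ _ k1.1 k2.1, c _ k1.1 k1.2, c' _ k2.1 k2.2, add_zero]
  · intro x hx
    obtain ⟨O', a, b, c⟩ := h2 x (hF₀.2 hx)
    exact ⟨O', mem_nhdsWithin_of_mem_nhds (a.mem_nhds b), O', a, Subset.rfl,
      fun F hF h => c F ⟨hF.1, h⟩⟩

end Vale.Agent.P088.Gl
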