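import Vale.Agent.P088F.TM2
import Vale.Agent.P088F.TM4

/-! P088 T: the two point Runge property.
Hints: T F = inner ξ (G F y) - inner ξ' (G F y'). t_zero: the set of points of
interior minus {y, y'} near which T vanishes on tests is open, nonempty (exists_int_ne) and relatively
closed (GF in a chart ball whose closure misses y, y'; bound from mg_point and norm_ps_le; T kills
ps F by MG.inv, EW.mw); conn_int; mt_local. run_of_dens: φ = bump • ξ in the chart at y with y'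
off the support, F from t_L_test, T (ps F) = inner ξ ξ, split F = χ F + (1 - χ) F with χ from GS
(MG.eg), second part by t_zero, value at y' by mg_point, norm_ps_le. -/

open MeasureTheory Set Filter Bundle Metric Topology Matrix
open scoped Manifold ContDiff ENNReal

noncomputable section

namespace Vale.Agent.P088.Gl

variable {n N : ℕ} {H : Type} [TopologicalSpace H] {I : ModelWithCorners ℝ (Ec n) H}
  {M : Type} [TopologicalSpace M] [ChartedSpace H M] [IsManifold I ∞ M] [T2Space M] [CompactSpace M]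
  {g g₁ g₂ : Met I M} {A A₁ A₂ : Conn I M N} {p q x : M} {O O' Γ : Set M} {Φ Φ' : M → M}
  {U U' : M → Op N} {u w F : M → Fb N} {G G₁ G₂ S S₁ S₂ : (M → Fb N) → M → Fb N}
  {Ω : Set (Ec n)} {z : Ec n}

variable [MeasurableSpace M] [BorelSpace M] {μ μ₁ μ₂ : Measure M}

/-- Density of the boundary solutions. -/
def Dens (Γ : Set M) (g : Met I M) (μ : Measure M) (A : Conn I M N) (S : (M → Fb N) → M → Fb N) :
    Prop :=
  ∀ q ∈ I.boundary M, ∃ G, MG g μ A G ∧ ∀ y ∈ I.interior M, ∀ y' ∈ I.interior M, ∀ ξ ξ' : Fb N,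
    (∀ f, IsTest I Γ f → f q = 0 → inner ℂ ξ (S f y) = inner ℂ ξ' (S f y')) →
    ∃ O, IsOpen O ∧ O.Nonempty ∧ O ⊆ I.interior M ∧
      ∀ F, MT I O F → inner ℂ ξ (G F y) = inner ℂ ξ' (G F y')

omit [CompactSpace M] [MeasurableSpace M] [BorelSpace M] [T2Space M] in
theorem TRun_ball (hO : IsOpen O) (hx : x ∈ O) (hi : x ∈ I.interior M) : ∃ r, 0 < r ∧
    closedBall (extChartAt I x x) r ⊆ cd I x ∧
    MapsTo (extChartAt I x).symm (closedBall (extChartAt I x x) r) O := by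
  have h1 : cd I x ∩ (extChartAt I x).symm ⁻¹' O ∈ 𝓝 (extChartAt I x x) := by
    have h2 := (cd_iff (mem_extChartAt_source x)).2 hi
    refine inter_mem ((isOpen_cd I x).mem_nhds h2) (symm_contAt h2 ?_)
    rw [extChartAt_to_inv]
    exact hO.mem_nhds hx
  obtain ⟨r, h0, h2⟩ := nhds_basis_closedBall.mem_iff.1 h1
  exact ⟨r, h0, fun z hz => (h2 hz).1, fun z hz => (h2 hz).2⟩

theorem TRun_bd (hI : GI n N) (hv : IsVol g μ) (h : MG g μ A G) {K : Set (Ec n)}
    (hK : IsCompact K) (h1 : K ⊆ cd I p) (hx : x ∈ I.interior M)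
    (h2 : MapsTo (extChartAt I p).symm K {x}ᶜ) : ∃ C : ℝ, 0 ≤ C ∧ ∀ F : Ec n → Fb N, ET K F →
      ‖G (ps I p F) x‖ ^ 2 ≤ C * ∫ z, ‖F z‖ ^ 2 := by
  obtain ⟨C, h0, hC⟩ := mg_point hI hv h (hK.image_of_continuousOn
    fun z hz => (symm_contAt (h1 hz)).continuousWithinAt).isClosed hx
    fun ⟨z, hz, e⟩ => h2 hz e
  obtain ⟨C', h0', hC'⟩ := norm_ps_le (N := N) hv hK h1
  refine ⟨C * C', mul_nonneg h0 h0', fun F hF => ?_⟩
  rw [mul_assoc]
  exact (hC _ (hF.mti h1) ((tsupport_ps hF.2.1 (hF.2.2.trans (h1.trans (cd_sub I p)))).trans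
    (image_mono hF.2.2))).trans (mul_le_mul_of_nonneg_left (hC' F hF) h0)

omit [CompactSpace M] in
theorem TRun_inv (hv : IsVol g μ) (h : MG g μ A G) (ho : IsOpen Ω) (h1 : Ω ⊆ cd I p)
    {φ F : Ec n → Fb N} (hφ : ET Ω φ) (hF : ET Ω F) (e : EW Ω (cg g A p) φ F)
    (hx : x ∈ I.interior M) : G (ps I p F) x = ps I p φ x :=
  h.inv _ _ (hφ.mti h1) (hF.mti h1) (e.mw hv ho h1 hφ hF _) hx

omit [CompactSpace M] [MeasurableSpace M] [BorelSpace M] in
theorem TRun_off (h1 : Ω ⊆ cd I p) {φ : Ec n → Fb N} (hφ : ET Ω φ)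
    (h2 : MapsTo (extChartAt I p).symm Ω O) (hx : x ∉ O) : ps I p φ x = 0 :=
  image_eq_zero_of_notMem_tsupport fun h => hx ((hφ.mt h1 h2).2 h)

omit [CompactSpace M] [BorelSpace M] [T2Space M] in
theorem TRun_add (h : MG g μ A G) {y y' : M} (hy : y ∈ I.interior M) (hy' : y' ∈ I.interior M)
    (ξ ξ' : Fb N) {F' : M → Fb N} (h1 : MT I (I.interior M) F) (h2 : MT I (I.interior M) F') :
    inner ℂ ξ (G (F + F') y) - inner ℂ ξ' (G (F + F') y') =
      inner ℂ ξ (G F y) - inner ℂ ξ' (G F y') + (inner ℂ ξ (G F' y) - inner ℂ ξ' (G F' y')) := by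
  rw [h.add F F' h1 h2 hy, h.add F F' h1 h2 hy', Pi.add_apply, Pi.add_apply, inner_add_right,
    inner_add_right]
  ring

omit [CompactSpace M] [MeasurableSpace M] [BorelSpace M] [T2Space M] in
theorem TRun_sm (g : Met I M) (A : Conn I M N) (h : Ω ⊆ cd I p) : (cg g A p).Sm Ω :=
  ⟨fun i j => ((cg_sm g A p).g i j).mono h, fun z hz => (cg_sm g A p).pos z (h hz),
    fun i => ((cg_sm g A p).a i).mono h, fun i z hz => (cg_sm g A p).skew i z (h hz)⟩

theorem TRun_le (ξ ξ' a b : Fb N) :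
    ‖inner ℂ ξ a - inner ℂ ξ' b‖ ≤ ‖ξ‖ * ‖a‖ + ‖ξ'‖ * ‖b‖ :=
  norm_sub_le_of_le (norm_inner_le_norm _ _) (norm_inner_le_norm _ _)

theorem t_zero [ConnectedSpace M] (hn : 2 ≤ n) (hI : GI n N) (hF : GF n N) (hv : IsVol g μ)
    (h : MG g μ A G) {y y' : M} (hy : y ∈ I.interior M) (hy' : y' ∈ I.interior M) {ξ ξ' : Fb N}
    (hO : IsOpen O) (hne : O.Nonempty) (h1 : O ⊆ I.interior M)
    (h2 : ∀ F, MT I O F → inner ℂ ξ (G F y) = inner ℂ ξ' (G F y')) :
    ∀ F, MT I (I.interior M \ {y, y'}) F → inner ℂ ξ (G F y) = inner ℂ ξ' (G F y') := by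
  have hf : ({y, y'} : Set M).Finite := toFinite _
  have ho : IsOpen (I.interior M \ {y, y'}) := isOpen_interior'.sdiff hf.isClosed
  let T : (M → Fb N) → ℂ := fun F => inner ℂ ξ (G F y) - inner ℂ ξ' (G F y')
  have hZ : IsOpen {x | ∃ O', IsOpen O' ∧ x ∈ O' ∧ ∀ F, MT I O' F → T F = 0} :=
    isOpen_iff_forall_mem_open.2 fun x ⟨O', a, b, c⟩ => ⟨O', fun x' hx' => ⟨O', a, hx', c⟩, a, b⟩
  have key := (conn_int (I := I) hn hf).subset_of_closure_inter_subset hZ ?_ ?_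
  · exact fun F hF => sub_eq_zero.1 (mt_local (T := T) (fun F F' a b =>
      TRun_add h hy hy' ξ ξ' ⟨a.1, a.2.trans sdiff_subset⟩ ⟨b.1, b.2.trans sdiff_subset⟩) key F hF)
  · obtain ⟨x, a, b, c⟩ := exists_int_ne (I := I) (by omega) hO hne hf
    exact ⟨x, ⟨b, c⟩, O, hO, a, fun F hF => sub_eq_zero.2 (h2 F hF)⟩
  rintro x ⟨hx, hx'⟩
  obtain ⟨r, h0, b1, b2⟩ := TRun_ball ho hx' hx'.1
  have b3 := ball_subset_closedBall.trans b1
  have b4 := b2.mono_left ball_subset_closedBall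
  have hW := cd_image_open isOpen_ball b3
  have hxW : x ∈ (extChartAt I x).symm '' ball (extChartAt I x x) r :=
    ⟨_, mem_ball_self h0, extChartAt_to_inv x⟩
  obtain ⟨_, ⟨z, hz, rfl⟩, O', a, b, c⟩ := mem_closure_iff.1 hx _ hW hxW
  obtain ⟨C, c0, c1⟩ := TRun_bd hI hv h (isCompact_closedBall _ _) b1 hy
    fun z hz e => (b2 hz).2 (.inl e)
  obtain ⟨C', c0', c1'⟩ := TRun_bd hI hv h (isCompact_closedBall _ _) b1 hy'
    fun z hz e => (b2 hz).2 (.inr e)
  have k := hF (ball (extChartAt I x x) r)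
    (ball (extChartAt I x x) r ∩ (cd I x ∩ (extChartAt I x).symm ⁻¹' O')) (cg g A x)
    (fun F => T (ps I x F)) (2 * ‖ξ‖ ^ 2 * C + 2 * ‖ξ'‖ ^ 2 * C') isOpen_ball
    (convex_ball _ _).isPreconnected (TRun_sm g A b3)
    (isOpen_ball.inter (cd_pre_open a x)) ⟨z, hz, b3 hz, b⟩ inter_subset_left
    (fun F F' e e' => by
      rw [ps_add]
      exact TRun_add h hy hy' ξ ξ' (e.mti b3) (e'.mti b3))
    (fun c F e => by
      simp only [T]
      rw [ps_smul, h.smul c _ (e.mti b3) hy, h.smul c _ (e.mti b3) hy', Pi.smul_apply,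
        Pi.smul_apply, inner_smul_right, inner_smul_right, mul_sub])
    (fun F e => by
      have e1 := mul_le_mul_of_nonneg_left (c1 F (et_mono e ball_subset_closedBall)) (sq_nonneg ‖ξ‖)
      have e2 := mul_le_mul_of_nonneg_left (c1' F (et_mono e ball_subset_closedBall))
        (sq_nonneg ‖ξ'‖)
      refine (pow_le_pow_left₀ (norm_nonneg _) (TRun_le _ _ _ _) 2).trans ?_
      nlinarith [sq_nonneg (‖ξ‖ * ‖G (ps I x F) y‖ - ‖ξ'‖ * ‖G (ps I x F) y'‖)])
    (fun φ F e e' e'' => by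
      simp only [T]
      rw [TRun_inv hv h isOpen_ball b3 e e' e'' hy, TRun_inv hv h isOpen_ball b3 e e' e'' hy',
        TRun_off b3 e b4 fun k => k.2 (.inl rfl), TRun_off b3 e b4 fun k => k.2 (.inr rfl),
        inner_zero_right, inner_zero_right, sub_zero])
    fun F e => c _ (e.mt (inter_subset_left.trans b3) fun z hz => hz.2.2)
  refine ⟨_, hW, hxW, fun F e => ?_⟩
  obtain ⟨e1, e2⟩ := pl_test isOpen_ball b3 e
  rw [← e2]
  exact k _ e1

theorem TRun_small (hn : 2 ≤ n) {F : Ec n → Fb N} (hF : ET Ω F) : ∃ D : ℝ, 0 ≤ D ∧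
    ∀ (χ : Ec n → ℝ) (η : ℝ), 0 < η → η ≤ 1 → tsupport χ ⊆ ball z η → (∀ z, |χ z| ≤ 1) →
      ∫ z, ‖χ z • F z‖ ^ 2 ≤ D * η ^ 2 := by
  obtain ⟨D, hD⟩ := hF.1.continuous.bounded_above_of_compact_support hF.2.1
  refine ⟨D ^ 2 * volume.real (ball (0 : Ec n) 1), by positivity, fun χ η η0 η1 χ2 χ3 => ?_⟩
  rw [← setIntegral_eq_integral_of_forall_compl_eq_zero (s := closedBall z η)
    fun z hz => by simp [image_eq_zero_of_notMem_tsupport fun k =>
      hz (ball_subset_closedBall (χ2 k))]]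
  refine (Real.le_norm_self _).trans ((norm_setIntegral_le_of_norm_le_const (C := D ^ 2)
    measure_closedBall_lt_top fun z _ => ?_).trans ?_)
  · rw [norm_pow, norm_norm, norm_smul]
    exact pow_le_pow_left₀ (by positivity)
      ((mul_le_of_le_one_left (norm_nonneg _) (χ3 z)).trans (hD z)) 2
  · rw [Measure.addHaar_real_closedBall _ _ η0.le, finrank_euclideanSpace_fin, mul_comm (η ^ n),
      ← mul_assoc]
    exact mul_le_mul_of_nonneg_left (pow_le_pow_of_le_one η0.le η1 hn) (by positivity)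

theorem TRun_cut {F : Ec n → Fb N} (hF : ET Ω F) {χ : Ec n → ℝ} (h1 : ContDiff ℝ ∞ χ)
    (h2 : ∀ᶠ y in 𝓝 z, χ y = 1) : ET Ω (fun z => χ z • F z) ∧
      ET (Ω \ {z}) (fun z => (1 - χ z) • F z) ∧
      F = (fun z => χ z • F z) + fun z => (1 - χ z) • F z := by
  have k : ∀ c : Ec n → ℝ, ContDiff ℝ ∞ c → ET Ω fun z => c z • F z := fun c hc =>
    ⟨hc.smul hF.1, hF.2.1.of_isClosed_subset (isClosed_tsupport _) (tsupport_smul_subset_right c F),
      (tsupport_smul_subset_right c F).trans hF.2.2⟩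
  have k2 := k _ (contDiff_const (c := 1).sub h1)
  refine ⟨k χ h1, ⟨k2.1, k2.2.1, subset_sdiff_singleton k2.2.2
    (notMem_tsupport_iff_eventuallyEq.2 ?_)⟩, funext fun z => by simp [sub_smul]⟩
  filter_upwards [h2] with z hz
  simp [hz]

theorem TRun_lim {a b : ℝ} (hb : 0 ≤ b) (h : ∀ η : ℝ, 0 < η → η ≤ 1 → a ≤ b * η) : a ≤ 0 := by
  by_contra ha
  obtain ⟨η, η0, η1⟩ := exists_pos_mul_lt (lt_min (not_le.1 ha) one_pos) (b + 1)
  rw [lt_min_iff] at η1
  have := mul_nonneg hb η0.le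
  linarith [h η η0 (by linarith [η1.2]), η1.1]

theorem run_of_dens [ConnectedSpace M] (hn : 2 ≤ n) (hI : GI n N) (hF : GF n N) (hS : GS n N)
    (hv : IsVol g μ) (h : Dens Γ g μ A S) : Run I Γ S := by
  intro q hq y hy y' hy' hne ξ ξ' h1
  obtain ⟨G, hG, h⟩ := h q hq
  obtain ⟨O, o1, o2, o3, o4⟩ := h y hy y' hy' ξ ξ' h1
  have z0 := t_zero hn hI hF hv hG hy hy' o1 o2 o3 o4
  obtain ⟨r, h0, b1, b2⟩ := TRun_ball (O := {y'}ᶜ) isOpen_compl_singleton hne hy
  have b3 := ball_subset_closedBall.trans b1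
  have b4 := b2.mono_left ball_subset_closedBall
  have sm := TRun_sm g A b3
  obtain ⟨β, β1, β2, β3, β4, -⟩ := exists_cut isCompact_singleton isOpen_ball
    (singleton_subset_iff.2 (mem_ball_self (x := extChartAt I y y) h0))
  have hφ := et_cut isOpen_ball β1 β2 β3 (contDiffOn_const (c := ξ))
  obtain ⟨F, f1, -, f2⟩ := t_L_test isOpen_ball sm hφ
  obtain ⟨C, c0, c1⟩ := TRun_bd hI hv hG (isCompact_closedBall _ _) b1 hy' b2
  obtain ⟨D, d0, hD⟩ := TRun_small (z := extChartAt I y y) hn f1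
  have t1 : G (ps I y F) y = ξ := by
    rw [TRun_inv hv hG isOpen_ball b3 hφ f1 f2 hy, ps_of_mem _ (mem_extChartAt_source y),
      (β4 _ rfl).self_of_nhds, one_smul]
  have t2 : G (ps I y F) y' = 0 :=
    (TRun_inv hv hG isOpen_ball b3 hφ f1 f2 hy').trans (TRun_off b3 hφ b4 fun k => k rfl)
  have b5 : MapsTo (extChartAt I y).symm (ball (extChartAt I y y) r \ {extChartAt I y y})
      (I.interior M \ {y, y'}) := fun z hz => ⟨symm_interior (b3 hz.1), fun k => k.elim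
    (fun k => hz.2 (((extChartAt I y).right_inv (cd_sub I y (b3 hz.1))).symm.trans
      (congrArg (extChartAt I y) k))) (b4 hz.1)⟩
  refine norm_eq_zero.1 (pow_eq_zero_iff two_ne_zero |>.1 (le_antisymm (TRun_lim
    (b := ‖ξ‖ + ‖ξ'‖ * √(C * D)) (by positivity) fun η η0 η1 => ?_) (sq_nonneg _)))
  obtain ⟨χ, χ1, χ2, χ3, χ4, χ5, -⟩ := hS _ _ _ F _ η isOpen_ball sm (hG.eg hv isOpen_ball b3) f1
    (mem_ball_self h0) η0
  rw [pl, extChartAt_to_inv] at χ5
  obtain ⟨e1, e2, e3⟩ := TRun_cut f1 χ1 χ4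
  have e4 := TRun_add hG hy hy' ξ ξ' (e1.mti b3) (e2.mti (sdiff_subset.trans b3))
  rw [← ps_add, ← e3, t1, t2, inner_zero_right, sub_zero,
    z0 _ (e2.mt (sdiff_subset.trans b3) b5), sub_self, add_zero] at e4
  have e6 : ‖G (ps I y fun z => χ z • F z) y'‖ ≤ √(C * D) * η := by
    refine le_of_sq_le_sq ((c1 _ (et_mono e1 ball_subset_closedBall)).trans
      ((mul_le_mul_of_nonneg_left (hD χ η η0 η1 χ2 χ3) c0).trans_eq ?_)) (by positivity)
    rw [mul_pow, Real.sq_sqrt (mul_nonneg c0 d0), mul_assoc]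
  have e7 := (congrArg norm e4).trans_le (TRun_le _ _ _ _)
  rw [inner_self_eq_norm_sq_to_K, norm_pow, RCLike.norm_ofReal, abs_norm] at e7
  rw [add_mul, mul_assoc]
  exact e7.trans (add_le_add (mul_le_mul_of_nonneg_left χ5 (norm_nonneg ξ))
    (mul_le_mul_of_nonneg_left e6 (norm_nonneg ξ')))

end Vale.Agent.P088.Gl
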