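import Vale.Agent.P088F.TX1
import Vale.Agent.P088F.GXt2
import Vale.Agent.P088F.TI
import Vale.Agent.P088F.TRun
import Vale.Agent.P088F.GXDefs

/-! P088 T: density of the boundary solutions.
Hints: Γ has a point p ≠ q (n ≥ 2, chart at a point of Γ); BD and GX2 with both structures equal,
XP.shrink so that q is off the image of hp (xpt_cont, kap_zero). T F = inner ξ (GM F y) - inner ξ' (GM F y'). On tests of lo n r it vanishes:
XG.dens, mw_point, mw_sub for S f - GM F (xps of a test of lo n r is zero). Choose ε such that y, y' are off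
the image K of closedBall 0 ε ∩ half space; GF on ball 0 ε with Ω' = lo n ε (bound: mw_point on
interior minus K, XG.bound; XG.inv, ew_of_test); O = image of up n ε, XG.upper, xps_ext, pl_test, ti_pull. -/

open MeasureTheory Set Filter Bundle Metric Topology Matrix
open scoped Manifold ContDiff ENNReal

noncomputable section

namespace Vale.Agent.P088.Gl

variable {n N : ℕ} [NeZero n] {M : Type} [TopologicalSpace M]
  [ChartedSpace (EuclideanHalfSpace n) M] [IsManifold (𝓡∂ n) ∞ M] [T2Space M] [CompactSpace M]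
  {g g₁ g₂ : Met (𝓡∂ n) M} {A A₁ A₂ : Conn (𝓡∂ n) M N} {p q : M} {Γ : Set M} {r : ℝ}
  {τ θ τ₁ θ₁ τ₂ θ₂ : Ec n → Ec n} {W W₁ W₂ : Ec n → Op N} {γ γ₁ γ₂ : Geo n N}
  {S S₁ S₂ : (M → Fb N) → M → Fb N} {z : Ec n}

theorem Patch.exists_ne (hn : 2 ≤ n) (hΓ : Patch (n := n) Γ) (q : M) : ∃ p ∈ Γ, q ≠ p := by
  obtain ⟨O, hO, rfl⟩ := hΓ.op
  obtain ⟨p, hp1, hp2⟩ := hΓ.ne
  by_cases hq : q = p
  swap
  · exact ⟨p, ⟨hp1, hp2⟩, hq⟩
  subst hq
  have h0 : extChartAt (𝓡∂ n) q q 0 = 0 := (bd_iff (mem_extChartAt_source q)).1 hp2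
  let j : Fin n := ⟨1, hn⟩
  have hj : (0 : Fin n) ≠ j := fun e => by simpa [j] using congrArg Fin.val e
  let c : ℝ → Ec n := fun t => extChartAt (𝓡∂ n) q q + t • bv j
  have c0 : ∀ t, c t 0 = 0 := fun t => by
    have : (bv j : Ec n) 0 = 0 := by simp [bv, hj]
    simp only [c, PiLp.add_apply, PiLp.smul_apply, h0, this, smul_zero, add_zero]
  have hc : Tendsto c (𝓝 0) (𝓝 (extChartAt (𝓡∂ n) q q)) := by
    have : Continuous c := continuous_const.add (continuous_id.smul continuous_const)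
    exact this.tendsto' 0 _ (by simp only [c, zero_smul, add_zero])
  have hc' : Tendsto c (𝓝 0) (𝓝[range (𝓡∂ n)] (extChartAt (𝓡∂ n) q q)) :=
    tendsto_nhdsWithin_iff.2 ⟨hc, Eventually.of_forall fun t => by
      rw [range_half]
      exact (c0 t).ge⟩
  have e1 := hc'.eventually (extChartAt_target_mem_nhdsWithin (I := 𝓡∂ n) q)
  have e2 := hc.eventually ((continuousAt_extChartAt_symm (I := 𝓡∂ n) q).eventually
    (hO.mem_nhds (by rwa [extChartAt_to_inv])))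
  obtain ⟨t, ⟨a1, a2⟩, a3⟩ :=
    (((e1.and e2).filter_mono nhdsWithin_le_nhds).and (self_mem_nhdsWithin (s := {0}ᶜ))).exists
  refine ⟨(extChartAt (𝓡∂ n) q).symm (c t), ⟨a2, ?_⟩, fun e => a3 ?_⟩
  · rw [bd_iff (p := q) ((extChartAt (𝓡∂ n) q).map_target a1), (extChartAt (𝓡∂ n) q).right_inv a1]
    exact c0 t
  · have e3 : extChartAt (𝓡∂ n) q q = c t :=
      (congrArg (extChartAt (𝓡∂ n) q) e).trans ((extChartAt (𝓡∂ n) q).right_inv a1)
    have e4 : t • (bv j : Ec n) = 0 := (left_eq_add.1 e3)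
    have e5 := congrArg (fun v : Ec n => v j) e4
    simpa [bv] using e5

theorem TDe_small (h : XP Γ g A p r τ θ W γ) {s : Set M} (hs : s ∈ 𝓝 p) :
    ∃ ε, 0 < ε ∧ ε < r ∧ ∀ z ∈ closedBall (0 : Ec n) ε, 0 ≤ z 0 → xpt p τ z ∈ s := by
  have h0 : (0 : Ec n) ∈ hp n r := ⟨mem_ball_self h.r0, le_refl (0 : ℝ)⟩
  have h1 := h.xpt_cont 0 h0
  rw [ContinuousWithinAt, h.kap_zero] at h1
  obtain ⟨ε, hε, h2⟩ := Metric.mem_nhdsWithin_iff.1 (h1 hs)
  have hr := h.r0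
  have m1 : min ε r / 2 < ε := by have := min_le_left ε r; linarith
  have m2 : min ε r / 2 < r := by have := min_le_right ε r; linarith
  exact ⟨min ε r / 2, half_pos (lt_min hε hr), m2, fun z hz hz0 =>
    h2 ⟨closedBall_subset_ball m1 hz, closedBall_subset_ball m2 hz, hz0⟩⟩

theorem TDe_off (h : XP Γ g A p r τ θ W γ) {ε : ℝ} {F : Ec n → Fb N} (hF : ET (ball 0 ε) F) {x : M}
    (hx : x ∉ xpt p τ '' (closedBall 0 ε ∩ {z | 0 ≤ z 0})) : xps p r τ θ W F x = 0 := by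
  by_cases h1 : x ∈ xpt p τ '' hp n r
  · obtain ⟨z, hz, rfl⟩ := h1
    have : F z = 0 := image_eq_zero_of_notMem_tsupport fun a =>
      hx (mem_image_of_mem _ ⟨ball_subset_closedBall (hF.2.2 a), hz.2⟩)
    rw [h.xps_kap F hz, this, map_zero]
  · exact h.xps_zero F h1

theorem TDe_lift (h : XP Γ g A p r τ θ W γ) {ε : ℝ} (h0 : 0 < ε) (h1 : ε ≤ r) {F : M → Fb N}
    (hF : MT (𝓡∂ n) (xpt p τ '' up n ε) F) : ∃ F', ET (up n ε) F' ∧ xps p r τ θ W F' = F := by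
  have h' := h.shrink h0 h1
  have hs : γ.Sm (up n ε) := h'.sm.sub inter_subset_left
  have e : xpt p τ '' up n ε = (extChartAt (𝓡∂ n) p).symm '' (τ '' up n ε) :=
    (image_image (extChartAt (𝓡∂ n) p).symm τ _).symm
  obtain ⟨F', a, b⟩ := ti_pull h'.iso hs
    (pl_test (ti_open h'.iso hs) (image_subset_iff.2 h'.int) (e ▸ hF)).1
  have hz : ∀ x ∉ xpt p τ '' up n ε, F x = 0 := fun x hx =>
    image_eq_zero_of_notMem_tsupport fun c => hx (hF.2 c)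
  have hu : up n ε ⊆ hp n r := up_sub_hp.trans (GXt1_hp h1)
  refine ⟨F', a, h.xps_ext (fun z hz' => ?_) fun x hx => hz x fun c => hx (image_mono hu c)⟩
  by_cases c : z ∈ up n ε
  · rw [← b z c, indicator_of_mem (mem_image_of_mem _ c)]
    rfl
  · have c1 : F' z = 0 := image_eq_zero_of_notMem_tsupport fun d => c (a.2.2 d)
    rw [c1, map_zero]
    refine hz _ ?_
    rintro ⟨w, hw, e'⟩
    exact c (h.kap_inj (hu hw) hz' e' ▸ hw)

variable [MeasurableSpace M] [BorelSpace M] {μ μ₁ μ₂ : Measure M}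

variable {G : (M → Fb N) → M → Fb N} {GB : (Ec n → Fb N) → Ec n → Fb N}
  {GM : (Ec n → Fb N) → M → Fb N}

omit [NeZero n] in
theorem TDe_vol {ε r : ℝ} (hs : γ.Sm (ball 0 r)) (h1 : ε < r) (C₂ : ℝ) : ∃ C : ℝ, 0 ≤ C ∧
    ∀ F : Ec n → Fb N, ET (ball 0 ε) F → C₂ * ∫ z, γ.vol z * ‖F z‖ ^ 2 ≤ C * ∫ z, ‖F z‖ ^ 2 := by
  obtain ⟨C₃, c3⟩ := (isCompact_closedBall (0 : Ec n) ε).exists_bound_of_continuousOn
    (hs.vol.continuousOn.mono (closedBall_subset_ball h1))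
  refine ⟨|C₂| * |C₃|, by positivity, fun F hF => ?_⟩
  have n0 : ∀ z, 0 ≤ γ.vol z * ‖F z‖ ^ 2 := fun z => mul_nonneg (Real.sqrt_nonneg _) (sq_nonneg _)
  have i0 : Continuous fun z => ‖F z‖ ^ 2 := hF.1.continuous.norm.pow 2
  have i1 : Integrable fun z => ‖F z‖ ^ 2 := i0.integrable_of_hasCompactSupport
    (hF.2.1.comp_left (g := fun v : Fb N => ‖v‖ ^ 2) (by simp))
  have i2 : ∫ z, γ.vol z * ‖F z‖ ^ 2 ≤ |C₃| * ∫ z, ‖F z‖ ^ 2 := by
    rw [← integral_const_mul]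
    refine integral_mono_of_nonneg (Eventually.of_forall n0) (i1.const_mul _)
      (Eventually.of_forall fun z => ?_)
    show γ.vol z * ‖F z‖ ^ 2 ≤ |C₃| * ‖F z‖ ^ 2
    by_cases hz : z ∈ tsupport F
    · exact mul_le_mul_of_nonneg_right ((le_abs_self _).trans
        ((c3 z (ball_subset_closedBall (hF.2.2 hz))).trans (le_abs_self _))) (sq_nonneg _)
    · rw [image_eq_zero_of_notMem_tsupport hz, norm_zero, zero_pow two_ne_zero, mul_zero, mul_zero]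
  rw [mul_assoc]
  exact (mul_le_mul_of_nonneg_right (le_abs_self _) (integral_nonneg n0)).trans
    (mul_le_mul_of_nonneg_left i2 (abs_nonneg _))

theorem TDe_pt (hI : GI n N) (hv : IsVol g μ) (h : XP Γ g A p r τ θ W γ)
    (k : XG Γ g μ A S p r τ θ W γ G GB GM) {ε : ℝ} (h1 : ε < r) {x : M}
    (hx : x ∈ (𝓡∂ n).interior M) (hK : x ∉ xpt p τ '' (closedBall 0 ε ∩ {z | 0 ≤ z 0})) :
    ∃ C : ℝ, ∀ F, ET (ball 0 ε) F → ‖GM F x‖ ^ 2 ≤ C * ∫ z, ‖F z‖ ^ 2 := by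
  have hb : closedBall (0 : Ec n) ε ∩ {z | 0 ≤ z 0} ⊆ hp n r :=
    inter_subset_inter_left _ (closedBall_subset_ball h1)
  have cK : IsClosed (xpt p τ '' (closedBall 0 ε ∩ {z | 0 ≤ z 0})) :=
    (((isCompact_closedBall 0 ε).inter_right (isClosed_half n)).image_of_continuousOn
      (h.xpt_cont.mono hb)).isClosed
  have z0 : ∀ F, ET (ball 0 ε) F → ∀ y ∉ xpt p τ '' (closedBall 0 ε ∩ {z | 0 ≤ z 0}),
      xps p r τ θ W F y = 0 := fun F hF y hy => TDe_off h hF hy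
  generalize xpt p τ '' (closedBall 0 ε ∩ {z | 0 ≤ z 0}) = K at hK cK z0
  have hO : (𝓡∂ n).interior M \ K ⊆ (𝓡∂ n).interior M := sdiff_subset
  obtain ⟨C₁, p1, c1⟩ := mw_point hI hv A (isOpen_interior'.sdiff cK) hO ⟨hx, hK⟩
  obtain ⟨C₂, c2⟩ := k.bound
  obtain ⟨C₃, p3, c3⟩ := TDe_vol h.sm h1 C₂
  refine ⟨C₁ * C₃, fun F hF => ?_⟩
  have hF' : ET (ball 0 r) F := hF.mono (ball_subset_ball h1.le)
  have n1 : 0 ≤ ∫ z, ‖F z‖ ^ 2 := integral_nonneg fun z => sq_nonneg _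
  have i1 := c1 _ (mw_mono (k.sol F hF') hO fun y hy => z0 F hF y hy.2)
  have i2 : ∫⁻ y in (𝓡∂ n).interior M \ K, ENNReal.ofReal (‖GM F y‖ ^ 2) ∂μ ≤
      ∫⁻ y in (𝓡∂ n).interior M, ENNReal.ofReal (‖GM F y‖ ^ 2) ∂μ := lintegral_mono_set hO
  have i4 := i1.trans (mul_le_mul' le_rfl ((i2.trans (c2 F hF')).trans
    (ENNReal.ofReal_le_ofReal (c3 F hF))))
  rw [← ENNReal.ofReal_mul p1, ENNReal.ofReal_le_ofReal_iff (mul_nonneg p1 (mul_nonneg p3 n1))] at i4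
  rwa [mul_assoc]

theorem TDe_sq {a : ℕ → ℝ} {b : ℕ → ℝ≥0∞} {C : ℝ} (h0 : ∀ k, 0 ≤ a k)
    (h : ∀ k, ENNReal.ofReal (a k ^ 2) ≤ ENNReal.ofReal C * b k) (ht : Tendsto b atTop (𝓝 0)) :
    Tendsto a atTop (𝓝 0) := by
  have t1 := ENNReal.Tendsto.const_mul (a := ENNReal.ofReal C) ht (Or.inr ENNReal.ofReal_ne_top)
  rw [mul_zero] at t1
  have t2 : Tendsto (fun k => ENNReal.ofReal (a k ^ 2)) atTop (𝓝 0) :=
    tendsto_of_tendsto_of_tendsto_of_le_of_le tendsto_const_nhds t1 (fun _ => bot_le) h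
  have t3 := (Real.continuous_sqrt.tendsto _).comp
    ((ENNReal.tendsto_toReal ENNReal.zero_ne_top).comp t2)
  rw [ENNReal.toReal_zero, Real.sqrt_zero] at t3
  refine t3.congr fun k => ?_
  simp only [Function.comp_apply, ENNReal.toReal_ofReal (sq_nonneg _), Real.sqrt_sq (h0 k)]

theorem TDe_lim (hI : GI n N) (hv : IsVol g μ) {u : ℕ → M → Fb N} {w : M → Fb N}
    (hu : ∀ k, MW g μ A ((𝓡∂ n).interior M) (u k) 0) (hw : MW g μ A ((𝓡∂ n).interior M) w 0)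
    (ht : Tendsto (fun k => ∫⁻ x in (𝓡∂ n).interior M, ENNReal.ofReal (‖u k x - w x‖ ^ 2) ∂μ)
      atTop (𝓝 0)) {x : M} (hx : x ∈ (𝓡∂ n).interior M) :
    Tendsto (fun k => u k x) atTop (𝓝 (w x)) := by
  obtain ⟨C, -, c⟩ := mw_point hI hv A isOpen_interior' Subset.rfl hx
  refine tendsto_iff_norm_sub_tendsto_zero.2 (TDe_sq (C := C) (fun _ => norm_nonneg _)
    (fun k => ?_) ht)
  have := c _ (mw_sub hv isOpen_interior' (hu k) hw)
  simp only [Pi.sub_apply] at this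
  exact this

theorem t_dens [ConnectedSpace M] (hn : 2 ≤ n) (hB : BD n N) (hX : GX2 n N) (hI : GI n N) (hF : GF n N)
    (hΓ : Patch (n := n) Γ) (d : Dat Γ g μ A S) : Dens Γ g μ A S := by
  intro q _
  obtain ⟨p, hp1, hq⟩ := hΓ.exists_ne hn q
  have he : Eqd Γ g μ A S g μ A S := fun _ _ _ _ => rfl
  obtain ⟨r₀, τ, θ, -, -, W, -, γ, -, h₀, -⟩ := hB M Γ g g μ μ A A S S hΓ d d he p hp1
  obtain ⟨r₁, a0, a1, a2⟩ := TDe_small h₀ (isOpen_compl_singleton.mem_nhds hq.symm)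
  have h₁ := h₀.shrink a0 a1.le
  obtain ⟨r, r0, r1, h, -, G, GB, GM, -, -, -, k, -⟩ := hX M Γ g g μ μ A A S S hΓ d d he p r₁
    τ θ τ θ W W γ γ h₁ h₁ (fun _ _ _ => rfl) fun _ _ => ⟨rfl, fun _ => rfl⟩
  have hq' : q ∉ xpt p τ '' hp n r := by
    rintro ⟨z, hz, e⟩
    exact a2 z (ball_subset_closedBall (ball_subset_ball r1 hz.1)) hz.2 e
  refine ⟨G, k.mg, fun y hy y' hy' ξ ξ' H => ?_⟩
  have hb : p ∉ (𝓡∂ n).interior M := by
    obtain ⟨O, -, e⟩ := hΓ.op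
    rw [e, ← (𝓡∂ n).compl_interior] at hp1
    exact hp1.2
  obtain ⟨ε, e0, e1, e2⟩ := TDe_small h (inter_mem
    (isOpen_compl_singleton.mem_nhds (show p ≠ y from fun e => hb (e ▸ hy)))
    (isOpen_compl_singleton.mem_nhds (show p ≠ y' from fun e => hb (e ▸ hy'))))
  have y1 : y ∉ xpt p τ '' (closedBall 0 ε ∩ {z | 0 ≤ z 0}) := by
    rintro ⟨z, hz, e⟩
    exact (e2 z hz.1 hz.2).1 e
  have y2 : y' ∉ xpt p τ '' (closedBall 0 ε ∩ {z | 0 ≤ z 0}) := by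
    rintro ⟨z, hz, e⟩
    exact (e2 z hz.1 hz.2).2 e
  obtain ⟨C, c⟩ := TDe_pt hI d.vol h k e1 hy y1
  obtain ⟨C', c'⟩ := TDe_pt hI d.vol h k e1 hy' y2
  have hs : ball (0 : Ec n) ε ⊆ ball 0 r := ball_subset_ball e1.le
  have nb : ∀ t : ℝ, |t| < ε → t • (bv 0 : Ec n) ∈ ball (0 : Ec n) ε := fun t ht => by
    simpa [bv, norm_smul] using ht
  have key := hF (ball 0 ε) (lo n ε) γ (fun F => inner ℂ ξ (GM F y) - inner ℂ ξ' (GM F y'))
    (2 * ‖ξ‖ ^ 2 * C + 2 * ‖ξ'‖ ^ 2 * C') isOpen_ball (convex_ball _ _).isPreconnected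
    (h.sm.sub hs) (isOpen_lo n ε) ⟨(-(ε / 2)) • bv 0, nb _ (by
      rw [abs_neg, abs_of_pos (half_pos e0)]; exact half_lt_self e0), by simpa [bv] using e0⟩
    inter_subset_left (fun F F' b b' => ?_) (fun t F b => ?_) (fun F b => ?_) (fun φ F b b' e => ?_)
    fun F b => ?_
  · refine ⟨xpt p τ '' up n ε, (h.shrink e0 e1.le).open_up, Set.Nonempty.image _ ⟨(ε / 2) • bv 0, nb _ (by
      rw [abs_of_pos (half_pos e0)]; exact half_lt_self e0), by simpa [bv] using e0⟩, ?_,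
      fun F b => ?_⟩
    · rintro _ ⟨z, hz, rfl⟩
      exact h.kap_int (GXt1_up e1.le hz)
    · obtain ⟨F', b1, rfl⟩ := TDe_lift h e0 e1.le b
      have b2 := k.upper F' (b1.mono (GXt1_up e1.le))
      rw [← b2 hy, ← b2 hy']
      exact sub_eq_zero.1 (key F' (b1.mono inter_subset_left))
  · have := k.add F F' (b.mono hs) (b'.mono hs)
    simp only [this hy, this hy', Pi.add_apply, inner_add_right]
    ring
  · have := k.smul t F (b.mono hs)
    simp only [this hy, this hy', Pi.smul_apply, inner_smul_right]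
    ring
  · have b1 := mul_le_mul_of_nonneg_left (c F b) (sq_nonneg ‖ξ‖)
    have b2 := mul_le_mul_of_nonneg_left (c' F b) (sq_nonneg ‖ξ'‖)
    have b3 : ‖inner ℂ ξ (GM F y) - inner ℂ ξ' (GM F y')‖ ≤ ‖ξ‖ * ‖GM F y‖ + ‖ξ'‖ * ‖GM F y'‖ :=
      (norm_sub_le _ _).trans (add_le_add (norm_inner_le_norm _ _) (norm_inner_le_norm _ _))
    have b4 := pow_le_pow_left₀ (norm_nonneg _) b3 2
    nlinarith [sq_nonneg (‖ξ‖ * ‖GM F y‖ - ‖ξ'‖ * ‖GM F y'‖)]
  · have := k.inv φ F (b.mono hs) (b'.mono hs) (e.ext isOpen_ball b b' _)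
    simp only [this hy, this hy', TDe_off h b y1, TDe_off h b y2, inner_zero_right, sub_self]
  · have b1 : ET (lo n r) F := b.mono (inter_subset_inter_left _ hs)
    obtain ⟨φ, f1, f2⟩ := k.dens F b1
    have f3 := k.sol F (b1.mono inter_subset_left)
    rw [GXt_lo h b1] at f3
    have f4 := fun j => isSol_mw (d.sol _ (h.xps_test (f1 j)))
    have f5 := (tendsto_const_nhds (x := ξ)).inner (𝕜 := ℂ) (TDe_lim hI d.vol f4 f3 f2 hy)
    have f6 := (tendsto_const_nhds (x := ξ')).inner (𝕜 := ℂ) (TDe_lim hI d.vol f4 f3 f2 hy')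
    exact sub_eq_zero.2 (tendsto_nhds_unique
      (f5.congr fun j => H _ (h.xps_test (f1 j)) (h.xps_zero _ hq')) f6)

end Vale.Agent.P088.Gl
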