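import Vale.Agent.P088F.TE2
import Vale.Agent.P088F.Geo2
import Vale.Agent.P088F.Ker1
import Vale.Agent.P088F.AGu

/-! P088: unique continuation for functionals. -/

open MeasureTheory Set Filter Metric Topology Matrix
open scoped ContDiff ENNReal

noncomputable section

namespace Vale.Agent.P088.Gl

variable {n N : ℕ} {Ω : Set (Ec n)} {γ : Geo n N} {u F : Ec n → Fb N}

/-- Test sections form a subspace. -/
def etSub (N : ℕ) (Ω : Set (Ec n)) : Submodule ℂ (Ec n → Fb N) where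
  carrier := {F | ET Ω F}
  add_mem' ha hb := ⟨ha.1.add hb.1, ha.2.1.add hb.2.1,
    (tsupport_add _ _).trans (union_subset ha.2.2 hb.2.2)⟩
  zero_mem' := ⟨contDiff_const, HasCompactSupport.zero, by simp⟩
  smul_mem' c F h := ⟨h.1.const_smul c, h.2.1.smul_left (f := fun _ => c),
    (tsupport_smul_subset_right (fun _ => c) F).trans h.2.2⟩

theorem ET.memLp (h : ET Ω F) : MemLp F 2 volume :=
  h.1.continuous.memLp_of_hasCompactSupport h.2.1

theorem zero_of_pair (hΩ : IsOpen Ω) (hγ : γ.Sm Ω) (hu : ContDiffOn ℝ ∞ u Ω)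
    (h : ∀ F, ET Ω F → γ.pair u F = 0) : EqOn u 0 Ω := by
  intro z hz
  obtain ⟨χ, c1, c2, c3, c4, c5⟩ := exists_cut (isCompact_singleton (x := z)) hΩ
    (singleton_subset_iff.2 hz)
  have h1 := h _ (et_cut hΩ c1 c2 c3 hu)
  have h2 : γ.pair u (fun z => χ z • u z) = ((∫ z, χ z • (γ.vol z * ‖u z‖ ^ 2) : ℝ) : ℂ) := by
    rw [← integral_complex_ofReal]
    refine integral_congr_ae (ae_of_all _ fun z => ?_)
    have e : inner ℂ (u z) (χ z • u z) = χ z • inner ℂ (u z) (u z) := inner_smul_real_right _ _ _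
    simp only [e, inner_self_eq_norm_sq_to_K, Complex.real_smul, smul_eq_mul]
    push_cast
    rw [mul_left_comm]
    rfl
  by_contra h0
  have h3 := (ET.cut hΩ c1 c3 (hγ.vol.mul (hu.norm_sq ℂ))).continuous
  have h4 := h3.integral_pos_of_hasCompactSupport_nonneg_nonzero (μ := volume) (x := z) c2.smul_right
    (fun y => mul_nonneg (c5 y).1 (mul_nonneg (Real.sqrt_nonneg _) (sq_nonneg _))) (by
      rw [(c4 z rfl).self_of_nhds, one_smul]
      exact mul_ne_zero (hγ.vol_pos hz).ne' (pow_ne_zero 2 (norm_ne_zero_iff.2 h0)))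
  rw [h2, Complex.ofReal_eq_zero] at h1
  exact h4.ne' h1

/-- Bounded functionals are given by a locally integrable kernel. -/
theorem exists_kernel (hΩ : IsOpen Ω) (hγ : γ.Sm Ω) (T : (Ec n → Fb N) → ℂ) (C : ℝ)
    (ha : ∀ F F', ET Ω F → ET Ω F' → T (F + F') = T F + T F')
    (hs : ∀ (c : ℂ) F, ET Ω F → T (c • F) = c * T F)
    (hb : ∀ F, ET Ω F → ‖T F‖ ^ 2 ≤ C * ∫ z, ‖F z‖ ^ 2) :
    ∃ k : Ec n → Fb N, LocallyIntegrableOn k Ω ∧ ∀ F, ET Ω F → T F = γ.pair k F := by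
  let j : etSub N Ω →ₗ[ℂ] Lp (Fb N) 2 (volume : Measure (Ec n)) :=
    { toFun := fun F => (ET.memLp F.2).toLp F.1
      map_add' := fun F F' => MemLp.toLp_add (ET.memLp F.2) (ET.memLp F'.2)
      map_smul' := fun c F => MemLp.toLp_const_smul c (ET.memLp F.2) }
  let T' : etSub N Ω →ₗ[ℂ] ℂ :=
    { toFun := fun F => T F.1
      map_add' := fun F F' => ha _ _ F.2 F'.2
      map_smul' := fun c F => hs c _ F.2 }
  have hj : ∀ F : etSub N Ω, (j F : Ec n → Fb N) =ᵐ[volume] F.1 := fun F =>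
    MemLp.coeFn_toLp (ET.memLp F.2)
  obtain ⟨k, -, hk⟩ := P088F.riesz j T' (Real.sqrt_nonneg C) fun F => by
    have e : ∫ z, ‖F.1 z‖ ^ 2 = ‖j F‖ ^ 2 := by
      rw [@norm_sq_eq_re_inner ℂ, L2.inner_def, ← integral_re (L2.integrable_inner _ _)]
      refine integral_congr_ae ?_
      filter_upwards [hj F] with z hz
      rw [hz, @norm_sq_eq_re_inner ℂ]
    refine (Real.le_sqrt_of_sq_le ((hb _ F.2).trans_eq (by rw [e]))).trans_eq ?_
    rw [Real.sqrt_mul' _ (sq_nonneg _), Real.sqrt_sq (norm_nonneg _)]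
  refine ⟨fun z => (γ.vol z)⁻¹ • k z, ?_, fun F hF => ?_⟩
  · exact (((Lp.memLp k).locallyIntegrable one_le_two).locallyIntegrableOn Ω).continuousOn_smul
      hΩ.isLocallyClosed (hγ.vol.continuousOn.inv₀ fun z hz => (hγ.vol_pos hz).ne')
  · refine (hk ⟨F, hF⟩).trans ?_
    rw [L2.inner_def]
    refine integral_congr_ae ?_
    filter_upwards [hj ⟨F, hF⟩] with z hz
    rw [hz]
    by_cases h : z ∈ Ω
    · have e : inner ℂ ((γ.vol z)⁻¹ • k z) (F z) = (γ.vol z)⁻¹ • inner ℂ (k z) (F z) :=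
        inner_smul_real_left _ _ _
      simp only [e, smul_smul, mul_inv_cancel₀ (hγ.vol_pos h).ne', one_smul]
    · simp only [image_eq_zero_of_notMem_tsupport fun a => h (hF.2.2 a), inner_zero_right, smul_zero]

theorem pair_congr_ae {k : Ec n → Fb N} (h : ∀ᵐ z, z ∈ Ω → k z = u z) (hF : ET Ω F) :
    γ.pair k F = γ.pair u F := by
  refine integral_congr_ae ?_
  filter_upwards [h] with z hz
  by_cases a : z ∈ Ω
  · rw [hz a]
  · simp only [image_eq_zero_of_notMem_tsupport fun b => a (hF.2.2 b), inner_zero_right]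

theorem gf (n N : ℕ) : GF n N := by
  intro Ω Ω' γ T C hΩ hc hγ hΩ' hne hs ha hm hb h1 h2 F hF
  obtain ⟨k, k1, k2⟩ := exists_kernel hΩ hγ T C ha hm hb
  obtain ⟨u, u1, u2⟩ := gR Ω γ k hΩ hγ k1 fun φ F a b c => (k2 F b).symm.trans (h1 φ F a b c)
  have u3 := gu n N Ω Ω' γ u hΩ hc hγ u1 hΩ' hne hs (zero_of_pair hΩ' (hγ.sub hs) (u1.1.mono hs)
    fun F a => ((pair_congr_ae u2 (a.mono hs)).symm.trans (k2 F (a.mono hs)).symm).trans (h2 F a))
  rw [k2 F hF, pair_congr_ae u2 hF, γ.pair_congr_left (u' := 0) fun z hz => u3 (hF.2.2 hz)]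
  simp [Geo.pair]

end Vale.Agent.P088.Gl
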