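import Vale.Agent.P088F.TStep
import Vale.Agent.P088F.TM4

/-! P088 T: the global matching of the interiors.
Hints: D = union of all matched sets; Φ, U on D by choice, they agree with every local matching by
srel_unique; iso_glue; limits along D by compactness of M × unitary (closed ball of Op N,
IsCompact.tendsto_nhds_of_unique_mapClusterPt), srel_int, srel_unique; touching ball from
IsClosed.exists_infDist_eq_dist in the chart; mat_step; conn_int with the empty set. -/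

open MeasureTheory Set Filter Bundle Metric Topology Matrix
open scoped Manifold ContDiff ENNReal

noncomputable section

namespace Vale.Agent.P088.Gl

variable {n N : ℕ} {H : Type} [TopologicalSpace H] {I : ModelWithCorners ℝ (Ec n) H}
  {M : Type} [TopologicalSpace M] [ChartedSpace H M] [IsManifold I ∞ M] [T2Space M] [CompactSpace M]
  {g g₁ g₂ : Met I M} {A A₁ A₂ : Conn I M N} {p q x : M} {O O' Γ : Set M} {Φ Φ' : M → M}
  {U U' : M → Op N} {u w F : M → Fb N} {G G₁ G₂ S S₁ S₂ : (M → Fb N) → M → Fb N}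
  {Ω : Set (Ec n)} {z : Ec n}

theorem TGl_one (hn : 1 ≤ n) (r : Run I Γ S) (hq : q ∈ I.boundary M) (hx : x ∈ I.interior M)
    {ξ : Fb N} (h : ∀ f, IsTest I Γ f → f q = 0 → inner ℂ ξ (S f x) = 0) : ξ = 0 := by
  obtain ⟨y, -, hy, h1⟩ := exists_int_ne (I := I) hn isOpen_univ ⟨x, trivial⟩ (finite_singleton x)
  exact r q hq x hx y hy (fun e => h1 e.symm) ξ 0 fun f hf h0 => by rw [h f hf h0, inner_zero_left]

theorem TGl_ne (hN : 1 ≤ N) : ∃ ξ : Fb N, ξ ≠ 0 :=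
  ⟨EuclideanSpace.single ⟨0, hN⟩ 1, fun h => by simpa using congrArg (fun v : Fb N => v ⟨0, hN⟩) h⟩

theorem srel_unique (hn : 1 ≤ n) (hN : 1 ≤ N) (hq : q ∈ I.boundary M) (r₁ : Run I Γ S₁)
    (r₂ : Run I Γ S₂) {y y' : M} {V V' : Op N} (hx : x ∈ I.interior M) (hy : y ∈ I.interior M)
    (hy' : y' ∈ I.interior M) (hV : V ∈ unitary (Op N)) (hV' : V' ∈ unitary (Op N))
    (h : SRel I Γ S₁ S₂ x y V) (h' : SRel I Γ S₁ S₂ x y' V') : y = y' ∧ V = V' := by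
  have h1 : y = y' := by
    by_contra hne
    obtain ⟨ξ, hξ⟩ := TGl_ne hN
    exact hξ (r₁ q hq y hy y' hy' hne ξ (V' (star V ξ)) fun f hf _ => by
      rw [h f hf, h' f hf, uni_inner hV', uni_adj])
  refine ⟨h1, star_injective (ContinuousLinearMap.ext fun ξ => sub_eq_zero.1
    (TGl_one hn r₂ hq hx fun f hf _ => ?_))⟩
  rw [inner_sub_left, ← uni_adj, ← uni_adj, ← h f hf, ← h' f hf, h1, sub_self]

omit [IsManifold I ∞ M] [T2Space M] [CompactSpace M] in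
theorem srel_symm {y : M} {V : Op N} (hV : V ∈ unitary (Op N)) (h : SRel I Γ S₁ S₂ x y V) :
    SRel I Γ S₂ S₁ y x (star V) := fun f hf => by rw [h f hf, uni_left hV]

variable [MeasurableSpace M] [BorelSpace M] {μ μ₁ μ₂ : Measure M}

omit [BorelSpace M] in
theorem srel_int (hn : 1 ≤ n) (hN : 1 ≤ N) (d₁ : Dat Γ g₁ μ₁ A₁ S₁) (r₂ : Run I Γ S₂) {y : M}
    {V : Op N} (hx : x ∈ I.interior M) (hV : V ∈ unitary (Op N)) (h : SRel I Γ S₁ S₂ x y V) :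
    y ∈ I.interior M := by
  by_contra hy
  have hb : y ∈ I.boundary M := by rwa [← ModelWithCorners.compl_interior]
  obtain ⟨ξ, hξ⟩ := TGl_ne hN
  refine hξ (TGl_one hn r₂ hb hx fun f hf h0 => ?_)
  rw [srel_symm hV h f hf, (d₁.sol f hf).bd hb, h0, map_zero, inner_zero_right]

omit [BorelSpace M] in
theorem TGl_lim (hn : 1 ≤ n) (hN : 1 ≤ N) (hq : q ∈ I.boundary M) (d₁ : Dat Γ g₁ μ₁ A₁ S₁)
    (d₂ : Dat Γ g₂ μ₂ A₂ S₂) (r₁ : Run I Γ S₁) (r₂ : Run I Γ S₂)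
    (hu : ∀ x ∈ O, U x ∈ unitary (Op N)) (hS : ∀ x ∈ O, SRel I Γ S₁ S₂ x (Φ x) (U x))
    (hx : x ∈ I.interior M) (hc : x ∈ closure O) : ∃ y ∈ I.interior M, ∃ V,
      Tendsto Φ (𝓝[O] x) (𝓝 y) ∧ Tendsto U (𝓝[O] x) (𝓝 V) := by
  have := mem_closure_iff_nhdsWithin_neBot.1 hc
  have := FiniteDimensional.proper_rclike ℂ (Op N)
  have hK : IsCompact ((univ : Set M) ×ˢ closedBall (0 : Op N) 1) :=
    isCompact_univ.prod (isCompact_closedBall _ _)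
  have hm : ∀ᶠ a in 𝓝[O] x, (Φ a, U a) ∈ (univ : Set M) ×ˢ closedBall (0 : Op N) 1 :=
    mem_of_superset self_mem_nhdsWithin fun a ha => ⟨trivial, mem_closedBall_zero_iff.2
      (ContinuousLinearMap.opNorm_le_bound _ zero_le_one fun v => by
        rw [uni_norm (hu a ha), one_mul])⟩
  have key : ∀ b : M × Op N, MapClusterPt b (𝓝[O] x) (fun a => (Φ a, U a)) →
      b.2 ∈ unitary (Op N) ∧ SRel I Γ S₁ S₂ x b.1 b.2 := fun b hb => by
    obtain ⟨l, l1, l2⟩ := mapClusterPt_iff_ultrafilter.1 hb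
    have l3 : ∀ᶠ a in (l : Filter M), a ∈ O := l1 self_mem_nhdsWithin
    have l4 := (continuous_fst.tendsto b).comp l2
    have l5 : Tendsto U l (𝓝 b.2) := (continuous_snd.tendsto b).comp l2
    have l6 : Tendsto (fun a => a) l (𝓝 x) := l1.trans nhdsWithin_le_nhds
    have l7 : Tendsto (fun a => star (U a)) l (𝓝 (star b.2)) :=
      ((ContinuousLinearMap.adjoint (𝕜 := ℂ) (E := Fb N) (F := Fb N)).continuous.tendsto _).comp l5
    refine ⟨⟨tendsto_nhds_unique (l7.mul l5) (tendsto_const_nhds.congr'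
      (l3.mono fun a ha => (hu a ha).1.symm)), tendsto_nhds_unique (l5.mul l7)
      (tendsto_const_nhds.congr' (l3.mono fun a ha => (hu a ha).2.symm))⟩, fun f hf => ?_⟩
    refine tendsto_nhds_unique (((d₁.sol f hf).smooth.continuous.tendsto _).comp l4)
      (Tendsto.congr' (l3.mono fun a ha => (hS a ha f hf).symm) ?_)
    exact ((isBoundedBilinearMap_apply (𝕜 := ℂ)).continuous.tendsto (b.2, S₂ f x)).comp
      (l5.prodMk_nhds (((d₂.sol f hf).smooth.continuous.tendsto _).comp l6))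
  obtain ⟨b, -, hb⟩ := hK.exists_clusterPt (f := map (fun a => (Φ a, U a)) (𝓝[O] x))
    (le_principal_iff.2 hm)
  obtain ⟨k1, k2⟩ := key b hb
  have k3 := srel_int hn hN d₁ r₂ hx k1 k2
  have ht := hK.tendsto_nhds_of_unique_mapClusterPt (y := b) hm fun b' _ hb' => by
    obtain ⟨j1, j2⟩ := key b' hb'
    exact Prod.ext_iff.2 (srel_unique hn hN hq r₁ r₂ hx (srel_int hn hN d₁ r₂ hx j1 j2) k3 j1 k1 j2 k2)
  exact ⟨b.1, k3, b.2, (continuous_fst.tendsto b).comp ht, (continuous_snd.tendsto b).comp ht⟩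

theorem mat_global [ConnectedSpace M] (hn : 2 ≤ n) (hN : 1 ≤ N) (hL : LC n N) (hU : GU n N)
    (hq : q ∈ I.boundary M) (d₁ : Dat Γ g₁ μ₁ A₁ S₁) (d₂ : Dat Γ g₂ μ₂ A₂ S₂) (r₁ : Run I Γ S₁)
    (r₂ : Run I Γ S₂) (m₁ : MG g₁ μ₁ A₁ G₁) (m₂ : MG g₂ μ₂ A₂ G₂) (hne : O.Nonempty)
    (h : Mat Γ g₁ A₁ S₁ G₁ g₂ A₂ S₂ G₂ O Φ U) : ∃ Φ U, Iso g₁ A₁ g₂ A₂ (I.interior M) Φ U ∧
      ∀ x ∈ I.interior M, SRel I Γ S₁ S₂ x (Φ x) (U x) := by
  have n1 : 1 ≤ n := by omega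
  have e : ∀ x : M, ∃ (y : M) (V : Op N), ∀ O Φ U, Mat Γ g₁ A₁ S₁ G₁ g₂ A₂ S₂ G₂ O Φ U → x ∈ O →
      y = Φ x ∧ V = U x := fun x => by
    by_cases hx : ∃ O Φ U, Mat Γ g₁ A₁ S₁ G₁ g₂ A₂ S₂ G₂ O Φ U ∧ x ∈ O
    · obtain ⟨O, Φ, U, h, hx⟩ := hx
      exact ⟨Φ x, U x, fun O' Φ' U' h' hx' => srel_unique n1 hN hq r₁ r₂ (h.iso.int hx)
        (h.iso.mp hx) (h'.iso.mp hx') (h.iso.uni x hx) (h'.iso.uni x hx') (h.sol x hx) (h'.sol x hx')⟩
    · exact ⟨x, 1, fun O Φ U h h1 => (hx ⟨O, Φ, U, h, h1⟩).elim⟩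
  choose Ψ V e using e
  obtain ⟨D, hD⟩ : ∃ D : Set M, ∀ x, x ∈ D ↔
      ∃ O Φ U, Mat Γ g₁ A₁ S₁ G₁ g₂ A₂ S₂ G₂ O Φ U ∧ x ∈ O := ⟨Set.ofPred _, fun _ => Iff.rfl⟩
  have o1 : IsOpen D := isOpen_iff_forall_mem_open.2 fun x hx => by
    obtain ⟨O, Φ, U, h, hx⟩ := (hD x).1 hx
    exact ⟨O, fun y hy => (hD y).2 ⟨O, Φ, U, h, hy⟩, h.iso.op, hx⟩
  have k : ∀ x ∈ D, x ∈ I.interior M ∧ Ψ x ∈ I.interior M ∧ V x ∈ unitary (Op N) ∧
      SRel I Γ S₁ S₂ x (Ψ x) (V x) := fun x hx => by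
    obtain ⟨O, Φ, U, h, hx⟩ := (hD x).1 hx
    rw [(e x O Φ U h hx).1, (e x O Φ U h hx).2]
    exact ⟨h.iso.int hx, h.iso.mp hx, h.iso.uni x hx, h.sol x hx⟩
  have i1 : Iso g₁ A₁ g₂ A₂ D Ψ V := by
    refine iso_glue o1 (fun x hx x' hx' h1 => ?_) fun x hx => ?_
    · obtain ⟨a1, a2, a3, a4⟩ := k x hx
      obtain ⟨b1, -, b3, b4⟩ := k x' hx'
      exact (srel_unique n1 hN hq r₂ r₁ a2 a1 b1 (Unitary.star_mem a3) (Unitary.star_mem b3)
        (srel_symm a3 a4) (h1 ▸ srel_symm b3 b4)).1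
    · obtain ⟨O, Φ, U, h, hx⟩ := (hD x).1 hx
      exact ⟨O, Φ, U, h.iso, hx, fun y hy => e y O Φ U h hy⟩
  have hG : ∀ x ∈ D, ∃ O', IsOpen O' ∧ x ∈ O' ∧ O' ⊆ D ∧ GRel I O' G₁ G₂ Ψ V := fun x hx => by
    obtain ⟨O, Φ, U, h, hx⟩ := (hD x).1 hx
    exact ⟨O, h.iso.op, hx, fun y hy => (hD y).2 ⟨O, Φ, U, h, hy⟩,
      grel_congr h.grn fun y hy => e y O Φ U h hy⟩
  have hc := conn_int (I := I) (M := M) hn finite_empty
  rw [Set.sdiff_empty] at hc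
  have hs : I.interior M ⊆ D := by
    refine hc.subset_of_closure_inter_subset o1
      (hne.mono fun x hx => ⟨h.iso.int hx, (hD x).2 ⟨O, Φ, U, h, hx⟩⟩) fun p hp => ?_
    by_contra hpD
    obtain ⟨ρ, hρ, b1⟩ := Metric.isOpen_iff.1 (isOpen_cd I p) _
      ((cd_iff (mem_extChartAt_source p)).2 hp.2)
    obtain ⟨x, ⟨x1, x2⟩, x3⟩ := mem_closure_iff_nhds.1 hp.1 _ (ball_nhds (I := I) p (half_pos hρ))
    have o2 := cd_pre_open (I := I) o1 p
    have c0 : extChartAt I p p ∈ (cd I p ∩ (extChartAt I p).symm ⁻¹' D)ᶜ := fun h1 =>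
      hpD (by simpa only [mem_preimage, extChartAt_to_inv] using h1.2)
    have c1 : extChartAt I p x ∈ cd I p ∩ (extChartAt I p).symm ⁻¹' D :=
      ⟨b1 (ball_subset_ball (half_le_self hρ.le) x2), by
        rwa [mem_preimage, (extChartAt I p).left_inv x1]⟩
    obtain ⟨z, z1, z2⟩ := o2.isClosed_compl.exists_infDist_eq_dist ⟨_, c0⟩ (extChartAt I p x)
    have z3 : 0 < dist z (extChartAt I p x) := dist_pos.2 fun h1 => z1 (h1 ▸ c1)
    have z4 : ball (extChartAt I p x) (dist z (extChartAt I p x)) ⊆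
        cd I p ∩ (extChartAt I p).symm ⁻¹' D := by
      rw [dist_comm, ← z2]
      exact ball_infDist_compl_subset
    have z5 : z ∈ cd I p := b1 (by
      have h1 := infDist_le_dist_of_mem (x := extChartAt I p x) c0
      have h2 := dist_triangle z (extChartAt I p x) (extChartAt I p p)
      have h3 := mem_ball.1 x2
      rw [z2, dist_comm] at h1
      rw [mem_ball]
      linarith)
    have z6 : (extChartAt I p).symm z ∈ closure D :=
      (symm_contAt z5).continuousWithinAt.mem_closure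
        (by rw [closure_ball _ z3.ne']; exact mem_closedBall.2 le_rfl) fun a ha => (z4 ha).2
    obtain ⟨y, hy, W, t1, t2⟩ := TGl_lim n1 hN hq d₁ d₂ r₁ r₂ i1.uni (fun x hx => (k x hx).2.2.2)
      (symm_interior z5) z6
    obtain ⟨O', Φ', U', h1, h2⟩ := mat_step hL hU d₁ d₂ m₁ m₂ i1 (fun x hx => (k x hx).2.2.2) hG z3
      (fun a ha => (z4 ha).1) (fun a ha => (z4 ha).2) z5 rfl hy t1 t2
    exact z1 ⟨z5, (hD _).2 ⟨O', Φ', U', h1, h2⟩⟩
  exact ⟨Ψ, V, iso_mono i1 isOpen_interior' hs, fun x hx => (k x (hs hx)).2.2.2⟩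

end Vale.Agent.P088.Gl
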