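import Vale.Agent.P088F.TB0
import Vale.Agent.P088F.GXf

/-! P088 T: charts, test sections, boundary solutions.
Hints: TC1, TC2 (cd_iff, symm_interior, pl_contDiffOn, vol_integral, vol_lintegral applied to
indicator functions). isSol_form: IsSol.test, form_re, applied to w and to I • w.
mw_sub: the density against a test is continuous on M (read it in charts, or multiply u by a cutoff
equal to one near the support of the test and use ctr_cont, IsVol.int). -/

open MeasureTheory Set Filter Bundle Metric Topology Matrix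
open scoped Manifold ContDiff ENNReal

noncomputable section

namespace Vale.Agent.P088.Gl

variable {n N : ℕ} {H : Type} [TopologicalSpace H] {I : ModelWithCorners ℝ (Ec n) H}
  {M : Type} [TopologicalSpace M] [ChartedSpace H M] [IsManifold I ∞ M] [T2Space M] [CompactSpace M]
  {g g₁ g₂ : Met I M} {A A₁ A₂ : Conn I M N} {p q x : M} {O O' Γ : Set M} {Φ Φ' : M → M}
  {U U' : M → Op N} {u w F : M → Fb N} {G G₁ G₂ S S₁ S₂ : (M → Fb N) → M → Fb N}
  {Ω : Set (Ec n)} {z : Ec n}

theorem cd_image_open (hΩ : IsOpen Ω) (h : Ω ⊆ cd I p) : IsOpen ((extChartAt I p).symm '' Ω) := by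
  rw [(extChartAt I p).symm_image_eq_source_inter_preimage (h.trans (cd_sub I p))]
  exact isOpen_extChartAt_preimage' p hΩ

theorem cd_pre_open (hO : IsOpen O) (p : M) : IsOpen (cd I p ∩ (extChartAt I p).symm ⁻¹' O) :=
  ((continuousOn_extChartAt_symm p).mono (cd_sub I p)).isOpen_inter_preimage (isOpen_cd I p) hO

theorem pl_test (hΩ : IsOpen Ω) (h : Ω ⊆ cd I p) (hF : MT I ((extChartAt I p).symm '' Ω) F) :
    ET Ω (Ω.indicator (pl I p F)) ∧ ps I p (Ω.indicator (pl I p F)) = F := by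
  have ht := h.trans (cd_sub I p)
  have h1 := hF.2
  rw [(extChartAt I p).symm_image_eq_source_inter_preimage ht] at h1
  have hK : IsCompact (extChartAt I p '' tsupport F) :=
    (isClosed_tsupport F).isCompact.image_of_continuousOn
      ((continuousOn_extChartAt p).mono (h1.trans inter_subset_left))
  have h2 : tsupport (Ω.indicator (pl I p F)) ⊆ extChartAt I p '' tsupport F :=
    closure_minimal (fun z hz => by
      rw [support_indicator] at hz
      exact ⟨_, subset_tsupport F hz.2, (extChartAt I p).right_inv (ht hz.1)⟩) hK.isClosed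
  have h3 : tsupport (Ω.indicator (pl I p F)) ⊆ Ω := h2.trans (by
    rintro _ ⟨x, hx, rfl⟩
    exact (h1 hx).2)
  refine ⟨⟨contDiff_iff_contDiffAt.2 fun z => ?_, hK.of_isClosed_subset (isClosed_tsupport _) h2, h3⟩,
    funext fun x => ?_⟩
  · by_cases hz : z ∈ Ω
    · exact ((pl_contDiffOn (O := univ) hF.1.contMDiffOn ht (mapsTo_univ _ _)).contDiffAt
        (hΩ.mem_nhds hz)).congr_of_eventuallyEq
        (mem_of_superset (hΩ.mem_nhds hz) fun y hy => indicator_of_mem hy _)
    · exact contDiffAt_const.congr_of_eventuallyEq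
        (notMem_tsupport_iff_eventuallyEq.1 fun h4 => hz (h3 h4))
  · by_cases hx : x ∈ (extChartAt I p).source
    · rw [ps_of_mem _ hx]
      by_cases h4 : extChartAt I p x ∈ Ω
      · rw [indicator_of_mem h4, pl, (extChartAt I p).left_inv hx]
      · rw [indicator_of_notMem h4, image_eq_zero_of_notMem_tsupport fun h5 => h4 (h1 h5).2]
    · rw [ps_of_notMem _ hx, image_eq_zero_of_notMem_tsupport fun h5 => hx (h1 h5).1]

theorem mt_add {F' : M → Fb N} (h : MT I O F) (h' : MT I O F') : MT I O (F + F') :=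
  ⟨h.1.add h'.1, (tsupport_add _ _).trans (union_subset h.2 h'.2)⟩

theorem t_mden_nonneg (g : Met I M) (A : Conn I M N) (u : M → Fb N) (x : M) :
    0 ≤ (mden g A u u x).re := by
  have e : (mden g A u u x).re = en g (cov A u) (cov A u) x := by
    simp only [mden, en, ipm, Complex.re_sum, Complex.smul_re, re_inner, smul_eq_mul]
  exact e ▸ ipm_nonneg (gi_pos g x) _

theorem TM1_cut {K : Set M} (hK : IsClosed K) (hO : IsOpen O) (hs : K ⊆ O) : ∃ χ : M → ℝ,
    (∀ u : M → Fb N, ContMDiffOn I 𝓘(ℝ, Fb N) ∞ u O → ContMDiff I 𝓘(ℝ, Fb N) ∞ fun x => χ x • u x) ∧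
      ∀ x ∈ K, ∀ᶠ y in 𝓝 x, χ y = 1 := by
  obtain ⟨f, h0, h1, -⟩ := exists_contMDiffMap_zero_one_nhds_of_isClosed I (n := ⊤)
    hO.isClosed_compl hK (Set.disjoint_left.2 fun x hx hx' => hx (hs hx'))
  refine ⟨f, fun u hu => contMDiff_of_tsupport fun x hx => f.contMDiff.contMDiffAt.smul
    (hu.contMDiffAt (hO.mem_nhds (by_contra fun hx' => ?_))),
    fun x hx => h1.filter_mono (nhds_le_nhdsSet hx)⟩
  exact notMem_tsupport_iff_eventuallyEq.2 (h0.filter_mono (nhds_le_nhdsSet hx'))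
    (tsupport_smul_subset_left f u hx)

variable [MeasurableSpace M] [BorelSpace M] {μ μ₁ μ₂ : Measure M}

theorem int_chart (hv : IsVol g μ) (A : Conn I M N) (f : M → ℂ) {s : Set (Ec n)}
    (hs : MeasurableSet s) (h1 : s ⊆ (extChartAt I p).target) :
    ∫ x in (extChartAt I p).symm '' s, f x ∂μ =
      ∫ z in s, (cg g A p).vol z • f ((extChartAt I p).symm z) := by
  have h2 : MeasurableSet ((extChartAt I p).symm '' s) := hs.image_of_continuousOn_injOn
    ((continuousOn_extChartAt_symm p).mono h1) ((extChartAt I p).symm.injOn.mono h1)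
  have h3 : (extChartAt I p).symm '' s ⊆ (extChartAt I p).source := by
    rintro _ ⟨z, hz, rfl⟩
    exact (extChartAt I p).map_target (h1 hz)
  rw [← inter_eq_right.2 h3, ← setIntegral_indicator h2, vol_integral hv, ← inter_eq_right.2 h1,
    ← setIntegral_indicator hs, inter_eq_right.2 h1]
  refine setIntegral_congr_fun (target_meas p) fun z hz => ?_
  by_cases h4 : z ∈ s
  · rw [indicator_of_mem h4, indicator_of_mem (mem_image_of_mem _ h4)]
    rfl
  · rw [indicator_of_notMem h4, indicator_of_notMem, smul_zero]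
    rintro ⟨y, hy, e⟩
    exact h4 ((extChartAt I p).symm.injOn (h1 hy) hz e ▸ hy)

theorem norm_ps_le (hv : IsVol g μ) {K : Set (Ec n)} (hK : IsCompact K) (h : K ⊆ cd I p) :
    ∃ C : ℝ, 0 ≤ C ∧ ∀ F : Ec n → Fb N, ET K F → ∫ x, ‖ps I p F x‖ ^ 2 ∂μ ≤ C * ∫ z, ‖F z‖ ^ 2 := by
  obtain ⟨C, hC⟩ := hK.exists_bound_of_continuousOn ((dens_cont g p).mono (h.trans (cd_sub I p)))
  refine ⟨|C|, abs_nonneg C, fun F hF => ?_⟩
  have hi : Integrable fun z => |C| * ‖F z‖ ^ 2 :=
    ((hF.1.continuous.norm.pow 2).integrable_of_hasCompactSupport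
      (hF.2.1.mono fun z hz h0 => hz (by simp [h0]))).const_mul _
  have h2 : ∀ x ∉ (extChartAt I p).source, ‖ps I p F x‖ ^ 2 = 0 := fun x hx => by
    rw [ps_of_notMem _ hx, norm_zero, zero_pow two_ne_zero]
  have h3 : ∀ z ∈ (extChartAt I p).target,
      √(gm g p z).det • ‖ps I p F ((extChartAt I p).symm z)‖ ^ 2 ≤ |C| * ‖F z‖ ^ 2 := fun z hz => by
    rw [show ps I p F ((extChartAt I p).symm z) = F z from pl_ps F hz, smul_eq_mul]
    by_cases h1 : z ∈ K
    · exact mul_le_mul_of_nonneg_right ((le_abs_self _).trans ((hC z h1).trans (le_abs_self C)))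
        (sq_nonneg _)
    · rw [et_zero hF h1, norm_zero, zero_pow two_ne_zero, mul_zero, mul_zero]
  rw [← setIntegral_eq_integral_of_forall_compl_eq_zero h2, vol_integral hv, ← integral_const_mul]
  exact (integral_mono_of_nonneg (.of_forall fun z => smul_nonneg (Real.sqrt_nonneg _) (sq_nonneg _))
    hi.integrableOn ((ae_restrict_mem (target_meas p)).mono h3)).trans
    (setIntegral_le_integral hi (.of_forall fun z => mul_nonneg (abs_nonneg _) (sq_nonneg _)))

theorem isSol_mw {f : M → Fb N} (h : IsSol g μ A f u) : MW g μ A (I.interior M) u 0 :=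
  ⟨h.smooth.contMDiffOn, fun ζ hζ => by simp [h.eq ζ hζ.1 hζ.2]⟩

theorem isSol_chart (hv : IsVol g μ) {f : M → Fb N} (h : IsSol g μ A f u) (p : M) :
    EW (cd I p) (cg g A p) (pl I p u) 0 :=
  (isSol_mw h).ewi hv subset_rfl

theorem isSol_form (hv : IsVol g μ) {f : M → Fb N} (h : IsSol g μ A f u)
    (hw : ContMDiff I 𝓘(ℝ, Fb N) ∞ w) {w' : M → Fb N} (hw' : ContMDiff I 𝓘(ℝ, Fb N) ∞ w')
    (h0 : EqOn w w' (I.boundary M)) : form g μ A u w = form g μ A u w' := by
  have hζ : ContMDiff I 𝓘(ℝ, Fb N) ∞ (w - w') := hw.sub hw'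
  have hζ' : ContMDiff I 𝓘(ℝ, Fb N) ∞ (Complex.I • (w - w')) :=
    ((Complex.I • ContinuousLinearMap.id ℂ (Fb N)).restrictScalars ℝ).contDiff.comp_contMDiff hζ
  have h1 := (form_re hv h.smooth hζ).trans (h.test hv hζ fun x hx => sub_eq_zero.2 (h0 hx))
  have h2 := (form_re hv h.smooth hζ').trans (h.test hv hζ' fun x hx => by simp [h0 hx])
  rw [← GXf_conj, GXf_smul hζ, map_mul, GXf_conj] at h2
  have h3 : form g μ A u (w - w') = 0 := Complex.ext h1 (by simpa using h2)
  have h4 := GXf_add (A := A) hv hζ hw' h.smooth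
  rw [sub_add_cancel, ← GXf_conj g μ A (w - w'), h3, map_zero, zero_add] at h4
  rw [← GXf_conj, h4, GXf_conj]

theorem mw_mono (h : MW g μ A O u F) (h1 : O' ⊆ O) (h2 : EqOn F 0 O') : MW g μ A O' u 0 := by
  refine ⟨h.1.mono h1, fun ζ hζ => (h.2 ζ ⟨hζ.1, hζ.2.trans h1⟩).trans
    (integral_congr_ae (.of_forall fun x => ?_))⟩
  by_cases hx : x ∈ O'
  · simp only [h2 hx]
  · simp only [image_eq_zero_of_notMem_tsupport fun h3 => hx (hζ.2 h3), inner_zero_right]

theorem mw_sub (hv : IsVol g μ) (hO : IsOpen O) {u' : M → Fb N} (h : MW g μ A O u 0)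
    (h' : MW g μ A O u' 0) : MW g μ A O (u - u') 0 := by
  refine ⟨h.1.sub h'.1, fun ζ hζ => ?_⟩
  obtain ⟨χ, h1, h2⟩ := TM1_cut (I := I) (N := N) (isClosed_tsupport ζ) hO hζ.2
  have e : ∀ v : M → Fb N, form g μ A v ζ = form g μ A (fun x => χ x • v x) ζ := fun v =>
    GXf_congr fun x hx => (h2 x hx).mono fun y hy => by simp only [hy, one_smul]
  have h3 := GXf_add (A := A) hv (h1 _ (h.1.sub h'.1)) (h1 _ h'.1) hζ.1
  have e1 : ((fun x => χ x • (u x - u' x)) + fun x => χ x • u' x) = fun x => χ x • u x :=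
    funext fun x => by simp only [Pi.add_apply, smul_sub, sub_add_cancel]
  rw [e1, ← e u, ← e u', h.2 ζ hζ, h'.2 ζ hζ] at h3
  rw [e]
  simpa using h3.symm

end Vale.Agent.P088.Gl
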