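import Vale.Agent.P088F.TX1
import Vale.Agent.P088F.GXt2
import Vale.Agent.P088F.TI
import Vale.Agent.P088F.TM1
import Vale.Agent.P088F.TCU

/-! P088 T: the boundary solutions correspond near the boundary point.
Hints: w = epull Ψ V (xpl p τ₁ W₁ (S₁ f)) - xpl p τ₂ W₂ (S₂ f) on hp n ε, cucp for γ₂ on
ball 0 ε. For a test ζ on ball 0 ε take ζ₁ from ti_push (a test on ball 0 r, equal to ζ on
the hyperplane), h_i = xps of ζ_i; h₁ = h₂ on the boundary of M; form (S_i f) h_i = form (S_i f) (S_i h₂)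
by isSol_form; XP.form_xps (GXt2), XP.xps_bd (GXt1), xpl_smooth (TX1), t_den_sub; Ψ '' up n ε = Ψ '' ball 0 ε ∩ up n r; ti_integral, ti_den. -/

open MeasureTheory Set Filter Bundle Metric Topology Matrix
open scoped Manifold ContDiff ENNReal

noncomputable section

namespace Vale.Agent.P088.Gl

variable {n N : ℕ} [NeZero n] {M : Type} [TopologicalSpace M]
  [ChartedSpace (EuclideanHalfSpace n) M] [IsManifold (𝓡∂ n) ∞ M] [T2Space M] [CompactSpace M]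
  {g g₁ g₂ : Met (𝓡∂ n) M} {A A₁ A₂ : Conn (𝓡∂ n) M N} {p q : M} {Γ : Set M} {r : ℝ}
  {τ θ τ₁ θ₁ τ₂ θ₂ : Ec n → Ec n} {W W₁ W₂ : Ec n → Op N} {γ γ₁ γ₂ : Geo n N}
  {S S₁ S₂ : (M → Fb N) → M → Fb N} {z : Ec n}

omit [TopologicalSpace M] [T2Space M] [CompactSpace M] in
theorem TSt2_nhds (hz : z ∈ up n r) : hp n r ∈ 𝓝 z :=
  mem_of_superset ((isOpen_up' n r).mem_nhds hz) up_sub_hp

omit [TopologicalSpace M] [T2Space M] [CompactSpace M] in
theorem TSt2_int (hs : γ.Sm (ball 0 r)) {u ζ : Ec n → Fb N} (hu : ContDiffOn ℝ ∞ u (hp n r))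
    (hζ : ET (ball 0 r) ζ) : IntegrableOn (fun z => γ.vol z • γ.den u ζ z) (up n r) := by
  have hU : UniqueDiffOn ℝ (hp n r) := by
    have := (𝓡∂ n).uniqueDiffOn.inter (isOpen_ball (x := (0 : Ec n)) (ε := r))
    rwa [range_half, inter_comm] at this
  have hb : hp n r ⊆ ball 0 r := inter_subset_left
  have hc : ContinuousOn (fun z => ∑ i, ∑ j, γ.h i j z • inner ℂ
      (fderivWithin ℝ u (hp n r) z (bv i) + γ.a i z (u z)) (γ.D j ζ z)) (hp n r) := by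
    refine continuousOn_finset_sum _ fun i _ => continuousOn_finset_sum _ fun j _ =>
      ((hs.h i j).continuousOn.mono hb).smul (ContinuousOn.inner (𝕜 := ℂ) ?_ ?_)
    · exact ((hu.continuousOn_fderivWithin hU (by simp)).clm_apply continuousOn_const).add
        (contDiffOn_op ((hs.a i).mono hb) hu).continuousOn
    · exact (hs.D isOpen_ball hζ.1.contDiffOn j).continuousOn.mono hb
  have hK : IsCompact (tsupport ζ ∩ {z : Ec n | 0 ≤ z 0}) :=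
    hζ.2.1.isCompact.inter_right (isClosed_half n)
  have h1 := ((hc.mono (inter_subset_inter_left _ hζ.2.2)).integrableOn_compact
    (μ := volume) hK).of_forall_diff_eq_zero (isOpen_up' n r).measurableSet fun z hz => by
      have : z ∉ tsupport ζ := fun a => hz.2 ⟨a, (up_sub_hp hz.1).2⟩
      simp only [γ.D_zero this, inner_zero_right, smul_zero, Finset.sum_const_zero]
  refine h1.congr_fun (fun z hz => ?_) (isOpen_up' n r).measurableSet
  simp only [fderivWithin_of_mem_nhds (TSt2_nhds hz), Geo.den, Geo.h, Finset.smul_sum, mul_smul]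
  rfl

variable [MeasurableSpace M] [BorelSpace M] {μ μ₁ μ₂ : Measure M}

theorem start_sol (hR : GR n N) (hU : GU n N) (d₁ : Dat Γ g₁ μ₁ A₁ S₁) (d₂ : Dat Γ g₂ μ₂ A₂ S₂)
    (hD : Eqd Γ g₁ μ₁ A₁ S₁ g₂ μ₂ A₂ S₂) (x₁ : XP Γ g₁ A₁ p r τ₁ θ₁ W₁ γ₁)
    (x₂ : XP Γ g₂ A₂ p r τ₂ θ₂ W₂ γ₂) (e : ∀ z ∈ hp n r, z 0 = 0 → τ₁ z = τ₂ z) {ε : ℝ}
    {Ψ : Ec n → Ec n} {V : Ec n → Op N} (h0 : 0 < ε) (h1 : ε ≤ r) (h : EIso (ball 0 ε) γ₁ γ₂ Ψ V)
    (m1 : MapsTo Ψ (ball 0 ε) (ball 0 r)) (m2 : MapsTo Ψ (up n ε) (up n r))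
    (e' : ∀ z ∈ ball (0 : Ec n) ε, z 0 ≤ 0 → Ψ z = z ∧ V z = 1) {f : M → Fb N}
    (hf : IsTest (𝓡∂ n) Γ f) (hz : z ∈ up n ε) :
    xpl p τ₁ W₁ (S₁ f) (Ψ z) = V z (xpl p τ₂ W₂ (S₂ f) z) := by
  have b1 : ball (0 : Ec n) ε ⊆ ball 0 r := ball_subset_ball h1
  have p1 : hp n ε ⊆ hp n r := GXt1_hp h1
  have q1 : up n ε ⊆ up n r := GXt1_up h1
  have ub : up n ε ⊆ ball 0 ε := inter_subset_left
  have hb : hp n ε ⊆ ball 0 ε := inter_subset_left
  have s₂ : γ₂.Sm (ball 0 ε) := x₂.sm.sub b1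
  have a₁ := d₁.sol f hf
  have a₂ := d₂.sol f hf
  have u1 : ContDiffOn ℝ ∞ (xpl p τ₁ W₁ (S₁ f)) (hp n r) :=
    x₁.xpl_smooth (O := univ) a₁.smooth.contMDiffOn Subset.rfl (mapsTo_univ _ _)
  have u2 : ContDiffOn ℝ ∞ (xpl p τ₂ W₂ (S₂ f)) (hp n r) :=
    x₂.xpl_smooth (O := univ) a₂.smooth.contMDiffOn Subset.rfl (mapsTo_univ _ _)
  have m3 : MapsTo Ψ (hp n ε) (hp n r) := fun y hy => by
    by_cases c : y ∈ up n ε
    · exact up_sub_hp (m2 c)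
    · rw [(e' y hy.1 (GXt1_z0 hy c).le).1]
      exact p1 hy
  have v1 : ContDiffOn ℝ ∞ (epull Ψ V (xpl p τ₁ W₁ (S₁ f))) (hp n ε) :=
    contDiffOn_op (contDiffOn_star (h.sV.mono hb)) (u1.comp (h.sΨ.mono hb) m3)
  have key := cucp hR hU s₂ (w := epull Ψ V (xpl p τ₁ W₁ (S₁ f)) - xpl p τ₂ W₂ (S₂ f))
    (v1.sub (u2.mono p1)) (fun y hy y0 => ?_) (fun ζ hζ => ?_) hz
  · rw [Pi.sub_apply, Pi.zero_apply, sub_eq_zero] at key
    rw [← key, epull, uni_right (h.uni z (ub hz))]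
  · have c1 := (x₁.kap_bd_iff (p1 hy)).2 y0
    have c2 := (x₂.kap_bd_iff (p1 hy)).2 y0
    have c3 : xpt p τ₁ y = xpt p τ₂ y := by rw [xpt, xpt, e y (p1 hy) y0]
    rw [Pi.sub_apply, epull, (e' y hy.1 y0.le).1, (e' y hy.1 y0.le).2, xpl, xpl,
      x₁.W1 y (p1 hy) y0, x₂.W1 y (p1 hy) y0, a₁.bd c1, a₂.bd c2, c3, star_one]
    simp
  · obtain ⟨ζ₁, t1, -, t3⟩ := ti_push h s₂ hζ
    have hζr : ET (ball 0 r) ζ := hζ.mono b1
    have t4 : ET (ball 0 r) ζ₁ := t1.mono m1.image_subset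
    have t5 : ∀ y ∈ hp n r, y 0 = 0 → ζ₁ y = ζ y := fun y hy y0 => by
      by_cases c : y ∈ ball (0 : Ec n) ε
      · have := t3 y c
        rw [(e' y c y0.le).1, (e' y c y0.le).2] at this
        exact this
      · rw [et_zero hζ c]
        refine et_zero t1 ?_
        rintro ⟨x, hx, rfl⟩
        by_cases c' : x 0 ≤ 0
        · exact c (by rw [(e' x hx c').1]; exact hx)
        · exact (show 0 < Ψ x 0 from (m2 ⟨hx, not_le.1 c'⟩).2).ne' y0
    have hh := x₂.xps_test hζr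
    have t6 : EqOn (xps p r τ₁ θ₁ W₁ ζ₁) (xps p r τ₂ θ₂ W₂ ζ) ((𝓡∂ n).boundary M) := by
      refine EqOn.trans (fun x hx => ?_) (x₁.xps_bd x₂ e ζ)
      by_cases c : x ∈ xpt p τ₁ '' hp n r
      · obtain ⟨y, hy, rfl⟩ := c
        rw [x₁.xps_kap _ hy, x₁.xps_kap _ hy, t5 y hy ((x₁.kap_bd_iff hy).1 hx)]
      · rw [x₁.xps_zero _ c, x₁.xps_zero _ c]
    have f1 := isSol_form d₁.vol a₁ (x₁.xps_smooth t4) (d₁.sol _ hh).smooth
      (t6.trans (d₁.sol _ hh).bd.symm)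
    have f2 := isSol_form d₂.vol a₂ (d₂.sol _ hh).smooth hh.1 (d₂.sol _ hh).bd
    have f3 := (f1.trans (hD f _ hf hh)).trans f2
    rw [x₁.form_xps d₁.vol a₁.smooth t4, x₂.form_xps d₂.vol a₂.smooth hζr] at f3
    have g1 : ∫ y in up n r, γ₁.vol y • γ₁.den (xpl p τ₁ W₁ (S₁ f)) ζ₁ y =
        ∫ y in Ψ '' up n ε, γ₁.vol y • γ₁.den (xpl p τ₁ W₁ (S₁ f)) ζ₁ y := by
      refine setIntegral_eq_of_subset_of_forall_diff_eq_zero (isOpen_up' n r).measurableSet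
        m2.image_subset fun y hy => ?_
      rw [γ₁.den_zero_right _ fun c => ?_, smul_zero]
      obtain ⟨x, hx, rfl⟩ := t1.2.2 c
      by_cases c' : x 0 ≤ 0
      · have := hy.1.2
        rw [(e' x hx c').1] at this
        exact not_lt.2 c' this
      · exact hy.2 ⟨x, ⟨hx, not_le.1 c'⟩, rfl⟩
    have g2 : ∫ y in up n r, γ₂.vol y • γ₂.den (xpl p τ₂ W₂ (S₂ f)) ζ y =
        ∫ y in up n ε, γ₂.vol y • γ₂.den (xpl p τ₂ W₂ (S₂ f)) ζ y := by
      refine setIntegral_eq_of_subset_of_forall_diff_eq_zero (isOpen_up' n r).measurableSet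
        q1 fun y hy => ?_
      rw [γ₂.den_zero_right _ fun c => hy.2 ⟨hζ.2.2 c, hy.1.2⟩, smul_zero]
    have g3 : ∫ y in up n ε, γ₂.vol y • γ₁.den (xpl p τ₁ W₁ (S₁ f)) ζ₁ (Ψ y) =
        ∫ y in up n ε, γ₂.vol y • γ₂.den (epull Ψ V (xpl p τ₁ W₁ (S₁ f))) ζ y := by
      refine setIntegral_congr_fun (isOpen_up' n ε).measurableSet fun y hy => ?_
      have o := isOpen_ball.mem_nhds (ub hy)
      exact congrArg _ (ti_den h s₂ (ub hy)
        ((u1.contDiffAt (TSt2_nhds (m2 hy))).differentiableAt (by simp))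
        (t1.1.differentiable (by simp) _)
        (mem_of_superset o fun x hx => (uni_right (h.uni x hx) _).symm)
        (mem_of_superset o t3)).symm
    rw [g1, g2, ti_integral h _ (isOpen_up' n ε) ub, g3, ← sub_eq_zero,
      ← integral_sub (TSt2_int s₂ v1 hζ) (TSt2_int s₂ (u2.mono p1) hζ)] at f3
    refine (setIntegral_congr_fun (isOpen_up' n ε).measurableSet fun y hy => ?_).trans f3
    rw [t_den_sub ((v1.contDiffAt (TSt2_nhds hy)).differentiableAt (by simp))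
      (((u2.mono p1).contDiffAt (TSt2_nhds hy)).differentiableAt (by simp)), smul_sub]

end Vale.Agent.P088.Gl
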