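import Vale.Agent.P088F.TI
import Vale.Agent.P088F.TB0

/-! P088 T: spreading of the correspondence.
Hints: gu_eq: ew_sub and GU. erel_spread: step one, for F₂ a test in Ω' and F₁ related, both
epull Ψ V (G₁ F₁) (ti_ew) and G₂ F₂ solve the equation with F₂ on Ω and agree on Ω', so they agree
on Ω. Step two, for F₂ a test in Ω pair with tests ζ₂ of Ω' (ti_push gives ζ₁), use EG.symm twice,
t_pair_conj, ti_pair and step one, then t_pair_zero on Ω' and gu_eq. -/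

open MeasureTheory Set Filter Bundle Metric Topology Matrix
open scoped Manifold ContDiff ENNReal

noncomputable section

namespace Vale.Agent.P088.Gl

variable {n N : ℕ} {Ω Ω' B₁ B₂ : Set (Ec n)} {γ γ₁ γ₂ γ₃ : Geo n N} {Ψ Ψ' : Ec n → Ec n}
  {V V' : Ec n → Op N} {u u' w F F' φ u₁ u₂ w₁ w₂ F₁ F₂ : Ec n → Fb N} {z : Ec n}
  {G G₁ G₂ : (Ec n → Fb N) → Ec n → Fb N}

theorem gu_eq (hU : GU n N) (hΩ : IsOpen Ω) (hc : IsPreconnected Ω) (hs : γ.Sm Ω)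
    (h : EW Ω γ u F) (h' : EW Ω γ u' F) (hΩ' : IsOpen Ω') (hne : Ω'.Nonempty) (h1 : Ω' ⊆ Ω)
    (e : EqOn u u' Ω') : EqOn u u' Ω := by
  intro z hz
  have h0 := hU Ω Ω' γ (u - u') hΩ hc hs (ew_sub hΩ hs h h') hΩ' hne h1
    (fun y hy => sub_eq_zero.2 (e hy)) hz
  exact sub_eq_zero.1 h0

theorem erel_mono (h : ERel Ω G₁ G₂ Ψ V) (hi : InjOn Ψ Ω) (h1 : Ω' ⊆ Ω) : ERel Ω' G₁ G₂ Ψ V := by
  exact h.mono hi h1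

theorem erel_congr (h : ERel Ω G₁ G₂ Ψ V) (e : ∀ z ∈ Ω, Ψ' z = Ψ z ∧ V' z = V z) :
    ERel Ω G₁ G₂ Ψ' V' := by
  intro F₁ F₂ a b r z hz
  have hi : Ψ' '' Ω = Ψ '' Ω := image_congr fun y hy => (e y hy).1
  rw [(e z hz).1, (e z hz).2]
  refine h F₁ F₂ (hi ▸ a) b (fun y hy => ?_) z hz
  rw [← (e y hy).1, ← (e y hy).2]
  exact r y hy

theorem TSp_pull (h : EIso Ω γ₁ γ₂ Ψ V) (u : Ec n → Fb N) :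
    ∀ z ∈ Ω, u (Ψ z) = V z (epull Ψ V u z) := fun z hz => (uni_right (h.uni z hz) _).symm

theorem TSp_core (hU : GU n N) (h : EIso Ω γ₁ γ₂ Ψ V) (hc : IsPreconnected Ω) (hs : γ₂.Sm Ω)
    (h₁ : EW B₁ γ₁ u F₁) (h₂ : EW Ω γ₂ w F₂) (m₁ : MapsTo Ψ Ω B₁) (hΩ' : IsOpen Ω')
    (hne : Ω'.Nonempty) (h1 : Ω' ⊆ Ω) (r : ∀ z ∈ Ω, F₁ (Ψ z) = V z (F₂ z))
    (e : EqOn (epull Ψ V u) w Ω') : ∀ z ∈ Ω, u (Ψ z) = V z (w z) := fun z hz => by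
  rw [← gu_eq hU h.op hc hs (ti_ew h hs h₁ m₁ (TSp_pull h u) r) h₂ hΩ' hne h1 e hz]
  exact TSp_pull h u z hz

theorem TSp_eq (h : EIso Ω γ₁ γ₂ Ψ V) (h1 : Ω' ⊆ Ω) (e : ∀ z ∈ Ω', u (Ψ z) = V z (w z)) :
    EqOn (epull Ψ V u) w Ω' := fun z hz => by
  rw [epull, e z hz, uni_left (h.uni z (h1 hz))]

theorem erel_spread (hU : GU n N) (h : EIso Ω γ₁ γ₂ Ψ V) (hc : IsPreconnected Ω) (hs : γ₂.Sm Ω)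
    (h₁ : EG B₁ γ₁ G₁) (h₂ : EG B₂ γ₂ G₂) (m₁ : MapsTo Ψ Ω B₁) (m₂ : Ω ⊆ B₂) (hΩ' : IsOpen Ω')
    (hne : Ω'.Nonempty) (h1 : Ω' ⊆ Ω) (e : ERel Ω' G₁ G₂ Ψ V) : ERel Ω G₁ G₂ Ψ V := by
  intro F₁ F₂ a b r
  have i₁ : Ψ '' Ω ⊆ B₁ := m₁.image_subset
  have s₁ := h₁.sol F₁ (et_mono a i₁)
  have s₂ := ew_mono (h₂.sol F₂ (et_mono b m₂)) m₂
  refine TSp_core hU h hc hs s₁ s₂ m₁ hΩ' hne h1 r ?_
  refine t_pair_zero hΩ' (hs.sub h1) ((ti_smooth h s₁.1 m₁).continuousOn.mono h1)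
    (s₂.1.continuousOn.mono h1) fun ζ₂ hζ => ?_
  have hζ₂ := et_mono hζ h1
  obtain ⟨ζ₁, hζ₁, ht, rζ⟩ := ti_push h hs hζ₂
  have hζ' : ET (Ψ '' Ω') ζ₁ := ⟨hζ₁.1, hζ₁.2.1, ht.trans (image_mono hζ.2.2)⟩
  have one := TSp_core hU h hc hs (h₁.sol ζ₁ (et_mono hζ₁ i₁))
    (ew_mono (h₂.sol ζ₂ (et_mono hζ₂ m₂)) m₂) m₁ hΩ' hne h1 rζ
    (TSp_eq h h1 (e ζ₁ ζ₂ hζ' hζ fun y hy => rζ y (h1 hy)))
  rw [← ti_pair h hζ₁ hζ₂ (TSp_pull h (G₁ F₁)) rζ,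
    ← h₁.symm F₁ ζ₁ (et_mono a i₁) (et_mono hζ₁ i₁),
    ← h₂.symm F₂ ζ₂ (et_mono b m₂) (et_mono hζ₂ m₂), ← t_pair_conj (w := F₁),
    ← t_pair_conj (w := F₂), ti_pair h a b one r]

theorem sol_spread (hU : GU n N) (h : EIso Ω γ₁ γ₂ Ψ V) (hc : IsPreconnected Ω) (hs : γ₂.Sm Ω)
    (h₁ : EW B₁ γ₁ u 0) (h₂ : EW Ω γ₂ w 0) (m₁ : MapsTo Ψ Ω B₁) (hΩ' : IsOpen Ω')
    (hne : Ω'.Nonempty) (h1 : Ω' ⊆ Ω) (e : ∀ z ∈ Ω', u (Ψ z) = V z (w z)) :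
    ∀ z ∈ Ω, u (Ψ z) = V z (w z) := by
  exact TSp_core hU h hc hs h₁ h₂ m₁ hΩ' hne h1 (fun z _ => by simp) (TSp_eq h h1 e)

end Vale.Agent.P088.Gl
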