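import Vale.Agent.P088F.TM3
import Vale.Agent.P088F.TSp

/-! P088 T: the continuation step on the manifold.
Hints: shrink the touching ball to ball c' r', c' = z + t (c - z), r' = t r, so that Φ maps it into
the source of the chart at y; iso_chart; ERel on a small ball about c' from hG (grel_mono, grel_chart),
erel_spread; LC with B₁ = cd I y, B₂ = cd I q and MG.eg; then eiso_mfd, erel_spread from the lens
ball c' r' ∩ ball z ε, erel_mfd, sol_spread with isSol_chart. -/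

open MeasureTheory Set Filter Bundle Metric Topology Matrix
open scoped Manifold ContDiff ENNReal

noncomputable section

namespace Vale.Agent.P088.Gl

variable {n N : ℕ} {H : Type} [TopologicalSpace H] {I : ModelWithCorners ℝ (Ec n) H}
  {M : Type} [TopologicalSpace M] [ChartedSpace H M] [IsManifold I ∞ M] [T2Space M] [CompactSpace M]
  {g g₁ g₂ : Met I M} {A A₁ A₂ : Conn I M N} {p q x : M} {O O' Γ : Set M} {Φ Φ' : M → M}
  {U U' : M → Op N} {u w F : M → Fb N} {G G₁ G₂ S S₁ S₂ : (M → Fb N) → M → Fb N}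
  {Ω : Set (Ec n)} {z : Ec n}

variable [MeasurableSpace M] [BorelSpace M] {μ μ₁ μ₂ : Measure M}

/-- A matched open set. -/
structure Mat (Γ : Set M) (g₁ : Met I M) (A₁ : Conn I M N) (S₁ G₁ : (M → Fb N) → M → Fb N)
    (g₂ : Met I M) (A₂ : Conn I M N) (S₂ G₂ : (M → Fb N) → M → Fb N) (O : Set M) (Φ : M → M)
    (U : M → Op N) : Prop where
  iso : Iso g₁ A₁ g₂ A₂ O Φ U
  grn : GRel I O G₁ G₂ Φ U
  sol : ∀ x ∈ O, SRel I Γ S₁ S₂ x (Φ x) (U x)

omit [MeasurableSpace M] [BorelSpace M] in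
theorem TStep_ball {c : Ec n} {r δ : ℝ} (hr : 0 < r) (hδ : 0 < δ) (h3 : dist z c = r) :
    ∃ (c' : Ec n) (r' : ℝ), 0 < r' ∧ dist z c' = r' ∧ ball c' r' ⊆ ball z δ ∩ ball c r := by
  obtain ⟨t, t0, t1, t2⟩ : ∃ t : ℝ, 0 < t ∧ t ≤ 1 ∧ 2 * (t * r) ≤ δ :=
    ⟨min 1 (δ / (2 * r)), lt_min one_pos (by positivity), min_le_left _ _, by
      have := (le_div_iff₀ (show 0 < 2 * r by positivity)).1 (min_le_right 1 (δ / (2 * r)))
      linarith⟩
  have a : dist (z + t • (c - z)) z = t * r := by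
    rw [dist_eq_norm, add_sub_cancel_left, norm_smul, Real.norm_of_nonneg t0.le, ← dist_eq_norm,
      dist_comm, h3]
  have b : dist (z + t • (c - z)) c = (1 - t) * r := by
    rw [dist_eq_norm, show z + t • (c - z) - c = (1 - t) • (z - c) by module, norm_smul,
      Real.norm_of_nonneg (sub_nonneg.2 t1), ← dist_eq_norm, h3]
  exact ⟨z + t • (c - z), t * r, mul_pos t0 hr, (dist_comm _ _).trans a,
    subset_inter (ball_subset_ball' (by linarith)) (ball_subset_ball' (by linarith))⟩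

theorem mat_step (hL : LC n N) (hU : GU n N) (d₁ : Dat Γ g₁ μ₁ A₁ S₁) (d₂ : Dat Γ g₂ μ₂ A₂ S₂)
    (m₁ : MG g₁ μ₁ A₁ G₁) (m₂ : MG g₂ μ₂ A₂ G₂) (h : Iso g₁ A₁ g₂ A₂ O Φ U)
    (hS : ∀ x ∈ O, SRel I Γ S₁ S₂ x (Φ x) (U x))
    (hG : ∀ x ∈ O, ∃ O', IsOpen O' ∧ x ∈ O' ∧ O' ⊆ O ∧ GRel I O' G₁ G₂ Φ U)
    {c : Ec n} {r : ℝ} (hr : 0 < r) (h1 : ball c r ⊆ cd I q)
    (h2 : MapsTo (extChartAt I q).symm (ball c r) O) (hz : z ∈ cd I q) (h3 : dist z c = r)
    {y : M} {V : Op N} (hy : y ∈ I.interior M)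
    (t1 : Tendsto Φ (𝓝[O] ((extChartAt I q).symm z)) (𝓝 y))
    (t2 : Tendsto U (𝓝[O] ((extChartAt I q).symm z)) (𝓝 V)) :
    ∃ O' Φ' U', Mat Γ g₁ A₁ S₁ G₁ g₂ A₂ S₂ G₂ O' Φ' U' ∧ (extChartAt I q).symm z ∈ O' := by
  have tκ : Tendsto (extChartAt I q).symm (𝓝[ball c r] z) (𝓝[O] ((extChartAt I q).symm z)) :=
    tendsto_nhdsWithin_iff.2 ⟨(symm_contAt hz).tendsto.mono_left nhdsWithin_le_nhds,
      eventually_mem_nhdsWithin.mono fun _ hw => h2 hw⟩
  obtain ⟨δ, hδ, a1⟩ := Metric.mem_nhdsWithin_iff.1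
    ((t1.comp tκ).eventually (extChartAt_source_mem_nhds (I := I) y))
  obtain ⟨c', r', hr', a2, a3⟩ := TStep_ball hr hδ h3
  have b1 : ball c' r' ⊆ ball c r := a3.trans inter_subset_right
  have b2 : ball c' r' ⊆ cd I q := b1.trans h1
  have b3 : ∀ w ∈ ball c' r', Φ ((extChartAt I q).symm w) ∈ (extChartAt I y).source :=
    fun w hw => a1 (a3 hw)
  obtain ⟨i1, i2⟩ := iso_chart h isOpen_ball b2 (h2.mono_left b1) b3
  have e₁ := m₁.eg d₁.vol (isOpen_cd I y) Subset.rfl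
  have e₂ := m₂.eg d₂.vol (isOpen_cd I q) Subset.rfl
  obtain ⟨O', o1, o2, o3, o4⟩ := hG _ (h2 (b1 (mem_ball_self hr')))
  have r1 := erel_spread hU i1 (convex_ball c' r').isPreconnected ((cg_sm g₂ A₂ q).sub b2) e₁ e₂ i2 b2
    (isOpen_ball.inter (cd_pre_open o1 q)) ⟨c', mem_ball_self hr', b2 (mem_ball_self hr'), o2⟩
    inter_subset_left (grel_chart (grel_mono o4 (h.inj.mono o3)
      (image_subset_iff.2 fun w hw => hw.2.2)) (inter_subset_left.trans b2)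
      (fun w hw => b3 w hw.1) (i2.mono_left inter_subset_left))
  have t3 := tκ.mono_left (nhdsWithin_mono z b1)
  obtain ⟨ε, hε, Ψ', V', c1, c2, c3, c4⟩ := hL _ _ _ _ _ _ _ c' z (extChartAt I y y) r' _ _ V
    (isOpen_cd I y) (isOpen_cd I q) (cg_sm g₁ A₁ y) (cg_sm g₂ A₂ q) e₁ e₂ hr' Subset.rfl b2 a2 hz
    ((cd_iff (mem_extChartAt_source y)).2 hy) i1 i2
    ((continuousAt_extChartAt y).tendsto.comp (t1.comp t3)) (t2.comp t3) r1
  have l1 : IsOpen (ball c' r' ∩ ball z ε) := isOpen_ball.inter isOpen_ball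
  have l2 : (ball c' r' ∩ ball z ε).Nonempty := by
    have : z ∈ closure (ball c' r') := by
      rw [closure_ball c' hr'.ne']
      exact a2.le
    exact (mem_closure_iff.1 this _ isOpen_ball (mem_ball_self hε)).mono (inter_comm _ _).le
  have s2 := (cg_sm g₂ A₂ q).sub c1
  have r2 := erel_spread hU c2 (convex_ball z ε).isPreconnected s2 e₁ e₂ c3 c1 l1 l2
    inter_subset_right (erel_congr (r1.mono i1.inj inter_subset_left) c4)
  refine ⟨_, _, _, ⟨eiso_mfd c2 c1 c3, erel_mfd r2 isOpen_ball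
    (c2.open_image s2 isOpen_ball Subset.rfl) c1 c3, ?_⟩, mem_image_of_mem _ (mem_ball_self hε)⟩
  rintro _ ⟨w, hw, rfl⟩ f hf
  rw [tmc, (extChartAt I q).right_inv (cd_sub I q (c1 hw))]
  refine sol_spread hU c2 (convex_ball z ε).isPreconnected s2 (isSol_chart d₁.vol (d₁.sol f hf) y)
    ((isSol_chart d₂.vol (d₂.sol f hf) q).mono c1) c3 l1 l2 inter_subset_right
    (fun v hv => ?_) w hw
  rw [(c4 v hv).1, (c4 v hv).2, pl, tcm, (extChartAt I y).left_inv (b3 v hv.1)]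
  exact hS _ (h2 (b1 hv.1)) f hf

end Vale.Agent.P088.Gl
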