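import Vale.Agent.P088F.TSt1
import Vale.Agent.P088F.TSt2
import Vale.Agent.P088F.TStep
import Vale.Agent.P088F.GXDefs

/-! P088 T: the first matched set.
Hints: BD, GX2, start_loc; Ω = τ₂ '' up n ε, the map τ₁ ∘ Ψ ∘ τ₂⁻¹ is an EIso from cg g₂ A₂ p to
cg g₁ A₁ p (ti_trans twice, ti_symm of ti_mono x₂.iso); eiso_mfd; erel_mfd with XG.ball, XG.upper,
xps_ext (TX1), ti_pull, erel_mono; start_sol. -/

open MeasureTheory Set Filter Bundle Metric Topology Matrix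
open scoped Manifold ContDiff ENNReal

noncomputable section

namespace Vale.Agent.P088.Gl

variable {n N : ℕ} [NeZero n] {M : Type} [TopologicalSpace M]
  [ChartedSpace (EuclideanHalfSpace n) M] [IsManifold (𝓡∂ n) ∞ M] [T2Space M] [CompactSpace M]
  {g g₁ g₂ : Met (𝓡∂ n) M} {A A₁ A₂ : Conn (𝓡∂ n) M N} {p q : M} {Γ : Set M} {r : ℝ}
  {τ θ τ₁ θ₁ τ₂ θ₂ : Ec n → Ec n} {W W₁ W₂ : Ec n → Op N} {γ γ₁ γ₂ : Geo n N}
  {S S₁ S₂ : (M → Fb N) → M → Fb N} {z : Ec n}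

variable [MeasurableSpace M] [BorelSpace M] {μ μ₁ μ₂ : Measure M}

omit [T2Space M] [CompactSpace M] [BorelSpace M] in
theorem TSt3_key {G : (M → Fb N) → M → Fb N} {GB : (Ec n → Fb N) → Ec n → Fb N}
    {GM : (Ec n → Fb N) → M → Fb N} (x : XP Γ g A p r τ θ W γ)
    (y : XG Γ g μ A S p r τ θ W γ G GB GM) {D : Set (Ec n)} (hD : D ⊆ up n r)
    {F F' : Ec n → Fb N} (hF : ET (τ '' D) F) (hF' : ET D F')
    (e : ∀ z ∈ D, F (τ z) = W z (F' z)) (hz : z ∈ up n r) :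
    G (ps (𝓡∂ n) p F) (xpt p τ z) = W z (GB F' z) := by
  have k : xps p r τ θ W F' = ps (𝓡∂ n) p F := by
    refine x.xps_ext (fun w hw => ?_) fun a ha => ?_
    · rw [ps_of_mem _ (x.kap_src hw), x.chart_kap hw]
      by_cases h : w ∈ D
      · exact e w h
      · rw [image_eq_zero_of_notMem_tsupport fun b => h (hF'.2.2 b), map_zero]
        refine image_eq_zero_of_notMem_tsupport fun b => h ?_
        obtain ⟨v, hv, ev⟩ := hF.2.2 b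
        rwa [← x.inv w hw, ← ev, x.inv v (up_sub_hp (hD hv))]
    · by_cases h : a ∈ (extChartAt (𝓡∂ n) p).source
      · rw [ps_of_mem _ h]
        exact image_eq_zero_of_notMem_tsupport fun b =>
          ha (x.mem_image.2 ⟨h, image_mono (hD.trans up_sub_hp) (hF.2.2 b)⟩)
      · exact ps_of_notMem _ h
  rw [← k, ← y.upper F' (hF'.mono hD) (x.kap_int hz)]
  exact y.ball F' (hF'.mono (hD.trans inter_subset_left)) z hz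

theorem TSt3_ne {ε : ℝ} (h : 0 < ε) : (up n ε).Nonempty := by
  refine ⟨(ε / 2) • bv 0, ?_, ?_⟩
  · rw [mem_ball_zero_iff, norm_smul, bv, PiLp.norm_single, Real.norm_of_nonneg (by positivity)]
    simp only [norm_one, mul_one]
    linarith
  · simp only [mem_ofPred_eq, bv, PiLp.smul_apply, PiLp.single_eq_same, smul_eq_mul, mul_one]
    positivity

theorem start [ConnectedSpace M] (hB : BD n N) (hX : GX2 n N) (hL : LC n N) (hR : GR n N)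
    (hU : GU n N) (hΓ : Patch (n := n) Γ) (d₁ : Dat Γ g₁ μ₁ A₁ S₁) (d₂ : Dat Γ g₂ μ₂ A₂ S₂)
    (hD : Eqd Γ g₁ μ₁ A₁ S₁ g₂ μ₂ A₂ S₂) : ∃ G₁ G₂ O Φ U, MG g₁ μ₁ A₁ G₁ ∧ MG g₂ μ₂ A₂ G₂ ∧
      O.Nonempty ∧ Mat Γ g₁ A₁ S₁ G₁ g₂ A₂ S₂ G₂ O Φ U := by
  obtain ⟨p, hp0⟩ := hΓ.ne
  obtain ⟨r₀, τ₁, θ₁, τ₂, θ₂, W₁, W₂, γ₁, γ₂, a₁, a₂, e₀, eγ⟩ :=
    hB M Γ g₁ g₂ μ₁ μ₂ A₁ A₂ S₁ S₂ hΓ d₁ d₂ hD p hp0
  obtain ⟨r, hr, hr0, x₁, x₂, G₁, GB₁, GM₁, G₂, GB₂, GM₂, y₁, y₂, eG⟩ :=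
    hX M Γ g₁ g₂ μ₁ μ₂ A₁ A₂ S₁ S₂ hΓ d₁ d₂ hD p r₀ τ₁ θ₁ τ₂ θ₂ W₁ W₂ γ₁ γ₂ a₁ a₂ e₀ eγ
  have e : ∀ z ∈ hp n r, z 0 = 0 → τ₁ z = τ₂ z := fun z hz =>
    e₀ z ⟨ball_subset_ball hr0 hz.1, hz.2⟩
  obtain ⟨ε, Ψ, V, h0, h1, hI, m1, m2, e', hE⟩ := start_loc hL hU hr x₁.sm x₂.sm y₁.eg y₂.eg
    (fun z hz => eγ z ⟨ball_subset_ball hr0 hz.1, hz.2⟩) eG
  have o1 : IsOpen (up n ε) := isOpen_up' n ε
  have u1 : up n ε ⊆ up n r := inter_subset_inter_left _ (ball_subset_ball h1)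
  have u2 : up n ε ⊆ hp n r := u1.trans up_sub_hp
  have s₂ : γ₂.Sm (up n ε) := x₂.sm.mono (u1.trans inter_subset_left)
  have iv : ∀ z ∈ up n ε, θ₂ (τ₂ z) = z := fun z hz => x₂.inv z (u2 hz)
  have i₂ := ti_mono x₂.iso o1 u1
  have iΨ := ti_mono hI o1 inter_subset_left
  have i₁ := ti_mono x₁.iso (ti_open iΨ s₂) m2.image_subset
  have k := ti_trans (ti_trans x₁.iso iΨ m2) (ti_symm i₂ s₂ iv)
    (forall_mem_image.2 fun z hz => by rw [iv z hz]; exact hz)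
  have c1 : τ₂ '' up n ε ⊆ cd (𝓡∂ n) p := forall_mem_image.2 fun z hz => x₂.int (u1 hz)
  have c2 : MapsTo ((τ₁ ∘ Ψ) ∘ θ₂) (τ₂ '' up n ε) (cd (𝓡∂ n) p) :=
    forall_mem_image.2 fun z hz => by
      rw [Function.comp_apply, iv z hz]
      exact x₁.int (m2 hz)
  refine ⟨G₁, G₂, _, _, _, y₁.mg, y₂.mg, ((TSt3_ne h0).image τ₂).image _, eiso_mfd k c1 c2,
    erel_mfd (V := fun y => W₁ (Ψ (θ₂ y)) * V (θ₂ y) * star (W₂ (θ₂ y))) ?_ k.op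
      (ti_open k ((cg_sm g₂ A₂ p).mono c1)) c1 c2, ?_⟩
  · intro F₁ F₂ hF₁ hF₂ eF
    have im : ((τ₁ ∘ Ψ) ∘ θ₂) '' (τ₂ '' up n ε) = τ₁ '' (Ψ '' up n ε) := by
      rw [image_image, image_image]
      exact image_congr fun z hz => by rw [Function.comp_apply, iv z hz]; rfl
    rw [im] at hF₁
    obtain ⟨E₁, hE₁, r₁⟩ := ti_pull i₁ (x₁.sm.mono (m2.image_subset.trans inter_subset_left)) hF₁
    obtain ⟨E₂, hE₂, r₂⟩ := ti_pull i₂ s₂ hF₂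
    have r₃ : ∀ z ∈ up n ε, E₁ (Ψ z) = V z (E₂ z) := fun z hz => by
      have t := eF _ (mem_image_of_mem τ₂ hz)
      simp only [Function.comp_apply, iv z hz, mul_apply_eq_comp] at t
      rw [r₁ _ (mem_image_of_mem Ψ hz), r₂ z hz, uni_left (x₂.uni (u2 hz))] at t
      rw [← uni_left (x₁.uni (up_sub_hp (m2 hz))) (E₁ (Ψ z)), t,
        uni_left (x₁.uni (up_sub_hp (m2 hz)))]
    rintro _ ⟨z, hz, rfl⟩
    have t₁ := TSt3_key x₁ y₁ m2.image_subset hF₁ hE₁ r₁ (m2 hz)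
    have t₂ := TSt3_key x₂ y₂ u1 hF₂ hE₂ r₂ (u1 hz)
    have t₃ := erel_mono hE hI.inj inter_subset_left E₁ E₂ hE₁ hE₂ r₃ z hz
    simp only [Function.comp_apply, iv z hz, mul_apply_eq_comp]
    refine t₁.trans ?_
    rw [t₃]
    exact congrArg (fun v => W₁ (Ψ z) (V z v))
      ((uni_left (x₂.uni (u2 hz)) _).symm.trans (congrArg _ t₂.symm))
  · rintro _ ⟨_, ⟨z, hz, rfl⟩, rfl⟩ f hf
    have t := start_sol hR hU d₁ d₂ hD x₁ x₂ e h0 h1 hI m1 m2 e' hf hz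
    have q : extChartAt (𝓡∂ n) p ((extChartAt (𝓡∂ n) p).symm (τ₂ z)) = τ₂ z :=
      x₂.chart_kap (u2 hz)
    simp only [tmc, q, Function.comp_apply, iv z hz, mul_apply_eq_comp]
    refine (x₁.xpl_rel (S₁ f) (Ψ z) (up_sub_hp (m2 hz))).trans ?_
    rw [t]
    rfl

end Vale.Agent.P088.Gl
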