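import Vale.Agent.P088F.Fin
import Vale.Agent.P088F.TGl
import Vale.Agent.P088F.TSt3
import Vale.Agent.P088F.TDe
import Vale.Agent.P088F.TGF

/-! P088 T: the global theorem from the local contracts. -/

open MeasureTheory Set Filter Bundle Metric Topology Matrix
open scoped Manifold ContDiff ENNReal

noncomputable section

namespace Vale.Agent.P088.Gl

variable {n N : ℕ} [NeZero n] {M : Type} [TopologicalSpace M]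
  [ChartedSpace (EuclideanHalfSpace n) M] [IsManifold (𝓡∂ n) ∞ M] [T2Space M] [CompactSpace M]
  {g g₁ g₂ : Met (𝓡∂ n) M} {A A₁ A₂ : Conn (𝓡∂ n) M N} {p q : M} {Γ : Set M} {r : ℝ}
  {τ θ τ₁ θ₁ τ₂ θ₂ : Ec n → Ec n} {W W₁ W₂ : Ec n → Op N} {γ γ₁ γ₂ : Geo n N}
  {S S₁ S₂ : (M → Fb N) → M → Fb N} {z : Ec n}

variable [MeasurableSpace M] [BorelSpace M] {μ μ₁ μ₂ : Measure M}

theorem final [ConnectedSpace M] (hn : 3 ≤ n) (hN : 1 ≤ N) (hB : BD n N) (hX : GX2 n N) (hL : LC n N)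
    (hR : GR n N) (hU : GU n N) (hI : GI n N) (hS : GS n N) (hΓ : Patch (n := n) Γ)
    (d₁ : Dat Γ g₁ μ₁ A₁ S₁) (d₂ : Dat Γ g₂ μ₂ A₂ S₂) (hD : Eqd Γ g₁ μ₁ A₁ S₁ g₂ μ₂ A₂ S₂) :
    Concl Γ g₁ g₂ A₁ A₂ := by
  have n2 : 2 ≤ n := by omega
  have r₁ := run_of_dens n2 hI (gf n N) hS d₁.vol (t_dens n2 hB hX hI (gf n N) hΓ d₁)
  have r₂ := run_of_dens n2 hI (gf n N) hS d₂.vol (t_dens n2 hB hX hI (gf n N) hΓ d₂)
  obtain ⟨q, hq⟩ := hΓ.ne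
  have hq' : q ∈ (𝓡∂ n).boundary M := by
    obtain ⟨O, -, e⟩ := hΓ.op
    exact (e ▸ hq).2
  obtain ⟨G₁, G₂, O, Φ₀, U₀, m₁, m₂, hne, h⟩ := start hB hX hL hR hU hΓ d₁ d₂ hD
  obtain ⟨Φ, U, i1, s1⟩ := mat_global n2 hN hL hU hq' d₁ d₂ r₁ r₂ m₁ m₂ hne h
  obtain ⟨G₂', G₁', O', Ψ₀, V₀, m₂', m₁', hne', h'⟩ :=
    start hB hX hL hR hU hΓ d₂ d₁ fun f h hf hh => (hD f h hf hh).symm
  obtain ⟨Ψ, V, i2, s2⟩ := mat_global n2 hN hL hU hq' d₂ d₁ r₂ r₁ m₂' m₁' hne' h'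
  refine fin hN hΓ d₁ d₂ i1 i2 (fun x hx => ?_) (fun y hy => ?_) s1
  · exact (srel_unique (by omega) hN hq' r₂ r₁ (i1.mp hx) (i2.mp (i1.mp hx)) hx
      (i2.uni _ (i1.mp hx)) (Unitary.star_mem (i1.uni x hx)) (s2 _ (i1.mp hx))
      (srel_symm (i1.uni x hx) (s1 x hx))).1
  · exact (srel_unique (by omega) hN hq' r₁ r₂ (i2.mp hy) (i1.mp (i2.mp hy)) hy
      (i1.uni _ (i2.mp hy)) (Unitary.star_mem (i2.uni y hy)) (s1 _ (i2.mp hy))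
      (srel_symm (i2.uni y hy) (s2 y hy))).1

end Vale.Agent.P088.Gl
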