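import Vale.Agent.P088F.TM1

/-! P088 T: bounds for Green operators.
Hints: mg_l2: MG.bound, t_mden_nonneg, Cauchy-Schwarz or 2ab ≤ a²/t + t b² on the compact support of
F where G F is continuous. mw_point: GI in the chart at x on a small ball (MW.ew), vol is bounded below
on the closed ball, vol_lintegral_le. mg_point: mw_point on interior minus K, mw_mono, mg_l2. -/

open MeasureTheory Set Filter Bundle Metric Topology Matrix
open scoped Manifold ContDiff ENNReal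

noncomputable section

namespace Vale.Agent.P088.Gl

variable {n N : ℕ} {H : Type} [TopologicalSpace H] {I : ModelWithCorners ℝ (Ec n) H}
  {M : Type} [TopologicalSpace M] [ChartedSpace H M] [IsManifold I ∞ M] [T2Space M] [CompactSpace M]
  {g g₁ g₂ : Met I M} {A A₁ A₂ : Conn I M N} {p q x : M} {O O' Γ : Set M} {Φ Φ' : M → M}
  {U U' : M → Op N} {u w F : M → Fb N} {G G₁ G₂ S S₁ S₂ : (M → Fb N) → M → Fb N}
  {Ω : Set (Ec n)} {z : Ec n}

variable [MeasurableSpace M] [BorelSpace M] {μ μ₁ μ₂ : Measure M}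

theorem mg_l2 (hv : IsVol g μ) (h : MG g μ A G) : ∃ C : ℝ, 0 ≤ C ∧ ∀ F, MT I (I.interior M) F →
    ∫⁻ x in I.interior M, ENNReal.ofReal (‖G F x‖ ^ 2) ∂μ ≤
      ENNReal.ofReal (C * ∫ x, ‖F x‖ ^ 2 ∂μ) := by
  obtain ⟨C, hC⟩ := h.bound
  refine ⟨C ^ 2, sq_nonneg C, fun F hF => ?_⟩
  have hc : Continuous fun x => C ^ 2 / 2 * ‖F x‖ ^ 2 :=
    continuous_const.mul (hF.1.continuous.norm.pow 2)
  have hm : MeasurableSet (I.interior M) := isOpen_interior'.measurableSet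
  have h1 : ∫⁻ x in I.interior M, ENNReal.ofReal (‖G F x‖ ^ 2) ∂μ ≤ _ :=
    (lintegral_mono fun x => ENNReal.ofReal_le_ofReal
      (le_add_of_nonneg_left (t_mden_nonneg g A (G F) x))).trans (hC F hF)
  have h2 : ENNReal.ofReal (C * (∫ x, inner ℂ (F x) (G F x) ∂μ).re) ≤
      ∫⁻ x, ENNReal.ofReal |C| * ‖inner ℂ (F x) (G F x)‖ₑ ∂μ := by
    rw [lintegral_const_mul' _ _ ENNReal.ofReal_ne_top]
    refine le_trans ?_ (mul_le_mul_right (enorm_integral_le_lintegral_enorm _) _)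
    rw [← ofReal_norm, ← ENNReal.ofReal_mul (abs_nonneg C)]
    refine ENNReal.ofReal_le_ofReal ((le_abs_self _).trans ?_)
    rw [abs_mul]
    exact mul_le_mul_of_nonneg_left (Complex.abs_re_le_norm _) (abs_nonneg C)
  have h3 : ∀ x, ENNReal.ofReal |C| * ‖inner ℂ (F x) (G F x)‖ₑ ≤ (I.interior M).indicator
      (fun x => ENNReal.ofReal 2⁻¹ * ENNReal.ofReal (‖G F x‖ ^ 2)) x +
        ENNReal.ofReal (C ^ 2 / 2 * ‖F x‖ ^ 2) := by
    intro x
    by_cases hx : x ∈ I.interior M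
    · rw [indicator_of_mem hx, ← ofReal_norm, ← ENNReal.ofReal_mul (abs_nonneg C),
        ← ENNReal.ofReal_mul (by norm_num), ← ENNReal.ofReal_add (by positivity) (by positivity)]
      refine ENNReal.ofReal_le_ofReal ((mul_le_mul_of_nonneg_left (norm_inner_le_norm _ _)
        (abs_nonneg C)).trans ?_)
      rw [← sq_abs C]
      nlinarith [sq_nonneg (|C| * ‖F x‖ - ‖G F x‖)]
    · rw [image_eq_zero_of_notMem_tsupport fun e => hx (hF.2 e), inner_zero_left, enorm_zero,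
        mul_zero]
      exact zero_le
  have h4 := h1.trans (h2.trans (lintegral_mono h3))
  rw [lintegral_add_right _ hc.measurable.ennreal_ofReal, lintegral_indicator hm,
    lintegral_const_mul' _ _ ENNReal.ofReal_ne_top, ← ofReal_integral_eq_lintegral_ofReal (hv.int hc)
      (.of_forall fun x => by positivity), integral_const_mul] at h4
  have h5 := ne_top_of_le_ne_top ENNReal.ofReal_ne_top h1
  have h6 : 0 ≤ ∫ x, ‖F x‖ ^ 2 ∂μ := integral_nonneg fun x => sq_nonneg _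
  obtain ⟨a, ha⟩ : ∃ a : NNReal, ∫⁻ x in I.interior M, ENNReal.ofReal (‖G F x‖ ^ 2) ∂μ = a :=
    ⟨_, (ENNReal.coe_toNNReal h5).symm⟩
  rw [ha, ← ENNReal.ofReal_coe_nnreal] at h4 ⊢
  rw [← ENNReal.ofReal_mul (by norm_num), ← ENNReal.ofReal_add (by positivity) (by positivity),
    ENNReal.ofReal_le_ofReal_iff (by positivity)] at h4
  exact ENNReal.ofReal_le_ofReal (by linarith)

theorem mw_point (hI : GI n N) (hv : IsVol g μ) (A : Conn I M N) (hO : IsOpen O)
    (h1 : O ⊆ I.interior M) (hx : x ∈ O) : ∃ C : ℝ, 0 ≤ C ∧ ∀ u, MW g μ A O u 0 →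
      ENNReal.ofReal (‖u x‖ ^ 2) ≤ ENNReal.ofReal C * ∫⁻ y in O, ENNReal.ofReal (‖u y‖ ^ 2) ∂μ := by
  have hs := mem_extChartAt_source (I := I) x
  have hz : extChartAt I x x ∈ cd I x ∩ (extChartAt I x).symm ⁻¹' O :=
    ⟨(cd_iff hs).2 (h1 hx), by rwa [mem_preimage, (extChartAt I x).left_inv hs]⟩
  obtain ⟨r, hr, hb⟩ := nhds_basis_closedBall.mem_iff.1 ((cd_pre_open hO x).mem_nhds hz)
  have hb1 : closedBall (extChartAt I x x) r ⊆ cd I x := fun z h => (hb h).1
  have hb2 := ball_subset_closedBall.trans hb1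
  have hm : MapsTo (extChartAt I x).symm (ball (extChartAt I x x) r) O := fun z h =>
    (hb (ball_subset_closedBall h)).2
  have hsm := cg_sm g A x
  obtain ⟨C, hC⟩ := hI (cg g A x) _ r hr (hsm.mono hb2)
  obtain ⟨z, hz1, hz2⟩ := (isCompact_closedBall (extChartAt I x x) r).exists_isMinOn
    ⟨_, mem_closedBall_self hr.le⟩ (hsm.vol.continuousOn.mono hb1)
  have hc := hsm.vol_pos (hb1 hz1)
  refine ⟨|C| * ((cg g A x).vol z)⁻¹, by positivity, fun u hu => ?_⟩
  have h2 := hC _ (hu.ew hv hO hb2 hm)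
  have h3 := vol_lintegral_le (A := A) hv x (fun y => ENNReal.ofReal (‖u y‖ ^ 2)) measurableSet_ball
    (hb2.trans (cd_sub I x)) hO.measurableSet hm
  rw [pl, (extChartAt I x).left_inv hs] at h2
  rw [ENNReal.ofReal_mul (abs_nonneg C), mul_assoc]
  refine h2.trans (mul_le_mul' (ENNReal.ofReal_le_ofReal (le_abs_self C))
    (le_trans ?_ (mul_le_mul_right h3 _)))
  rw [← lintegral_const_mul' _ _ ENNReal.ofReal_ne_top]
  refine setLIntegral_mono' measurableSet_ball fun y hy => ?_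
  rw [← mul_assoc, ← ENNReal.ofReal_mul (inv_pos.2 hc).le]
  refine le_mul_of_one_le_left' (ENNReal.one_le_ofReal.2 ?_)
  exact (one_le_inv_mul₀ hc).2 (hz2 (ball_subset_closedBall hy))

theorem mg_point (hI : GI n N) (hv : IsVol g μ) (h : MG g μ A G) {K : Set M} (hK : IsClosed K)
    (hx : x ∈ I.interior M) (hxK : x ∉ K) : ∃ C : ℝ, 0 ≤ C ∧ ∀ F, MT I (I.interior M) F →
      tsupport F ⊆ K → ‖G F x‖ ^ 2 ≤ C * ∫ y, ‖F y‖ ^ 2 ∂μ := by
  obtain ⟨C, hC, h1⟩ := mg_l2 hv h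
  obtain ⟨D, hD, h2⟩ := mw_point hI hv A (isOpen_interior'.sdiff hK) sdiff_subset ⟨hx, hxK⟩
  refine ⟨D * C, mul_nonneg hD hC, fun F hF hs => ?_⟩
  have h3 := h2 (G F) (mw_mono (h.sol F hF) sdiff_subset fun y hy =>
    image_eq_zero_of_notMem_tsupport fun e => hy.2 (hs e))
  have h4 := h3.trans (mul_le_mul_right ((lintegral_mono_set sdiff_subset).trans (h1 F hF)) _)
  have h5 : 0 ≤ ∫ y, ‖F y‖ ^ 2 ∂μ := integral_nonneg fun x => sq_nonneg _
  rwa [← ENNReal.ofReal_mul hD, ENNReal.ofReal_le_ofReal_iff (by positivity), ← mul_assoc] at h4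

end Vale.Agent.P088.Gl
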