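import Vale.Agent.P088F.TM1
import Vale.Agent.P088F.FinT

/-! P088 T: local isometries in charts. -/

open MeasureTheory Set Filter Bundle Metric Topology Matrix
open scoped Manifold ContDiff ENNReal

noncomputable section

namespace Vale.Agent.P088.Gl

variable {n N : ℕ} {H : Type} [TopologicalSpace H] {I : ModelWithCorners ℝ (Ec n) H}
  {M : Type} [TopologicalSpace M] [ChartedSpace H M] [IsManifold I ∞ M] [T2Space M] [CompactSpace M]
  {g g₁ g₂ : Met I M} {A A₁ A₂ : Conn I M N} {p q x : M} {O O' Γ : Set M} {Φ Φ' : M → M}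
  {U U' : M → Op N} {u w F : M → Fb N} {G G₁ G₂ S S₁ S₂ : (M → Fb N) → M → Fb N}
  {Ω : Set (Ec n)} {z : Ec n}

/-- A map in charts. -/
def tcm (I : ModelWithCorners ℝ (Ec n) H) (p q : M) (Φ : M → M) (z : Ec n) : Ec n :=
  extChartAt I p (Φ ((extChartAt I q).symm z))

/-- A map given in charts. -/
def tmc (I : ModelWithCorners ℝ (Ec n) H) (p q : M) (Ψ : Ec n → Ec n) (x : M) : M :=
  (extChartAt I p).symm (Ψ (extChartAt I q x))

theorem TM3_gram (b b' : Ec n →ₗ[ℝ] Ec n →ₗ[ℝ] ℝ)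
    (h : (gram fun v w => b v w) = gram fun v w => b' v w) (v w : Ec n) : b v w = b' v w := by
  have e : ∀ i j, b (bv i) (bv j) = b' (bv i) (bv j) := fun i j => congrFun (congrFun h i) j
  rw [bv_sum v, bv_sum w]
  simp only [map_sum, map_smul, LinearMap.sum_apply, LinearMap.smul_apply, e]

theorem TM3_lin (a₂ a₁ d : Ec n →L[ℝ] Op N) (D : Ec n →L[ℝ] Ec n) (W : Op N)
    (h : ∀ i, W * a₂ (bv i) = (∑ k, D (bv i) k • a₁ (bv k)) * W + d (bv i)) (v : Ec n) :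
    W * a₂ v = a₁ (D v) * W + d v := by
  simp only [← FinT_lin a₁] at h
  ext1 ξ
  have e : ∀ i, W (a₂ (bv i) ξ) = a₁ (D (bv i)) (W ξ) + d (bv i) ξ := fun i =>
    congrArg (fun B : Op N => B ξ) (h i)
  rw [bv_sum v]
  simp only [map_sum, map_smul, ContinuousLinearMap.mul_apply, ContinuousLinearMap.add_apply,
    ContinuousLinearMap.sum_apply, ContinuousLinearMap.smul_apply,
    ContinuousLinearMap.map_smul_of_tower, e, smul_add, Finset.sum_add_distrib]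

theorem iso_mono (h : Iso g₁ A₁ g₂ A₂ O Φ U) (h1 : IsOpen O') (h2 : O' ⊆ O) :
    Iso g₁ A₁ g₂ A₂ O' Φ U := by
  exact ⟨h1, h2.trans h.int, h.mp.mono_left h2, h.sΦ.mono h2, h.inj.mono h2, h.sU.mono h2,
    fun x hx => h.uni x (h2 hx), fun x hx => h.met x (h2 hx), fun x hx => h.con x (h2 hx)⟩

theorem iso_glue (hO : IsOpen O) (hi : InjOn Φ O) (h : ∀ x ∈ O, ∃ O' Φ' U',
    Iso g₁ A₁ g₂ A₂ O' Φ' U' ∧ x ∈ O' ∧ ∀ y ∈ O', Φ y = Φ' y ∧ U y = U' y) :
    Iso g₁ A₁ g₂ A₂ O Φ U := by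
  have e1 : ∀ x y : M, x = y → ∀ v w : Ec n, g₁.inner x v w = g₁.inner y v w := by
    rintro _ _ rfl _ _
    rfl
  have e2 : ∀ x y : M, x = y → ∀ v : Ec n, A₁.A x v = A₁.A y v := by
    rintro _ _ rfl _
    rfl
  choose! O' Φ' U' hs hx he using h
  have a : ∀ x ∈ O, Φ =ᶠ[𝓝 x] Φ' x := fun x h =>
    mem_of_superset ((hs x h).op.mem_nhds (hx x h)) fun y hy => (he x h y hy).1
  have b : ∀ x ∈ O, U =ᶠ[𝓝 x] U' x := fun x h =>
    mem_of_superset ((hs x h).op.mem_nhds (hx x h)) fun y hy => (he x h y hy).2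
  have d : ∀ x ∈ O, ∀ v : Ec n, (mfderiv I I Φ x v : Ec n) = mfderiv I I (Φ' x) x v :=
    fun x h v => congrArg (fun L : Ec n →L[ℝ] Ec n => L v) (a x h).mfderiv_eq
  refine ⟨hO, fun x h => (hs x h).int (hx x h), fun x h => ?_, fun x h => ?_, hi, fun x h => ?_,
    fun x h => ?_, fun x h v w => ?_, fun x h v => ?_⟩
  · rw [(a x h).eq_of_nhds]
    exact (hs x h).mp (hx x h)
  · exact (((hs x h).sΦ.contMDiffAt ((hs x h).op.mem_nhds (hx x h))).congr_of_eventuallyEq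
      (a x h)).contMDiffWithinAt
  · exact (((hs x h).sU.contMDiffAt ((hs x h).op.mem_nhds (hx x h))).congr_of_eventuallyEq
      (b x h)).contMDiffWithinAt
  · rw [(b x h).eq_of_nhds]
    exact (hs x h).uni x (hx x h)
  · refine ((hs x h).met x (hx x h) v w).trans ((e1 _ _ (a x h).eq_of_nhds.symm _ _).trans ?_)
    exact congrArg₂ (fun v w : Ec n => g₁.inner (Φ x) v w) (d x h v).symm (d x h w).symm
  · have c : dif I U x v = dif I (U' x) x v :=
      congrArg (fun L : Ec n →L[ℝ] Op N => L v) (b x h).mfderiv_eq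
    rw [c, (b x h).eq_of_nhds, (hs x h).con x (hx x h) v]
    refine congrArg (· * _ + _) ((e2 _ _ (a x h).eq_of_nhds.symm _).trans ?_)
    exact congrArg (fun v : Ec n => A₁.A (Φ x) v) (d x h v).symm

theorem iso_chart (h : Iso g₁ A₁ g₂ A₂ O Φ U) (hΩ : IsOpen Ω) (h1 : Ω ⊆ cd I q)
    (h2 : MapsTo (extChartAt I q).symm Ω O)
    (h3 : ∀ z ∈ Ω, Φ ((extChartAt I q).symm z) ∈ (extChartAt I p).source) :
    EIso Ω (cg g₁ A₁ p) (cg g₂ A₂ q) (tcm I p q Φ) (pl I q U) ∧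
      MapsTo (tcm I p q Φ) Ω (cd I p) := by
  exact ⟨h.eiso q p hΩ (h1.trans (cd_sub I q)) fun z hz => ⟨h2 hz, h3 z hz⟩,
    fun z hz => (cd_iff (h3 z hz)).2 (h.mp (h2 hz))⟩

theorem eiso_mfd {Ψ : Ec n → Ec n} {V : Ec n → Op N} (h : EIso Ω (cg g₁ A₁ p) (cg g₂ A₂ q) Ψ V)
    (h1 : Ω ⊆ cd I q) (h2 : MapsTo Ψ Ω (cd I p)) :
    Iso g₁ A₁ g₂ A₂ ((extChartAt I q).symm '' Ω) (tmc I p q Ψ) fun x => V (extChartAt I q x) := by
  have t1 : Ω ⊆ (extChartAt I q).target := h1.trans (cd_sub I q)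
  have r : ∀ z ∈ Ω, extChartAt I q ((extChartAt I q).symm z) = z := fun z hz =>
    (extChartAt I q).right_inv (t1 hz)
  have t : ∀ z ∈ Ω, tmc I p q Ψ ((extChartAt I q).symm z) = (extChartAt I p).symm (Ψ z) :=
    fun z hz => by rw [tmc, r z hz]
  have hO := cd_image_open h.op h1
  have mq : MapsTo (extChartAt I q) ((extChartAt I q).symm '' Ω) Ω := by
    rintro _ ⟨z, hz, rfl⟩
    rwa [r z hz]
  have s0 : ContMDiffOn I 𝓘(ℝ, Ec n) ∞ (extChartAt I q) ((extChartAt I q).symm '' Ω) :=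
    (contMDiffOn_extChartAt (I := I) (x := q)).mono (by
      rintro _ ⟨z, hz, rfl⟩
      exact symm_mem (t1 hz))
  have sΦ : ContMDiffOn I I ∞ (tmc I p q Ψ) ((extChartAt I q).symm '' Ω) :=
    (contMDiffOn_extChartAt_symm p).comp (h.sΨ.contMDiffOn.comp s0 mq)
      fun x hx => cd_sub I p (h2 (mq hx))
  have sU : ContMDiffOn I 𝓘(ℝ, Op N) ∞ (fun x => V (extChartAt I q x))
      ((extChartAt I q).symm '' Ω) := h.sV.contMDiffOn.comp s0 mq
  obtain ⟨Ψ', hΨ⟩ : ∃ Ψ' : Ec n → Ec n,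
    Ψ' = fun z => extChartAt I p (tmc I p q Ψ ((extChartAt I q).symm z)) := ⟨_, rfl⟩
  have ee : EqOn Ψ' Ψ Ω := fun z hz => by
    rw [hΨ]
    simp only [t z hz]
    exact (extChartAt I p).right_inv (cd_sub I p (h2 hz))
  have e1 : ∀ x y : M, x = y → ∀ v w : Ec n, g₁.inner x v w = g₁.inner y v w := by
    rintro _ _ rfl _ _
    rfl
  have e2 : ∀ x y : M, x = y → ∀ v : Ec n, A₁.A x v = A₁.A y v := by
    rintro _ _ rfl _
    rfl
  have e3 : ∀ a b : Ec n, a = b → ∀ v : Ec n, (fr I p a v : Ec n) = fr I p b v := by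
    rintro _ _ rfl _
    rfl
  have k : ∀ z ∈ Ω, ∀ v : Ec n, (mfderiv I I (tmc I p q Ψ) ((extChartAt I q).symm z) (fr I q z v) :
      Ec n) = fr I p (Ψ z) (fderiv ℝ Ψ z v) := fun z hz v => by
    refine (FinT_key hO sΦ h.op t1 (fun y hy => ⟨mem_image_of_mem _ hy, ?_⟩) hΨ (h.sΨ.congr ee)
      hz v).trans ?_
    · rw [t y hy]
      exact (extChartAt I p).map_target (cd_sub I p (h2 hy))
    · rw [(ee.eventuallyEq_of_mem (h.op.mem_nhds hz)).fderiv_eq]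
      exact e3 _ _ (ee hz) _
  refine ⟨hO, ?_, ?_, sΦ, ?_, sU, fun x hx => h.uni _ (mq hx), ?_, ?_⟩
  · rintro _ ⟨z, hz, rfl⟩
    exact symm_interior (h1 hz)
  · rintro _ ⟨z, hz, rfl⟩
    rw [t z hz]
    exact symm_interior (h2 hz)
  · rintro _ ⟨a, ha, rfl⟩ _ ⟨b, hb, rfl⟩ e
    rw [t a ha, t b hb] at e
    rw [h.inj ha hb ((extChartAt I p).symm.injOn (cd_sub I p (h2 ha)) (cd_sub I p (h2 hb)) e)]
  · rintro _ ⟨z, hz, rfl⟩ v w
    obtain ⟨v, rfl⟩ := (fr_bij (t1 hz)).2 v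
    obtain ⟨w, rfl⟩ := (fr_bij (t1 hz)).2 w
    refine Eq.trans ?_ ((congrArg₂ (fun v w : Ec n => g₁.inner ((extChartAt I p).symm (Ψ z)) v w)
      (k z hz v).symm (k z hz w).symm).trans (e1 _ _ (t z hz).symm _ _))
    exact TM3_gram ((g₂.inner ((extChartAt I q).symm z)).toLinearMap₁₂.compl₁₂
      (fr I q z).toLinearMap (fr I q z).toLinearMap)
      ((g₁.inner ((extChartAt I p).symm (Ψ z))).toLinearMap₁₂.compl₁₂
        ((fr I p (Ψ z)).comp (fderiv ℝ Ψ z)).toLinearMap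
        ((fr I p (Ψ z)).comp (fderiv ℝ Ψ z)).toLinearMap)
      ((h.met z hz).trans (FinT_gram (g₁.inner ((extChartAt I p).symm (Ψ z))).toLinearMap₁₂
        (fr I p (Ψ z)).toLinearMap (fderiv ℝ Ψ z)).symm) v w
  · rintro _ ⟨z, hz, rfl⟩ v
    obtain ⟨v, rfl⟩ := (fr_bij (t1 hz)).2 v
    have d := pl_hasFDerivAt (p := q) (h1 hz)
      ((sU.contMDiffAt (hO.mem_nhds (mem_image_of_mem _ hz))).mdifferentiableAt (by simp))
    have ev : V =ᶠ[𝓝 z] pl I q fun x => V (extChartAt I q x) :=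
      mem_of_superset (h.op.mem_nhds hz) fun y hy => congrArg V (r y hy).symm
    have d' : fderiv ℝ V z v = dif I (fun x => V (extChartAt I q x)) ((extChartAt I q).symm z)
        (fr I q z v) := by
      rw [ev.fderiv_eq, d.fderiv]
      rfl
    rw [← d', r z hz]
    refine (TM3_lin ((A₂.A ((extChartAt I q).symm z)).comp (fr I q z))
      ((A₁.A ((extChartAt I p).symm (Ψ z))).comp (fr I p (Ψ z))) (fderiv ℝ V z) (fderiv ℝ Ψ z)
      (V z) (h.con z hz) v).trans (congrArg (· * _ + _) ?_)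
    exact (congrArg (fun v : Ec n => A₁.A ((extChartAt I p).symm (Ψ z)) v) (k z hz v).symm).trans
      (e2 _ _ (t z hz).symm _)

theorem grel_mono (h : GRel I O G₁ G₂ Φ U) (hi : InjOn Φ O) (h1 : O' ⊆ O) :
    GRel I O' G₁ G₂ Φ U := by
  intro F₁ F₂ a b e x hx
  refine h F₁ F₂ ⟨a.1, a.2.trans (image_mono h1)⟩ ⟨b.1, b.2.trans h1⟩ (fun y hy => ?_) x (h1 hx)
  by_cases hy' : y ∈ O'
  · exact e y hy'
  · rw [image_eq_zero_of_notMem_tsupport fun c => hy' (b.2 c), map_zero]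
    refine image_eq_zero_of_notMem_tsupport fun c => ?_
    obtain ⟨y', c1, c2⟩ := a.2 c
    exact hy' (hi (h1 c1) hy c2 ▸ c1)

theorem grel_congr (h : GRel I O G₁ G₂ Φ U) (e : ∀ x ∈ O, Φ' x = Φ x ∧ U' x = U x) :
    GRel I O G₁ G₂ Φ' U' := by
  intro F₁ F₂ a b c x hx
  rw [image_congr fun y hy => (e y hy).1] at a
  rw [(e x hx).1, (e x hx).2]
  exact h F₁ F₂ a b (fun y hy => by rw [← (e y hy).1, ← (e y hy).2, c y hy]) x hx

theorem grel_chart (h : GRel I ((extChartAt I q).symm '' Ω) G₁ G₂ Φ U) (h1 : Ω ⊆ cd I q)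
    (h3 : ∀ z ∈ Ω, Φ ((extChartAt I q).symm z) ∈ (extChartAt I p).source)
    (h4 : MapsTo (tcm I p q Φ) Ω (cd I p)) :
    ERel Ω (fun F => pl I p (G₁ (ps I p F))) (fun F => pl I q (G₂ (ps I q F))) (tcm I p q Φ)
      (pl I q U) := by
  intro F₁ F₂ a b c z hz
  have t : ∀ z ∈ Ω, (extChartAt I p).symm (tcm I p q Φ z) = Φ ((extChartAt I q).symm z) :=
    fun z hz => (extChartAt I p).left_inv (h3 z hz)
  have := h (ps I p F₁) (ps I q F₂) (a.mt h4.image_subset (by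
    rintro _ ⟨y, hy, rfl⟩
    rw [t y hy]
    exact mem_image_of_mem _ (mem_image_of_mem _ hy))) (b.mt h1 (mapsTo_image _ _)) (by
    rintro _ ⟨y, hy, rfl⟩
    rw [ps_of_mem _ (h3 y hy)]
    exact (c y hy).trans (congrArg _ (pl_ps F₂ (cd_sub I q (h1 hy))).symm)) _
    (mem_image_of_mem _ hz)
  rw [← t z hz] at this
  exact this

theorem erel_mfd {Ψ : Ec n → Ec n} {V : Ec n → Op N}
    (h : ERel Ω (fun F => pl I p (G₁ (ps I p F))) (fun F => pl I q (G₂ (ps I q F))) Ψ V)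
    (hΩ : IsOpen Ω) (hΩ' : IsOpen (Ψ '' Ω)) (h1 : Ω ⊆ cd I q) (h2 : MapsTo Ψ Ω (cd I p)) :
    GRel I ((extChartAt I q).symm '' Ω) G₁ G₂ (tmc I p q Ψ) fun x => V (extChartAt I q x) := by
  intro F₁ F₂ a b c
  have r : ∀ z ∈ Ω, extChartAt I q ((extChartAt I q).symm z) = z := fun z hz =>
    (extChartAt I q).right_inv (cd_sub I q (h1 hz))
  have t : ∀ z ∈ Ω, tmc I p q Ψ ((extChartAt I q).symm z) = (extChartAt I p).symm (Ψ z) :=
    fun z hz => by rw [tmc, r z hz]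
  rw [image_image, image_congr t, ← image_image] at a
  obtain ⟨a1, a2⟩ := pl_test hΩ' h2.image_subset a
  obtain ⟨b1, b2⟩ := pl_test hΩ h1 b
  rintro _ ⟨z, hz, rfl⟩
  have := h _ _ a1 b1 (fun y hy => by
    have := c _ (mem_image_of_mem _ hy)
    rw [t y hy] at this
    rw [indicator_of_mem (mem_image_of_mem _ hy), indicator_of_mem hy]
    exact this.trans (by simp only [r y hy]; rfl)) z hz
  simp only [a2, b2] at this
  rw [t z hz]
  exact this.trans (by simp only [r z hz]; rfl)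

end Vale.Agent.P088.Gl
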