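import Vale.Agent.P088F.TX1
import Vale.Agent.P088F.TSp

/-! P088 T: local continuation at the boundary point, in coordinates.
Hints: LC with D = lo n r, c = -(r/2) e₀, Ψ = id, V = 1 (ti_refl); Ψ' = id, V' = 1 on the closed
lower half ball by continuity; choose ε' with Ψ' (ball 0 ε') ⊆ ball 0 ε; injectivity sends the upper
half to the upper half; erel_spread from lo n ε'. -/

open MeasureTheory Set Filter Bundle Metric Topology Matrix
open scoped Manifold ContDiff ENNReal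

noncomputable section

namespace Vale.Agent.P088.Gl

variable {n N : ℕ} [NeZero n] {r : ℝ} {γ₁ γ₂ : Geo n N} {G₁ G₂ : (Ec n → Fb N) → Ec n → Fb N}

theorem TSt1_clo {ε : ℝ} : ball (0 : Ec n) ε ∩ {z | z 0 ≤ 0} ⊆ closure (lo n ε) := by
  rintro z ⟨hz, h0⟩
  refine isOpen_ball.inter_closure ⟨hz, ?_⟩
  have hc : Tendsto (fun t : ℝ => z - t • (EuclideanSpace.single 0 (1 : ℝ) : Ec n)) (𝓝[>] 0)
      (𝓝 z) := by
    have : Continuous fun t : ℝ => z - t • (EuclideanSpace.single 0 (1 : ℝ) : Ec n) := by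
      fun_prop
    have h := this.tendsto 0
    simp only [zero_smul, sub_zero] at h
    exact h.mono_left nhdsWithin_le_nhds
  refine mem_closure_of_tendsto hc ?_
  filter_upwards [self_mem_nhdsWithin] with t ht
  have h0' : z 0 ≤ 0 := h0
  have ht' : 0 < t := ht
  simp only [mem_setOf_eq, PiLp.sub_apply, PiLp.smul_apply, smul_eq_mul]
  simp
  linarith

theorem TSt1_ball (hr : 0 < r) :
    ball (EuclideanSpace.single 0 (-(r / 2)) : Ec n) (r / 2) ⊆ lo n r := by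
  intro z hz
  have hn : ‖(EuclideanSpace.single 0 (-(r / 2)) : Ec n)‖ = r / 2 := by
    simp [abs_of_pos hr]
  rw [mem_ball, dist_eq_norm] at hz
  constructor
  · rw [mem_ball_zero_iff]
    have := norm_le_norm_sub_add z (EuclideanSpace.single 0 (-(r / 2)) : Ec n)
    linarith
  · have h1 := PiLp.norm_apply_le (z - (EuclideanSpace.single 0 (-(r / 2)) : Ec n)) 0
    simp only [PiLp.sub_apply, Real.norm_eq_abs] at h1
    have h2 : (EuclideanSpace.single 0 (-(r / 2)) : Ec n) 0 = -(r / 2) := by simp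
    rw [h2] at h1
    have := le_abs_self (z 0 - -(r / 2))
    show z 0 < 0
    linarith

theorem TSt1_lo_mono {a b : ℝ} (h : a ≤ b) : lo n a ⊆ lo n b :=
  fun _ hz => ⟨ball_subset_ball h hz.1, hz.2⟩

theorem start_loc (hL : LC n N) (hU : GU n N) (hr : 0 < r) (s₁ : γ₁.Sm (ball 0 r))
    (s₂ : γ₂.Sm (ball 0 r)) (h₁ : EG (ball 0 r) γ₁ G₁) (h₂ : EG (ball 0 r) γ₂ G₂)
    (e : ∀ z ∈ lo n r, γ₁.g z = γ₂.g z ∧ ∀ i, γ₁.a i z = γ₂.a i z)
    (e' : ∀ F, ET (lo n r) F → EqOn (G₁ F) (G₂ F) (lo n r)) :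
    ∃ (ε : ℝ) (Ψ : Ec n → Ec n) (V : Ec n → Op N), 0 < ε ∧ ε ≤ r ∧ EIso (ball 0 ε) γ₁ γ₂ Ψ V ∧
      MapsTo Ψ (ball 0 ε) (ball 0 r) ∧ MapsTo Ψ (up n ε) (up n r) ∧
      (∀ z ∈ ball (0 : Ec n) ε, z 0 ≤ 0 → Ψ z = z ∧ V z = 1) ∧ ERel (ball 0 ε) G₁ G₂ Ψ V := by
  have hrel : ERel (lo n r) G₁ G₂ id fun _ => (1 : Op N) := by
    intro F₁ F₂ a b h z hz
    rw [image_id] at a
    have : F₁ = F₂ := by
      funext y
      by_cases c : y ∈ lo n r
      · exact h y c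
      · rw [image_eq_zero_of_notMem_tsupport (f := F₁) fun d => c (a.2.2 d),
          image_eq_zero_of_notMem_tsupport (f := F₂) fun d => c (b.2.2 d)]
    subst this
    exact e' F₁ a hz
  have hd : dist (0 : Ec n) (EuclideanSpace.single 0 (-(r / 2))) = r / 2 := by
    simp [abs_of_pos hr]
  obtain ⟨ε, hε, Ψ, V, -, hI, hm, he⟩ := hL (ball 0 r) (ball 0 r) (lo n r) γ₁ γ₂ G₁ G₂
    (EuclideanSpace.single 0 (-(r / 2))) 0 0 (r / 2) id (fun _ => 1) 1 isOpen_ball isOpen_ball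
    s₁ s₂ h₁ h₂ (half_pos hr) (TSt1_ball hr) (fun _ h => h.1) hd (mem_ball_self hr)
    (mem_ball_self hr) (ti_refl (isOpen_lo' n r) e) (fun _ h => h.1)
    (tendsto_id.mono_left nhdsWithin_le_nhds) tendsto_const_nhds hrel
  set δ := min ε r with hδ
  have hδ0 : 0 < δ := lt_min hε hr
  have hb : ball (0 : Ec n) δ ⊆ ball 0 ε := ball_subset_ball (min_le_left _ _)
  have hlo : ∀ z ∈ lo n δ, Ψ z = z ∧ V z = 1 := fun z hz =>
    he z ⟨TSt1_lo_mono (min_le_right _ _) hz, hb hz.1⟩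
  have hsub : lo n δ ⊆ ball (0 : Ec n) δ ∩ {z | z 0 ≤ 0} :=
    fun z hz => ⟨hz.1, le_of_lt (show z 0 < 0 from hz.2)⟩
  have hsub' : ball (0 : Ec n) δ ∩ {z | z 0 ≤ 0} ⊆ ball 0 ε := fun z hz => hb hz.1
  have eΨ : EqOn Ψ id (ball (0 : Ec n) δ ∩ {z | z 0 ≤ 0}) :=
    EqOn.of_subset_closure (fun z hz => (hlo z hz).1) (hI.sΨ.continuousOn.mono hsub')
      continuousOn_id hsub TSt1_clo
  have eV : EqOn V (fun _ => 1) (ball (0 : Ec n) δ ∩ {z | z 0 ≤ 0}) :=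
    EqOn.of_subset_closure (fun z hz => (hlo z hz).2) (hI.sV.continuousOn.mono hsub')
      continuousOn_const hsub TSt1_clo
  have c0 : ContinuousAt Ψ 0 := (hI.atΨ (mem_ball_self hε)).continuousAt
  have p0 : Ψ 0 = 0 := eΨ ⟨mem_ball_self hδ0, le_of_eq (show (0 : Ec n) 0 = 0 from rfl)⟩
  obtain ⟨η, hη, hb'⟩ := Metric.continuousAt_iff.1 c0 δ hδ0
  rw [p0] at hb'
  set ρ := min η δ with hρ
  have hρ0 : 0 < ρ := lt_min hη hδ0
  have hρδ : ball (0 : Ec n) ρ ⊆ ball 0 δ := ball_subset_ball (min_le_right _ _)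
  have hρr : ρ ≤ r := (min_le_right _ _).trans (min_le_right _ _)
  have hI' : EIso (ball 0 ρ) γ₁ γ₂ Ψ V := hI.mono isOpen_ball (hρδ.trans hb)
  have hm' : MapsTo Ψ (ball 0 ρ) (ball 0 r) := fun z hz => hm (hb (hρδ hz))
  refine ⟨ρ, Ψ, V, hρ0, hρr, hI', hm', fun z hz => ⟨hm' hz.1, ?_⟩,
    fun z hz h0 => ⟨eΨ ⟨hρδ hz, h0⟩, eV ⟨hρδ hz, h0⟩⟩, ?_⟩
  · by_contra hc
    have hc' : Ψ z 0 ≤ 0 := not_lt.1 hc
    have hw : Ψ z ∈ ball (0 : Ec n) δ := hb' (lt_of_lt_of_le hz.1 (min_le_left _ _))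
    have h1 : Ψ (Ψ z) = Ψ z := eΨ ⟨hw, hc'⟩
    have h2 : Ψ z = z := hI.inj (hb hw) (hb (hρδ hz.1)) h1
    rw [h2] at hc'
    exact absurd (show 0 < z 0 from hz.2) (not_lt.2 hc')
  · refine erel_spread hU hI' (convex_ball _ _).isPreconnected (s₂.sub (ball_subset_ball hρr))
      h₁ h₂ hm' (ball_subset_ball hρr) (isOpen_lo' n ρ)
      ⟨_, TSt1_ball hρ0 (mem_ball_self (half_pos hρ0))⟩ (fun _ h => h.1) ?_
    exact erel_congr (erel_mono hrel (injOn_id _) (TSt1_lo_mono hρr))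
      fun z hz => hlo z (TSt1_lo_mono (min_le_right _ _) hz)

end Vale.Agent.P088.Gl
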