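import Vale.Agent.P088F.TE2
import Vale.Agent.P088F.GXb

/-! P088: boundary charts with gauge. -/

open MeasureTheory Set Filter Bundle Metric Topology Matrix
open scoped Manifold ContDiff ENNReal

noncomputable section

namespace Vale.Agent.P088.Gl

variable {n N : ℕ} [NeZero n] {r : ℝ} {z : Ec n}

theorem isOpen_up' (n : ℕ) [NeZero n] (r : ℝ) : IsOpen (up n r) :=
  isOpen_ball.inter (isOpen_lt continuous_const (EuclideanSpace.proj (0 : Fin n)).continuous)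

theorem isOpen_lo' (n : ℕ) [NeZero n] (r : ℝ) : IsOpen (lo n r) :=
  isOpen_ball.inter (isOpen_lt (EuclideanSpace.proj (0 : Fin n)).continuous continuous_const)

theorem isClosed_half (n : ℕ) [NeZero n] : IsClosed {z : Ec n | 0 ≤ z 0} :=
  isClosed_le continuous_const (EuclideanSpace.proj (0 : Fin n)).continuous

theorem up_sub_hp : up n r ⊆ hp n r := fun z h => ⟨h.1, le_of_lt (show 0 < z 0 from h.2)⟩

theorem hp_meas : MeasurableSet (hp n r) :=
  isOpen_ball.measurableSet.inter (isClosed_half n).measurableSet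

theorem null_plane (n : ℕ) [NeZero n] : volume {z : Ec n | z 0 = 0} = 0 := by
  refine Measure.addHaar_submodule volume
    (LinearMap.ker (EuclideanSpace.proj (0 : Fin n) : Ec n →L[ℝ] ℝ).toLinearMap) fun h => ?_
  have : bv (0 : Fin n) ∈ LinearMap.ker (EuclideanSpace.proj (0 : Fin n) : Ec n →L[ℝ] ℝ).toLinearMap :=
    h ▸ Submodule.mem_top
  simp [bv] at this

theorem ae_ne_plane : ∀ᵐ z : Ec n, z 0 ≠ 0 := measure_eq_zero_iff_ae_notMem.1 (null_plane n)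

theorem up_ae_hp : up n r =ᵐ[volume] hp n r := by
  filter_upwards [ae_ne_plane (n := n)] with z hz
  exact propext ⟨fun h => up_sub_hp h, fun h => ⟨h.1, lt_of_le_of_ne h.2 hz.symm⟩⟩

theorem range_half : range (𝓡∂ n) = {z : Ec n | 0 ≤ z 0} := range_modelWithCornersEuclideanHalfSpace n

theorem interior_half : interior (range (𝓡∂ n)) = {z : Ec n | 0 < z 0} :=
  interior_range_modelWithCornersEuclideanHalfSpace n

variable {M : Type} [TopologicalSpace M] [ChartedSpace (EuclideanHalfSpace n) M]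
  [IsManifold (𝓡∂ n) ∞ M] {p x : M}

omit [IsManifold (𝓡∂ n) ∞ M] in
theorem target_nonneg (hz : z ∈ (extChartAt (𝓡∂ n) p).target) : 0 ≤ z 0 :=
  (range_half (n := n)).subset (extChartAt_target_subset_range p hz)

omit [IsManifold (𝓡∂ n) ∞ M] in
theorem mem_cd_half : z ∈ cd (𝓡∂ n) p ↔ z ∈ (extChartAt (𝓡∂ n) p).target ∧ 0 < z 0 := by
  rw [mem_cd, interior_half]
  rfl

theorem bd_iff (hx : x ∈ (extChartAt (𝓡∂ n) p).source) :
    x ∈ (𝓡∂ n).boundary M ↔ extChartAt (𝓡∂ n) p x 0 = 0 := by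
  have h := (extChartAt (𝓡∂ n) p).map_source hx
  rw [← (𝓡∂ n).compl_interior, mem_compl_iff, ← cd_iff hx, mem_cd_half, and_iff_right h, not_lt]
  exact ⟨fun a => le_antisymm a (target_nonneg h), le_of_eq⟩

variable {Γ : Set M} {g : Met (𝓡∂ n) M} {A : Conn (𝓡∂ n) M N} {τ θ : Ec n → Ec n}
  {W : Ec n → Op N} {γ : Geo n N} {F φ : Ec n → Fb N} {u w : M → Fb N}

namespace XP

theorem uni (h : XP Γ g A p r τ θ W γ) (hz : z ∈ hp n r) : W z ∈ unitary (Op N) := by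
  rcases (show 0 ≤ z 0 from hz.2).eq_or_lt with e | e
  · rw [h.W1 z hz e.symm]
    exact one_mem _
  · exact h.iso.uni z ⟨hz.1, e⟩

theorem kap_src (h : XP Γ g A p r τ θ W γ) (hz : z ∈ hp n r) :
    xpt p τ z ∈ (extChartAt (𝓡∂ n) p).source := (extChartAt (𝓡∂ n) p).map_target (h.mp hz)

theorem chart_kap (h : XP Γ g A p r τ θ W γ) (hz : z ∈ hp n r) :
    extChartAt (𝓡∂ n) p (xpt p τ z) = τ z := (extChartAt (𝓡∂ n) p).right_inv (h.mp hz)

theorem kap_zero (h : XP Γ g A p r τ θ W γ) : xpt p τ 0 = p := by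
  rw [xpt, h.τ0, extChartAt_to_inv]

theorem kap_inj (h : XP Γ g A p r τ θ W γ) : InjOn (xpt p τ) (hp n r) := fun a ha b hb e => by
  rw [← h.inv a ha, ← h.inv b hb, ← h.chart_kap ha, ← h.chart_kap hb, e]

theorem kap_smooth (h : XP Γ g A p r τ θ W γ) :
    ContMDiffOn 𝓘(ℝ, Ec n) (𝓡∂ n) ∞ (xpt p τ) (hp n r) :=
  (contMDiffOn_extChartAt_symm p).comp h.sτ.contMDiffOn h.mp

theorem kap_int (h : XP Γ g A p r τ θ W γ) (hz : z ∈ up n r) :
    xpt p τ z ∈ (𝓡∂ n).interior M := symm_interior (h.int hz)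

theorem kap_bd_iff (h : XP Γ g A p r τ θ W γ) (hz : z ∈ hp n r) :
    xpt p τ z ∈ (𝓡∂ n).boundary M ↔ z 0 = 0 := by
  refine ⟨fun a => by_contra fun b => ?_, fun a => ?_⟩
  · rw [← (𝓡∂ n).compl_interior] at a
    exact a (h.kap_int ⟨hz.1, lt_of_le_of_ne hz.2 (Ne.symm b)⟩)
  · rw [bd_iff (h.kap_src hz), h.chart_kap hz]
    exact (h.bd z hz a).1

theorem mem_image (h : XP Γ g A p r τ θ W γ) : x ∈ xpt p τ '' hp n r ↔
    x ∈ (extChartAt (𝓡∂ n) p).source ∧ extChartAt (𝓡∂ n) p x ∈ τ '' hp n r := by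
  refine ⟨?_, fun ⟨a, z, hz, e⟩ => ⟨z, hz, ?_⟩⟩
  · rintro ⟨z, hz, rfl⟩
    exact ⟨h.kap_src hz, z, hz, (h.chart_kap hz).symm⟩
  · rw [xpt, e, (extChartAt (𝓡∂ n) p).left_inv a]

theorem isOpen_image (h : XP Γ g A p r τ θ W γ) : IsOpen (xpt p τ '' hp n r) := by
  obtain ⟨T, hT, e⟩ := h.op
  have h1 : xpt p τ '' hp n r = (extChartAt (𝓡∂ n) p).source ∩ extChartAt (𝓡∂ n) p ⁻¹' T := by
    ext x
    rw [h.mem_image, e]
    exact ⟨fun a => ⟨a.1, a.2.1⟩,
      fun a => ⟨a.1, a.2, target_nonneg ((extChartAt (𝓡∂ n) p).map_source a.1)⟩⟩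
  rw [h1]
  exact (continuousOn_extChartAt p).isOpen_inter_preimage (isOpen_extChartAt_source p) hT

theorem inv_smooth (h : XP Γ g A p r τ θ W γ) : ContMDiffOn (𝓡∂ n) 𝓘(ℝ, Ec n) ∞
    (fun x => θ (extChartAt (𝓡∂ n) p x)) (xpt p τ '' hp n r) :=
  h.sθ.contMDiffOn.comp ((extChartAt_source (𝓡∂ n) p ▸ contMDiffOn_extChartAt :
    ContMDiffOn (𝓡∂ n) 𝓘(ℝ, Ec n) ∞ (extChartAt (𝓡∂ n) p) (extChartAt (𝓡∂ n) p).source).mono
      fun _ hx => (h.mem_image.1 hx).1) fun _ hx => (h.mem_image.1 hx).2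

theorem inv_kap (h : XP Γ g A p r τ θ W γ) (hz : z ∈ hp n r) :
    θ (extChartAt (𝓡∂ n) p (xpt p τ z)) = z := by rw [h.chart_kap hz, h.inv z hz]

theorem isOpen_image_inter (h : XP Γ g A p r τ θ W γ) {O : Set (Ec n)} (hO : IsOpen O) :
    IsOpen (xpt p τ '' (hp n r ∩ O)) := by
  have h1 : xpt p τ '' (hp n r ∩ O) =
      xpt p τ '' hp n r ∩ (fun x => θ (extChartAt (𝓡∂ n) p x)) ⁻¹' O := by
    ext x
    constructor
    · rintro ⟨z, hz, rfl⟩
      exact ⟨mem_image_of_mem _ hz.1, by rw [mem_preimage, h.inv_kap hz.1]; exact hz.2⟩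
    · rintro ⟨⟨z, hz, rfl⟩, a⟩
      rw [mem_preimage, h.inv_kap hz] at a
      exact mem_image_of_mem _ ⟨hz, a⟩
  rw [h1]
  exact h.inv_smooth.continuousOn.isOpen_inter_preimage h.isOpen_image hO

theorem xps_kap (h : XP Γ g A p r τ θ W γ) (F : Ec n → Fb N) (hz : z ∈ hp n r) :
    xps p r τ θ W F (xpt p τ z) = W z (F z) := by
  rw [xps, ps_of_mem _ (h.kap_src hz), h.chart_kap hz, indicator_of_mem (mem_image_of_mem τ hz),
    h.inv z hz]

theorem xps_zero (h : XP Γ g A p r τ θ W γ) (F : Ec n → Fb N) (hx : x ∉ xpt p τ '' hp n r) :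
    xps p r τ θ W F x = 0 := by
  by_cases a : x ∈ (extChartAt (𝓡∂ n) p).source
  · rw [xps, ps_of_mem _ a, indicator_of_notMem fun b => hx (h.mem_image.2 ⟨a, b⟩)]
  · exact ps_of_notMem _ a

theorem xps_ext (h : XP Γ g A p r τ θ W γ) (a : ∀ z ∈ hp n r, u (xpt p τ z) = W z (F z))
    (b : ∀ x ∉ xpt p τ '' hp n r, u x = 0) : xps p r τ θ W F = u := by
  funext x
  by_cases hx : x ∈ xpt p τ '' hp n r
  · obtain ⟨z, hz, rfl⟩ := hx
    rw [h.xps_kap F hz, a z hz]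
  · rw [h.xps_zero F hx, b x hx]

theorem xps_add (h : XP Γ g A p r τ θ W γ) (F F' : Ec n → Fb N) :
    xps p r τ θ W (F + F') = xps p r τ θ W F + xps p r τ θ W F' :=
  h.xps_ext (fun z hz => by simp only [Pi.add_apply, h.xps_kap _ hz, map_add])
    fun x hx => by simp only [Pi.add_apply, h.xps_zero _ hx, add_zero]

theorem xps_sub (h : XP Γ g A p r τ θ W γ) (F F' : Ec n → Fb N) :
    xps p r τ θ W (F - F') = xps p r τ θ W F - xps p r τ θ W F' :=
  h.xps_ext (fun z hz => by simp only [Pi.sub_apply, h.xps_kap _ hz, map_sub])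
    fun x hx => by simp only [Pi.sub_apply, h.xps_zero _ hx, sub_zero]

theorem xps_smul (h : XP Γ g A p r τ θ W γ) (c : ℂ) (F : Ec n → Fb N) :
    xps p r τ θ W (c • F) = c • xps p r τ θ W F :=
  h.xps_ext (fun z hz => by simp only [Pi.smul_apply, h.xps_kap _ hz, map_smul])
    fun x hx => by simp only [Pi.smul_apply, h.xps_zero _ hx, smul_zero]

theorem xps_congr (h : XP Γ g A p r τ θ W γ) {F F' : Ec n → Fb N} (e : EqOn F F' (hp n r)) :
    xps p r τ θ W F = xps p r τ θ W F' :=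
  h.xps_ext (fun z hz => by rw [h.xps_kap _ hz, e hz]) fun _ hx => h.xps_zero _ hx

theorem xpl_rel (h : XP Γ g A p r τ θ W γ) (u : M → Fb N) (z : Ec n) (hz : z ∈ hp n r) :
    u (xpt p τ z) = W z (xpl p τ W u z) := (uni_right (h.uni hz) _).symm

theorem xpl_xps' (h : XP Γ g A p r τ θ W γ) (F : Ec n → Fb N) (hz : z ∈ hp n r) :
    xpl p τ W (xps p r τ θ W F) z = F z := by rw [xpl, h.xps_kap F hz, uni_left (h.uni hz)]

theorem xpl_smooth (h : XP Γ g A p r τ θ W γ) {O : Set M} {s : Set (Ec n)}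
    (hu : ContMDiffOn (𝓡∂ n) 𝓘(ℝ, Fb N) ∞ u O) (hs : s ⊆ hp n r) (hm : MapsTo (xpt p τ) s O) :
    ContDiffOn ℝ ∞ (xpl p τ W u) s :=
  contDiffOn_op (contDiffOn_star (h.sW.mono hs)) (hu.comp (h.kap_smooth.mono hs) hm).contDiffOn

variable [T2Space M]

theorem tsupport_xps (h : XP Γ g A p r τ θ W γ) {K : Set (Ec n)} (hK : IsCompact K)
    (hs : K ⊆ ball 0 r) (h0 : ∀ z ∈ hp n r, z ∉ K → F z = 0) :
    tsupport (xps p r τ θ W F) ⊆ xpt p τ '' (K ∩ {z | 0 ≤ z 0}) := by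
  refine closure_minimal (fun x hx => ?_) ((hK.inter_right (isClosed_half n)).image_of_continuousOn
    (h.kap_smooth.continuousOn.mono (inter_subset_inter_left _ hs))).isClosed
  obtain ⟨z, hz, rfl⟩ : x ∈ xpt p τ '' hp n r := by_contra fun a => hx (h.xps_zero F a)
  refine mem_image_of_mem _ ⟨by_contra fun a => hx ?_, hz.2⟩
  rw [h.xps_kap F hz, h0 z hz a, map_zero]

theorem xps_smooth' (h : XP Γ g A p r τ θ W γ) (hF : ContDiffOn ℝ ∞ F (hp n r)) {K : Set (Ec n)}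
    (hK : IsCompact K) (hs : K ⊆ ball 0 r) (h0 : ∀ z ∈ hp n r, z ∉ K → F z = 0) :
    ContMDiff (𝓡∂ n) 𝓘(ℝ, Fb N) ∞ (xps p r τ θ W F) := by
  refine contMDiff_of_tsupport fun x hx => ?_
  have h1 := h.isOpen_image.mem_nhds
    (image_mono (inter_subset_inter_left _ hs) (h.tsupport_xps hK hs h0 hx))
  have h2 := (contDiffOn_op h.sW hF).contMDiffOn.comp h.inv_smooth
    (forall_mem_image.2 fun z hz => by rw [mem_preimage, h.inv_kap hz]; exact hz)
  refine ((h2.congr (forall_mem_image.2 fun z hz => ?_)) _ (mem_of_mem_nhds h1)).contMDiffAt h1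
  rw [h.xps_kap F hz, Function.comp_apply, h.inv_kap hz]

theorem xps_test' (h : XP Γ g A p r τ θ W γ) (hF : ContDiffOn ℝ ∞ F (hp n r)) {K : Set (Ec n)}
    (hK : IsCompact K) (hs : K ⊆ ball 0 r) (h0 : ∀ z ∈ hp n r, z ∉ K → F z = 0) :
    IsTest (𝓡∂ n) Γ (xps p r τ θ W F) := by
  refine ⟨h.xps_smooth' hF hK hs h0, fun x hx => ?_⟩
  have h1 : x ∈ (𝓡∂ n).boundary M := closure_minimal (fun _ a => a.1)
    ((𝓡∂ n).isClosed_boundary (n := ∞) (by simp)) hx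
  obtain ⟨z, hz, rfl⟩ := h.tsupport_xps hK hs h0 (closure_mono (fun _ a => a.2) hx)
  have h2 : z ∈ hp n r := ⟨hs hz.1, hz.2⟩
  exact (h.bd z h2 ((h.kap_bd_iff h2).1 h1)).2

theorem xps_smooth (h : XP Γ g A p r τ θ W γ) (hF : ET (ball 0 r) F) :
    ContMDiff (𝓡∂ n) 𝓘(ℝ, Fb N) ∞ (xps p r τ θ W F) :=
  h.xps_smooth' hF.1.contDiffOn hF.2.1.isCompact hF.2.2 fun _ _ => image_eq_zero_of_notMem_tsupport

theorem xps_test (h : XP Γ g A p r τ θ W γ) (hF : ET (ball 0 r) F) :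
    IsTest (𝓡∂ n) Γ (xps p r τ θ W F) :=
  h.xps_test' hF.1.contDiffOn hF.2.1.isCompact hF.2.2 fun _ _ => image_eq_zero_of_notMem_tsupport

theorem xps_mt (h : XP Γ g A p r τ θ W γ) (hF : ET (up n r) F) :
    MT (𝓡∂ n) (xpt p τ '' up n r) (xps p r τ θ W F) :=
  ⟨h.xps_smooth (hF.mono inter_subset_left), (h.tsupport_xps hF.2.1.isCompact
    (hF.2.2.trans inter_subset_left) fun _ _ => image_eq_zero_of_notMem_tsupport).trans
      (image_mono (inter_subset_left.trans hF.2.2))⟩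

theorem xps_mti' (h : XP Γ g A p r τ θ W γ) (hF : ET (up n r) F) :
    MT (𝓡∂ n) ((𝓡∂ n).interior M) (xps p r τ θ W F) :=
  ⟨(h.xps_mt hF).1, (h.xps_mt hF).2.trans (image_subset_iff.2 fun _ hz => h.kap_int hz)⟩

end XP

end Vale.Agent.P088.Gl
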